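import Crest.Agent.R014.AVB

/-! # Row 14: lattices which are not well rounded -/

set_option autoImplicit false

noncomputable section

open MeasureTheory Filter Topology Set
open scoped ENNReal NumberField Classical
open Crest.NumberTheoryR.Packets

namespace Crest.Agent.R014

universe u

variable {d : ℕ} {K : Type u} [Field K] [NumberField K]

/-- `sc x (dual L) ≤ PP`, so `β ∈ dual (sc x (dual L)) = sc x⁻¹ L`. -/
theorem mul_mem_of_dual_PP (E : Dat d K) {M L : Submodule ℤ K} (hM : IsLat M) (hL : L ∈ gen M)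
    {x β : K} (hx : x ∈ L) (h0 : x ≠ 0) (hβ : β ∈ dual (PP (ff M) (sc x (dual L)))) : β * x ∈ L := by
  have hg : sc x⁻¹ L ∈ gen M := sc_mem_gen hL (inv_ne_zero h0)
  have h1 : (1 : K) ∈ sc x⁻¹ L := mem_sc.2 ⟨x, hx, inv_mul_cancel₀ h0⟩
  have e : dual (sc x⁻¹ L) = sc x (dual L) := by rw [dual_sc L (inv_ne_zero h0), inv_inv]
  have hQ := dual_mem_QS hM hg h1
  have hle := QS.le_PP E hM.dual hQ
  rw [hM.ff_dual, e] at hle
  have h2 := dual_anti hle hβ
  rw [← e, hg.1.dual_dual] at h2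
  obtain ⟨y, hy, rfl⟩ := mem_sc.1 h2
  rwa [mul_comm x⁻¹, mul_assoc, inv_mul_cancel₀ h0, mul_one]

/-- `L' = L ⊓ β⁻¹ L` has index `e` with `e β ∈ mult M`; `IsLat.ff_le_pow`. -/
theorem exists_sub_small (E : Dat d K) (hd : 1 ≤ d) (hK : IsPrimitiveField K) {M L : Submodule ℤ K}
    (hM : IsLat M) (hL : L ∈ gen M) {β : K} (hq : ∀ q : ℚ, β ≠ q) {l : ℝ} (hl : 0 < l)
    (hβ : ∀ i j, |E.σ i β - E.σ j β| ≤ l) :
    ∃ L', IsLat L' ∧ (ff M : ℝ) ^ (1 / (((d : ℝ) + 1) * d)) / l * E.cv L ≤ E.cv L' ∧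
      ∀ x ∈ L, β * x ∈ L → x ∈ L' := by
  have hL1 : IsLat L := hL.1
  let L' : Submodule ℤ K := L ⊓ L.comap (LinearMap.mulLeft ℤ β)
  have hmem : ∀ x, x ∈ L' ↔ x ∈ L ∧ β * x ∈ L := fun x => Iff.rfl
  have hle : L' ≤ L := inf_le_left
  obtain ⟨e0, he0, he0'⟩ := hL1.mult.exists_mul_mem β
  have hL' : IsLat L' := by
    refine hL1.of_mul_mem hle he0 fun x hx => (hmem _).2 ⟨?_, ?_⟩
    · simpa only [nsmul_eq_mul] using nsmul_mem hx e0
    · have := mem_mult.1 he0' x hx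
      rwa [show (e0 : K) * β * x = β * (e0 * x) by ring] at this
  obtain ⟨hne, hcv⟩ := E.cv_index hL' hL1 hle
  refine ⟨L', hL', ?_, fun x hx h => (hmem x).2 ⟨hx, h⟩⟩
  set e := L'.toAddSubgroup.relIndex L.toAddSubgroup with he
  have heK : (e : K) ≠ 0 := by exact_mod_cast hne
  have heR : (0 : ℝ) < e := by exact_mod_cast Nat.pos_of_ne_zero hne
  have hγ : (e : K) * β ∈ mult M := by
    rw [← mult_of_mem_gen hM hL]
    intro x hx
    have := ((hmem _).1 (relIndex_mul_mem (L := L') hx)).2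
    rwa [show β * ((e : K) * x) = e * β * x by ring] at this
  have hq' : ∀ q : ℚ, (e : K) * β ≠ q := by
    intro q h
    refine hq (q / e) ?_
    push_cast
    rw [← h]
    field_simp
  have hR : ∀ i j, |E.σ i ((e : K) * β) - E.σ j ((e : K) * β)| ≤ e * l := by
    intro i j
    rw [map_mul, map_mul, map_natCast, map_natCast, ← mul_sub, abs_mul, abs_of_pos heR]
    exact mul_le_mul_of_nonneg_left (hβ i j) heR.le
  have hff := hM.ff_le_pow E hK hγ hq' hR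
  have hdpos : (d + 1) * d ≠ 0 := by positivity
  have h3 : (ff M : ℝ) ^ (1 / (((d : ℝ) + 1) * d)) ≤ e * l := by
    have h4 := Real.rpow_le_rpow (Nat.cast_nonneg _) hff
      (by positivity : (0 : ℝ) ≤ 1 / (((d : ℝ) + 1) * d))
    have e4 : (1 / (((d : ℝ) + 1) * d)) = (((d + 1) * d : ℕ) : ℝ)⁻¹ := by
      push_cast; rw [one_div]
    rw [e4] at h4 ⊢
    rwa [Real.pow_rpow_inv_natCast (by positivity) hdpos] at h4
  rw [hcv]
  refine mul_le_mul_of_nonneg_right ?_ (E.cv_pos hL1).le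
  rwa [div_le_iff₀ hl]

/-- Let `𝔐 = 𝓞 K · L`, `L' = {x ∈ L | ∀ y ∈ J, x y / b ∈ 𝔐}` of index `e` (it contains `b L`).  Then
`e y / b` multiplies `𝔐` into itself, so it is integral. -/
theorem exists_sub_den (E : Dat d K) {L : Submodule ℤ K} (hL : IsLat L) {b : ℕ} (hb : b ≠ 0)
    (J : Ideal (𝓞 K))
    (hJ : ∀ e : ℕ, e ≠ 0 → (∀ y ∈ J, IsIntegral ℤ ((e : K) * (y : K) / b)) → b ≤ e) :
    ∃ L', IsLat L' ∧ (b : ℝ) * E.cv L ≤ E.cv L' ∧ ∀ x ∈ L, ∀ (β : K) (γ : 𝓞 K), (γ : K) = b * β →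
      J = Ideal.span {(b : 𝓞 K), γ} → β * x ∈ L → x ∈ L' := by
  have hbK : (b : K) ≠ 0 := by exact_mod_cast hb
  let 𝔐 : Submodule ℤ K := OK K * L
  have hOL : ∀ (y : 𝓞 K) (x : K), x ∈ L → (y : K) * x ∈ 𝔐 := fun y x hx =>
    Submodule.mul_mem_mul (mem_OK.2 y.isIntegral_coe) hx
  have hL𝔐 : L ≤ 𝔐 := fun x hx => by simpa using hOL 1 x hx
  have hO𝔐 : ∀ o ∈ OK K, ∀ z ∈ 𝔐, o * z ∈ 𝔐 := by
    intro o ho z hz
    refine Submodule.mul_induction_on hz (fun m hm n hn => ?_) (fun a c ha hc => ?_)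
    · rw [← mul_assoc]
      exact Submodule.mul_mem_mul (mem_OK.2 ((mem_OK.1 ho).mul (mem_OK.1 hm))) hn
    · rw [mul_add]; exact 𝔐.add_mem ha hc
  have h𝔐 : IsLat 𝔐 := by
    refine ⟨isLat_OK.1.mul hL.1, ?_⟩
    rw [eq_top_iff, ← hL.2]
    exact Submodule.span_mono hL𝔐
  let L' : Submodule ℤ K :=
    { carrier := {x | x ∈ L ∧ ∀ y ∈ J, x * (y : K) / b ∈ 𝔐}
      zero_mem' := ⟨L.zero_mem, fun y _ => by simp⟩
      add_mem' := by
        rintro a c ⟨ha, ha'⟩ ⟨hc, hc'⟩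
        refine ⟨L.add_mem ha hc, fun y hy => ?_⟩
        rw [add_mul, add_div]
        exact 𝔐.add_mem (ha' y hy) (hc' y hy)
      smul_mem' := by
        rintro c a ⟨ha, ha'⟩
        refine ⟨L.smul_mem c ha, fun y hy => ?_⟩
        rw [smul_mul_assoc, smul_div_assoc]
        exact 𝔐.smul_mem c (ha' y hy) }
  have hmem : ∀ x, x ∈ L' ↔ x ∈ L ∧ ∀ y ∈ J, x * (y : K) / b ∈ 𝔐 := fun x => Iff.rfl
  have hle : L' ≤ L := fun x hx => hx.1
  have hL' : IsLat L' := by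
    refine hL.of_mul_mem hle hb fun x hx => (hmem _).2 ⟨?_, fun y _ => ?_⟩
    · simpa only [nsmul_eq_mul] using nsmul_mem hx b
    · rw [show (b : K) * x * y / b = y * x by field_simp]
      exact hOL y x hx
  obtain ⟨hne, hcv⟩ := E.cv_index hL' hL hle
  refine ⟨L', hL', ?_, ?_⟩
  · rw [hcv]
    refine mul_le_mul_of_nonneg_right ?_ (E.cv_pos hL).le
    set e := L'.toAddSubgroup.relIndex L.toAddSubgroup with he
    have : b ≤ e := by
      refine hJ e hne fun y hy => mem_OK.1 (h𝔐.mult_le_OK (mem_mult.2 fun z hz => ?_))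
      refine Submodule.mul_induction_on hz (fun m hm n hn => ?_) (fun a c ha hc => ?_)
      · have := ((hmem _).1 (relIndex_mul_mem (L := L') hn)).2 y hy
        rw [show (e : K) * y / b * (m * n) = m * ((e : K) * n * y / b) by ring]
        exact hO𝔐 m hm _ this
      · rw [mul_add]; exact 𝔐.add_mem ha hc
    exact_mod_cast this
  · intro x hx β γ hγ hJ' hβ
    refine (hmem x).2 ⟨hx, fun y hy => ?_⟩
    rw [hJ', Ideal.mem_span_pair] at hy
    obtain ⟨r, s, rfl⟩ := hy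
    have : x * ((r * (b : 𝓞 K) + s * γ : 𝓞 K) : K) / b = (r : K) * x + (s : K) * (β * x) := by
      have e : ((r * (b : 𝓞 K) + s * γ : 𝓞 K) : K) = (r : K) * b + (s : K) * (γ : K) := by
        simp
      rw [e, hγ]
      field_simp
    rw [this]
    exact 𝔐.add_mem (hOL r x hx) (hOL s _ hβ)

/-- Elements of `dual P` have denominators dividing a power of `f`
(`IsLat.exists_pow_mul_mem_PP`, `f · dual (𝓞 K) ⊆ 𝓞 K`); take the least positive `b` with `b β`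
integral, and subtract an integer from `β` (`1 ∈ dual P`). -/
theorem exists_bad_elt (E : Dat d K) {N P : Submodule ℤ K} (hN : IsLat N) (hP : P ∈ PS N) {l : ℝ}
    (h : ¬ GoodB E l P) : ∃ (β : K) (b : ℕ) (γ : 𝓞 K), β ∈ dual P ∧ (∀ q : ℚ, β ≠ q) ∧
      (∀ i j, |E.σ i β - E.σ j β| ≤ l) ∧ (∀ i, |E.σ i β| ≤ l + 1) ∧ b ≠ 0 ∧
      b.primeFactors ⊆ (ff N).primeFactors ∧ (γ : K) = b * β ∧
      ∀ e : ℕ, e ≠ 0 → IsIntegral ℤ ((e : K) * β) → b ≤ e := by
  unfold GoodB at h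
  push Not at h
  obtain ⟨β₀, hβ₀, hq₀, hl⟩ := h
  have h1 : (1 : K) ∈ dual P := by
    have := dual_anti hP.1.2
    rw [hN.mult.dual_dual] at this
    exact this (one_mem_mult N)
  set m : ℤ := ⌊E.σ 0 β₀⌋ with hm
  set β : K := β₀ - m with hβdef
  have hβ : β ∈ dual P := by
    refine (dual P).sub_mem hβ₀ ?_
    simpa using (dual P).smul_mem m h1
  have hσ : ∀ i, E.σ i β = E.σ i β₀ - m := fun i => by rw [hβdef, map_sub, map_intCast]
  have hf : ff N ≠ 0 := hN.ff_ne_zero E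
  obtain ⟨k, hk⟩ := hP.1.1.1.exists_pow_mul_mem_PP hf
  rw [hP.2] at hk
  have h2 : (ff N : K) ^ k * β ∈ dual (OK K) := by
    rw [mem_dual]
    intro y hy
    obtain ⟨c, hc⟩ := mem_dual.1 hβ _ (hk ⟨y, hy⟩)
    refine ⟨c, ?_⟩
    rw [← hc]
    congr 1
    change _ = β * ((ff N : K) ^ k * y)
    ring
  have h3 : IsIntegral ℤ (((ff N ^ (k + 1) : ℕ) : K) * β) := by
    have := mem_OK.1 (hN.mult_le_OK (ff_mul_mem (dual_anti hN.mult_le_OK h2)))
    rwa [show (ff N : K) * ((ff N : K) ^ k * β) = ((ff N ^ (k + 1) : ℕ) : K) * β by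
      push_cast; ring] at this
  have hex : ∃ b : ℕ, b ≠ 0 ∧ IsIntegral ℤ ((b : K) * β) := ⟨_, pow_ne_zero _ hf, h3⟩
  obtain ⟨hb0, hb⟩ := Nat.find_spec hex
  have hmin : ∀ e : ℕ, e ≠ 0 → IsIntegral ℤ ((e : K) * β) → Nat.find hex ≤ e :=
    fun e he h => Nat.find_min' hex ⟨he, h⟩
  set b := Nat.find hex with hbdef
  have hdvd : b ∣ ff N ^ (k + 1) := by
    by_contra hnd
    have hr : ff N ^ (k + 1) % b ≠ 0 := fun h => hnd (Nat.dvd_of_mod_eq_zero h)
    have hi : IsIntegral ℤ (((ff N ^ (k + 1) % b : ℕ) : K) * β) := by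
      have e : ((ff N ^ (k + 1) % b : ℕ) : K) * β =
          ((ff N ^ (k + 1) : ℕ) : K) * β - (ff N ^ (k + 1) / b) • ((b : K) * β) := by
        have := congrArg (Nat.cast : ℕ → K) (Nat.mod_add_div (ff N ^ (k + 1)) b)
        rw [← this, nsmul_eq_mul, Nat.cast_add, Nat.cast_mul]
        ring
      rw [e]
      exact h3.sub (hb.nsmul _)
    exact absurd (hmin _ hr hi) (not_le.2 (Nat.mod_lt _ (Nat.pos_of_ne_zero hb0)))
  refine ⟨β, b, ⟨_, hb⟩, hβ, ?_, ?_, ?_, hb0, ?_, rfl, hmin⟩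
  · intro q hq
    refine hq₀ (q + m) ?_
    push_cast
    rw [← hq, hβdef]
    ring
  · intro i j
    rw [hσ, hσ, sub_sub_sub_cancel_right]
    exact (hl i j).le
  · intro i
    rw [hσ]
    have a1 := Int.floor_le (E.σ 0 β₀)
    have a2 := Int.lt_floor_add_one (E.σ 0 β₀)
    have a3 := abs_lt.1 (hl i 0)
    rw [abs_le]
    constructor <;> linarith [a3.1, a3.2]
  · have := Nat.primeFactors_mono hdvd (pow_ne_zero _ hf)
    rwa [Nat.primeFactors_pow_succ] at this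

end Crest.Agent.R014

end
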