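import Crest.Agent.R014.ABad

/-! # Row 14: the total size of the bad lattices -/

set_option autoImplicit false

noncomputable section

open MeasureTheory Filter Topology Set
open scoped ENNReal NumberField Classical
open Crest.NumberTheoryR.Packets

namespace Crest.Agent.R014

universe u

variable {d : ℕ} {K : Type u} [Field K] [NumberField K]

theorem abad2_group {α ι : Type*} [DecidableEq ι] (𝒬 : Finset α) (key : α → ι) (w : α → ℝ) (c : ℝ)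
    (g : ι → ℝ)
    (h : ∀ a ∈ 𝒬, c * ∑ Q ∈ 𝒬.filter (fun Q => key Q = key a), w Q ≤ g (key a)) :
    c * ∑ Q ∈ 𝒬, w Q ≤ ∑ k ∈ 𝒬.image key, g k := by
  rw [← Finset.sum_fiberwise_of_maps_to (t := 𝒬.image key) (g := key)
    (fun a ha => Finset.mem_image_of_mem key ha), Finset.mul_sum]
  refine Finset.sum_le_sum fun k hk => ?_
  obtain ⟨a, ha, rfl⟩ := Finset.mem_image.1 hk
  exact h a ha

theorem abad2_num (d : ℕ) (hd : 1 ≤ d) {F : ℝ} (hF : 1 ≤ F) :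
    F ^ (8 * eta1 d) * (2 * (F ^ (8 * eta1 d) * (F ^ eta1 d + 1)) + 1) ^ (d + 1) /
      (F ^ (1 / (((d : ℝ) + 1) * d)) / F ^ eta1 d) ≤ 5 ^ (d + 1) * F ^ (-eta1 d) := by
  have hF0 : 0 < F := by linarith
  have hη : 0 < eta1 d := by unfold eta1; positivity
  have hd' : (1 : ℝ) ≤ d := by exact_mod_cast hd
  have hl : 1 ≤ F ^ eta1 d := Real.one_le_rpow hF hη.le
  have e8 : F ^ (8 * eta1 d) = (F ^ eta1 d) ^ 8 := by
    rw [mul_comm, Real.rpow_mul hF0.le]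
    exact Real.rpow_ofNat _ 8
  have hG : (F ^ eta1 d) ^ (9 * (d + 1) + 10) ≤ F ^ (1 / (((d : ℝ) + 1) * d)) := by
    rw [← Real.rpow_natCast, ← Real.rpow_mul hF0.le]
    apply Real.rpow_le_rpow_of_exponent_le hF
    unfold eta1
    push_cast
    rw [div_mul_eq_mul_div, div_le_div_iff₀ (by positivity) (by positivity)]
    have h1 : (9 * ((d : ℝ) + 1) + 10) * d ≤ 20 * (d + 1) ^ 2 := by nlinarith
    have h2 := mul_le_mul_of_nonneg_left h1 (show (0 : ℝ) ≤ d + 1 by positivity)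
    nlinarith
  rw [Real.rpow_neg hF0.le, e8]
  generalize F ^ eta1 d = l at hl hG ⊢
  generalize F ^ (1 / (((d : ℝ) + 1) * d)) = G at hG ⊢
  have hl0 : 0 < l := by linarith
  have hG0 : 0 < G := lt_of_lt_of_le (by positivity) hG
  have h8 : 1 ≤ l ^ 8 := one_le_pow₀ hl
  have h1 : 2 * (l ^ 8 * (l + 1)) + 1 ≤ 5 * l ^ 9 := by
    have e : l ^ 9 = l ^ 8 * l := by ring
    rw [e]
    nlinarith
  have h2 : (2 * (l ^ 8 * (l + 1)) + 1) ^ (d + 1) ≤ (5 * l ^ 9) ^ (d + 1) :=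
    pow_le_pow_left₀ (by positivity) h1 _
  rw [div_le_iff₀ (by positivity)]
  calc l ^ 8 * (2 * (l ^ 8 * (l + 1)) + 1) ^ (d + 1) ≤ l ^ 8 * (5 * l ^ 9) ^ (d + 1) :=
        mul_le_mul_of_nonneg_left h2 (by positivity)
    _ = 5 ^ (d + 1) * l⁻¹ * (l ^ (9 * (d + 1) + 10) / l) := by
        rw [mul_pow, ← pow_mul]
        field_simp
        ring
    _ ≤ _ := by gcongr

theorem abad2_small (E : Dat d K) (hd : 1 ≤ d) (hK : IsPrimitiveField K) {M : Submodule ℤ K}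
    (hM : IsLat M) {κ c l B : ℝ} (hc : 0 ≤ c) (hl : 0 < l) (hB : 0 ≤ B)
    (hvb : ∀ (𝒬 : Finset (Submodule ℤ K)) (I : ℝ), 0 < I → (∀ P' ∈ 𝒬, P' ∈ PS (dual M)) →
      (∀ L ∈ gen M, ∃ L', IsLat L' ∧ I * E.cv L ≤ E.cv L' ∧
        ∀ x ∈ L, x ≠ 0 → PP (ff M) (sc x (dual L)) ∈ 𝒬 → x ∈ L') →
      κ * ∑ P' ∈ 𝒬, (E.cv P')⁻¹ ≤ c / I)
    (𝒬 : Finset (Submodule ℤ K)) (β : Submodule ℤ K → K) (b : Submodule ℤ K → ℕ)
    (γ : Submodule ℤ K → 𝓞 K)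
    (h : ∀ Q ∈ 𝒬, Q ∈ PS (dual M) ∧ β Q ∈ dual Q ∧ (∀ q : ℚ, β Q ≠ q) ∧
      (∀ i j, |E.σ i (β Q) - E.σ j (β Q)| ≤ l) ∧ (∀ i, |E.σ i (β Q)| ≤ l + 1) ∧ b Q ≠ 0 ∧
      (γ Q : K) = b Q * β Q ∧ (b Q : ℝ) ≤ B) :
    κ * ∑ Q ∈ 𝒬, (E.cv Q)⁻¹ ≤ c * (B * (2 * (B * (l + 1)) + 1) ^ (d + 1) /
      ((ff M : ℝ) ^ (1 / (((d : ℝ) + 1) * d)) / l)) := by
  have hF0 : (0 : ℝ) < ff M := by exact_mod_cast Nat.pos_of_ne_zero (hM.ff_ne_zero E)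
  have hI : 0 < (ff M : ℝ) ^ (1 / (((d : ℝ) + 1) * d)) / l :=
    div_pos (Real.rpow_pos_of_pos hF0 _) hl
  have s1 := abad2_group 𝒬 β (fun Q => (E.cv Q)⁻¹) κ
    (fun _ => c / ((ff M : ℝ) ^ (1 / (((d : ℝ) + 1) * d)) / l)) (fun a ha => by
      refine hvb _ _ hI (fun Q hQ => (h Q (Finset.mem_filter.1 hQ).1).1) fun L hL => ?_
      obtain ⟨L', hL', hcv, hx⟩ := exists_sub_small E hd hK hM hL (h a ha).2.2.1 hl (h a ha).2.2.2.1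
      refine ⟨L', hL', hcv, fun x hxL h0 hP => hx x hxL ?_⟩
      obtain ⟨hP, e⟩ := Finset.mem_filter.1 hP
      rw [← e]
      exact mul_mem_of_dual_PP E hM hL hxL h0 (h _ hP).2.1)
  rw [Finset.sum_const, nsmul_eq_mul] at s1
  have s2 : ((𝒬.image fun Q => (γ Q : K)).card : ℝ) ≤ (2 * (B * (l + 1)) + 1) ^ (d + 1) := by
    refine E.card_integers_le (by positivity) _ fun x hx => ?_
    obtain ⟨Q, hQ, rfl⟩ := Finset.mem_image.1 hx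
    refine ⟨(γ Q).isIntegral_coe, fun j => ?_⟩
    obtain ⟨-, -, -, -, a4, -, a7, a8⟩ := h Q hQ
    rw [a7, map_mul, map_natCast, abs_mul, Nat.abs_cast]
    exact mul_le_mul a8 (a4 j) (abs_nonneg _) hB
  have s3 : (𝒬.image β).card ≤ ⌊B⌋₊ * (𝒬.image fun Q => (γ Q : K)).card := by
    have hsub : 𝒬.image β ⊆ (Finset.Icc 1 ⌊B⌋₊ ×ˢ 𝒬.image fun Q => (γ Q : K)).image
        fun p : ℕ × K => p.2 / p.1 := by
      intro x hx
      obtain ⟨Q, hQ, rfl⟩ := Finset.mem_image.1 hx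
      obtain ⟨-, -, -, -, -, a5, a7, a8⟩ := h Q hQ
      refine Finset.mem_image.2 ⟨(b Q, (γ Q : K)), Finset.mem_product.2 ⟨Finset.mem_Icc.2
        ⟨Nat.one_le_iff_ne_zero.2 a5, Nat.le_floor a8⟩, Finset.mem_image_of_mem _ hQ⟩, ?_⟩
      have : (b Q : K) ≠ 0 := Nat.cast_ne_zero.2 a5
      simp only [a7]
      field_simp
    refine (Finset.card_le_card hsub).trans (Finset.card_image_le.trans ?_)
    rw [Finset.card_product, Nat.card_Icc, Nat.add_sub_cancel]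
  have s4 : ((𝒬.image β).card : ℝ) ≤ B * (2 * (B * (l + 1)) + 1) ^ (d + 1) := by
    calc ((𝒬.image β).card : ℝ) ≤ (⌊B⌋₊ : ℝ) * ((𝒬.image fun Q => (γ Q : K)).card : ℝ) := by
          exact_mod_cast s3
      _ ≤ _ := mul_le_mul (Nat.floor_le hB) s2 (by positivity) hB
  refine s1.trans ?_
  calc _ ≤ B * (2 * (B * (l + 1)) + 1) ^ (d + 1) *
        (c / ((ff M : ℝ) ^ (1 / (((d : ℝ) + 1) * d)) / l)) :=
        mul_le_mul_of_nonneg_right s4 (div_nonneg hc hI.le)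
    _ = _ := by ring

theorem abad2_big (E : Dat d K) {M : Submodule ℤ K} (hM : IsLat M) {κ c : ℝ} (hc : 0 ≤ c)
    (hvb : ∀ (𝒬 : Finset (Submodule ℤ K)) (I : ℝ), 0 < I → (∀ P' ∈ 𝒬, P' ∈ PS (dual M)) →
      (∀ L ∈ gen M, ∃ L', IsLat L' ∧ I * E.cv L ≤ E.cv L' ∧
        ∀ x ∈ L, x ≠ 0 → PP (ff M) (sc x (dual L)) ∈ 𝒬 → x ∈ L') →
      κ * ∑ P' ∈ 𝒬, (E.cv P')⁻¹ ≤ c / I)
    (𝒬 : Finset (Submodule ℤ K)) (β : Submodule ℤ K → K) (b : Submodule ℤ K → ℕ)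
    (γ : Submodule ℤ K → 𝓞 K)
    (h : ∀ Q ∈ 𝒬, Q ∈ PS (dual M) ∧ β Q ∈ dual Q ∧ b Q ≠ 0 ∧ (γ Q : K) = b Q * β Q ∧
      ∀ e : ℕ, e ≠ 0 → IsIntegral ℤ ((e : K) * β Q) → b Q ≤ e) :
    κ * ∑ Q ∈ 𝒬, (E.cv Q)⁻¹ ≤
      c * ∑ k ∈ 𝒬.image b, (k.divisors.card : ℝ) ^ ((d + 1) * (d + 1 + 1)) / k := by
  rw [Finset.mul_sum _ _ c]
  refine abad2_group 𝒬 b (fun Q => (E.cv Q)⁻¹) κ _ fun a ha => ?_
  have hb : b a ≠ 0 := (h a ha).2.2.1
  have hb' : (0 : ℝ) < b a := by exact_mod_cast Nat.pos_of_ne_zero hb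
  have s1 := abad2_group (𝒬.filter fun Q => b Q = b a)
    (fun Q => Ideal.span {((b a : ℕ) : 𝓞 K), γ Q}) (fun Q => (E.cv Q)⁻¹) κ
    (fun _ => c / b a) (fun a' ha' => by
      obtain ⟨ha', eb⟩ := Finset.mem_filter.1 ha'
      refine hvb _ _ hb' (fun Q hQ =>
        (h Q (Finset.mem_filter.1 (Finset.mem_filter.1 hQ).1).1).1) fun L hL => ?_
      obtain ⟨L', hL', hcv, hx⟩ := exists_sub_den E hL.1 hb
        (Ideal.span {((b a : ℕ) : 𝓞 K), γ a'}) (fun e he hy => by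
          have h1 := hy (γ a') (Ideal.subset_span (by simp))
          have h2 : (b a : K) ≠ 0 := Nat.cast_ne_zero.2 hb
          rw [(h a' ha').2.2.2.1, eb, show (e : K) * (b a * β a') / b a = e * β a' by field_simp]
            at h1
          exact eb ▸ (h a' ha').2.2.2.2 e he h1)
      refine ⟨L', hL', hcv, fun x hxL h0 hP => ?_⟩
      obtain ⟨hP, e⟩ := Finset.mem_filter.1 hP
      obtain ⟨hP, e'⟩ := Finset.mem_filter.1 hP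
      refine hx x hxL (β _) (γ _) ?_ e.symm (mul_mem_of_dual_PP E hM hL hxL h0 (h _ hP).2.1)
      rw [(h _ hP).2.2.2.1, e'])
  rw [Finset.sum_const, nsmul_eq_mul] at s1
  have s2 := card_dvd_span_le E.deg hb ((𝒬.filter fun Q => b Q = b a).image
    fun Q => Ideal.span {((b a : ℕ) : 𝓞 K), γ Q}) (fun J hJ => by
      obtain ⟨Q, -, rfl⟩ := Finset.mem_image.1 hJ
      exact Ideal.subset_span (by simp))
  refine s1.trans ?_
  calc _ ≤ ((b a).divisors.card : ℝ) ^ ((d + 1) * (d + 1 + 1)) * (c / b a) :=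
        mul_le_mul_of_nonneg_right s2 (div_nonneg hc hb'.le)
    _ = _ := by ring

/-- Choose `(β, b, γ)` for each `P'` (`exists_bad_elt`), `η = eta1 d`, `B = f^{8η}`.  If `b ≤ B`
group by `(b, γ)`: at most `B (2 B (l+1) + 1)^n` groups (`Dat.card_integers_le`), each bounded by `vb`
with `exists_sub_small`; `(9n+10) η ≤ 1/(n(n-1))`.  If `b > B` group by
`(b, span {b, γ})`, use `vb` with `exists_sub_den`, `card_dvd_span_le` and `sum_powers_le`. -/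
theorem bad_sum (d : ℕ) (hd : 2 ≤ d) (C0 : ℝ) : ∃ C : ℝ, 0 < C ∧ ∀ (K : Type u) [Field K]
    [NumberField K] (E : Dat d K) (M : Submodule ℤ K) (P : Pkt E M) (𝒬 : Finset (Submodule ℤ K))
    (u0 U : ℝ), IsPrimitiveField K → IsLat M → Equi C0 (rG K (ff M)) u0 → 1 ≤ u0 → u0 ≤ U →
    (∀ P' ∈ 𝒬, P' ∈ PS (dual M) ∧ ¬ GoodB E ((ff M : ℝ) ^ eta1 d) P') →
    kap (rG K (ff M)) U * ∑ P' ∈ 𝒬, (E.cv P')⁻¹ ≤ C * (ff M : ℝ) ^ (-eta1 d) * P.V := by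
  obtain ⟨C1, hC1, h1⟩ := vb.{u} d C0
  have hη : 0 < eta1 d := by unfold eta1; positivity
  obtain ⟨C2, hC2, h2⟩ := sum_powers_le ((d + 1) * (d + 1 + 1)) hη
  refine ⟨C1 * (5 ^ (d + 1) + C2), by positivity, ?_⟩
  intro K _ _ E M P 𝒬 u0 U hK hM hE hu0 hU h𝒬
  have hf0 : ff M ≠ 0 := hM.ff_ne_zero E
  have hF : (1 : ℝ) ≤ ff M := by exact_mod_cast Nat.one_le_iff_ne_zero.2 hf0
  have hF0 : (0 : ℝ) < ff M := by linarith
  have hV : 0 ≤ P.V := ENNReal.toReal_nonneg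
  have hc : 0 ≤ C1 * P.V := by positivity
  have hvb := fun (𝒬 : Finset (Submodule ℤ K)) (I : ℝ) (hI : 0 < I) =>
    h1 K E M P 𝒬 I u0 U hM hI hE hu0 hU
  have hex := fun (Q : Submodule ℤ K) (hQ : Q ∈ 𝒬) =>
    exists_bad_elt E hM.dual (h𝒬 Q hQ).1 (h𝒬 Q hQ).2
  choose! β b γ hβ using hex
  have hl : 0 < (ff M : ℝ) ^ eta1 d := Real.rpow_pos_of_pos hF0 _
  have hB : 0 < (ff M : ℝ) ^ (8 * eta1 d) := Real.rpow_pos_of_pos hF0 _
  rw [← Finset.sum_filter_add_sum_filter_not 𝒬 (fun Q => (b Q : ℝ) ≤ (ff M : ℝ) ^ (8 * eta1 d)),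
    mul_add]
  have s1 := abad2_small E (by omega) hK hM hc hl hB.le hvb
    (𝒬.filter fun Q => (b Q : ℝ) ≤ (ff M : ℝ) ^ (8 * eta1 d)) β b γ (fun Q hQ => by
      obtain ⟨hQ, hb⟩ := Finset.mem_filter.1 hQ
      obtain ⟨a1, a2, a3, a4, a5, -, a7, -⟩ := hβ Q hQ
      exact ⟨(h𝒬 Q hQ).1, a1, a2, a3, a4, a5, a7, hb⟩)
  have s2 := abad2_big E hM hc hvb
    (𝒬.filter fun Q => ¬ (b Q : ℝ) ≤ (ff M : ℝ) ^ (8 * eta1 d)) β b γ (fun Q hQ => by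
      obtain ⟨hQ, hb⟩ := Finset.mem_filter.1 hQ
      obtain ⟨a1, -, -, -, a5, -, a7, a8⟩ := hβ Q hQ
      exact ⟨(h𝒬 Q hQ).1, a1, a5, a7, a8⟩)
  have s3 := h2 (ff M) _ ((𝒬.filter fun Q => ¬ (b Q : ℝ) ≤ (ff M : ℝ) ^ (8 * eta1 d)).image b)
    hf0 hB (fun k hk => by
      obtain ⟨Q, hQ, rfl⟩ := Finset.mem_image.1 hk
      obtain ⟨hQ, hb⟩ := Finset.mem_filter.1 hQ
      refine ⟨not_le.1 hb, ?_⟩
      have := (hβ Q hQ).2.2.2.2.2.1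
      rwa [hM.ff_dual] at this)
  have e3 : C2 * ((ff M : ℝ) ^ (8 * eta1 d)) ^ (-(1 / 4 : ℝ)) * (ff M : ℝ) ^ eta1 d =
      C2 * (ff M : ℝ) ^ (-eta1 d) := by
    rw [mul_assoc, ← Real.rpow_mul hF0.le, ← Real.rpow_add hF0]
    congr 2
    ring
  rw [e3] at s3
  have s4 := mul_le_mul_of_nonneg_left (abad2_num d (by omega) hF) hc
  have s5 := mul_le_mul_of_nonneg_left s3 hc
  calc _ ≤ C1 * P.V * (5 ^ (d + 1) * (ff M : ℝ) ^ (-eta1 d)) +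
        C1 * P.V * (C2 * (ff M : ℝ) ^ (-eta1 d)) := add_le_add (s1.trans s4) (s2.trans s5)
    _ = _ := by ring

end Crest.Agent.R014

end
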