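import Crest.Agent.R008.Mertens

/-!
# Row 14: definitions for the integer side (multiplicative functions, sieve, Hooley's Δ)
-/

set_option autoImplicit false

noncomputable section

open Finset
open scoped Classical

namespace Crest.Agent.R014

/-- Primes with `α < log p ≤ β`. -/
def lp (α β : ℝ) : Finset ℕ := R008.primesIoc (Real.exp α) (Real.exp β)

theorem mem_lp {α β : ℝ} {p : ℕ} : p ∈ lp α β ↔ p.Prime ∧ α < Real.log p ∧ Real.log p ≤ β := by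
  unfold lp
  rw [R008.mem_primesIoc (Real.exp_pos _).le (Real.exp_pos _).le]
  refine and_congr_right fun hp => ?_
  have : (0 : ℝ) < p := by exact_mod_cast hp.pos
  rw [Real.lt_log_iff_exp_lt this, Real.log_le_iff_le_exp this]

/-- `∑ a_p / p` over `α < log p ≤ β`. -/
def pm (a : ℕ → ℝ) (α β : ℝ) : ℝ := ∑ p ∈ lp α β, a p / p

/-- The substitute for the residue of the zeta function. -/
def kap (a : ℕ → ℝ) (U : ℝ) : ℝ := Real.exp (pm a 0 U) / U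

/-- `e(x) = exp (2 π i x)`. -/
def ee (x : ℝ) : ℂ := Complex.exp (2 * Real.pi * Complex.I * x)

/-- Equidistribution of the primes with weights `a_p` beyond `log p > u0`. -/
structure Equi (C0 : ℝ) (a : ℕ → ℝ) (u0 : ℝ) : Prop where
  main : ∀ α β : ℝ, u0 ≤ α → α ≤ β → |pm a α β - Real.log (β / α)| ≤ C0 / α
  osc : ∀ α β ω : ℝ, u0 ≤ α → α ≤ β → ω ≠ 0 → |ω| ≤ 1 / 7 →
    ‖∑ p ∈ lp α β, ((a p / p : ℝ) : ℂ) * ee (ω * Real.log p)‖ ≤ C0 / (|ω| * α)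

/-- Multiplicative functions bounded like the coefficients of a zeta function of degree `n`. -/
structure RM (n : ℕ) (r : ℕ → ℝ) : Prop where
  nonneg : ∀ k, 0 ≤ r k
  one : r 1 = 1
  mul : ∀ a b : ℕ, a ≠ 0 → b ≠ 0 → a.Coprime b → r (a * b) = r a * r b
  prime : ∀ p : ℕ, p.Prime → r p ≤ n
  pow : ∀ p j : ℕ, p.Prime → r (p ^ j) ≤ ((j : ℝ) + 1) ^ n

/-- Submultiplicative functions of moderate growth. -/
structure SubM (A : ℕ) (F : ℕ → ℝ) : Prop where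
  nonneg : ∀ k, 0 ≤ F k
  one : F 1 ≤ 1
  mul : ∀ a b : ℕ, a ≠ 0 → b ≠ 0 → a.Coprime b → F (a * b) ≤ F a * F b
  prime : ∀ p : ℕ, p.Prime → F p ≤ A
  pow : ∀ p j : ℕ, p.Prime → 2 ≤ j → F (p ^ j) ≤ A * ((j : ℝ) + 1) ^ A * (p : ℝ) ^ ((j : ℝ) / 3)

/-- The integers `1 ≤ k ≤ Z`. -/
def upto (Z : ℝ) : Finset ℕ := Icc 1 ⌊Z⌋₊

/-- The part of `k` supported on the primes satisfying `pr`. -/
def npart (pr : ℕ → Prop) (k : ℕ) : ℕ := ∏ p ∈ k.primeFactors.filter pr, p ^ k.factorization p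

/-- The `e^U`-smooth part. -/
def sm (U : ℝ) (k : ℕ) : ℕ := npart (fun p => Real.log p ≤ U) k

/-- The number of elements of `T` with `U / 2^j < log p ≤ U`. -/
def kc (U : ℝ) (j : ℕ) (T : Finset ℕ) : ℕ :=
  #(T.filter fun p => U / 2 ^ j < Real.log p ∧ Real.log p ≤ U)

/-- At least `c j - κ` primes in the top `j` blocks. -/
def G2 (U : ℝ) (J : ℕ) (c κ : ℝ) (T : Finset ℕ) : Prop := ∀ j ≤ J, c * j - κ ≤ kc U j T

/-- The parameters of the construction. -/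
structure Par where
  /-- `e^U` is the sieving limit -/
  U : ℝ
  /-- number of blocks of medium primes -/
  J : ℕ
  /-- tolerance -/
  κ : ℝ
  /-- bound for the smooth part -/
  E : ℝ

/-- Good norms. -/
def Gd (π : Par) (k : ℕ) : Prop :=
  (sm π.U k : ℝ) ≤ π.E ∧ G2 π.U π.J 0.68 π.κ k.primeFactors

/-- Admissible parameters. -/
structure Par.Ok (π : Par) (u0 : ℝ) : Prop where
  low : u0 ≤ π.U / 2 ^ π.J
  upp : π.U / 2 ^ π.J ≤ 2 * u0
  big : u0 ^ 2000 ≤ π.U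
  small : π.U ^ 3 ≤ Real.exp u0
  kap : 0 ≤ π.κ
  E1 : 1 ≤ π.E
  E2 : Real.log π.E ≤ Real.exp u0

/-- Logarithm of the product. -/
def ell (T : Finset ℕ) : ℝ := ∑ p ∈ T, Real.log p

/-- Hooley's Δ function of a squarefree number. -/
def Dl (T : Finset ℕ) : ℕ :=
  T.powerset.sup fun d0 => #(T.powerset.filter fun d => |ell d - ell d0| ≤ 1)

/-- Dirichlet square. -/
def r2 (r : ℕ → ℝ) (k : ℕ) : ℝ := ∑ x ∈ k.divisorsAntidiagonal, r x.1 * r x.2

/-- `∏_{p^v ∥ k, v ≥ 2} p^{v/3}`. -/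
def gg (k : ℕ) : ℝ :=
  ∏ p ∈ k.primeFactors, if k.factorization p = 1 then 1 else (p : ℝ) ^ ((k.factorization p : ℝ) / 3)

/-- `∏_{p ∣ k} e^{n/p}`. -/
def ge (n k : ℕ) : ℝ := ∏ p ∈ k.primeFactors, Real.exp ((n : ℝ) / p)

/-- The part of `k` on small primes. -/
def Par.k0 (π : Par) (k : ℕ) : ℕ := npart (fun p => Real.log p ≤ π.U / 2 ^ π.J) k

/-- The part of `k` on primes which are not small. -/
def Par.k1 (π : Par) (k : ℕ) : ℕ := npart (fun p => ¬ Real.log p ≤ π.U / 2 ^ π.J) k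

/-- The total weight of the smooth ideals of norm `k`. -/
def Fw (r : ℕ → ℝ) (π : Par) (W : ℝ) (k : ℕ) : ℝ :=
  if Squarefree (π.k1 k) then
    if G2 π.U π.J 1.36 (2 * π.κ) (π.k1 k).primeFactors then
      r2 r (π.k0 k) * r (π.k1 k) * ((2 * W + 1) * Dl (π.k1 k).primeFactors)
    else 0
  else r2 r k

/-! ### Sieve -/

/-- `q`-periodic subsets of `ℤ^d`. -/
def Per {d : ℕ} (q : ℕ) (A : Set (Fin d → ℤ)) : Prop := ∀ m h, m + (q : ℤ) • h ∈ A ↔ m ∈ A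

/-- The cube of side `Q`. -/
def cube {d : ℕ} (m0 : Fin d → ℤ) (Q : ℕ) : Finset (Fin d → ℤ) :=
  Fintype.piFinset fun i => Ico (m0 i) (m0 i + Q)

/-- The density of a `q`-periodic set. -/
def dens {d : ℕ} (q : ℕ) (A : Set (Fin d → ℤ)) : ℝ :=
  (#((cube 0 q).filter (· ∈ A)) : ℝ) / (q : ℝ) ^ d

/-! ### Fourier analysis for Δ -/

/-- `∏_{p ∈ T} (1 + e(k log p / U))`. -/
def phi (U : ℝ) (T : Multiset ℕ) (k : ℤ) : ℂ :=
  (T.map fun p : ℕ => 1 + ee (k * Real.log p / U)).prod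

/-- Fejér coefficients. -/
def fej (m : ℕ) (k : ℤ) : ℝ := max 0 (1 - |(k : ℝ)| / m)

/-- The frequencies `2^j ≤ |k| < 2^{j+1}`, `|k| < m`. -/
def band (m j : ℕ) : Finset ℤ :=
  (Ioo (-(m : ℤ)) m).filter fun k => (2 : ℤ) ^ j ≤ |k| ∧ |k| < 2 ^ (j + 1)

/-- The band part of the smoothed divisor counting function. -/
def HH (U : ℝ) (m j : ℕ) (T : Multiset ℕ) (x : ℝ) : ℂ :=
  ∑ k ∈ band m j, (fej m k : ℂ) * ee (-(k * x / U)) * phi U T k

/-- The `16`-tuples of frequencies with sum zero. -/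
def tup (m j : ℕ) : Finset (Fin 16 → ℤ) :=
  (Fintype.piFinset fun _ : Fin 16 => band m j).filter fun a => ∑ i, a i = 0

/-- The sixteenth moment of `HH`. -/
def Mom (U : ℝ) (m j : ℕ) (T : Multiset ℕ) : ℝ :=
  (∑ a ∈ tup m j, ∏ i, ((fej m (a i) : ℂ) * phi U T (a i))).re

/-- The number of small subsums. -/
def Nn (a : Fin 16 → ℤ) (x : ℝ) : ℕ :=
  #((univ : Finset (Finset (Fin 16))).filter fun I => |((∑ i ∈ I, a i : ℤ) : ℝ)| ≤ x)

/-- The bound for the block average. -/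
def Nt (a : Fin 16 → ℤ) (x : ℝ) : ℝ := min (2 ^ 16) ((Nn a x : ℝ) + 1 / 200)

/-- The block `U / 2^{s+1} < log p ≤ U / 2^s`. -/
def blk (U : ℝ) (s : ℕ) : Finset ℕ := lp (U / 2 ^ (s + 1)) (U / 2 ^ s)

end Crest.Agent.R014

end
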