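import Crest.Agent.R014.DLat
import Crest.Agent.R014.IDefs

/-!
# Row 14: definitions for the arithmetic part

`K` is a totally real field of degree `n = d + 1`; lattices of `K` are `ℤ`-submodules.
-/

set_option autoImplicit false

noncomputable section

open MeasureTheory Set
open scoped ENNReal NumberField Classical
open Crest.NumberTheoryR.Packets

namespace Crest.Agent.R014

/-- An ordering of the real embeddings of a totally real field of degree `d + 1`. -/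
structure Dat (d : ℕ) (K : Type*) [Field K] [NumberField K] where
  /-- the embeddings -/
  σ : Fin (d + 1) ≃ (K →+* ℝ)
  deg : Module.finrank ℚ K = d + 1

/-- Coordinatewise multiplication of a lattice by a vector. -/
def mulL {n : ℕ} (Λ : Submodule ℤ (Fin n → ℝ)) (t : Fin n → ℝ) : Submodule ℤ (Fin n → ℝ) :=
  Λ.map (LinearMap.mulRight ℤ t)

/-- The diagonal entries of `diagFlow u`. -/
def fl {d : ℕ} (u : Fin d → ℝ) : Fin (d + 1) → ℝ := fun i => Real.exp (lg u i)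

theorem lg_add {d : ℕ} (u v : Fin d → ℝ) : lg (u + v) = lg u + lg v := by
  funext i
  refine Fin.lastCases ?_ (fun k => ?_) i
  · simp [lg, Finset.sum_add_distrib, add_comm]
  · simp [lg]

theorem lg_zero {d : ℕ} : lg (0 : Fin d → ℝ) = 0 := by
  funext i
  refine Fin.lastCases ?_ (fun k => ?_) i <;> simp [lg]

theorem fl_add {d : ℕ} (u v : Fin d → ℝ) : fl (u + v) = fl u * fl v := by
  funext i; simp [fl, lg_add, Real.exp_add]

theorem fl_zero {d : ℕ} : fl (0 : Fin d → ℝ) = 1 := by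
  funext i; simp [fl, lg_zero]

theorem mem_mulL {n : ℕ} {Λ : Submodule ℤ (Fin n → ℝ)} {t w : Fin n → ℝ} :
    w ∈ mulL Λ t ↔ ∃ v ∈ Λ, v * t = w := by
  simp [mulL]

theorem mulL_mul {n : ℕ} (Λ : Submodule ℤ (Fin n → ℝ)) (s t : Fin n → ℝ) :
    mulL (mulL Λ s) t = mulL Λ (s * t) := by
  ext w; simp [mem_mulL, mul_assoc]

theorem mulL_one {n : ℕ} (Λ : Submodule ℤ (Fin n → ℝ)) : mulL Λ 1 = Λ := by
  ext w; simp [mem_mulL]

/-- The periods of the diagonal orbit of a lattice. -/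
def per {d : ℕ} (Λ : Submodule ℤ (Fin (d + 1) → ℝ)) : AddSubgroup (Fin d → ℝ) where
  carrier := {u | mulL Λ (fl u) = Λ}
  zero_mem' := by simp [fl_zero, mulL_one]
  add_mem' := by
    intro u v hu hv
    simp only [mem_setOf_eq] at *
    rw [fl_add, ← mulL_mul, hu, hv]
  neg_mem' := by
    intro u hu
    simp only [mem_setOf_eq] at *
    conv_lhs => rw [← hu]
    rw [mulL_mul, ← fl_add, add_neg_cancel, fl_zero, mulL_one]

variable {d : ℕ} {K : Type*} [Field K] [NumberField K]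

/-- The embedding in `ℝⁿ`. -/
def Dat.e (E : Dat d K) : K →ₗ[ℤ] (Fin (d + 1) → ℝ) where
  toFun x := fun i => E.σ i x
  map_add' a b := by funext i; simp
  map_smul' c a := by funext i; simp

@[simp] theorem Dat.e_apply (E : Dat d K) (x : K) (i : Fin (d + 1)) : E.e x i = E.σ i x := rfl

/-- The image of a lattice. -/
def Dat.img (E : Dat d K) (L : Submodule ℤ K) : Submodule ℤ (Fin (d + 1) → ℝ) := L.map E.e

/-- The covolume. -/
def Dat.cv (E : Dat d K) (L : Submodule ℤ K) : ℝ := ZLattice.covolume (E.img L)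

/-- The lattice `{β | σ(β) v ∈ Λ}`. -/
def Dat.Lof (E : Dat d K) (Λ : Submodule ℤ (Fin (d + 1) → ℝ)) (v : Fin (d + 1) → ℝ) :
    Submodule ℤ K :=
  Λ.comap ((LinearMap.mulRight ℤ v).comp E.e)

theorem Dat.mem_Lof (E : Dat d K) {Λ : Submodule ℤ (Fin (d + 1) → ℝ)} {v : Fin (d + 1) → ℝ}
    {β : K} : β ∈ E.Lof Λ v ↔ E.e β * v ∈ Λ := Iff.rfl

/-- Full lattices. -/
def IsLat (L : Submodule ℤ K) : Prop := L.FG ∧ Submodule.span ℚ (L : Set K) = ⊤

/-- The trace. -/
def tr (x : K) : ℚ := Algebra.trace ℚ K x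

/-- The trace dual. -/
def dual (L : Submodule ℤ K) : Submodule ℤ K := (Algebra.traceForm ℚ K).dualSubmodule L

theorem mem_dual {L : Submodule ℤ K} {x : K} : x ∈ dual L ↔ ∀ y ∈ L, ∃ k : ℤ, tr (x * y) = k := by
  simp [dual, LinearMap.BilinForm.mem_dualSubmodule, Submodule.mem_one, tr, eq_comm]

/-- Homothety. -/
def sc (c : K) (L : Submodule ℤ K) : Submodule ℤ K := L.map (LinearMap.mulLeft ℤ c)

theorem mem_sc {c : K} {L : Submodule ℤ K} {x : K} : x ∈ sc c L ↔ ∃ y ∈ L, c * y = x := by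
  simp [sc]

/-- The multiplier order. -/
def mult (L : Submodule ℤ K) : Submodule ℤ K := L / L

theorem mem_mult {L : Submodule ℤ K} {a : K} : a ∈ mult L ↔ ∀ x ∈ L, a * x ∈ L := Iff.rfl

variable (K) in
/-- The ring of integers as a lattice. -/
def OK : Submodule ℤ K := Subalgebra.toSubmodule (integralClosure ℤ K)

theorem mem_OK {x : K} : x ∈ OK K ↔ IsIntegral ℤ x := Iff.rfl

/-- Local homothety. -/
def LH (M L : Submodule ℤ K) : Prop :=
  ∀ ℓ : ℕ, ℓ.Prime → ∃ c : K, c ≠ 0 ∧ ∃ N : ℕ, ¬ ℓ ∣ N ∧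
    (∀ x ∈ L, ∃ y ∈ M, (N : K) * x = c * y) ∧ (∀ x ∈ M, (N : K) * (c * x) ∈ L)

/-- The genus. -/
def gen (M : Submodule ℤ K) : Set (Submodule ℤ K) := {L | IsLat L ∧ LH M L}

/-- The discriminant of the multiplier order `O`, as the index of `O` in its dual. -/
def ff (M : Submodule ℤ K) : ℕ :=
  (mult M).toAddSubgroup.relIndex (dual (mult M)).toAddSubgroup

/-- The lattice which agrees with `Q` at the primes dividing `f` and with `𝓞 K` elsewhere. -/
def PP (f : ℕ) (Q : Submodule ℤ K) : Submodule ℤ K where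
  carrier := {x | (∃ k : ℕ, IsIntegral ℤ ((f : K) ^ k * x)) ∧ ∃ e : ℕ, e ≠ 0 ∧ e.Coprime f ∧ (e : K) * x ∈ Q}
  zero_mem' := ⟨⟨0, by simpa using isIntegral_zero⟩, 1, one_ne_zero, by simp, by simp⟩
  add_mem' := by
    rintro a b ⟨⟨k, hk⟩, e, he0, he, ha⟩ ⟨⟨l, hl⟩, e', he0', he', hb⟩
    have hf : IsIntegral ℤ (f : K) := by simpa using isIntegral_algebraMap (R := ℤ) (A := K) (x := f)
    refine ⟨⟨k + l, ?_⟩, e * e', mul_ne_zero he0 he0', Nat.Coprime.mul_left he he', ?_⟩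
    · have : (f : K) ^ (k + l) * (a + b) = (f : K) ^ l * ((f : K) ^ k * a) + (f : K) ^ k * ((f : K) ^ l * b) := by
        ring
      rw [this]
      exact ((hf.pow l).mul hk).add ((hf.pow k).mul hl)
    · have : ((e * e' : ℕ) : K) * (a + b) = e' • ((e : K) * a) + e • ((e' : K) * b) := by
        simp only [nsmul_eq_mul]; push_cast; ring
      rw [this]
      exact Q.add_mem (nsmul_mem ha _) (nsmul_mem hb _)
  smul_mem' := by
    rintro c a ⟨⟨k, hk⟩, e, he0, he, ha⟩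
    refine ⟨⟨k, ?_⟩, e, he0, he, ?_⟩
    · rw [mul_smul_comm]; exact hk.smul c
    · rw [mul_smul_comm]; exact Q.smul_mem c ha

/-- The ideal which agrees with `Q` at the primes not dividing `f`. -/
def aa (f : ℕ) (Q : Submodule ℤ K) : Ideal (𝓞 K) where
  carrier := {x | ∃ k : ℕ, ∀ y : 𝓞 K, (f : K) ^ k * ((x * y : 𝓞 K) : K) ∈ Q}
  zero_mem' := ⟨0, fun y => by simp⟩
  add_mem' := by
    rintro a b ⟨k, hk⟩ ⟨l, hl⟩
    refine ⟨k + l, fun y => ?_⟩
    have : (f : K) ^ (k + l) * (((a + b) * y : 𝓞 K) : K) =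
        f ^ l • ((f : K) ^ k * ((a * y : 𝓞 K) : K)) + f ^ k • ((f : K) ^ l * ((b * y : 𝓞 K) : K)) := by
      simp only [nsmul_eq_mul]; push_cast; ring
    rw [this]
    exact Q.add_mem (nsmul_mem (hk y) _) (nsmul_mem (hl y) _)
  smul_mem' := by
    rintro c a ⟨k, hk⟩
    refine ⟨k, fun y => ?_⟩
    have := hk (c * y)
    rwa [show a * (c * y) = c • a * y by rw [smul_eq_mul]; ring] at this

/-- The ideal which agrees with `ν 𝓞 K` at the primes not dividing `f`. -/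
def nn (f : ℕ) (ν : K) : Ideal (𝓞 K) := aa f (sc ν (OK K))

/-- The ideal as a lattice. -/
def idL (I : Ideal (𝓞 K)) : Submodule ℤ K :=
  (I.restrictScalars ℤ).map (IsScalarTower.toAlgHom ℤ (𝓞 K) K).toLinearMap

theorem mem_idL {I : Ideal (𝓞 K)} {x : K} : x ∈ idL I ↔ ∃ y ∈ I, (y : K) = x := by
  simp [idL]

/-- The sublattice of `P` which agrees with `I` at the primes not dividing `f`. -/
def cut (f : ℕ) (P : Submodule ℤ K) (I : Ideal (𝓞 K)) : Submodule ℤ K where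
  carrier := {x | x ∈ P ∧ ∃ k : ℕ, (f : K) ^ k * x ∈ idL I}
  zero_mem' := ⟨P.zero_mem, 0, by simp⟩
  add_mem' := by
    rintro a b ⟨ha, k, hk⟩ ⟨hb, l, hl⟩
    refine ⟨P.add_mem ha hb, k + l, ?_⟩
    have : (f : K) ^ (k + l) * (a + b) = f ^ l • ((f : K) ^ k * a) + f ^ k • ((f : K) ^ l * b) := by
      simp only [nsmul_eq_mul]; push_cast; ring
    rw [this]
    exact (idL I).add_mem (nsmul_mem hk _) (nsmul_mem hl _)
  smul_mem' := by
    rintro c a ⟨ha, k, hk⟩
    exact ⟨P.smul_mem c ha, k, by rw [mul_smul_comm]; exact (idL I).smul_mem c hk⟩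

/-- Nonzero ideals prime to `f`. -/
def Cop (f : ℕ) (I : Ideal (𝓞 K)) : Prop := I ≠ ⊥ ∧ (Ideal.absNorm I).Coprime f

/-- Lattices of the genus contained in the dual of the order. -/
def QS (N : Submodule ℤ K) : Set (Submodule ℤ K) := {Q | Q ∈ gen N ∧ Q ≤ dual (mult N)}

/-- Those which are maximal away from `f`. -/
def PS (N : Submodule ℤ K) : Set (Submodule ℤ K) := {P | P ∈ QS N ∧ PP (ff N) P = P}

/-- There is an element of trace one. -/
def Prim (Q : Submodule ℤ K) : Prop := ∃ ν ∈ Q, tr ν = 1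

/-- The irrational elements of the dual lattice are far from the diagonal. -/
def GoodB (E : Dat d K) (l : ℝ) (P : Submodule ℤ K) : Prop :=
  ∀ β ∈ dual P, (∀ q : ℚ, β ≠ q) → ∃ i j, l ≤ |E.σ i β - E.σ j β|

variable (K) in
/-- The number of ideals of norm `k`. -/
def rI (k : ℕ) : ℕ := Nat.card {I : Ideal (𝓞 K) // Ideal.absNorm I = k}

variable (K) in
/-- The number of ideals of norm `k` prime to `f`. -/
def rG (f k : ℕ) : ℝ := if k.Coprime f then rI K k else 0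

/-- The part of an ideal above the primes satisfying `pr`. -/
def ipart (pr : ℕ → Prop) (I : Ideal (𝓞 K)) : Ideal (𝓞 K) :=
  I ⊔ Ideal.span {((npart pr (Ideal.absNorm I) : ℕ) : 𝓞 K)}

/-- The number of divisors. -/
def tauI (I : Ideal (𝓞 K)) : ℕ := Nat.card {J : Ideal (𝓞 K) // J ∣ I}

/-- The weight of a smooth ideal. -/
def Wt (π : Par) (W : ℝ) (I : Ideal (𝓞 K)) : ℝ :=
  if Squarefree (π.k1 (Ideal.absNorm I)) then
    if G2 π.U π.J 1.36 (2 * π.κ) (π.k1 (Ideal.absNorm I)).primeFactors then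
      tauI (ipart (fun p => Real.log p ≤ π.U / 2 ^ π.J) I) *
        ((2 * W + 1) * Dl (π.k1 (Ideal.absNorm I)).primeFactors)
    else 0
  else tauI I

/-- Good divisors of `I` of norm in a window. -/
def GDiv (π : Par) (x W : ℝ) (I A : Ideal (𝓞 K)) : Prop :=
  ∃ A' : Ideal (𝓞 K), A * A' = I ∧ Gd π (Ideal.absNorm A) ∧ Gd π (Ideal.absNorm A') ∧
    |Real.log (Ideal.absNorm A) - x| ≤ W

/-- The point with trace `t` and coordinates `m`. -/
def pt (ν0 : K) (b : Fin d → K) (t : ℤ) (m : Fin d → ℤ) : K := t • ν0 + ∑ i, m i • b i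

/-- A basis adapted to the trace with short trace zero part. -/
structure IsSB (E : Dat d K) (P : Submodule ℤ K) (r : ℝ) (ν0 : K) (b : Fin d → K) : Prop where
  tr0 : tr ν0 = 1
  trb : ∀ i, tr (b i) = 0
  mem : ∀ t m, pt ν0 b t m ∈ P
  surj : ∀ x ∈ P, ∃ t m, x = pt ν0 b t m
  inj : ∀ t m m', pt ν0 b t m = pt ν0 b t m' → m = m'
  small : ∀ i j, |E.σ j (b i)| ≤ r

/-- The region of the pair statistic. -/
def Reg (E : Dat d K) (R : ℝ) (S : Finset (Fin (d + 1))) (θ w : ℝ) (x : K) : Prop :=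
  (∀ j, |E.σ j x| ≤ R) ∧ |∑ j ∈ S, E.σ j x - θ| ≤ w

/-- A packet of periodic orbits, described by lattices. -/
structure Pkt (E : Dat d K) (M : Submodule ℤ K) where
  /-- number of orbits -/
  k : ℕ
  /-- base points -/
  Λ : Fin k → Submodule ℤ (Fin (d + 1) → ℝ)
  /-- fundamental domains -/
  D : Fin k → Set (Fin d → ℝ)
  shape : ∀ i, ∃ L ∈ gen M, ∃ t : Fin (d + 1) → ℝ, E.cv L * |∏ j, t j| = 1 ∧ Λ i = mulL (E.img L) t
  complete : ∀ L ∈ gen M, ∀ t : Fin (d + 1) → ℝ, E.cv L * |∏ j, t j| = 1 →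
    ∃ i u, mulL (E.img L) t = mulL (Λ i) (fl u)
  distinct : ∀ i j u, Λ j = mulL (Λ i) (fl u) → i = j
  fund : ∀ i, IsAddFundamentalDomain (per (Λ i)) (D i) volume
  ne_zero : ∀ i, volume (D i) ≠ 0
  ne_top : ∀ i, volume (D i) ≠ ⊤

/-- The total volume. -/
def Pkt.V {E : Dat d K} {M : Submodule ℤ K} (P : Pkt E M) : ℝ := (∑ i, volume (P.D i)).toReal

/-- The (unnormalised, outer) mass of a set of lattices. -/
def Pkt.mass {E : Dat d K} {M : Submodule ℤ K} (P : Pkt E M)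
    (𝒜 : Set (Submodule ℤ (Fin (d + 1) → ℝ))) : ℝ≥0∞ :=
  ∑ i, volume (P.D i ∩ {u | mulL (P.Λ i) (fl u) ∈ 𝒜})

/-- The exponent `η₁ = 1/(20 n³)`. -/
def eta1 (d : ℕ) : ℝ := 1 / (20 * ((d : ℝ) + 1) ^ 3)

/-- The threshold for the prime number theorem. -/
def uu (f : ℕ) : ℝ := Real.log (Real.log f) ^ 2

/-- The parameters attached to `f` and `κ`. -/
def par (d f : ℕ) (κ : ℝ) : Par where
  U := eta1 d / 40 / (3 + κ) * Real.log f
  J := Nat.log 2 ⌊eta1 d / 40 / (3 + κ) * Real.log f / uu f⌋₊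
  κ := κ
  E := (f : ℝ) ^ (eta1 d / 40)

/-- Good lattices. -/
def GoodQ (E : Dat d K) (f : ℕ) (κ : ℝ) (Q : Submodule ℤ K) : Prop :=
  GoodB E ((f : ℝ) ^ eta1 d) (PP f Q) ∧ Gd (par d f κ) (Ideal.absNorm (aa f Q))

end Crest.Agent.R014

end
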