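import Crest.Agent.R014.IDefs

/-! # Row 14: basic facts on the integer side -/

set_option autoImplicit false

noncomputable section

open Finset Filter Topology
open scoped Classical

namespace Crest.Agent.R014

theorem pm_add (a : ℕ → ℝ) {α β γ : ℝ} (h1 : α ≤ β) (h2 : β ≤ γ) :
    pm a α γ = pm a α β + pm a β γ := by
  unfold pm
  rw [← sum_union]
  · refine sum_congr ?_ fun _ _ => rfl
    ext p
    simp only [mem_union, mem_lp]
    constructor
    · rintro ⟨hp, h3, h4⟩
      rcases le_or_gt (Real.log p) β with h | h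
      · exact Or.inl ⟨hp, h3, h⟩
      · exact Or.inr ⟨hp, h, h4⟩
    · rintro (⟨hp, h3, h4⟩ | ⟨hp, h3, h4⟩)
      · exact ⟨hp, h3, by linarith⟩
      · exact ⟨hp, by linarith, h4⟩
  · rw [disjoint_left]
    intro p h3 h4
    rw [mem_lp] at h3 h4
    linarith [h3.2.2, h4.2.1]

theorem pm_nonneg {a : ℕ → ℝ} (ha : ∀ k, 0 ≤ a k) (α β : ℝ) : 0 ≤ pm a α β := by
  exact sum_nonneg fun p _ => div_nonneg (ha p) (Nat.cast_nonneg _)

theorem kap_ge {a : ℕ → ℝ} (ha : ∀ k, 0 ≤ a k) {U : ℝ} (hU : 0 < U) : U⁻¹ ≤ kap a U := by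
  unfold kap
  rw [inv_eq_one_div]
  gcongr
  exact Real.one_le_exp (pm_nonneg ha _ _)

theorem RM.subM {n : ℕ} {r : ℕ → ℝ} (h : RM n r) : SubM (n + 1) r := by
  refine ⟨h.nonneg, h.one.le, fun a b ha hb hab => (h.mul a b ha hb hab).le, fun p hp => ?_,
    fun p j hp _ => ?_⟩
  · push_cast; linarith [h.prime p hp]
  · have h1 : (1 : ℝ) ≤ (p : ℝ) ^ ((j : ℝ) / 3) :=
      Real.one_le_rpow (by exact_mod_cast hp.one_lt.le) (by positivity)
    have h2 : (1 : ℝ) ≤ (j : ℝ) + 1 := by linarith [(Nat.cast_nonneg j : (0 : ℝ) ≤ j)]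
    have h3 : (1 : ℝ) ≤ ((n + 1 : ℕ) : ℝ) := by exact_mod_cast Nat.le_add_left 1 n
    calc r (p ^ j) ≤ ((j : ℝ) + 1) ^ n := h.pow p j hp
      _ ≤ ((j : ℝ) + 1) ^ (n + 1) := pow_le_pow_right₀ h2 (Nat.le_succ n)
      _ = 1 * ((j : ℝ) + 1) ^ (n + 1) * 1 := by ring
      _ ≤ _ := by gcongr

theorem RM.prod_primes {n : ℕ} {r : ℕ → ℝ} (h : RM n r) {T : Finset ℕ} (hT : ∀ p ∈ T, p.Prime) :
    r (∏ p ∈ T, p) = ∏ p ∈ T, r p := by
  induction T using Finset.induction_on with
  | empty => simp [h.one]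
  | insert p T hp ih =>
    have hp' := hT p (mem_insert_self _ _)
    have hT' : ∀ q ∈ T, q.Prime := fun q hq => hT q (mem_insert_of_mem hq)
    rw [prod_insert hp, prod_insert hp, h.mul _ _ hp'.ne_zero
      (prod_ne_zero_iff.2 fun q hq => (hT' q hq).ne_zero), ih hT']
    refine Nat.Coprime.prod_right fun q hq => (Nat.coprime_primes hp' (hT' q hq)).2 ?_
    rintro rfl
    exact hp hq

theorem RM.le_card_divisors {n : ℕ} {r : ℕ → ℝ} (h : RM n r) {k : ℕ} (hk : k ≠ 0) :
    r k ≤ (#k.divisors : ℝ) ^ n := by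
  induction k using Nat.recOnPosPrimePosCoprime with
  | prime_pow p j hp _ =>
    rw [Nat.divisors_prime_pow hp, card_map, card_range]
    push_cast
    exact h.pow p j hp
  | zero => exact absurd rfl hk
  | one => simp [h.one]
  | coprime a b ha hb hab iha ihb =>
    rw [h.mul a b (by omega) (by omega) hab, hab.card_divisors_mul]
    push_cast
    rw [mul_pow]
    exact mul_le_mul (iha (by omega)) (ihb (by omega)) (h.nonneg _) (by positivity)

theorem ibas_fact (pr : ℕ → Prop) (k q : ℕ) :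
    (npart pr k).factorization q = if pr q then k.factorization q else 0 := by
  unfold npart
  rw [Nat.factorization_prod_apply (fun p hp => pow_ne_zero _
    (Nat.prime_of_mem_primeFactors (mem_filter.1 hp).1).ne_zero)]
  rw [sum_congr rfl (fun p hp => by
    rw [(Nat.prime_of_mem_primeFactors (mem_filter.1 hp).1).factorization_pow,
      Finsupp.single_apply])]
  rw [sum_ite_eq']
  by_cases h : q ∈ k.primeFactors
  · simp only [mem_filter, h, true_and]
  · have : k.factorization q = 0 := Finsupp.notMem_support_iff.1 h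
    simp [this]

theorem npart_ne_zero (pr : ℕ → Prop) (k : ℕ) : npart pr k ≠ 0 := by
  exact prod_ne_zero_iff.2 fun p hp => pow_ne_zero _
    (Nat.prime_of_mem_primeFactors (mem_filter.1 hp).1).ne_zero

theorem npart_mul (pr : ℕ → Prop) {a b : ℕ} (ha : a ≠ 0) (hb : b ≠ 0) :
    npart pr (a * b) = npart pr a * npart pr b := by
  refine Nat.eq_of_factorization_eq (npart_ne_zero _ _)
    (mul_ne_zero (npart_ne_zero _ _) (npart_ne_zero _ _)) fun q => ?_
  rw [Nat.factorization_mul (npart_ne_zero _ _) (npart_ne_zero _ _), Finsupp.add_apply,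
    ibas_fact, ibas_fact, ibas_fact, Nat.factorization_mul ha hb, Finsupp.add_apply]
  split_ifs <;> simp

theorem npart_mul_npart (pr : ℕ → Prop) {k : ℕ} (hk : k ≠ 0) :
    npart pr k * npart (fun p => ¬ pr p) k = k := by
  refine Nat.eq_of_factorization_eq (mul_ne_zero (npart_ne_zero _ _) (npart_ne_zero _ _)) hk
    fun q => ?_
  rw [Nat.factorization_mul (npart_ne_zero _ _) (npart_ne_zero _ _), Finsupp.add_apply,
    ibas_fact, ibas_fact]
  by_cases h : pr q <;> simp [h]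

theorem npart_coprime (pr : ℕ → Prop) (a b : ℕ) :
    (npart pr a).Coprime (npart (fun p => ¬ pr p) b) := by
  rw [← Nat.disjoint_primeFactors (npart_ne_zero _ _) (npart_ne_zero _ _), disjoint_left]
  intro q h1 h2
  rw [← Nat.support_factorization, Finsupp.mem_support_iff, ibas_fact] at h1 h2
  by_cases h : pr q
  · simp [h] at h2
  · simp [h] at h1

theorem primeFactors_npart (pr : ℕ → Prop) (k : ℕ) :
    (npart pr k).primeFactors = k.primeFactors.filter pr := by
  ext q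
  rw [mem_filter, ← Nat.support_factorization, ← Nat.support_factorization,
    Finsupp.mem_support_iff, Finsupp.mem_support_iff, ibas_fact]
  by_cases h : pr q <;> simp [h]

theorem npart_eq_self {pr : ℕ → Prop} {k : ℕ} (hk : k ≠ 0) (h : ∀ p ∈ k.primeFactors, pr p) :
    npart pr k = k := by
  unfold npart
  rw [filter_true_of_mem h]
  exact (Nat.prod_primeFactors_pow_factorization hk).symm

theorem r2_nonneg {r : ℕ → ℝ} (hr : ∀ k, 0 ≤ r k) (k : ℕ) : 0 ≤ r2 r k := by
  exact sum_nonneg fun x _ => mul_nonneg (hr _) (hr _)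

/-- the arithmetic function attached to `r` -/
def ibas_af (r : ℕ → ℝ) : ArithmeticFunction ℝ := ⟨fun k => if k = 0 then 0 else r k, by simp⟩

theorem ibas_af_mul (r : ℕ → ℝ) (k : ℕ) : (ibas_af r * ibas_af r) k = r2 r k := by
  rw [ArithmeticFunction.mul_apply]
  refine sum_congr rfl fun x hx => ?_
  have h1 := Nat.left_ne_zero_of_mem_divisorsAntidiagonal hx
  have h2 := Nat.right_ne_zero_of_mem_divisorsAntidiagonal hx
  simp [ibas_af, h1, h2]

theorem ibas_af_mult {n : ℕ} {r : ℕ → ℝ} (h : RM n r) : (ibas_af r).IsMultiplicative := by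
  refine ⟨by simp [ibas_af, h.one], fun {a b} hab => ?_⟩
  by_cases ha : a = 0
  · simp [ibas_af, ha]
  by_cases hb : b = 0
  · simp [ibas_af, hb]
  simp [ibas_af, ha, hb, h.mul a b ha hb hab]

theorem RM.r2_mul {n : ℕ} {r : ℕ → ℝ} (h : RM n r) {a b : ℕ} (ha : a ≠ 0) (hb : b ≠ 0)
    (hab : a.Coprime b) : r2 r (a * b) = r2 r a * r2 r b := by
  rw [← ibas_af_mul, ← ibas_af_mul, ← ibas_af_mul]
  exact ((ibas_af_mult h).mul (ibas_af_mult h)).map_mul_of_coprime hab

theorem RM.r2_one {n : ℕ} {r : ℕ → ℝ} (h : RM n r) : r2 r 1 = 1 := by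
  simp [r2, h.one]

theorem RM.r2_prime {n : ℕ} {r : ℕ → ℝ} (h : RM n r) {p : ℕ} (hp : p.Prime) :
    r2 r p = 2 * r p := by
  unfold r2
  rw [Nat.sum_divisorsAntidiagonal (fun a b => r a * r b), hp.sum_divisors, Nat.div_self hp.pos,
    Nat.div_one, h.one]
  ring

theorem RM.r2_pow {n : ℕ} {r : ℕ → ℝ} (h : RM n r) {p : ℕ} (hp : p.Prime) (j : ℕ) :
    r2 r (p ^ j) ≤ ((j : ℝ) + 1) ^ (2 * n + 1) := by
  unfold r2
  rw [Nat.sum_divisorsAntidiagonal (fun a b => r a * r b), Nat.sum_divisors_prime_pow hp]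
  have : ∀ i ∈ range (j + 1), r (p ^ i) * r (p ^ j / p ^ i) ≤ ((j : ℝ) + 1) ^ (2 * n) := by
    intro i hi
    have hi' : i ≤ j := by simpa [Nat.lt_succ_iff] using hi
    rw [Nat.pow_div hi' hp.pos, two_mul, pow_add]
    refine mul_le_mul ((h.pow p i hp).trans ?_) ((h.pow p _ hp).trans ?_) (h.nonneg _)
      (by positivity)
    · gcongr
    · gcongr
      exact Nat.sub_le j i
  refine (sum_le_sum this).trans ?_
  rw [sum_const, card_range, nsmul_eq_mul]
  push_cast
  exact le_of_eq (by ring)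

theorem gg_mul {a b : ℕ} (ha : a ≠ 0) (hb : b ≠ 0) (hab : a.Coprime b) :
    gg (a * b) = gg a * gg b := by
  unfold gg
  rw [hab.primeFactors_mul, prod_union hab.disjoint_primeFactors]
  congr 1
  · refine prod_congr rfl fun p hp => ?_
    rw [Nat.factorization_eq_of_coprime_left hab (Nat.mem_primeFactors_iff_mem_primeFactorsList.1 hp)]
  · refine prod_congr rfl fun p hp => ?_
    rw [Nat.factorization_eq_of_coprime_right hab
      (Nat.mem_primeFactors_iff_mem_primeFactorsList.1 hp)]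

theorem one_le_gg (k : ℕ) : 1 ≤ gg k := by
  refine Finset.one_le_prod fun p hp => ?_
  split_ifs
  · exact le_rfl
  · exact Real.one_le_rpow (by exact_mod_cast (Nat.prime_of_mem_primeFactors hp).one_lt.le)
      (by positivity)

theorem gg_squarefree {k : ℕ} (hk : Squarefree k) : gg k = 1 := by
  refine prod_eq_one fun p hp => ?_
  rw [if_pos (Nat.factorization_eq_one_of_squarefree hk (Nat.prime_of_mem_primeFactors hp)
    (Nat.dvd_of_mem_primeFactors hp))]

/-- Compare the exponents: `n v_p(g) ≤ v_p(k)`. -/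
theorem le_gg {n g k : ℕ} (hn : 3 ≤ n) (hk : k ≠ 0) (h : g ^ n ∣ k) : (g : ℝ) ≤ gg k := by
  have hg : g ≠ 0 := by
    rintro rfl
    rw [zero_pow (by omega), zero_dvd_iff] at h
    exact hk h
  have hle : ∀ p, n * g.factorization p ≤ k.factorization p := fun p => by
    have := (Nat.factorization_le_iff_dvd (pow_ne_zero n hg) hk).2 h p
    simpa using this
  have hsub : g.primeFactors ⊆ k.primeFactors :=
    Nat.primeFactors_mono ((dvd_pow_self g (by omega)).trans h) hk
  have e : (g : ℝ) = ∏ p ∈ k.primeFactors, (p : ℝ) ^ g.factorization p := by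
    conv_lhs => rw [Nat.prod_primeFactors_pow_factorization hg]
    push_cast
    refine prod_subset hsub fun p _ hp => ?_
    rw [Finsupp.notMem_support_iff.1 hp, pow_zero]
  rw [e]
  refine prod_le_prod (fun p _ => by positivity) fun p hp => ?_
  have h1 := hle p
  have h3 : 3 * g.factorization p ≤ k.factorization p := (Nat.mul_le_mul_right _ hn).trans h1
  split_ifs with h2
  · rw [show g.factorization p = 0 by omega, pow_zero]
  · rw [← Real.rpow_natCast]
    refine Real.rpow_le_rpow_of_exponent_le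
      (by exact_mod_cast (Nat.prime_of_mem_primeFactors hp).one_lt.le) ?_
    have : (3 : ℝ) * g.factorization p ≤ k.factorization p := by exact_mod_cast h3
    linarith

theorem ge_mul (n : ℕ) {a b : ℕ} (ha : a ≠ 0) (hb : b ≠ 0) (hab : a.Coprime b) :
    ge n (a * b) = ge n a * ge n b := by
  unfold ge
  rw [hab.primeFactors_mul, prod_union hab.disjoint_primeFactors]

theorem Dl_le (T : Finset ℕ) : Dl T ≤ 2 ^ #T := by
  refine Finset.sup_le fun d _ => ?_
  rw [← card_powerset]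
  exact card_filter_le _ _

/-- Cover `[x - W, x + W]` by at most `2 W + 1` intervals of length one. -/
theorem window_le (T : Finset ℕ) (x : ℝ) {W : ℝ} (hW : 0 ≤ W) :
    (#(T.powerset.filter fun d => |ell d - x| ≤ W) : ℝ) ≤ (2 * W + 1) * Dl T := by
  have h := card_le_mul_card_image_of_maps_to (f := fun d => ⌊ell d - x + W⌋₊)
    (s := T.powerset.filter fun d => |ell d - x| ≤ W) (t := range (⌊2 * W⌋₊ + 1))
    (fun d hd => by
      rw [mem_range, Nat.lt_succ_iff]
      exact Nat.floor_le_floor (by linarith [(abs_le.1 (mem_filter.1 hd).2).2])) (Dl T)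
    (fun b _ => by
      rcases (filter (fun d => ⌊ell d - x + W⌋₊ = b)
        (T.powerset.filter fun d => |ell d - x| ≤ W)).eq_empty_or_nonempty with he | ⟨d0, hd0⟩
      · rw [he]; simp
      · simp only [mem_filter] at hd0
        refine le_trans (card_le_card ?_) (Finset.le_sup
          (f := fun d0 => #(T.powerset.filter fun d => |ell d - ell d0| ≤ 1)) hd0.1.1)
        intro d hd
        simp only [mem_filter] at hd ⊢
        refine ⟨hd.1.1, ?_⟩
        have a1 : 0 ≤ ell d - x + W := by linarith [(abs_le.1 hd.1.2).1]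
        have a2 : 0 ≤ ell d0 - x + W := by linarith [(abs_le.1 hd0.1.2).1]
        have b1 := Nat.floor_le a1
        have b2 := Nat.floor_le a2
        have c1 := Nat.lt_floor_add_one (ell d - x + W)
        have c2 := Nat.lt_floor_add_one (ell d0 - x + W)
        rw [hd.2] at b1 c1
        rw [hd0.2] at b2 c2
        rw [abs_le]
        constructor <;> linarith)
  rw [card_range] at h
  have h' : (#(T.powerset.filter fun d => |ell d - x| ≤ W) : ℝ) ≤
      (Dl T : ℝ) * ((⌊2 * W⌋₊ : ℝ) + 1) := by exact_mod_cast h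
  have := Nat.floor_le (show 0 ≤ 2 * W by linarith)
  calc _ ≤ _ := h'
    _ ≤ (Dl T : ℝ) * (2 * W + 1) := by gcongr
    _ = _ := mul_comm _ _

theorem ibas_poly_le (A : ℕ) {c : ℝ} (hc : 1 < c) :
    ∃ M : ℝ, 1 ≤ M ∧ ∀ v : ℕ, ((v : ℝ) + 1) ^ A ≤ M * c ^ v := by
  have h := tendsto_pow_const_div_const_pow_of_one_lt A hc
  obtain ⟨M, hM⟩ := h.bddAbove_range
  refine ⟨max 1 (M * c), le_max_left _ _, fun v => ?_⟩
  have h1 : (((v + 1 : ℕ) : ℝ)) ^ A / c ^ (v + 1) ≤ M := hM ⟨v + 1, rfl⟩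
  have hc0 : 0 < c := by linarith
  rw [div_le_iff₀ (by positivity)] at h1
  push_cast at h1
  calc ((v : ℝ) + 1) ^ A ≤ M * c * c ^ v := by rw [pow_succ] at h1; linarith
    _ ≤ _ := by gcongr; exact le_max_right _ _

/-- The divisor bound. -/
theorem card_divisors_le (A : ℕ) {ε : ℝ} (hε : 0 < ε) : ∃ C : ℝ, 0 < C ∧ ∀ k : ℕ, k ≠ 0 →
    (#k.divisors : ℝ) ^ A ≤ C * (k : ℝ) ^ ε := by
  have hc : (1 : ℝ) < 2 ^ ε := Real.one_lt_rpow (by norm_num) hε
  obtain ⟨M, hM1, hM⟩ := ibas_poly_le A hc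
  obtain ⟨P, hP⟩ : ∃ P : ℕ, ∀ p : ℕ, P ≤ p → (2 : ℝ) ^ A ≤ (p : ℝ) ^ ε := by
    have := ((tendsto_rpow_atTop hε).comp tendsto_natCast_atTop_atTop).eventually_ge_atTop
      ((2 : ℝ) ^ A)
    exact eventually_atTop.1 this
  refine ⟨M ^ P, by positivity, fun k hk => ?_⟩
  have e1 : (#k.divisors : ℝ) ^ A = ∏ p ∈ k.primeFactors, ((k.factorization p : ℝ) + 1) ^ A := by
    rw [Nat.card_divisors hk]
    push_cast
    rw [prod_pow]
  have e2 : (k : ℝ) ^ ε = ∏ p ∈ k.primeFactors, ((p : ℝ) ^ ε) ^ k.factorization p := by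
    conv_lhs => rw [Nat.prod_primeFactors_pow_factorization hk]
    push_cast
    rw [← Real.finsetProd_rpow _ _ (fun p _ => by positivity)]
    refine prod_congr rfl fun p _ => ?_
    rw [← Real.rpow_natCast, ← Real.rpow_natCast, ← Real.rpow_mul (by positivity),
      ← Real.rpow_mul (by positivity), mul_comm]
  have e3 : ∏ p ∈ k.primeFactors, (if p < P then M else 1) ≤ M ^ P := by
    rw [prod_ite, prod_const_one, mul_one, prod_const]
    refine pow_le_pow_right₀ hM1 ?_
    calc _ ≤ #(range P) := card_le_card fun p hp => mem_range.2 (mem_filter.1 hp).2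
      _ = P := card_range P
  rw [e1, e2]
  calc _ ≤ ∏ p ∈ k.primeFactors, (if p < P then M else 1) * ((p : ℝ) ^ ε) ^ k.factorization p := by
        refine prod_le_prod (fun p _ => by positivity) fun p hp => ?_
        have hp2 : (2 : ℝ) ≤ p := by exact_mod_cast (Nat.prime_of_mem_primeFactors hp).two_le
        split_ifs with h
        · refine (hM _).trans ?_
          gcongr
        · rw [one_mul]
          have h1 : ((k.factorization p : ℝ) + 1) ≤ 2 ^ k.factorization p := by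
            exact_mod_cast Nat.lt_two_pow_self
          calc _ ≤ ((2 : ℝ) ^ k.factorization p) ^ A := by gcongr
            _ = (2 ^ A) ^ k.factorization p := by rw [← pow_mul, ← pow_mul, mul_comm]
            _ ≤ _ := by gcongr; exact hP p (not_lt.1 h)
    _ ≤ _ := by
        rw [prod_mul_distrib]
        exact mul_le_mul_of_nonneg_right e3 (prod_nonneg fun p _ => by positivity)

/-- Rankin: `b^{-3/4} ≤ B^{-1/4} b^{-1/2}` and
`∑_{b ∣ f^∞} b^{-1/2} ≤ ∏_{p ∣ f} (1 - p^{-1/2})⁻¹ ≤ 4^{ω(f)} ≤ τ(f)²`. -/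
theorem sum_powers_le (A : ℕ) {ε : ℝ} (hε : 0 < ε) : ∃ C : ℝ, 0 < C ∧ ∀ (f : ℕ) (B : ℝ)
    (𝒦 : Finset ℕ), f ≠ 0 → 0 < B → (∀ b ∈ 𝒦, B < b ∧ b.primeFactors ⊆ f.primeFactors) →
    ∑ b ∈ 𝒦, (#b.divisors : ℝ) ^ A / b ≤ C * B ^ (-(1 / 4 : ℝ)) * (f : ℝ) ^ ε := by
  obtain ⟨C1, hC1, h1⟩ := card_divisors_le A (show (0 : ℝ) < 1 / 4 by norm_num)
  obtain ⟨C2, hC2, h2⟩ := card_divisors_le 2 hε
  refine ⟨C1 * C2, by positivity, fun f B 𝒦 hf hB h𝒦 => ?_⟩
  let g : ℕ →* ℝ := ⟨⟨fun m => (m : ℝ) ^ (-(1 / 2 : ℝ)), by simp⟩, fun a b => by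
    push_cast
    exact Real.mul_rpow (by positivity) (by positivity)⟩
  have hg : ∀ m, g m = (m : ℝ) ^ (-(1 / 2 : ℝ)) := fun m => rfl
  have hg0 : ∀ m, 0 ≤ g m := fun m => by rw [hg]; positivity
  have hgp : ∀ {p : ℕ}, p.Prime → g p ≤ 3 / 4 := by
    intro p hp
    have hp2 : (2 : ℝ) ≤ p := by exact_mod_cast hp.two_le
    rw [hg, Real.rpow_neg (by positivity), ← Real.sqrt_eq_rpow]
    rw [inv_le_comm₀ (Real.sqrt_pos.2 (by linarith)) (by norm_num)]
    exact Real.le_sqrt_of_sq_le (by norm_num; linarith)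
  have hE := (EulerProduct.summable_and_hasSum_factoredNumbers_prod_filter_prime_geometric (f := g)
    (fun {p} hp => by rw [Real.norm_of_nonneg (hg0 p)]; linarith [hgp hp]) f.primeFactors).2
  have hb0 : ∀ b ∈ 𝒦, b ≠ 0 := fun b hb => by
    have := hB.trans (h𝒦 b hb).1
    exact (Nat.cast_pos.1 this).ne'
  have hS : ∑ b ∈ 𝒦, g b ≤ ∏ p ∈ f.primeFactors with p.Prime, (1 - g p)⁻¹ := by
    have hm : ∀ b ∈ 𝒦, b ∈ Nat.factoredNumbers f.primeFactors := fun b hb =>
      Nat.mem_factoredNumbers_of_primeFactors_subset (hb0 b hb) (h𝒦 b hb).2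
    rw [← Finset.sum_subtype_of_mem (fun b => g b) hm]
    exact sum_le_hasSum _ (fun i _ => hg0 _) hE
  have hP : ∏ p ∈ f.primeFactors with p.Prime, (1 - g p)⁻¹ ≤ (#f.divisors : ℝ) ^ 2 := by
    rw [filter_true_of_mem fun p hp => Nat.prime_of_mem_primeFactors hp, Nat.card_divisors hf]
    push_cast
    rw [← prod_pow]
    refine prod_le_prod (fun p hp => ?_) fun p hp => ?_
    · have := hgp (Nat.prime_of_mem_primeFactors hp)
      exact inv_nonneg.2 (by linarith)
    · have h3 := hgp (Nat.prime_of_mem_primeFactors hp)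
      have h4 : (1 : ℝ) ≤ f.factorization p := by
        exact_mod_cast Nat.one_le_iff_ne_zero.2 (Finsupp.mem_support_iff.1 hp)
      calc (1 - g p)⁻¹ ≤ (1 / 4)⁻¹ := inv_anti₀ (by norm_num) (by linarith)
        _ ≤ _ := by norm_num; nlinarith
  have hterm : ∀ b ∈ 𝒦, (#b.divisors : ℝ) ^ A / b ≤ C1 * B ^ (-(1 / 4 : ℝ)) * g b := by
    intro b hb
    have hbB := (h𝒦 b hb).1
    have hbp : (0 : ℝ) < b := hB.trans hbB
    have h5 : (b : ℝ) ^ (-(1 / 4 : ℝ)) ≤ B ^ (-(1 / 4 : ℝ)) :=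
      Real.rpow_le_rpow_of_nonpos hB hbB.le (by norm_num)
    calc (#b.divisors : ℝ) ^ A / b ≤ C1 * (b : ℝ) ^ (1 / 4 : ℝ) / b := by
          gcongr; exact h1 b (hb0 b hb)
      _ = C1 * (b : ℝ) ^ (-(1 / 4 : ℝ)) * g b := by
          rw [hg, mul_assoc, ← Real.rpow_add hbp, mul_div_assoc, ← Real.rpow_sub_one hbp.ne']
          norm_num
      _ ≤ _ := by
          have := hg0 b
          gcongr
  calc _ ≤ ∑ b ∈ 𝒦, C1 * B ^ (-(1 / 4 : ℝ)) * g b := sum_le_sum hterm
    _ = C1 * B ^ (-(1 / 4 : ℝ)) * ∑ b ∈ 𝒦, g b := by rw [mul_sum]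
    _ ≤ C1 * B ^ (-(1 / 4 : ℝ)) * (C2 * (f : ℝ) ^ ε) := by
        gcongr
        exact (hS.trans hP).trans (h2 f hf)
    _ = _ := by ring

end Crest.Agent.R014

end
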