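import Crest.Agent.R014.ADefs
import Crest.Agent.R014.IBas

/-! # Row 14: counting ideals -/

set_option autoImplicit false

noncomputable section

open MeasureTheory Filter Topology Set
open scoped ENNReal NumberField Classical
open Crest.NumberTheoryR.Packets

namespace Crest.Agent.R014

universe u

variable {d : ℕ} {K : Type u} [Field K] [NumberField K]

theorem aid_norm_span (a : ℕ) :
    Ideal.absNorm (Ideal.span {(a : 𝓞 K)}) = a ^ Module.finrank ℚ K := by
  rw [Ideal.absNorm_span_natCast, NumberField.RingOfIntegers.rank]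

omit [NumberField K] in
theorem aid_bezout {a b : ℕ} (hab : a.Coprime b) : ∃ u v : 𝓞 K, u * a + v * b = 1 :=
  (Nat.Coprime.cast (R := 𝓞 K) hab)

theorem aid_split {I : Ideal (𝓞 K)} {a b : ℕ} (ha : a ≠ 0) (hb : b ≠ 0) (hab : a.Coprime b)
    (h : Ideal.absNorm I = a * b) :
    (I ⊔ Ideal.span {(a : 𝓞 K)}) * (I ⊔ Ideal.span {(b : 𝓞 K)}) = I ∧
      Ideal.absNorm (I ⊔ Ideal.span {(a : 𝓞 K)}) = a ∧
      Ideal.absNorm (I ⊔ Ideal.span {(b : 𝓞 K)}) = b := by
  have h1 : (I ⊔ Ideal.span {(a : 𝓞 K)}) * (I ⊔ Ideal.span {(b : 𝓞 K)}) = I := by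
    refine le_antisymm ?_ fun x hx => ?_
    · rw [Ideal.sup_mul, Ideal.mul_sup (Ideal.span _), Ideal.span_singleton_mul_span_singleton]
      refine sup_le Ideal.mul_le_left (sup_le Ideal.mul_le_right ?_)
      rw [← Nat.cast_mul, ← h]
      exact Ideal.span_singleton_absNorm_le I
    · obtain ⟨u, v, huv⟩ := aid_bezout (K := K) hab
      have : x = (a : 𝓞 K) * (u * x) + (v * x) * b := by linear_combination (-x) * huv
      rw [this]
      exact add_mem
        (Ideal.mul_mem_mul (Ideal.mem_sup_right (Ideal.mem_span_singleton_self _))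
          (Ideal.mem_sup_left (I.mul_mem_left _ hx)))
        (Ideal.mul_mem_mul (Ideal.mem_sup_left (I.mul_mem_left _ hx))
          (Ideal.mem_sup_right (Ideal.mem_span_singleton_self _)))
  have h2 := congrArg Ideal.absNorm h1
  rw [map_mul, h] at h2
  have h3 : ∀ c : ℕ, Ideal.absNorm (I ⊔ Ideal.span {(c : 𝓞 K)}) ∣ c ^ Module.finrank ℚ K :=
    fun c => aid_norm_span (K := K) c ▸ Ideal.absNorm_dvd_absNorm_of_le le_sup_right
  have h4 : Ideal.absNorm (I ⊔ Ideal.span {(a : 𝓞 K)}) ∣ a :=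
    ((hab.pow_left _).coprime_dvd_left (h3 a)).dvd_of_dvd_mul_right (Dvd.intro _ h2)
  have h5 : Ideal.absNorm (I ⊔ Ideal.span {(b : 𝓞 K)}) ∣ b :=
    ((hab.symm.pow_left _).coprime_dvd_left (h3 b)).dvd_of_dvd_mul_left (Dvd.intro_left _ h2)
  have h6 := Nat.le_of_dvd (Nat.pos_of_ne_zero ha) h4
  have h7 := Nat.le_of_dvd (Nat.pos_of_ne_zero hb) h5
  have ha' := Nat.pos_of_ne_zero ha
  have hb' := Nat.pos_of_ne_zero hb
  refine ⟨h1, le_antisymm h6 (not_lt.1 fun h8 => ?_), le_antisymm h7 (not_lt.1 fun h8 => ?_)⟩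
  · exact (Nat.mul_lt_mul_of_lt_of_le h8 h7 hb').ne h2
  · exact (Nat.mul_lt_mul_of_le_of_lt h6 h8 ha').ne h2

theorem aid_uniq {A B : Ideal (𝓞 K)} (hab : (Ideal.absNorm A).Coprime (Ideal.absNorm B)) :
    A * B ⊔ Ideal.span {((Ideal.absNorm A : ℕ) : 𝓞 K)} = A := by
  refine le_antisymm (sup_le Ideal.mul_le_left (Ideal.span_singleton_absNorm_le A)) fun x hx => ?_
  obtain ⟨u, v, huv⟩ := aid_bezout (K := K) hab
  have : x = x * (v * (Ideal.absNorm B : ℕ)) + (x * u) * (Ideal.absNorm A : ℕ) := by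
    linear_combination (-x) * huv
  rw [this]
  exact add_mem (Ideal.mem_sup_left (Ideal.mul_mem_mul hx (B.mul_mem_left _ (Ideal.absNorm_mem B))))
    (Ideal.mem_sup_right (Ideal.mul_mem_left _ _ (Ideal.mem_span_singleton_self _)))

theorem aid_ne {I : Ideal (𝓞 K)} (hI : I ≠ ⊥) : Ideal.absNorm I ≠ 0 :=
  fun h => hI (Ideal.absNorm_eq_zero_iff.1 h)

theorem aid_ne' {I : Ideal (𝓞 K)} (hI : Ideal.absNorm I ≠ 0) : I ≠ ⊥ :=
  fun h => hI (Ideal.absNorm_eq_zero_iff.2 h)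

open UniqueFactorizationMonoid in
/-- The number of prime factors. -/
theorem aid_card_nf {I : Ideal (𝓞 K)} (hI : I ≠ ⊥) {c : ℕ}
    (h : ∀ p : ℕ, p.Prime → p ∣ Ideal.absNorm I → c ≤ p) :
    c ^ (normalizedFactors I).card ≤ Ideal.absNorm I := by
  have h1 : Ideal.absNorm I = ((normalizedFactors I).map Ideal.absNorm).prod := by
    rw [← map_multiset_prod, Ideal.prod_normalizedFactors_eq_self hI]
  rw [h1, ← Multiset.card_map Ideal.absNorm]
  refine Multiset.pow_card_le_prod fun x hx => ?_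
  obtain ⟨P, hP, rfl⟩ := Multiset.mem_map.1 hx
  have hP' := prime_of_normalized_factor P hP
  have h2 : Ideal.absNorm P ≠ 1 := fun h =>
    hP'.not_isUnit (Ideal.isUnit_iff.2 (Ideal.absNorm_eq_one_iff.1 h))
  have h3 : Ideal.absNorm P ∣ Ideal.absNorm I :=
    map_dvd Ideal.absNorm (dvd_of_mem_normalizedFactors hP)
  exact (h _ (Nat.minFac_prime h2) ((Nat.minFac_dvd _).trans h3)).trans
    (Nat.minFac_le (Nat.pos_of_ne_zero (aid_ne hP'.ne_zero)))

open UniqueFactorizationMonoid in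
theorem aid_nf_inj {A B : Ideal (𝓞 K)} (hA : A ≠ ⊥) (hB : B ≠ ⊥)
    (h : normalizedFactors A = normalizedFactors B) : A = B := by
  rw [← Ideal.prod_normalizedFactors_eq_self hA, h, Ideal.prod_normalizedFactors_eq_self hB]

theorem aid_exists_dvd {I : Ideal (𝓞 K)} (hI : I ≠ ⊥) : ∃ T : Finset (Ideal (𝓞 K)),
    (∀ J, J ∈ T ↔ J ∣ I) ∧ T.card = tauI I := by
  have hf : {J : Ideal (𝓞 K) | J ∣ I}.Finite :=
    (Ideal.finite_setOfPred_absNorm_le (Ideal.absNorm I)).subset fun J hJ =>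
      Nat.le_of_dvd (Nat.pos_of_ne_zero (aid_ne hI)) (map_dvd Ideal.absNorm hJ)
  exact ⟨hf.toFinset, fun J => hf.mem_toFinset,
    (Set.ncard_eq_toFinset_card _ hf).symm.trans (Nat.card_coe_set_eq _).symm⟩

theorem aid_exists_norm (k : ℕ) : ∃ T : Finset (Ideal (𝓞 K)),
    (∀ I, I ∈ T ↔ Ideal.absNorm I = k) ∧ T.card = rI K k := by
  have hf := Ideal.finite_setOfPred_absNorm_eq (S := 𝓞 K) k
  exact ⟨hf.toFinset, fun J => hf.mem_toFinset,
    (Set.ncard_eq_toFinset_card _ hf).symm.trans (Nat.card_coe_set_eq _).symm⟩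

theorem aid_tau_pow (b n : ℕ) : (b ^ n).divisors.card ≤ b.divisors.card ^ n := by
  induction n with
  | zero => simp
  | succ n ih =>
    rw [pow_succ, Nat.divisors_mul, pow_succ]
    exact Finset.card_mul_le.trans (Nat.mul_le_mul_right _ ih)

theorem absNorm_ipart (pr : ℕ → Prop) {I : Ideal (𝓞 K)} (hI : I ≠ ⊥) :
    Ideal.absNorm (ipart pr I) = npart pr (Ideal.absNorm I) ∧
      ipart pr I * ipart (fun p => ¬ pr p) I = I := by
  obtain ⟨h1, h2, -⟩ := aid_split (npart_ne_zero pr _) (npart_ne_zero (fun p => ¬ pr p) _)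
    (npart_coprime pr _ _) (npart_mul_npart pr (aid_ne hI)).symm
  exact ⟨h2, h1⟩

/-- Uniqueness of the factorisation in `absNorm_ipart`. -/
theorem ipart_eq {pr : ℕ → Prop} {A B : Ideal (𝓞 K)} (hA : A ≠ ⊥) (hB : B ≠ ⊥)
    (h1 : ∀ p ∈ (Ideal.absNorm A).primeFactors, pr p)
    (h2 : ∀ p ∈ (Ideal.absNorm B).primeFactors, ¬ pr p) : ipart pr (A * B) = A := by
  have h3 : npart pr (Ideal.absNorm B) = 1 := by
    rw [npart, Finset.filter_false_of_mem h2, Finset.prod_empty]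
  have h4 : (Ideal.absNorm A).Coprime (Ideal.absNorm B) := by
    rw [← Nat.disjoint_primeFactors (aid_ne hA) (aid_ne hB), Finset.disjoint_left]
    exact fun p a1 a2 => h2 p a2 (h1 p a1)
  rw [ipart, map_mul, npart_mul pr (aid_ne hA) (aid_ne hB), npart_eq_self (aid_ne hA) h1, h3,
    mul_one, aid_uniq h4]

theorem ipart_mul (pr : ℕ → Prop) {A B : Ideal (𝓞 K)} (hA : A ≠ ⊥) (hB : B ≠ ⊥) :
    ipart pr (A * B) = ipart pr A * ipart pr B := by
  have n1 : ∀ (q : ℕ → Prop), Ideal.absNorm (ipart q A * ipart q B) =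
      npart q (Ideal.absNorm A * Ideal.absNorm B) := fun q => by
    rw [map_mul, (absNorm_ipart q hA).1, (absNorm_ipart q hB).1,
      npart_mul q (aid_ne hA) (aid_ne hB)]
  have e : A * B = (ipart pr A * ipart pr B) *
      (ipart (fun p => ¬ pr p) A * ipart (fun p => ¬ pr p) B) := by
    rw [mul_mul_mul_comm, (absNorm_ipart pr hA).2, (absNorm_ipart pr hB).2]
  have key := ipart_eq (pr := pr) (A := ipart pr A * ipart pr B)
    (B := ipart (fun p => ¬ pr p) A * ipart (fun p => ¬ pr p) B)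
    (aid_ne' (n1 _ ▸ npart_ne_zero _ _)) (aid_ne' (n1 _ ▸ npart_ne_zero _ _))
    (fun p hp => by
      rw [n1, primeFactors_npart] at hp
      exact (Finset.mem_filter.1 hp).2)
    (fun p hp => by
      rw [n1, primeFactors_npart] at hp
      simp only [Finset.mem_filter] at hp
      exact hp.2)
  rwa [← e] at key

theorem card_le_rI (k : ℕ) (T : Finset (Ideal (𝓞 K))) (hT : ∀ I ∈ T, Ideal.absNorm I = k) :
    T.card ≤ rI K k := by
  obtain ⟨T', h1, h2⟩ := aid_exists_norm (K := K) k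
  exact h2 ▸ Finset.card_le_card fun I hI => (h1 I).2 (hT I hI)

theorem exists_finset_norm (k : ℕ) : ∃ T : Finset (Ideal (𝓞 K)),
    (∀ I, I ∈ T ↔ Ideal.absNorm I = k) ∧ T.card = rI K k := by
  exact aid_exists_norm k

theorem rI_one : rI K 1 = 1 := by
  obtain ⟨T, h1, h2⟩ := aid_exists_norm (K := K) 1
  rw [← h2, Finset.card_eq_one]
  exact ⟨⊤, Finset.ext fun I => by rw [h1, Ideal.absNorm_eq_one_iff, Finset.mem_singleton]⟩

theorem rI_mul {a b : ℕ} (ha : a ≠ 0) (hb : b ≠ 0) (hab : a.Coprime b) :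
    rI K (a * b) = rI K a * rI K b := by
  unfold rI
  rw [← Nat.card_prod]
  refine (Nat.card_eq_of_bijective (fun x : {I : Ideal (𝓞 K) // Ideal.absNorm I = a} ×
      {I : Ideal (𝓞 K) // Ideal.absNorm I = b} =>
    (⟨x.1.1 * x.2.1, by rw [map_mul, x.1.2, x.2.2]⟩ :
      {I : Ideal (𝓞 K) // Ideal.absNorm I = a * b})) ⟨?_, ?_⟩).symm
  · rintro ⟨⟨A, hA⟩, ⟨B, hB⟩⟩ ⟨⟨A', hA'⟩, ⟨B', hB'⟩⟩ h
    have h1 : A * B = A' * B' := congrArg Subtype.val h
    have h2 : A = A' := by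
      rw [← aid_uniq (A := A) (B := B) (by rwa [hA, hB]), h1, hA, ← hA',
        aid_uniq (by rwa [hA', hB'])]
    subst h2
    have h3 : B = B' := mul_left_cancel₀ (aid_ne' (hA ▸ ha)) h1
    subst h3
    rfl
  · rintro ⟨I, hI⟩
    obtain ⟨h1, h2, h3⟩ := aid_split ha hb hab hI
    exact ⟨(⟨_, h2⟩, ⟨_, h3⟩), Subtype.ext h1⟩

/-- There are at most `n` primes above `p`, and an ideal of norm `p^j` is a product of them with
exponents at most `j`. -/
theorem rI_pow_le {n : ℕ} (hn : Module.finrank ℚ K = n) {p : ℕ} (hp : p.Prime) (j : ℕ) :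
    rI K p ≤ n ∧ rI K (p ^ j) ≤ (j + 1) ^ n := by
  have h0 : Ideal.span {(p : 𝓞 K)} ≠ ⊥ :=
    aid_ne' (by rw [aid_norm_span]; exact pow_ne_zero _ hp.ne_zero)
  have hc : ∀ {I : Ideal (𝓞 K)} {m : ℕ}, Ideal.absNorm I = p ^ m →
      (UniqueFactorizationMonoid.normalizedFactors I).card ≤ m := by
    intro I m hI
    have := aid_card_nf (aid_ne' (hI ▸ pow_ne_zero _ hp.ne_zero)) (c := p) fun q hq hqI => by
      rw [hI] at hqI
      exact ((Nat.prime_dvd_prime_iff_eq hq hp).1 (hq.dvd_of_dvd_pow hqI)).ge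
    rw [hI] at this
    exact (Nat.pow_le_pow_iff_right hp.one_lt).1 this
  set S := (UniqueFactorizationMonoid.normalizedFactors (Ideal.span {(p : 𝓞 K)})).toFinset with hS
  have hSc : S.card ≤ n :=
    (Multiset.toFinset_card_le _).trans (hc (by rw [aid_norm_span, hn]))
  have hmem : ∀ {P : Ideal (𝓞 K)} {m : ℕ}, Prime P → Ideal.absNorm P ∣ p ^ m → P ∈ S := by
    intro P m hP hd
    rw [hS, Multiset.mem_toFinset, UniqueFactorizationMonoid.mem_normalizedFactors_iff h0]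
    refine ⟨hP, Ideal.dvd_span_singleton.2 ((Ideal.isPrime_of_prime hP).mem_of_pow_mem m ?_)⟩
    obtain ⟨c, hc⟩ := hd
    rw [← Nat.cast_pow, hc, Nat.cast_mul]
    exact P.mul_mem_right _ (Ideal.absNorm_mem P)
  constructor
  · obtain ⟨T, h1, h2⟩ := aid_exists_norm (K := K) p
    refine h2 ▸ (Finset.card_le_card fun I hI => ?_).trans hSc
    have h3 := (h1 I).1 hI
    exact hmem (m := 1) (Ideal.irreducible_of_irreducible_absNorm (h3 ▸ hp)).prime
      (by rw [h3, pow_one])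
  · obtain ⟨T, h1, h2⟩ := aid_exists_norm (K := K) (p ^ j)
    have h3 : T.card ≤ (Fintype.piFinset fun _ : S => Finset.range (j + 1)).card := by
      refine Finset.card_le_card_of_injOn
        (fun I P => (UniqueFactorizationMonoid.normalizedFactors I).count P.1) (fun I hI => ?_)
        fun A hA B hB h => ?_
      · rw [Finset.mem_coe, Fintype.mem_piFinset]
        exact fun P => Finset.mem_range.2 (Nat.lt_succ_of_le
          ((Multiset.count_le_card _ _).trans (hc ((h1 I).1 hI))))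
      · have hA' := (h1 A).1 hA
        have hB' := (h1 B).1 hB
        refine aid_nf_inj (aid_ne' (hA' ▸ pow_ne_zero _ hp.ne_zero))
          (aid_ne' (hB' ▸ pow_ne_zero _ hp.ne_zero)) (Multiset.ext.2 fun P => ?_)
        by_cases hP : P ∈ S
        · exact congrFun h ⟨P, hP⟩
        · have h4 : ∀ {I : Ideal (𝓞 K)}, Ideal.absNorm I = p ^ j →
              (UniqueFactorizationMonoid.normalizedFactors I).count P = 0 := by
            intro I hI
            refine Multiset.count_eq_zero.2 fun h5 => hP (hmem (m := j)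
              (UniqueFactorizationMonoid.prime_of_normalized_factor P h5) ?_)
            exact hI ▸ map_dvd Ideal.absNorm
              (UniqueFactorizationMonoid.dvd_of_mem_normalizedFactors h5)
          rw [h4 hA', h4 hB']
    rw [Fintype.card_piFinset, Finset.prod_const, Finset.card_range, Finset.card_univ,
      Fintype.card_coe, h2] at h3
    exact h3.trans (Nat.pow_le_pow_right (Nat.succ_pos j) hSc)

theorem rm_rG {n : ℕ} (hn : Module.finrank ℚ K = n) (f : ℕ) : RM n (rG K f) := by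
  have h0 : ∀ k, rG K f k ≤ rI K k := fun k => by
    unfold rG
    split_ifs <;> simp
  refine ⟨fun k => ?_, by simp [rG, rI_one], fun a b ha hb hab => ?_, fun p hp => ?_,
    fun p j hp => ?_⟩
  · unfold rG
    split_ifs <;> simp
  · unfold rG
    simp only [Nat.coprime_mul_iff_left, rI_mul ha hb hab]
    by_cases h1 : a.Coprime f
    · by_cases h2 : b.Coprime f
      · rw [if_pos ⟨h1, h2⟩, if_pos h1, if_pos h2, Nat.cast_mul]
      · rw [if_neg fun h => h2 h.2, if_neg h2, mul_zero]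
    · rw [if_neg fun h => h1 h.1, if_neg h1, zero_mul]
  · exact (h0 p).trans (by exact_mod_cast (rI_pow_le hn hp 0).1)
  · exact (h0 _).trans (by exact_mod_cast (rI_pow_le hn hp j).2)

theorem sum_cop_le (f : ℕ) (T : Finset (Ideal (𝓞 K))) (hT : ∀ I ∈ T, Cop f I) (F : ℕ → ℝ)
    (hF : ∀ k, 0 ≤ F k) (𝒦 : Finset ℕ) (h𝒦 : ∀ I ∈ T, Ideal.absNorm I ∈ 𝒦) :
    ∑ I ∈ T, F (Ideal.absNorm I) ≤ ∑ k ∈ 𝒦, rG K f k * F k := by
  rw [← Finset.sum_fiberwise_of_maps_to h𝒦]
  refine Finset.sum_le_sum fun k _ => ?_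
  rw [Finset.sum_congr rfl fun I hI => by rw [(Finset.mem_filter.1 hI).2], Finset.sum_const,
    nsmul_eq_mul]
  refine mul_le_mul_of_nonneg_right ?_ (hF k)
  unfold rG
  split_ifs with h
  · exact_mod_cast card_le_rI k _ fun I hI => (Finset.mem_filter.1 hI).2
  · rw [Finset.filter_false_of_mem fun I hI (hk : Ideal.absNorm I = k) => h (hk ▸ (hT I hI).2)]
    simp

theorem exists_finset_cop (f : ℕ) (Z : ℝ) : ∃ T : Finset (Ideal (𝓞 K)),
    (∀ I ∈ T, Cop f I ∧ (Ideal.absNorm I : ℝ) ≤ Z) ∧ (T.card : ℝ) = ∑ k ∈ upto Z, rG K f k := by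
  have hf := Ideal.finite_setOfPred_absNorm_le (S := 𝓞 K) ⌊Z⌋₊
  have hm : ∀ I ∈ hf.toFinset.filter (Cop f), Ideal.absNorm I ∈ upto Z := fun I hI => by
    obtain ⟨h1, h2⟩ := Finset.mem_filter.1 hI
    exact Finset.mem_Icc.2 ⟨Nat.pos_of_ne_zero (aid_ne h2.1), hf.mem_toFinset.1 h1⟩
  refine ⟨hf.toFinset.filter (Cop f), fun I hI => ⟨(Finset.mem_filter.1 hI).2, ?_⟩, ?_⟩
  · obtain ⟨h1, h2⟩ := Finset.mem_Icc.1 (hm I hI)
    exact (Nat.le_floor_iff' (by omega)).1 h2
  · rw [Finset.card_eq_sum_card_fiberwise hm, Nat.cast_sum]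
    refine Finset.sum_congr rfl fun k hk => ?_
    obtain ⟨h1, h2⟩ := Finset.mem_Icc.1 hk
    unfold rG
    split_ifs with h
    · obtain ⟨T, h3, h4⟩ := aid_exists_norm (K := K) k
      rw [← h4]
      congr 2
      ext I
      rw [h3, Finset.mem_filter, Finset.mem_filter, hf.mem_toFinset]
      exact ⟨fun h5 => h5.2, fun h5 =>
        ⟨⟨show Ideal.absNorm I ≤ _ from h5 ▸ h2, aid_ne' (by omega), h5 ▸ h⟩, h5⟩⟩
    · rw [Finset.filter_false_of_mem fun I hI (hk : Ideal.absNorm I = k) =>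
        h (hk ▸ (Finset.mem_filter.1 hI).2.2)]
      simp

theorem card_le_tauI {I : Ideal (𝓞 K)} (hI : I ≠ ⊥) (T : Finset (Ideal (𝓞 K)))
    (hT : ∀ J ∈ T, J ∣ I) : T.card ≤ tauI I := by
  obtain ⟨T', h1, h2⟩ := aid_exists_dvd hI
  exact h2 ▸ Finset.card_le_card fun J hJ => (h1 J).2 (hT J hJ)

/-- A pair (ideal of norm `k`, divisor) is a pair of ideals with product of norms `k`. -/
theorem sum_tauI_le (f : ℕ) {k : ℕ} (hk : k ≠ 0) (hf : k.Coprime f) (T : Finset (Ideal (𝓞 K)))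
    (hT : ∀ I ∈ T, Ideal.absNorm I = k) : ∑ I ∈ T, (tauI I : ℝ) ≤ r2 (rG K f) k := by
  choose N hN1 hN2 using aid_exists_norm (K := K)
  set Q := k.divisorsAntidiagonal.biUnion fun x => N x.1 ×ˢ N x.2 with hQ
  have h1 : ∀ I ∈ T, tauI I ≤ (Q.filter fun x => x.1 * x.2 = I).card := fun I hI => by
    obtain ⟨D, d1, d2⟩ := aid_exists_dvd (aid_ne' (hT I hI ▸ hk))
    refine d2 ▸ (Finset.card_le_card fun J hJ => ?_).trans (Finset.card_image_le (f := Prod.fst))
    obtain ⟨J', hJ'⟩ := (d1 J).1 hJ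
    refine Finset.mem_image.2 ⟨(J, J'), Finset.mem_filter.2 ⟨?_, hJ'.symm⟩, rfl⟩
    refine Finset.mem_biUnion.2 ⟨(Ideal.absNorm J, Ideal.absNorm J'), ?_,
      Finset.mem_product.2 ⟨(hN1 _ _).2 rfl, (hN1 _ _).2 rfl⟩⟩
    exact Nat.mem_divisorsAntidiagonal.2 ⟨by rw [← map_mul, ← hJ', hT I hI], hk⟩
  have h2 : ∑ I ∈ T, tauI I ≤ ∑ x ∈ k.divisorsAntidiagonal, rI K x.1 * rI K x.2 := by
    refine (Finset.sum_le_sum h1).trans ?_
    rw [Finset.sum_card_fiberwise_eq_card_filter]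
    refine (Finset.card_filter_le _ _).trans (Finset.card_biUnion_le.trans (le_of_eq ?_))
    exact Finset.sum_congr rfl fun x _ => by rw [Finset.card_product, hN2, hN2]
  refine le_trans (by exact_mod_cast h2) (le_of_eq ?_ :
    ((∑ x ∈ k.divisorsAntidiagonal, rI K x.1 * rI K x.2 : ℕ) : ℝ) ≤ _)
  rw [r2, Nat.cast_sum]
  refine Finset.sum_congr rfl fun x hx => ?_
  have h3 := (Nat.mem_divisorsAntidiagonal.1 hx).1
  rw [← h3, Nat.coprime_mul_iff_left] at hf
  rw [rG, rG, if_pos hf.1, if_pos hf.2, Nat.cast_mul]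

/-- Divisors are sub-multisets of the `normalizedFactors`, each of norm `> e^U`. -/
theorem tauI_rough {I : Ideal (𝓞 K)} (hI : I ≠ ⊥) {U : ℝ} (hU : 0 < U)
    (h : ∀ p ∈ (Ideal.absNorm I).primeFactors, U < Real.log p) :
    (tauI I : ℝ) ≤ (2 : ℝ) ^ (Real.log (Ideal.absNorm I) / U) := by
  have h1 : tauI I ≤ 2 ^ (UniqueFactorizationMonoid.normalizedFactors I).card := by
    obtain ⟨D, d1, d2⟩ := aid_exists_dvd hI
    have h0 : ∀ J ∈ D, J ≠ ⊥ := fun J hJ => ne_zero_of_dvd_ne_zero hI ((d1 J).1 hJ)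
    rw [← d2, ← Multiset.card_powerset]
    refine le_trans ?_ (Multiset.toFinset_card_le _)
    refine Finset.card_le_card_of_injOn UniqueFactorizationMonoid.normalizedFactors
      (fun J hJ => ?_) fun A hA B hB h => aid_nf_inj (h0 A hA) (h0 B hB) h
    rw [Finset.mem_coe, Multiset.mem_toFinset, Multiset.mem_powerset]
    exact (UniqueFactorizationMonoid.dvd_iff_normalizedFactors_le_normalizedFactors
      (h0 J hJ) hI).1 ((d1 J).1 hJ)
  have h2 := aid_card_nf hI (c := ⌈Real.exp U⌉₊) fun p hp hd => by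
    have h3 := h p (Nat.mem_primeFactors.2 ⟨hp, hd, aid_ne hI⟩)
    rw [Real.lt_log_iff_exp_lt (by exact_mod_cast hp.pos)] at h3
    exact Nat.ceil_le.2 h3.le
  have h3 : Real.exp U ^ (UniqueFactorizationMonoid.normalizedFactors I).card ≤
      (Ideal.absNorm I : ℝ) :=
    (pow_le_pow_left₀ (Real.exp_pos U).le (Nat.le_ceil _) _).trans (by exact_mod_cast h2)
  rw [← Real.exp_nat_mul, ← Real.le_log_iff_exp_le
    (by exact_mod_cast Nat.pos_of_ne_zero (aid_ne hI)), ← le_div_iff₀ hU] at h3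
  refine le_trans ?_ (Real.rpow_le_rpow_of_exponent_le one_le_two h3)
  rw [Real.rpow_natCast]
  exact_mod_cast h1

/-- Divisors of an ideal of squarefree norm are determined by their norms. -/
theorem eq_of_dvd_squarefree {I A B : Ideal (𝓞 K)} (hI : Squarefree (Ideal.absNorm I)) (hA : A ∣ I)
    (hB : B ∣ I) (h : Ideal.absNorm A = Ideal.absNorm B) : A = B := by
  have key : ∀ {C : Ideal (𝓞 K)}, C ∣ I →
      I ⊔ Ideal.span {((Ideal.absNorm C : ℕ) : 𝓞 K)} = C := by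
    rintro C ⟨C', rfl⟩
    rw [map_mul] at hI
    exact aid_uniq (Nat.coprime_of_squarefree_mul hI)
  rw [← key hA, h, key hB]

/-- Their norms divide `b^n`; `rI k ≤ τ(k)^n`, `τ(b^n) ≤ τ(b)^n`. -/
theorem card_dvd_span_le {n : ℕ} (hn : Module.finrank ℚ K = n) {b : ℕ} (hb : b ≠ 0)
    (T : Finset (Ideal (𝓞 K))) (hT : ∀ J ∈ T, (b : 𝓞 K) ∈ J) :
    (T.card : ℝ) ≤ (b.divisors.card : ℝ) ^ (n * (n + 1)) := by
  have hb' : b ^ n ≠ 0 := pow_ne_zero _ hb
  have h1 := sum_cop_le 1 T (fun I hI => ⟨fun h => ?_, Nat.coprime_one_right _⟩) (fun _ => 1)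
    (fun _ => zero_le_one) (b ^ n).divisors fun I hI => ?_
  · simp only [Finset.sum_const, nsmul_eq_mul, mul_one] at h1
    have h2 : ∀ k ∈ (b ^ n).divisors, rG K 1 k ≤ ((b ^ n).divisors.card : ℝ) ^ n := fun k hk => by
      have h3 := Nat.dvd_of_mem_divisors hk
      refine ((rm_rG hn 1).le_card_divisors (ne_zero_of_dvd_ne_zero hb' h3)).trans ?_
      exact pow_le_pow_left₀ (Nat.cast_nonneg _)
        (Nat.cast_le.2 (Finset.card_le_card (Nat.divisors_subset_of_dvd hb' h3))) _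
    refine h1.trans ((Finset.sum_le_card_nsmul _ _ _ h2).trans ?_)
    rw [nsmul_eq_mul, ← pow_succ', pow_mul]
    exact pow_le_pow_left₀ (Nat.cast_nonneg _) (by exact_mod_cast aid_tau_pow b n) _
  · have h2 := hT I hI
    rw [h, Ideal.mem_bot, Nat.cast_eq_zero] at h2
    exact hb h2
  · refine Nat.mem_divisors.2 ⟨?_, hb'⟩
    rw [← hn, ← aid_norm_span]
    exact Ideal.absNorm_dvd_absNorm_of_le ((Ideal.span_singleton_le_iff_mem I).2 (hT I hI))

end Crest.Agent.R014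

end
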