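import Crest.Agent.R014.ALoc
import Crest.Agent.R014.AId

/-! # Row 14: local structure of the lattices, II -/

set_option autoImplicit false

noncomputable section

open MeasureTheory Filter Topology Set
open scoped ENNReal NumberField Classical
open Crest.NumberTheoryR.Packets

namespace Crest.Agent.R014

universe u

variable {d : ℕ} {K : Type u} [Field K] [NumberField K]

omit [NumberField K] in
theorem aloc2_cm (a b : 𝓞 K) : ((a * b : 𝓞 K) : K) = (a : K) * (b : K) := rfl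

omit [NumberField K] in
theorem aloc2_cp (a : 𝓞 K) (k : ℕ) : ((a ^ k : 𝓞 K) : K) = (a : K) ^ k := rfl

omit [NumberField K] in
theorem aloc2_cn (k : ℕ) : ((k : 𝓞 K) : K) = (k : K) := rfl

theorem aloc2_cancel {f : ℕ} {I : Ideal (𝓞 K)} (hI : Cop f I) {y : 𝓞 K} {k : ℕ}
    (h : (f : 𝓞 K) ^ k * y ∈ I) : y ∈ I := by
  have hc : IsCoprime ((f ^ k : ℕ) : 𝓞 K) ((Ideal.absNorm I : ℕ) : 𝓞 K) :=
    Nat.Coprime.cast (Nat.Coprime.pow_left k hI.2.symm)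
  obtain ⟨a, b, hab⟩ := hc
  have : y = a * ((f : 𝓞 K) ^ k * y) + (b * y) * ((Ideal.absNorm I : ℕ) : 𝓞 K) := by
    push_cast at hab
    linear_combination (-y) * hab
  rw [this]
  exact I.add_mem (I.mul_mem_left _ h) (I.mul_mem_left _ (Ideal.absNorm_mem I))

theorem aloc2_int {N : Submodule ℤ K} (hN : IsLat N) {x : K} (hx : x ∈ dual (mult N)) :
    ∃ z : 𝓞 K, (z : K) = (ff N : K) * x :=
  ⟨⟨_, hN.mult_le_OK (ff_mul_mem hx)⟩, rfl⟩

omit [NumberField K] in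
theorem aloc2_nat_mul_mem {L : Submodule ℤ K} (e : ℕ) {x : K} (hx : x ∈ L) : (e : K) * x ∈ L := by
  have := nsmul_mem hx e
  rwa [nsmul_eq_mul] at this

theorem aloc2_mem_idL {I : Ideal (𝓞 K)} {z : 𝓞 K} : (z : K) ∈ idL I ↔ z ∈ I := by
  rw [mem_idL]
  constructor
  · rintro ⟨y, hy, h⟩
    have : y = z := by exact_mod_cast h
    exact this ▸ hy
  · exact fun h => ⟨z, h, rfl⟩

theorem aloc2_cut_int {N P : Submodule ℤ K} (hN : IsLat N) {I : Ideal (𝓞 K)}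
    (hle : P ≤ dual (mult N)) (hI : Cop (ff N) I) {x : K} (hx : x ∈ cut (ff N) P I) :
    ∃ z ∈ I, (z : K) = (ff N : K) * x := by
  obtain ⟨hxP, k, hk⟩ := hx
  obtain ⟨z, hz⟩ := aloc2_int hN (hle hxP)
  refine ⟨z, aloc2_cancel hI (k := k) ?_, hz⟩
  rw [← aloc2_mem_idL]
  have : (((ff N : 𝓞 K) ^ k * z : 𝓞 K) : K) = (ff N : K) * ((ff N : K) ^ k * x) := by
    simp only [aloc2_cm, aloc2_cp, aloc2_cn, Nat.cast_mul, Nat.cast_pow]
    rw [hz]; ring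
  rw [this]
  exact aloc2_nat_mul_mem _ hk

theorem aloc2_cop_mul {f : ℕ} {I J : Ideal (𝓞 K)} (hI : Cop f I) (hJ : Cop f J) :
    Cop f (I * J) :=
  ⟨mul_ne_zero hI.1 hJ.1, by rw [map_mul]; exact Nat.Coprime.mul_left hI.2 hJ.2⟩

theorem aloc2_sc_dual_mem {N Q : Submodule ℤ K} (hN : IsLat N) (hQ : Q ∈ QS N) {ν : K}
    (hν : ν ∈ Q) (h0 : ν ≠ 0) : sc ν (dual Q) ∈ QS (dual N) := by
  refine ⟨sc_mem_gen (dual_mem_gen hN hQ.1) h0, ?_⟩
  rw [hN.mult_dual]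
  intro x hx
  obtain ⟨y, hy, rfl⟩ := mem_sc.1 hx
  rw [mem_dual]
  intro a ha
  rw [← mult_of_mem_gen hN hQ.1] at ha
  obtain ⟨k, hk⟩ := mem_dual.1 hy (a * ν) (mem_mult.1 ha ν hν)
  exact ⟨k, by rw [← hk]; congr 1; ring⟩

/-- At `ℓ ∣ f` the lattices `Q` and `PP f Q` agree up to an integer prime to `f`.  At `ℓ ∤ f`:
choose `c ∈ aa f Q` with `aa f Q = (c) + ℓ N(aa) · aa`-type generation
(`IsDedekindDomain.exists_sup_span_eq`), i.e. `(c) = aa · J` with `J` prime to `ℓ`, so that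
`N(J) aa ⊆ c 𝓞 K ⊆ aa`. General form: -/
theorem exists_local_gen {I : Ideal (𝓞 K)} (hI : I ≠ ⊥) {ℓ : ℕ} (hℓ : ℓ.Prime) :
    ∃ c ∈ I, c ≠ 0 ∧ ∃ e : ℕ, ¬ ℓ ∣ e ∧ ∀ x ∈ I, ∃ y : 𝓞 K, (e : 𝓞 K) * x = c * y := by
  have hℓ0 : (ℓ : 𝓞 K) ≠ 0 := by exact_mod_cast hℓ.ne_zero
  have hs0 : Ideal.span {(ℓ : 𝓞 K)} ≠ ⊥ := by simpa using hℓ0
  obtain ⟨c, hc⟩ := IsDedekindDomain.exists_sup_span_eq
    (I := Ideal.span {(ℓ : 𝓞 K)} * I) (J := I) Ideal.mul_le_right (mul_ne_zero hs0 hI)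
  have hcI : Ideal.span {c} ≤ I := hc ▸ le_sup_right
  obtain ⟨J, hJ⟩ := Ideal.dvd_iff_le.2 hcI
  have htop : Ideal.span {(ℓ : 𝓞 K)} ⊔ J = ⊤ := by
    apply mul_left_cancel₀ hI
    rw [Ideal.mul_sup, ← hJ, mul_comm, hc, Ideal.mul_top]
  have hnd : ¬ ℓ ∣ Ideal.absNorm J := by
    intro h
    obtain ⟨P, hP, hPu, hPJ⟩ := Ideal.exists_isMaximal_dvd_of_dvd_absNorm' hℓ J h
    apply hP.ne_top
    rw [eq_top_iff, ← htop]
    refine sup_le ?_ (Ideal.dvd_iff_le.1 hPJ)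
    rw [Ideal.span_singleton_le_iff_mem]
    have : (ℓ : ℤ) ∈ P.under ℤ := hPu ▸ Ideal.mem_span_singleton_self _
    simpa [Ideal.mem_comap] using this
  refine ⟨c, hcI (Ideal.mem_span_singleton_self _), ?_, Ideal.absNorm J, hnd, ?_⟩
  · rintro rfl
    have : J = ⊥ := by
      have h1 : I * J = ⊥ := by rw [← hJ]; simp
      rcases mul_eq_zero.1 h1 with h | h
      · exact absurd h hI
      · exact h
    apply hnd
    rw [this]; simp
  · intro x hx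
    have : ((Ideal.absNorm J : ℕ) : 𝓞 K) * x ∈ Ideal.span {c} := by
      rw [hJ, mul_comm _ x]
      exact Ideal.mul_mem_mul hx (Ideal.absNorm_mem J)
    obtain ⟨y, hy⟩ := Ideal.mem_span_singleton'.1 this
    exact ⟨y, by rw [← hy]; ring⟩

/-- At `ℓ ∣ f` take `c = 1`, `N = absNorm I`.  At `ℓ ∤ f` both `P` and `𝓞 K`, and both the cut and
`I`, agree up to powers of `f`; use `exists_local_gen`. -/
theorem PS.LH_cut (E : Dat d K) {N P : Submodule ℤ K} (hN : IsLat N) {I : Ideal (𝓞 K)}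
    (hP : IsLat P) (hle : P ≤ dual (mult N)) (hPP : PP (ff N) P = P) (hI : Cop (ff N) I) :
    LH P (cut (ff N) P I) := by
  intro ℓ hℓ
  have hf := hN.ff_ne_zero E
  obtain ⟨k0, hk0⟩ := hP.exists_pow_mul_mem_PP hf
  rw [hPP] at hk0
  by_cases hd : ℓ ∣ ff N
  · refine ⟨1, one_ne_zero, Ideal.absNorm I, ?_, ?_, ?_⟩
    · intro h
      exact hℓ.one_lt.ne' (Nat.eq_one_of_dvd_coprimes hI.2 h hd)
    · intro x hx
      exact ⟨_, aloc2_nat_mul_mem _ hx.1, by ring⟩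
    · intro x hx
      refine ⟨aloc2_nat_mul_mem _ (by simpa using hx), 1, ?_⟩
      obtain ⟨z, hz⟩ := aloc2_int hN (hle hx)
      have : (ff N : K) ^ 1 * ((Ideal.absNorm I : K) * (1 * x)) =
          ((z * (Ideal.absNorm I : ℕ) : 𝓞 K) : K) := by
        simp only [aloc2_cm, aloc2_cp, aloc2_cn, Nat.cast_mul, Nat.cast_pow]
        rw [hz]; ring
      rw [this, aloc2_mem_idL]
      exact I.mul_mem_left _ (Ideal.absNorm_mem I)
  · obtain ⟨c, hcI, hc0, e, he, hce⟩ := exists_local_gen hI.1 hℓ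
    refine ⟨(c : K), by exact_mod_cast hc0, e * ff N ^ (k0 + 1), ?_, ?_, ?_⟩
    · intro h
      rcases (Nat.Prime.dvd_mul hℓ).1 h with h | h
      · exact he h
      · exact hd (hℓ.dvd_of_dvd_pow h)
    · intro x hx
      obtain ⟨z, hzI, hz⟩ := aloc2_cut_int hN hle hI hx
      obtain ⟨y, hy⟩ := hce z hzI
      refine ⟨_, hk0 y, ?_⟩
      have hy' : (e : K) * (z : K) = (c : K) * (y : K) := by exact_mod_cast congrArg (fun t : 𝓞 K => (t : K)) hy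
      rw [hz] at hy'
      push_cast
      linear_combination (ff N : K) ^ k0 * hy'
    · intro x hx
      obtain ⟨z, hz⟩ := aloc2_int hN (hle hx)
      have h1 : ((e * ff N ^ (k0 + 1) : ℕ) : K) * ((c : K) * x) =
          (ff N : K) ^ k0 * (((e : 𝓞 K) * z * c : 𝓞 K) : K) := by
        simp only [aloc2_cm, aloc2_cp, aloc2_cn, Nat.cast_mul, Nat.cast_pow]
        rw [hz]; ring
      rw [h1]
      refine ⟨hk0 _, 0, ?_⟩
      have h2 : (ff N : K) ^ 0 * ((ff N : K) ^ k0 * (((e : 𝓞 K) * z * c : 𝓞 K) : K)) =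
          (((ff N : 𝓞 K) ^ k0 * e * z * c : 𝓞 K) : K) := by
        push_cast
        ring
      rw [h2, aloc2_mem_idL]
      exact I.mul_mem_left _ hcI

theorem QS.PP_mem (E : Dat d K) {N Q : Submodule ℤ K} (hN : IsLat N) (hQ : Q ∈ QS N) :
    PP (ff N) Q ∈ PS N := by
  have hf := hN.ff_ne_zero E
  have hle := QS.PP_le E hN hQ
  have hlat : IsLat (PP (ff N) Q) := hQ.1.1.of_le hN.mult.dual (QS.le_PP E hN hQ) hle
  refine ⟨⟨⟨hlat, ?_⟩, hle⟩, PP_PP _ _⟩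
  have h := PS.LH_cut E hN hlat hle (PP_PP _ _) (hQ.1.1.cop_aa hf)
  rw [← QS.eq_cut E hN hQ] at h
  exact hQ.1.2.trans h.symm

theorem PS.cut_mem (E : Dat d K) {N P : Submodule ℤ K} (hN : IsLat N) (hP : P ∈ PS N)
    {I : Ideal (𝓞 K)} (hI : Cop (ff N) I) : cut (ff N) P I ∈ QS N := by
  refine ⟨⟨(PS.index_cut E hN hP hI).1, ?_⟩, fun x hx => hP.1.2 hx.1⟩
  exact hP.1.1.2.trans (PS.LH_cut E hN hP.1.1.1 hP.1.2 hP.2 hI)

theorem QS.cv_eq (E : Dat d K) {N Q : Submodule ℤ K} (hN : IsLat N) (hQ : Q ∈ QS N) :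
    E.cv Q = Ideal.absNorm (aa (ff N) Q) * E.cv (PP (ff N) Q) := by
  have h := (PS.index_cut E hN (QS.PP_mem E hN hQ) (hQ.1.1.cop_aa (hN.ff_ne_zero E))).2.2
  rwa [← QS.eq_cut E hN hQ] at h

/-- With `Q' = ν · dual Q` we have `Q Q' = ν · dual O` (`IsLat.mul_dual`), `Q' ∈ QS (dual N)`.  Both
sides are ideals prime to `f`, and such an ideal contains `x ∈ 𝓞 K` as soon as it contains some
`f^k x`. -/
theorem QS.aa_mul_aa (E : Dat d K) {N Q : Submodule ℤ K} (hN : IsLat N) (hQ : Q ∈ QS N) {ν : K}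
    (hν : ν ∈ Q) (h0 : ν ≠ 0) :
    aa (ff N) Q * aa (ff N) (sc ν (dual Q)) = nn (ff N) ν := by
  have hf := hN.ff_ne_zero E
  have hQ' := aloc2_sc_dual_mem hN hQ hν h0
  have hmem' : ∀ x : 𝓞 K, x ∈ aa (ff N) (sc ν (dual Q)) ↔
      ∃ k : ℕ, (ff N : K) ^ k * (x : K) ∈ sc ν (dual Q) := by
    intro x
    have := QS.mem_aa E hN.dual hQ' (x := x)
    rwa [hN.ff_dual] at this
  have hQ'le : sc ν (dual Q) ≤ dual (mult N) := by
    have := hQ'.2
    rwa [hN.mult_dual] at this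
  have hprod : Q * dual Q = dual (mult N) := by
    rw [hQ.1.1.mul_dual, mult_of_mem_gen hN hQ.1]
  apply le_antisymm
  · rw [Ideal.mul_le]
    intro x hx x' hx'
    obtain ⟨k, hk⟩ := (QS.mem_aa E hN hQ).1 hx
    obtain ⟨l, hl⟩ := (hmem' x').1 hx'
    obtain ⟨q, hq, hq'⟩ := mem_sc.1 hl
    have h1 : (ff N : K) ^ k * (x : K) * q ∈ dual (mult N) := hprod ▸ Submodule.mul_mem_mul hk hq
    obtain ⟨z, hz⟩ := aloc2_int hN h1
    refine ⟨k + l + 1, fun y => mem_sc.2 ⟨((z * y : 𝓞 K) : K), (z * y).2, ?_⟩⟩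
    simp only [aloc2_cm, aloc2_cp, aloc2_cn, Nat.cast_mul, Nat.cast_pow]
    rw [hz]
    linear_combination (ff N : K) ^ (k + 1) * (x : K) * (y : K) * hq'
  · intro x hx
    obtain ⟨k, hk⟩ := hx
    obtain ⟨z, hz, hz'⟩ := mem_sc.1 (hk 1)
    have hz1 : z ∈ Q * dual Q := hprod ▸ hN.OK_le_dual_mult hz
    have key : ∀ w ∈ Q * dual Q,
        (ff N : K) ^ 2 * (ν * w) ∈ idL (aa (ff N) Q * aa (ff N) (sc ν (dual Q))) := by
      intro w hw
      refine Submodule.mul_induction_on hw ?_ ?_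
      · intro q hq q' hq'
        obtain ⟨a, ha⟩ := aloc2_int hN (hQ.2 hq)
        have hm : ν * q' ∈ sc ν (dual Q) := mem_sc.2 ⟨q', hq', rfl⟩
        obtain ⟨b, hb⟩ := aloc2_int hN (hQ'le hm)
        have h1 : (ff N : K) ^ 2 * (ν * (q * q')) = ((a * b : 𝓞 K) : K) := by
          simp only [aloc2_cm, aloc2_cp, aloc2_cn, Nat.cast_mul, Nat.cast_pow]
          rw [ha, hb]; ring
        rw [h1, aloc2_mem_idL]
        refine Ideal.mul_mem_mul ((QS.mem_aa E hN hQ).2 ⟨0, ?_⟩) ((hmem' b).2 ⟨0, ?_⟩)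
        · rw [pow_zero, one_mul, ha]; exact aloc2_nat_mul_mem _ hq
        · rw [pow_zero, one_mul, hb]; exact aloc2_nat_mul_mem _ hm
      · intro a b ha hb
        rw [mul_add, mul_add]
        exact Submodule.add_mem _ ha hb
    refine aloc2_cancel (aloc2_cop_mul (hQ.1.1.cop_aa hf) (hQ'.1.1.cop_aa hf)) (k := k + 2) ?_
    rw [← aloc2_mem_idL]
    have h2 : (((ff N : 𝓞 K) ^ (k + 2) * x : 𝓞 K) : K) = (ff N : K) ^ 2 * (ν * z) := by
      rw [hz']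
      push_cast
      ring
    rw [h2]
    exact key z hz1

/-- If the traces of the cut form `g ℤ` then `g` is prime to `f`, `I ⊆ g · dual (𝓞 K)`, and `f`, `g`
both multiply `x / g` into `𝓞 K` for `x ∈ I`; so `I ⊆ (g)`. -/
theorem PS.trace_cut (E : Dat d K) {N P : Submodule ℤ K} (hN : IsLat N) (hP : P ∈ PS N)
    (hprim : Prim P) {I : Ideal (𝓞 K)} (hI : Cop (ff N) I) {g : ℕ}
    (hg : ∀ x ∈ cut (ff N) P I, ∃ k : ℤ, tr x = g * k) : g ^ (d + 1) ∣ Ideal.absNorm I := by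
  have hf := hN.ff_ne_zero E
  obtain ⟨ν, hν, hν1⟩ := hprim
  obtain ⟨k0, hk0⟩ := hP.1.1.1.exists_pow_mul_mem_PP hf
  rw [hP.2] at hk0
  have htr : ∀ (e : ℕ) (x : K), tr ((e : K) * x) = e * tr x := by
    intro e x
    have : (e : K) * x = (e : ℚ) • x := by simp [Algebra.smul_def]
    rw [this, tr, map_smul, smul_eq_mul, tr]
  have hgN : g ∣ Ideal.absNorm I := by
    obtain ⟨k, hk⟩ := hg _ (PS.mul_mem_cut E hN hP (I := I) hν)
    rw [htr, hν1, mul_one] at hk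
    have : ((Ideal.absNorm I : ℕ) : ℤ) = (g : ℤ) * k := by exact_mod_cast hk
    exact Int.natCast_dvd_natCast.1 ⟨k, this⟩
  have hg0 : g ≠ 0 := by
    rintro rfl
    exact hI.1 (Ideal.absNorm_eq_zero_iff.1 (zero_dvd_iff.1 hgN))
  have hgf : g.Coprime (ff N) := Nat.Coprime.coprime_dvd_left hgN hI.2
  have hg0' : (g : K) ≠ 0 := by exact_mod_cast hg0
  have hle : I ≤ Ideal.span {(g : 𝓞 K)} := by
    intro x hx
    have h1 : (g : K)⁻¹ * (x : K) ∈ dual (OK K) := by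
      rw [mem_dual]
      intro y hy
      obtain ⟨y, rfl⟩ : ∃ y' : 𝓞 K, (y' : K) = y := ⟨⟨y, hy⟩, rfl⟩
      have hc : (ff N : K) ^ k0 * ((x * y : 𝓞 K) : K) ∈ cut (ff N) P I := by
        refine ⟨hk0 _, 0, ?_⟩
        have h2 : (ff N : K) ^ 0 * ((ff N : K) ^ k0 * ((x * y : 𝓞 K) : K)) =
            (((ff N : 𝓞 K) ^ k0 * y * x : 𝓞 K) : K) := by
          push_cast
          ring
        rw [h2, aloc2_mem_idL]
        exact I.mul_mem_left _ hx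
      obtain ⟨k, hk⟩ := hg _ hc
      obtain ⟨m, hm⟩ := mem_dual.1 (OK_le_dual (K := K) x.2) (y : K) y.2
      have hm' : tr ((x * y : 𝓞 K) : K) = m := by rw [← hm]; rfl
      rw [← Nat.cast_pow, htr, hm'] at hk
      have hk' : ((ff N ^ k0 : ℕ) : ℤ) * m = (g : ℤ) * k := by exact_mod_cast hk
      have hdvd : (g : ℤ) ∣ m := by
        have hco : IsCoprime (g : ℤ) ((ff N ^ k0 : ℕ) : ℤ) :=
          Nat.Coprime.cast (Nat.Coprime.pow_right k0 hgf)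
        exact hco.dvd_of_dvd_mul_left ⟨k, hk'⟩
      obtain ⟨j, hj⟩ := hdvd
      refine ⟨j, ?_⟩
      have h3 : (g : ℚ) * tr ((g : K)⁻¹ * (x : K) * (y : K)) = (g : ℚ) * j := by
        rw [← htr]
        have : (g : K) * ((g : K)⁻¹ * (x : K) * (y : K)) = ((x * y : 𝓞 K) : K) := by
          push_cast
          field_simp
        rw [this, hm', hj]
        push_cast
        ring
      exact mul_left_cancel₀ (by exact_mod_cast hg0) h3
    obtain ⟨z, hz⟩ := aloc2_int hN (dual_anti hN.mult_le_OK h1)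
    have hco : IsCoprime (g : 𝓞 K) (ff N : 𝓞 K) := Nat.Coprime.cast hgf
    obtain ⟨a, b, hab⟩ := hco
    have h4 : (g : 𝓞 K) * z = (ff N : 𝓞 K) * x := by
      have : (((g : 𝓞 K) * z : 𝓞 K) : K) = (((ff N : 𝓞 K) * x : 𝓞 K) : K) := by
        simp only [aloc2_cm, aloc2_cp, aloc2_cn, Nat.cast_mul, Nat.cast_pow]
        rw [hz]
        field_simp
      exact_mod_cast this
    refine Ideal.mem_span_singleton'.2 ⟨a * x + b * z, ?_⟩
    linear_combination x * hab + b * h4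
  have := Ideal.absNorm_dvd_absNorm_of_le hle
  rwa [Ideal.absNorm_span_natCast, NumberField.RingOfIntegers.rank, E.deg] at this

/-- The sum over `Q` as a sum over pairs `(PP f Q, aa f Q)`. -/
theorem QS.sum_le (E : Dat d K) {N : Submodule ℤ K} (hN : IsLat N) (𝒯 : Finset (Submodule ℤ K))
    (h𝒯 : ∀ Q ∈ 𝒯, Q ∈ QS N) (F : Submodule ℤ K → ℕ → ℝ) (hF : ∀ P k, 0 ≤ F P k)
    (𝒦 : Submodule ℤ K → Finset ℕ)
    (h𝒦 : ∀ Q ∈ 𝒯, Ideal.absNorm (aa (ff N) Q) ∈ 𝒦 (PP (ff N) Q)) :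
    ∑ Q ∈ 𝒯, F (PP (ff N) Q) (Ideal.absNorm (aa (ff N) Q)) ≤
      ∑ P ∈ 𝒯.image (PP (ff N)), ∑ k ∈ 𝒦 P, rG K (ff N) k * F P k := by
  have hf := hN.ff_ne_zero E
  rw [← Finset.sum_fiberwise_of_maps_to (s := 𝒯) (t := 𝒯.image (PP (ff N))) (g := PP (ff N))
    (fun Q hQ => Finset.mem_image_of_mem _ hQ)]
  refine Finset.sum_le_sum fun P _ => ?_
  have hinj : Set.InjOn (aa (K := K) (ff N))
      ((𝒯.filter fun Q => PP (ff N) Q = P : Finset (Submodule ℤ K)) : Set (Submodule ℤ K)) := by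
    intro Q hQ Q' hQ' h
    rw [Finset.mem_coe, Finset.mem_filter] at hQ hQ'
    rw [QS.eq_cut E hN (h𝒯 Q hQ.1), QS.eq_cut E hN (h𝒯 Q' hQ'.1), hQ.2, hQ'.2, h]
  have h1 : ∑ Q ∈ 𝒯.filter (fun Q => PP (ff N) Q = P),
      F (PP (ff N) Q) (Ideal.absNorm (aa (ff N) Q)) =
      ∑ I ∈ (𝒯.filter fun Q => PP (ff N) Q = P).image (aa (ff N)), F P (Ideal.absNorm I) := by
    rw [Finset.sum_image hinj]
    refine Finset.sum_congr rfl fun Q hQ => ?_
    rw [(Finset.mem_filter.1 hQ).2]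
  rw [h1]
  refine sum_cop_le (ff N) _ ?_ (F P) (hF P) (𝒦 P) ?_
  · intro I hI
    obtain ⟨Q, hQ, rfl⟩ := Finset.mem_image.1 hI
    exact (h𝒯 Q (Finset.mem_filter.1 hQ).1).1.1.cop_aa hf
  · intro I hI
    obtain ⟨Q, hQ, rfl⟩ := Finset.mem_image.1 hI
    rw [← (Finset.mem_filter.1 hQ).2]
    exact h𝒦 Q (Finset.mem_filter.1 hQ).1

end Crest.Agent.R014

end
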