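import Crest.Agent.R014.IDefs

/-! # Row 14: periodic sets and the sieve in a cube -/

set_option autoImplicit false

noncomputable section

open Finset Filter Topology
open scoped Classical

namespace Crest.Agent.R014

variable {d : ℕ}

theorem isv_mem_cube {m0 m : Fin d → ℤ} {Q : ℕ} :
    m ∈ cube m0 Q ↔ ∀ i, m0 i ≤ m i ∧ m i < m0 i + Q := by
  simp [cube]

theorem isv_card_cube (m0 : Fin d → ℤ) (Q : ℕ) : #(cube m0 Q) = Q ^ d := by
  simp [cube]

/-- coordinatewise reduction -/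
def isv_red (q : ℕ) (m : Fin d → ℤ) : Fin d → ℤ := fun i => m i % q

theorem isv_red_mem {q : ℕ} (hq : 0 < q) (m : Fin d → ℤ) : isv_red q m ∈ cube (0 : Fin d → ℤ) q := by
  have hq' : (0 : ℤ) < q := by exact_mod_cast hq
  rw [isv_mem_cube]
  intro i
  simp only [isv_red, Pi.zero_apply, zero_add]
  exact ⟨Int.emod_nonneg _ hq'.ne', Int.emod_lt_of_pos _ hq'⟩

theorem isv_red_eq (q : ℕ) (m : Fin d → ℤ) :
    m = isv_red q m + (q : ℤ) • fun i => m i / q := by
  funext i
  simp [isv_red, Int.emod_add_mul_ediv]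

theorem Per.isv_red {q : ℕ} {A : Set (Fin d → ℤ)} (h : Per q A) (m : Fin d → ℤ) :
    isv_red q m ∈ A ↔ m ∈ A := by
  conv_rhs => rw [isv_red_eq q m]
  exact (h _ _).symm

theorem isv_red_of_mem {q : ℕ} {r : Fin d → ℤ} (hr : r ∈ cube (0 : Fin d → ℤ) q) : isv_red q r = r := by
  funext i
  have := isv_mem_cube.1 hr i
  simp only [Pi.zero_apply, zero_add] at this
  exact Int.emod_eq_of_lt this.1 this.2

theorem isv_card_one {q : ℕ} (hq : 0 < q) (a v : ℤ) (c : ℕ) :
    #((Ico a (a + ((q * c : ℕ) : ℤ))).filter fun x => x ≡ v [ZMOD q]) = c := by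
  have hq' : (0 : ℤ) < q := by exact_mod_cast hq
  have hq'' : (q : ℚ) ≠ 0 := by exact_mod_cast hq.ne'
  have h := Int.Ico_filter_modEq_card a (a + ((q * c : ℕ) : ℤ)) hq' v
  have e : (((a + ((q * c : ℕ) : ℤ) : ℤ) : ℚ) - v) / ((q : ℤ) : ℚ) =
      ((a : ℚ) - v) / ((q : ℤ) : ℚ) + (c : ℤ) := by
    push_cast
    field_simp
    ring
  rw [e, Int.ceil_add_intCast, add_sub_cancel_left, max_eq_left (by positivity)] at h
  exact_mod_cast h

theorem isv_card_fiber {q : ℕ} (hq : 0 < q) (m0 : Fin d → ℤ) (c : ℕ) {r : Fin d → ℤ}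
    (hr : r ∈ cube (0 : Fin d → ℤ) q) :
    #((cube m0 (q * c)).filter fun m => isv_red q m = r) = c ^ d := by
  have e : ((cube m0 (q * c)).filter fun m => isv_red q m = r) = Fintype.piFinset fun i =>
      (Ico (m0 i) (m0 i + ((q * c : ℕ) : ℤ))).filter fun x => x ≡ r i [ZMOD q] := by
    ext m
    rw [mem_filter, isv_mem_cube, Fintype.mem_piFinset]
    simp only [mem_filter, mem_Ico]
    rw [forall_and (p := fun i => m0 i ≤ m i ∧ m i < m0 i + ((q * c : ℕ) : ℤ))]
    refine and_congr_right fun _ => ?_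
    conv_lhs => rw [← isv_red_of_mem hr]
    rw [funext_iff]
    rfl
  rw [e, Fintype.card_piFinset]
  simp only [isv_card_one hq]
  simp

theorem isv_card_cube_mul {q : ℕ} (hq : 0 < q) {A : Set (Fin d → ℤ)} (h : Per q A) (m0 : Fin d → ℤ)
    (c : ℕ) : #((cube m0 (q * c)).filter (· ∈ A)) = #((cube 0 q).filter (· ∈ A)) * c ^ d := by
  rw [card_eq_sum_card_fiberwise (f := isv_red q) (t := (cube 0 q).filter (· ∈ A))
    (fun m hm => by
      rw [mem_coe, mem_filter] at hm ⊢
      exact ⟨isv_red_mem hq m, (h.isv_red m).2 hm.2⟩)]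
  refine (sum_congr rfl fun r hr => ?_).trans (sum_const_nat (m := c ^ d) fun _ _ => rfl)
  rw [mem_filter] at hr
  rw [← isv_card_fiber hq m0 c hr.1, filter_filter]
  congr 1
  refine filter_congr fun m _ => ⟨fun H => H.2, fun H => ⟨?_, H⟩⟩
  rw [← h.isv_red, H]
  exact hr.2

theorem isv_dens_eq (q : ℕ) (A : Set (Fin d → ℤ)) :
    dens q A = (∑ m ∈ cube (0 : Fin d → ℤ) q, if m ∈ A then (1 : ℝ) else 0) / (q : ℝ) ^ d := by
  rw [dens, sum_boole]

theorem dens_nonneg (q : ℕ) (A : Set (Fin d → ℤ)) : 0 ≤ dens q A := by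
  unfold dens; positivity

theorem dens_le_one (q : ℕ) (hq : 0 < q) (A : Set (Fin d → ℤ)) : dens q A ≤ 1 := by
  have hq' : (0 : ℝ) < q := by exact_mod_cast hq
  rw [dens, div_le_one (by positivity)]
  have : #((cube (0 : Fin d → ℤ) q).filter (· ∈ A)) ≤ q ^ d :=
    (card_filter_le _ _).trans (isv_card_cube _ _).le
  exact_mod_cast this

theorem Per.mul {q : ℕ} {A : Set (Fin d → ℤ)} (h : Per q A) (c : ℕ) : Per (q * c) A := by
  intro m k
  have := h m ((c : ℤ) • k)
  rwa [smul_smul, ← Nat.cast_mul] at this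

/-- A cube whose side is a multiple of the period. -/
theorem card_cube_mul {q : ℕ} (hq : 0 < q) {A : Set (Fin d → ℤ)} (h : Per q A) (m0 : Fin d → ℤ)
    (c : ℕ) : (#((cube m0 (q * c)).filter (· ∈ A)) : ℝ) = dens q A * ((q * c : ℕ) : ℝ) ^ d := by
  have hq' : (0 : ℝ) < q := by exact_mod_cast hq
  rw [isv_card_cube_mul hq h, dens]
  push_cast
  rw [mul_pow]
  field_simp

theorem dens_mul {q : ℕ} (hq : 0 < q) {A : Set (Fin d → ℤ)} (h : Per q A) {c : ℕ} (hc : 0 < c) :
    dens (q * c) A = dens q A := by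
  have hq' : (0 : ℝ) < ((q * c : ℕ) : ℝ) := by exact_mod_cast Nat.mul_pos hq hc
  conv_lhs => rw [dens, card_cube_mul hq h]
  field_simp

theorem card_cube {q : ℕ} (hq : 0 < q) {A : Set (Fin d → ℤ)} (h : Per q A) (m0 : Fin d → ℤ)
    (Q : ℕ) : |(#((cube m0 Q).filter (· ∈ A)) : ℝ) - dens q A * (Q : ℝ) ^ d| ≤
      d * q * (Q : ℝ) ^ (d - 1) := by
  set c := Q / q with hc
  have h1 : q * c ≤ Q := Nat.mul_div_le Q q
  have h2 : Q ≤ q * c + q := by
    have := Nat.div_add_mod Q q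
    have := Nat.mod_lt Q hq
    rw [hc]; omega
  have hsub : cube m0 (q * c) ⊆ cube m0 Q := by
    intro m hm
    rw [isv_mem_cube] at hm ⊢
    intro i
    have : ((q * c : ℕ) : ℤ) ≤ Q := by exact_mod_cast h1
    exact ⟨(hm i).1, by linarith [(hm i).2]⟩
  have a1 : #((cube m0 (q * c)).filter (· ∈ A)) ≤ #((cube m0 Q).filter (· ∈ A)) :=
    card_le_card (filter_subset_filter _ hsub)
  have a2 : #((cube m0 Q).filter (· ∈ A)) + (q * c) ^ d ≤
      #((cube m0 (q * c)).filter (· ∈ A)) + Q ^ d := by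
    have b1 : #((cube m0 Q).filter (· ∈ A)) ≤
        #((cube m0 (q * c)).filter (· ∈ A)) + #(cube m0 Q \ cube m0 (q * c)) := by
      refine le_trans (card_le_card fun m hm => ?_) (card_union_le _ _)
      rw [mem_filter] at hm
      rw [mem_union, mem_filter, Finset.mem_sdiff]
      tauto
    have b2 := card_sdiff_add_card_eq_card hsub
    rw [isv_card_cube, isv_card_cube] at b2
    omega
  have a1' : (#((cube m0 (q * c)).filter (· ∈ A)) : ℝ) ≤ #((cube m0 Q).filter (· ∈ A)) := by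
    exact_mod_cast a1
  have a2' : (#((cube m0 Q).filter (· ∈ A)) : ℝ) + ((q * c : ℕ) : ℝ) ^ d ≤
      #((cube m0 (q * c)).filter (· ∈ A)) + (Q : ℝ) ^ d := by
    exact_mod_cast a2
  rw [card_cube_mul hq h] at a1' a2'
  have h1' : ((q * c : ℕ) : ℝ) ≤ Q := by exact_mod_cast h1
  have h2' : (Q : ℝ) ≤ ((q * c : ℕ) : ℝ) + q := by exact_mod_cast h2
  have h0 : (0 : ℝ) ≤ ((q * c : ℕ) : ℝ) := by positivity
  have a3 : ((q * c : ℕ) : ℝ) ^ d ≤ (Q : ℝ) ^ d := pow_le_pow_left₀ h0 h1' d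
  have a4 : (Q : ℝ) ^ d - ((q * c : ℕ) : ℝ) ^ d ≤ d * q * (Q : ℝ) ^ (d - 1) := by
    have := abs_pow_sub_pow_le (Q : ℝ) ((q * c : ℕ) : ℝ) d
    rw [abs_of_nonneg (sub_nonneg.2 a3), abs_of_nonneg (sub_nonneg.2 h1'), abs_of_nonneg h0,
      abs_of_nonneg (Nat.cast_nonneg Q), max_eq_left h1'] at this
    refine this.trans ?_
    rw [mul_comm (d : ℝ)]
    gcongr
    linarith
  have d0 := dens_nonneg q A
  have d1 := dens_le_one q hq A
  have e1 : 0 ≤ dens q A * ((Q : ℝ) ^ d - ((q * c : ℕ) : ℝ) ^ d) := mul_nonneg d0 (sub_nonneg.2 a3)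
  have e2 : 0 ≤ (1 - dens q A) * ((Q : ℝ) ^ d - ((q * c : ℕ) : ℝ) ^ d) :=
    mul_nonneg (sub_nonneg.2 d1) (sub_nonneg.2 a3)
  rw [abs_le]
  constructor <;> nlinarith

/-- Chinese remainder theorem. -/
theorem dens_inter {q q' : ℕ} (hq : 0 < q) (hq' : 0 < q') (hc : q.Coprime q')
    {A B : Set (Fin d → ℤ)} (hA : Per q A) (hB : Per q' B) :
    dens (q * q') (A ∩ B) = dens q A * dens q' B := by
  have key : #((cube (0 : Fin d → ℤ) (q * q')).filter (· ∈ A ∩ B)) =
      #((cube (0 : Fin d → ℤ) q).filter (· ∈ A)) * #((cube (0 : Fin d → ℤ) q').filter (· ∈ B)) := by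
    rw [← card_product]
    refine card_bij (fun m _ => (isv_red q m, isv_red q' m)) (fun m hm => ?_) (fun m hm m' hm' e => ?_)
      (fun r hr => ?_)
    · rw [mem_filter] at hm
      rw [mem_product, mem_filter, mem_filter]
      exact ⟨⟨isv_red_mem hq m, (hA.isv_red m).2 hm.2.1⟩, isv_red_mem hq' m, (hB.isv_red m).2 hm.2.2⟩
    · rw [mem_filter] at hm hm'
      rw [← isv_red_of_mem hm.1, ← isv_red_of_mem hm'.1]
      funext i
      have e1 : m i ≡ m' i [ZMOD q] := congrFun (congrArg Prod.fst e) i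
      have e2 : m i ≡ m' i [ZMOD q'] := congrFun (congrArg Prod.snd e) i
      have := (Int.modEq_and_modEq_iff_modEq_mul (m := q) (n := q') (by simpa using hc)).1 ⟨e1, e2⟩
      rw [← Nat.cast_mul] at this
      exact this
    · rw [mem_product, mem_filter, mem_filter] at hr
      obtain ⟨u, v, huv⟩ : IsCoprime (q : ℤ) q' := Nat.isCoprime_iff_coprime.2 hc
      set x : Fin d → ℤ := fun i => r.2 i * (u * q) + r.1 i * (v * q') with hx
      have e1 : isv_red q (isv_red (q * q') x) = r.1 := by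
        rw [← isv_red_of_mem hr.1.1]
        funext i
        simp only [isv_red]
        rw [Int.emod_emod_of_dvd _ (by push_cast; exact dvd_mul_right _ _)]
        refine (Int.modEq_iff_dvd.2 ⟨u * (r.1 i - r.2 i), ?_⟩)
        simp only [hx]
        linear_combination (-(r.1 i)) * huv
      have e2 : isv_red q' (isv_red (q * q') x) = r.2 := by
        rw [← isv_red_of_mem hr.2.1]
        funext i
        simp only [isv_red]
        rw [Int.emod_emod_of_dvd _ (by push_cast; exact dvd_mul_left _ _)]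
        refine (Int.modEq_iff_dvd.2 ⟨v * (r.2 i - r.1 i), ?_⟩)
        simp only [hx]
        linear_combination (-(r.2 i)) * huv
      refine ⟨isv_red (q * q') x, ?_, Prod.ext e1 e2⟩
      rw [mem_filter]
      refine ⟨isv_red_mem (Nat.mul_pos hq hq') x, ?_, ?_⟩
      · rw [← hA.isv_red, e1]; exact hr.1.2
      · rw [← hB.isv_red, e2]; exact hr.2.2
  unfold dens
  rw [div_mul_div_comm, ← mul_pow, ← Nat.cast_mul, ← Nat.cast_mul, ← key]
  congr!

/-- The density of a coset of a subgroup containing `q ℤ^d`. -/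
theorem dens_coset {q : ℕ} (hq : 0 < q) (H : AddSubgroup (Fin d → ℤ)) (hH : ∀ h, (q : ℤ) • h ∈ H)
    (m0 : Fin d → ℤ) : dens q {m | m - m0 ∈ H} = (H.index : ℝ)⁻¹ := by
  have hq' : (0 : ℝ) < q := by exact_mod_cast hq
  have hP : Per q {m | m - m0 ∈ H} := by
    intro m h
    simp only [Set.mem_ofPred_eq]
    rw [add_sub_right_comm]
    exact H.add_mem_cancel_right (hH h)
  have hsurj : ∀ x : (Fin d → ℤ) ⧸ H, ∃ m ∈ cube (0 : Fin d → ℤ) q, (m : (Fin d → ℤ) ⧸ H) = x := by
    intro x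
    obtain ⟨t, rfl⟩ := QuotientAddGroup.mk_surjective x
    refine ⟨isv_red q t, isv_red_mem hq t, QuotientAddGroup.eq.2 ?_⟩
    have : -isv_red q t + t = (q : ℤ) • fun i => t i / q := by
      conv_lhs => rw [isv_red_eq q t]
      rw [← isv_red_eq q t, neg_add_eq_iff_eq_add]
      exact isv_red_eq q t
    rw [this]; exact hH _
  have hfin : Finite ((Fin d → ℤ) ⧸ H) :=
    Finite.of_surjective (fun m : cube (0 : Fin d → ℤ) q => ((m : Fin d → ℤ) : (Fin d → ℤ) ⧸ H))
      fun x => by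
        obtain ⟨m, hm, e⟩ := hsurj x
        exact ⟨⟨m, hm⟩, e⟩
  let _ : Fintype ((Fin d → ℤ) ⧸ H) := Fintype.ofFinite _
  have hfib : ∀ x : (Fin d → ℤ) ⧸ H,
      (#((cube (0 : Fin d → ℤ) q).filter fun m : Fin d → ℤ => (m : (Fin d → ℤ) ⧸ H) = x) : ℝ) =
        dens q {m | m - m0 ∈ H} * (q : ℝ) ^ d := by
    intro x
    obtain ⟨t, rfl⟩ := QuotientAddGroup.mk_surjective x
    have := card_cube_mul hq hP (m0 - t) 1
    rw [mul_one] at this
    rw [← this]
    congr 1
    refine card_nbij' (fun m => m + (m0 - t)) (fun m => m - (m0 - t)) (fun m hm => ?_) (fun m hm => ?_)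
      (fun m _ => by simp) (fun m _ => by simp)
    · rw [mem_coe, mem_filter, isv_mem_cube] at hm ⊢
      refine ⟨fun i => ?_, ?_⟩
      · have := hm.1 i
        simp only [Pi.zero_apply, Pi.add_apply] at this ⊢
        constructor <;> linarith [this.1, this.2]
      · have := QuotientAddGroup.eq.1 hm.2.symm
        simp only [Set.mem_ofPred_eq]
        convert this using 1
        abel
    · rw [mem_coe, mem_filter, isv_mem_cube] at hm ⊢
      refine ⟨fun i => ?_, ?_⟩
      · have := hm.1 i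
        simp only [Pi.zero_apply, Pi.sub_apply] at this ⊢
        constructor <;> linarith [this.1, this.2]
      · refine (QuotientAddGroup.eq.2 ?_).symm
        have := hm.2
        simp only [Set.mem_ofPred_eq] at this
        convert this using 1
        dsimp only
        ring
  have hsum := card_eq_sum_card_fiberwise (f := fun m : Fin d → ℤ => (m : (Fin d → ℤ) ⧸ H))
    (s := cube (0 : Fin d → ℤ) q) (t := univ) (fun _ _ => mem_coe.2 (mem_univ _))
  have hsum' : ((q : ℝ)) ^ d = (H.index : ℝ) * (dens q {m | m - m0 ∈ H} * (q : ℝ) ^ d) := by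
    have := congrArg (Nat.cast : ℕ → ℝ) hsum
    rw [isv_card_cube] at this
    push_cast at this
    refine this.trans ((sum_congr rfl fun x _ => hfib x).trans ?_)
    rw [sum_const, card_univ, nsmul_eq_mul, AddSubgroup.index, Nat.card_eq_fintype_card]
  have hqd : (0 : ℝ) < (q : ℝ) ^ d := by positivity
  refine eq_inv_of_mul_eq_one_right ?_
  have : (H.index : ℝ) * dens q {m | m - m0 ∈ H} * (q : ℝ) ^ d = 1 * (q : ℝ) ^ d := by
    rw [one_mul, mul_assoc, ← hsum']
  exact mul_right_cancel₀ hqd.ne' this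

/-- Bonferroni's inequality. -/
theorem dens_union_ge {ι : Type*} (I : Finset ι) (q : ℕ) (A : ι → Set (Fin d → ℤ)) :
    ∑ i ∈ I, dens q (A i) - ∑ x ∈ I.offDiag, dens q (A x.1 ∩ A x.2) ≤ dens q {m | ∃ i ∈ I, m ∈ A i} := by
  simp only [isv_dens_eq]
  rw [← sum_div, ← sum_div, ← sub_div]
  refine div_le_div_of_nonneg_right ?_ (by positivity)
  rw [sum_comm, sum_comm (s := I.offDiag), ← sum_sub_distrib]
  refine sum_le_sum fun m _ => ?_
  have e : (I.offDiag.filter fun x => m ∈ A x.1 ∧ m ∈ A x.2) =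
      (I.filter fun i => m ∈ A i).offDiag := by
    ext x
    simp only [mem_filter, mem_offDiag]
    tauto
  simp only [Set.mem_inter_iff, sum_boole]
  rw [e, offDiag_card]
  set k := #(I.filter fun i => m ∈ A i) with hk
  have hle : k ≤ k * k := Nat.le_mul_self k
  rw [Nat.cast_sub hle]
  push_cast
  split_ifs with hm
  · nlinarith [sq_nonneg ((k : ℝ) - 1)]
  · have : k = 0 := by
      rw [hk, card_eq_zero, filter_eq_empty_iff]
      intro i hi hmi
      exact hm ⟨i, hi, hmi⟩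
    simp [this]

theorem dens_union_le {ι : Type*} (I : Finset ι) (q : ℕ) (A : ι → Set (Fin d → ℤ)) :
    dens q {m | ∃ i ∈ I, m ∈ A i} ≤ ∑ i ∈ I, dens q (A i) := by
  simp only [isv_dens_eq]
  rw [← sum_div]
  refine div_le_div_of_nonneg_right ?_ (by positivity)
  rw [sum_comm]
  refine sum_le_sum fun m _ => ?_
  split_ifs with hm
  · obtain ⟨i, hi, hmi⟩ := hm
    refine le_trans ?_ (single_le_sum (f := fun i => if m ∈ A i then (1 : ℝ) else 0)
      (fun j _ => by positivity) hi)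
    simp [hmi]
  · positivity

end Crest.Agent.R014

end
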