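import Crest.Agent.R014.ASB
import Crest.Agent.R014.ALoc2
import Crest.Agent.R014.ISv

/-! # Row 14: densities on the trace slices -/

set_option autoImplicit false

noncomputable section

open MeasureTheory Filter Topology Set
open scoped ENNReal NumberField Classical
open Crest.NumberTheoryR.Packets

namespace Crest.Agent.R014

universe u

variable {d : ℕ} {K : Type u} [Field K] [NumberField K]

/-- The points of the slice divisible by `I`. -/
def slc (f : ℕ) (P : Submodule ℤ K) (ν0 : K) (b : Fin d → K) (t : ℤ) (I : Ideal (𝓞 K)) :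
    Set (Fin d → ℤ) := {m | pt ν0 b t m ∈ cut f P I}

/-- The coordinates map. -/
def adens_Phi (ν0 : K) (b : Fin d → K) : ℤ × (Fin d → ℤ) →+ K where
  toFun x := pt ν0 b x.1 x.2
  map_zero' := by simp [pt]
  map_add' x y := by
    simp only [pt, Prod.fst_add, Prod.snd_add, Pi.add_apply, add_smul, Finset.sum_add_distrib]
    abel

theorem adens_Phi_apply (ν0 : K) (b : Fin d → K) (t : ℤ) (m : Fin d → ℤ) :
    adens_Phi ν0 b (t, m) = pt ν0 b t m := rfl

theorem adens_index {G : Type*} [AddCommGroup G] (C : AddSubgroup (ℤ × G)) :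
    C.index = (C.comap (AddMonoidHom.inr ℤ G)).index * (C.map (AddMonoidHom.fst ℤ G)).index := by
  rw [AddSubgroup.index_map, AddSubgroup.index_comap,
    (AddMonoidHom.range_eq_top (f := AddMonoidHom.fst ℤ G)).2 Prod.fst_surjective, AddSubgroup.index_top, mul_one,
    ← AddSubgroup.relIndex_mul_index (le_sup_left : C ≤ C ⊔ (AddMonoidHom.fst ℤ G).ker),
    AddSubgroup.relIndex_sup_left]
  congr 2
  ext x
  obtain ⟨a, c⟩ := x
  simp [AddSubgroup.mem_prod, eq_comm]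

theorem adens_pow_dvd {g p n : ℕ} (hp : p.Prime) (hn : 3 ≤ n) (h : g ^ n ∣ p ^ 2) : g = 1 := by
  by_contra hg
  obtain ⟨r, hr, hrg⟩ := Nat.exists_prime_and_dvd hg
  have h1 : r ^ n ∣ p ^ 2 := (pow_dvd_pow_of_dvd hrg n).trans h
  have h2 : r = p := (Nat.prime_dvd_prime_iff_eq hr hp).1
    (hr.dvd_of_dvd_pow ((dvd_pow_self r (by omega)).trans h1))
  subst h2
  have := (Nat.pow_dvd_pow_iff_le_right hr.one_lt).1 h1
  omega

theorem adens_cop_mul {f : ℕ} {I J : Ideal (𝓞 K)} (hI : Cop f I) (hJ : Cop f J) : Cop f (I * J) :=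
  ⟨mul_ne_zero hI.1 hJ.1, by rw [map_mul]; exact Nat.Coprime.mul_left hI.2 hJ.2⟩

variable {E : Dat d K} {N P : Submodule ℤ K} {r : ℝ} {ν0 : K} {b : Fin d → K}

theorem adens_smul_mem (hN : IsLat N) (hP : P ∈ PS N) (I : Ideal (𝓞 K))
    {q : ℕ} (hq : (q : 𝓞 K) ∈ I) {x : K} (hx : x ∈ P) : (q : ℤ) • x ∈ cut (ff N) P I := by
  refine ⟨P.smul_mem _ hx, 1, ?_⟩
  have h1 : IsIntegral ℤ ((ff N : K) * x) := mem_OK.1 (hN.mult_le_OK (ff_mul_mem (hP.1.2 hx)))
  refine mem_idL.2 ⟨(q : 𝓞 K) * ⟨_, h1⟩, I.mul_mem_right _ hq, ?_⟩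
  simp only [map_mul, map_natCast, pow_one, zsmul_eq_mul, Int.cast_natCast]
  change (q : K) * ((ff N : K) * x) = _
  ring

theorem per_slc (hN : IsLat N) (hP : P ∈ PS N) (h : IsSB E P r ν0 b) (t : ℤ) (I : Ideal (𝓞 K))
    {q : ℕ} (hq : (q : 𝓞 K) ∈ I) : Per q (slc (ff N) P ν0 b t I) := by
  intro m k
  have h1 : pt ν0 b t (m + (q : ℤ) • k) = pt ν0 b t m + (q : ℤ) • pt ν0 b 0 k := by
    rw [← adens_Phi_apply, ← adens_Phi_apply, ← adens_Phi_apply, ← map_zsmul, ← map_add]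
    simp
  simp only [slc, mem_ofPred_eq, h1]
  exact Submodule.add_mem_iff_left _ (adens_smul_mem hN hP I hq (h.mem 0 k))

/-- The traces of `C = cut f P I` form `g ℤ`, `[P : C] = g [ℤ^d : H]` with `H = {m | pt 0 m ∈ C}`;
the slice is empty or a coset of `H` (`dens_coset`), and nonempty if `g = 1`. -/
theorem dens_slc (hN : IsLat N) (hP : P ∈ PS N) (h : IsSB E P r ν0 b) (t : ℤ) {I : Ideal (𝓞 K)}
    (hI : Cop (ff N) I) {q : ℕ} (hq0 : 0 < q) (hq : (q : 𝓞 K) ∈ I) :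
    ∃ g : ℕ, g ^ (d + 1) ∣ Ideal.absNorm I ∧
      dens q (slc (ff N) P ν0 b t I) ≤ g / (Ideal.absNorm I : ℝ) ∧
      (g = 1 → dens q (slc (ff N) P ν0 b t I) = (Ideal.absNorm I : ℝ)⁻¹) := by
  set C : AddSubgroup (ℤ × (Fin d → ℤ)) :=
    (cut (ff N) P I).toAddSubgroup.comap (adens_Phi ν0 b) with hC
  have hrange : (adens_Phi ν0 b).range = P.toAddSubgroup := by
    ext x
    constructor
    · rintro ⟨⟨t, m⟩, rfl⟩
      exact h.mem t m
    · intro hx
      obtain ⟨t, m, rfl⟩ := h.surj x hx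
      exact ⟨(t, m), rfl⟩
  have hidx : C.index = Ideal.absNorm I := by
    rw [hC, AddSubgroup.index_comap, hrange]
    exact (PS.index_cut E hN hP hI).2.1
  set H := C.comap (AddMonoidHom.inr ℤ (Fin d → ℤ)) with hH
  set T := C.map (AddMonoidHom.fst ℤ (Fin d → ℤ)) with hT
  have hmul : H.index * T.index = Ideal.absNorm I := by rw [← hidx, adens_index C]
  have hN0 : Ideal.absNorm I ≠ 0 := fun h0 => hI.1 (Ideal.absNorm_eq_zero_iff.1 h0)
  have hH0 : H.index ≠ 0 := fun h0 => hN0 (by rw [← hmul, h0, zero_mul])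
  have hT0 : T.index ≠ 0 := fun h0 => hN0 (by rw [← hmul, h0, mul_zero])
  have hqH : ∀ k : Fin d → ℤ, (q : ℤ) • k ∈ H := fun k => by
    change adens_Phi ν0 b (0, (q : ℤ) • k) ∈ cut (ff N) P I
    have : ((0 : ℤ), (q : ℤ) • k) = (q : ℤ) • ((0 : ℤ), k) := by simp
    rw [this, map_zsmul]
    exact adens_smul_mem hN hP I hq (h.mem 0 k)
  have hne : ∀ m0 ∈ slc (ff N) P ν0 b t I,
      dens q (slc (ff N) P ν0 b t I) = T.index / (Ideal.absNorm I : ℝ) := fun m0 hm0 => by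
    have e : slc (ff N) P ν0 b t I = {m | m - m0 ∈ H} := by
      ext m
      change adens_Phi ν0 b (t, m) ∈ cut (ff N) P I ↔ adens_Phi ν0 b (0, m - m0) ∈ cut (ff N) P I
      have : ((0 : ℤ), m - m0) = (t, m) - (t, m0) := by simp
      rw [this, map_sub]
      exact (Submodule.sub_mem_iff_left _ hm0).symm
    rw [e, dens_coset hq0 H hqH, ← hmul]
    have a1 : (H.index : ℝ) ≠ 0 := by exact_mod_cast hH0
    have a2 : (T.index : ℝ) ≠ 0 := by exact_mod_cast hT0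
    push_cast
    field_simp
  refine ⟨T.index, ?_, ?_, fun h1 => ?_⟩
  · refine PS.trace_cut E hN hP ⟨ν0, ?_, h.tr0⟩ hI fun x hx => ?_
    · simpa [pt] using h.mem 1 0
    · obtain ⟨s, m, rfl⟩ := h.surj x hx.1
      have hs : s ∈ T := ⟨(s, m), hx, rfl⟩
      obtain ⟨a, ha⟩ := Int.subgroup_cyclic T
      rw [← AddSubgroup.zmultiples_eq_closure] at ha
      rw [ha] at hs
      rw [ha, Int.index_zmultiples, h.tr_pt]
      obtain ⟨k, hk⟩ := Int.natAbs_dvd.2 (Int.mem_zmultiples_iff.1 hs)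
      exact ⟨k, by rw [hk]; push_cast; simp⟩
  · rcases (slc (ff N) P ν0 b t I).eq_empty_or_nonempty with h0 | ⟨m0, hm0⟩
    · rw [h0]
      simp only [dens, mem_empty_iff_false, Finset.filter_false, Finset.card_empty,
        Nat.cast_zero, zero_div]
      positivity
    · exact (hne m0 hm0).le
  · have ht : t ∈ T := by rw [AddSubgroup.index_eq_one.1 h1]; trivial
    obtain ⟨⟨s, m⟩, hx, rfl⟩ := ht
    rw [hne m hx, h1]
    simp

theorem slc_inter (hN : IsLat N) (hP : P ∈ PS N) (h : IsSB E P r ν0 b) (t : ℤ) {I J : Ideal (𝓞 K)}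
    (hI : Cop (ff N) I) (hJ : Cop (ff N) J) (hIJ : IsCoprime I J) :
    slc (ff N) P ν0 b t I ∩ slc (ff N) P ν0 b t J = slc (ff N) P ν0 b t (I * J) := by
  ext m
  simp only [slc, mem_inter_iff, mem_ofPred_eq]
  rw [PS.mem_cut_iff E hN hP hI (h.mem t m), PS.mem_cut_iff E hN hP hJ (h.mem t m),
    PS.mem_cut_iff E hN hP (adens_cop_mul hI hJ) (h.mem t m), ← le_inf_iff,
    Ideal.mul_eq_inf_of_isCoprime hIJ]

/-- The points divisible by an ideal of norm `p`. -/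
def slcP (f : ℕ) (P : Submodule ℤ K) (ν0 : K) (b : Fin d → K) (t : ℤ) (p : ℕ) : Set (Fin d → ℤ) :=
  {m | ∃ I : Ideal (𝓞 K), Ideal.absNorm I = p ∧ m ∈ slc f P ν0 b t I}

/-- Ideals of norm `p` are maximal and contain `p`; `dens_union_ge`, `dens_union_le`, `dens_slc`
(for `I` and `I * J` we have `g = 1` since `g^{d+1} ∣ p²`, `d + 1 ≥ 3`). -/
theorem dens_slcP (hd : 2 ≤ d) (hN : IsLat N) (hP : P ∈ PS N) (h : IsSB E P r ν0 b) (t : ℤ) {p : ℕ}
    (hp : p.Prime) (hf : ¬ p ∣ ff N) : Per p (slcP (ff N) P ν0 b t p) ∧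
      dens p (slcP (ff N) P ν0 b t p) ≤ ((d + 1 : ℕ) : ℝ) / p ∧
      rG K (ff N) p / p - ((d + 1 : ℕ) : ℝ) ^ 2 / (p : ℝ) ^ 2 ≤ dens p (slcP (ff N) P ν0 b t p) := by
  obtain ⟨T, hT, hcard⟩ := exists_finset_norm (K := K) p
  have hpf : p.Coprime (ff N) := (Nat.Prime.coprime_iff_not_dvd hp).2 hf
  have hne : ∀ I ∈ T, I ≠ ⊥ := fun I hI h0 => by
    have := (hT I).1 hI
    rw [h0, Ideal.absNorm_bot] at this
    exact hp.ne_zero this.symm
  have hcop : ∀ I ∈ T, Cop (ff N) I := fun I hI => ⟨hne I hI, by rw [(hT I).1 hI]; exact hpf⟩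
  have hmem : ∀ I ∈ T, (p : 𝓞 K) ∈ I := fun I hI => by
    rw [← (hT I).1 hI]; exact Ideal.absNorm_mem I
  have hmax : ∀ I ∈ T, I.IsMaximal := fun I hI =>
    (Ideal.isPrime_of_irreducible_absNorm (by rw [(hT I).1 hI]; exact hp)).isMaximal (hne I hI)
  have e : slcP (ff N) P ν0 b t p = {m | ∃ I ∈ T, m ∈ slc (ff N) P ν0 b t I} := by
    ext m
    simp only [slcP, mem_ofPred_eq, hT]
  have h1 : ∀ I ∈ T, dens p (slc (ff N) P ν0 b t I) = (p : ℝ)⁻¹ := fun I hI => by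
    obtain ⟨g, hg, -, hg1⟩ := dens_slc hN hP h t (hcop I hI) hp.pos (hmem I hI)
    rw [(hT I).1 hI] at hg hg1
    exact hg1 (adens_pow_dvd hp (by omega) (hg.trans (dvd_pow_self p two_ne_zero)))
  have h2 : ∀ x ∈ T.offDiag, dens p (slc (ff N) P ν0 b t x.1 ∩ slc (ff N) P ν0 b t x.2) =
      ((p : ℝ) ^ 2)⁻¹ := fun x hx => by
    obtain ⟨a1, a2, a3⟩ := Finset.mem_offDiag.1 hx
    have hc : IsCoprime x.1 x.2 :=
      Ideal.isCoprime_iff_sup_eq.2 ((hmax _ a1).coprime_of_ne (hmax _ a2) a3)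
    rw [slc_inter hN hP h t (hcop _ a1) (hcop _ a2) hc]
    have hm : (p : 𝓞 K) ∈ x.1 * x.2 := by
      rw [Ideal.mul_eq_inf_of_isCoprime hc]; exact ⟨hmem _ a1, hmem _ a2⟩
    obtain ⟨g, hg, -, hg1⟩ := dens_slc hN hP h t (adens_cop_mul (hcop _ a1) (hcop _ a2)) hp.pos hm
    rw [map_mul, (hT _).1 a1, (hT _).1 a2, ← sq] at hg hg1
    rw [hg1 (adens_pow_dvd hp (by omega) hg)]
    push_cast
    rfl
  have hle : (T.card : ℝ) ≤ ((d + 1 : ℕ) : ℝ) := by
    rw [hcard]; exact_mod_cast (rI_pow_le E.deg hp 0).1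
  have hp0 : (0 : ℝ) < p := by exact_mod_cast hp.pos
  refine ⟨fun m k => ?_, ?_, ?_⟩
  · rw [e]
    exact exists_congr fun I => and_congr_right fun hI => per_slc hN hP h t I (hmem I hI) m k
  · rw [e]
    refine (dens_union_le T p _).trans ?_
    rw [Finset.sum_congr rfl h1, Finset.sum_const, nsmul_eq_mul, div_eq_mul_inv]
    gcongr
  · rw [e]
    refine le_trans ?_ (dens_union_ge T p _)
    rw [Finset.sum_congr rfl h1, Finset.sum_congr rfl h2, Finset.sum_const, Finset.sum_const,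
      nsmul_eq_mul, nsmul_eq_mul, rG, if_pos hpf, ← hcard, div_eq_mul_inv, div_eq_mul_inv]
    have : (T.offDiag.card : ℝ) ≤ ((d + 1 : ℕ) : ℝ) ^ 2 := by
      have a : T.offDiag.card ≤ T.card * T.card := by rw [Finset.offDiag_card]; omega
      calc (T.offDiag.card : ℝ) ≤ (T.card : ℝ) * T.card := by exact_mod_cast a
        _ ≤ _ := by rw [sq]; gcongr
    gcongr

end Crest.Agent.R014

end
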