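import Crest.Agent.R014.HHecke1
import Crest.Agent.GQ.CHecke

/-! # R014 HHecke: continuation with explicit growth, totally real case -/

set_option autoImplicit false

noncomputable section

open NumberField Complex MeasureTheory
open scoped nonZeroDivisors

namespace Crest.Agent.R014.HR

open GC

theorem hh2_gamR (F : Type) [Field F] [NumberField F] :
    0 ≤ gamR F (2 / 2) ∧ gamR F (2 / 2) ≤ 1 := by
  have hπ := Real.pi_gt_three
  rw [div_self two_ne_zero, gamR, Real.Gamma_one, Real.rpow_neg_one]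
  refine ⟨by positivity, pow_le_one₀ (by positivity) ?_⟩
  have : Real.pi⁻¹ ≤ 1 := inv_le_one_of_one_le₀ (by linarith)
  linarith

theorem hecke : ∃ C : ℝ, 0 < C ∧ ∀ (F : Type) [Field F] [NumberField F] [IsTotallyReal F]
    (ψ : ℕ → ℂ) (e : ℕ), Psi ψ → e ≤ 1 → ψ 2 = (-1) ^ e → ∃ Φ : ℂ → ℂ, Differentiable ℂ Φ ∧
      (∀ s : ℂ, 1 < s.re → Φ s = (s - 1) * ZZ F ψ s) ∧
      (∀ s : ℂ, 0 ≤ s.re → s.re ≤ 4 → ‖Φ s‖ ≤ Real.exp (C * BF F * (1 + |s.im|))) ∧
      (e = 0 → ψ = chi0 → Φ 1 ≠ 0) := by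
  obtain ⟨C₁, hC₁, hΓ⟩ := R017.f1_inv_Gamma 4
  have hπ := Real.pi_gt_three
  refine ⟨2 * Real.pi ^ (4 : ℝ) * C₁ + 59, by positivity, fun F _ _ _ ψ e hψ he h2e => ?_⟩
  obtain ⟨𝒜, h𝒜, hcl, hdu⟩ := exists_reps (F := F)
  obtain ⟨φ, hφ⟩ := exists_PU (F := F)
  obtain ⟨κ, hκ0, hκ⟩ := exists_slab hφ
  have hc0 : 0 < cR F := cR_pos
  have he0 : (0 : ℝ) ≤ e := Nat.cast_nonneg e
  have he1 : (e : ℝ) ≤ 1 := by exact_mod_cast he
  have hre : ∀ s : ℂ, ((s + e) / 2).re = (s.re + e) / 2 := fun s => by simp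
  have him : ∀ s : ℂ, ((s + e) / 2).im = s.im / 2 := fun s => by simp
  have hex : ∀ a : Ideal (𝓞 F), ∃ (S : ℂ) (Λ : ℂ → ℂ), a ∈ 𝒜 → (‖S‖ ≤ 1 ∧
      (e = 0 → ψ = chi0 → 0 < S.re) ∧ Differentiable ℂ Λ ∧
      (∀ s : ℂ, 1 < s.re → Λ s + κ * S / (cR F * (s - 1)) =
        gam F ((s + e) / 2) * Zc (a : FI F) (fun J => ψ (Ideal.absNorm J)) s) ∧
      ∀ s : ℂ, 0 ≤ s.re → s.re ≤ 4 → ‖Λ s‖ ≤
        Real.exp (4 * rc F) * gamR F (4 / 2) * Zr (a : FI F) 4 +
        Real.exp (2 * rc F) * (DD F * 3 ^ dg F) ^ 2 / cR F * gamR F (2 / 2) *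
          Zr (du ((Ideal.span {3} * a : Ideal (𝓞 F)) : FI F)) 2) := fun a => by
    by_cases ha : a ∈ 𝒜
    · obtain ⟨S, Λ, h⟩ := hecke_class hφ hκ hψ he h2e (h𝒜 a ha).1 (h𝒜 a ha).2
      exact ⟨S, Λ, fun _ => h⟩
    · exact ⟨0, 0, fun h => absurd h ha⟩
  choose S Λ hSΛ using hex
  refine ⟨fun s => ch2_G F ((s + e) / 2) *
    ((s - 1) * ∑ a ∈ 𝒜, Λ a s + κ * (∑ a ∈ 𝒜, S a) / cR F),
    ?_, fun s hs => ?_, fun s hs0 hs4 => ?_, fun he0 hψ0 => ?_⟩
  · refine (ch2_G_diff.comp (by fun_prop)).mul (((differentiable_id.sub_const 1).mul ?_).add_const _)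
    exact Differentiable.fun_sum fun a ha => (hSΛ a ha).2.2.1
  · have hs1 : s - 1 ≠ 0 := fun h => by
      rw [sub_eq_zero] at h
      rw [h] at hs
      simp at hs
    have hc : (cR F : ℂ) ≠ 0 := by exact_mod_cast hc0.ne'
    have h1 : (s - 1) * ∑ a ∈ 𝒜, Λ a s + κ * (∑ a ∈ 𝒜, S a) / cR F =
        (s - 1) * (gam F ((s + e) / 2) * ZZ F ψ s) := by
      rw [← ch2_sum_Zc hψ hcl hs, Finset.mul_sum, Finset.mul_sum, Finset.mul_sum, Finset.mul_sum,
        Finset.sum_div, ← Finset.sum_add_distrib]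
      refine Finset.sum_congr rfl fun a ha => ?_
      rw [← (hSΛ a ha).2.2.2.1 s hs]
      field_simp
    simp only
    rw [h1, mul_left_comm, ← mul_assoc (ch2_G F _), ch2_G_mul (by rw [hre]; linarith), one_mul]
  · have hdisj : ∀ J : Ideal (𝓞 F), ∀ a ∈ 𝒜, ∀ a' ∈ 𝒜, J ∈ Cl (a : FI F) → J ∈ Cl (a' : FI F) →
        a = a' := fun J a ha a' ha' h h' => by
      have hJ : J ≠ ⊥ := fun e => ch2_not_bot (h𝒜 a ha).1 (e ▸ h)
      exact (hcl J hJ).unique ⟨ha, h⟩ ⟨ha', h'⟩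
    have hZ : ∀ σ : ℝ, 2 ≤ σ → ∑ a ∈ 𝒜, Zr (a : FI F) σ ≤ 2 ^ dg F := fun σ hσ =>
      (ch2_sum_le 𝒜 (fun a => Cl (a : FI F)) hdisj (fun J => by positivity)
        (summable_absNorm (by linarith))).trans (tsum_absNorm_le hσ)
    have hZ' : ∑ a ∈ 𝒜, Zr (du ((Ideal.span {3} * a : Ideal (𝓞 F)) : FI F)) 2 ≤ 2 ^ dg F :=
      (ch2_sum_le 𝒜 (fun a => Cl (du ((Ideal.span {3} * a : Ideal (𝓞 F)) : FI F))) hdu
        (fun J => by positivity) (summable_absNorm (by norm_num))).trans (tsum_absNorm_le le_rfl)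
    obtain ⟨g20, g21⟩ := hh2_gamR F
    obtain ⟨g40, g41⟩ := ch2_gamR (F := F) (σ := 4 / 2) (Or.inl (by norm_num))
    have hD : 1 ≤ DD F := one_le_DD
    have hrn : rc F = dg F := rc_eq
    have hc1 : cR F ≤ DD F := Real.sqrt_le_self_iff.2 (Or.inr hD)
    have hc2 : 1 / cR F ≤ 1 := (div_le_one hc0).2 one_le_cR
    have b1 : ‖∑ a ∈ 𝒜, Λ a s‖ ≤ Real.exp (4 * dg F) * 2 ^ dg F +
        Real.exp (2 * dg F) * (DD F * 3 ^ dg F) ^ 2 * 2 ^ dg F := by
      refine (norm_sum_le _ _).trans ((Finset.sum_le_sum fun a ha =>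
        (hSΛ a ha).2.2.2.2 s hs0 hs4).trans ?_)
      rw [Finset.sum_add_distrib, ← Finset.mul_sum, ← Finset.mul_sum, div_eq_mul_one_div _ (cR F),
        hrn]
      refine add_le_add ?_ ?_
      · refine (mul_le_mul_of_nonneg_left (hZ 4 (by norm_num)) (by positivity)).trans ?_
        calc _ ≤ Real.exp (4 * dg F) * 1 * 2 ^ dg F := by gcongr
          _ = _ := by ring
      · refine (mul_le_mul_of_nonneg_left hZ' (by positivity)).trans ?_
        calc _ ≤ Real.exp (2 * dg F) * (DD F * 3 ^ dg F) ^ 2 * 1 * 1 * 2 ^ dg F := by gcongr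
          _ = _ := by ring
    have b2 : ‖(κ : ℂ) * (∑ a ∈ 𝒜, S a) / cR F‖ ≤ 8 * DD F * 2 ^ dg F := by
      have e1 : ‖(κ : ℂ) * (∑ a ∈ 𝒜, S a)‖ ≤ 8 * cR F ^ 2 * 2 ^ dg F := by
        rw [Finset.mul_sum]
        refine (norm_sum_le _ _).trans ((Finset.sum_le_sum (g := fun a : Ideal (𝓞 F) =>
          8 * cR F ^ 2 * gamR F (2 / 2) * Zr (a : FI F) 2) fun a ha => ?_).trans ?_)
        · rw [norm_mul, Complex.norm_real, Real.norm_of_nonneg hκ0.le]
          exact (mul_le_of_le_one_right hκ0.le (hSΛ a ha).1).trans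
            (kappa_le hφ hκ (FractionalIdeal.coeIdeal_ne_zero.2 (h𝒜 a ha).1))
        · rw [← Finset.mul_sum]
          refine (mul_le_mul_of_nonneg_left (hZ 2 le_rfl) (by positivity)).trans ?_
          calc _ ≤ 8 * cR F ^ 2 * 1 * 2 ^ dg F := by gcongr
            _ = _ := by ring
      rw [norm_div, Complex.norm_real, Real.norm_of_nonneg hc0.le, div_le_iff₀ hc0]
      refine e1.trans ?_
      calc 8 * cR F ^ 2 * 2 ^ dg F = 8 * cR F * 2 ^ dg F * cR F := by ring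
        _ ≤ _ := by gcongr
    have b3 : ‖s - 1‖ ≤ 4 * (1 + |s.im|) := by
      refine (Complex.norm_le_abs_re_add_abs_im _).trans ?_
      simp only [sub_re, one_re, sub_im, one_im, sub_zero]
      have : |s.re - 1| ≤ 4 := abs_le.2 ⟨by linarith, by linarith⟩
      linarith [abs_nonneg s.im]
    have hu : 1 ≤ 1 + |s.im| := by linarith [abs_nonneg s.im]
    simp only
    rw [norm_mul]
    refine ch2_num (D := DD F) (n := dg F) (r := rc F) (by positivity) one_le_BF hu hD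
      (le_add_of_nonneg_right (Real.log_nonneg hD)) (Nat.cast_nonneg _) (by exact_mod_cast hrn.le)
      (le_add_of_nonneg_left (Nat.cast_nonneg _)) (norm_nonneg _) ?_ ?_
    · rw [ch2_G, norm_pow, Real.exp_mul, Real.rpow_natCast]
      refine pow_le_pow_left₀ (norm_nonneg _) ?_ _
      rw [norm_mul, norm_mul, Complex.norm_two, Complex.norm_cpow_eq_rpow_re_of_pos Real.pi_pos,
        Real.exp_add]
      have a1 : Real.pi ^ ((s + e) / 2).re ≤ Real.pi ^ (4 : ℝ) :=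
        Real.rpow_le_rpow_of_exponent_le (by linarith) (by rw [hre]; linarith)
      have a2 := hΓ ((s + e) / 2) (by rw [hre]; exact abs_le.2 ⟨by linarith, by linarith⟩)
      have a3 : Real.exp (Real.pi * |((s + e) / 2).im|) ≤ Real.exp (4 * (1 + |s.im|)) :=
        Real.exp_le_exp.2 (by
          rw [him, abs_div, abs_two]
          nlinarith [Real.pi_lt_four, abs_nonneg s.im])
      calc 2 * Real.pi ^ ((s + e) / 2).re * ‖(Gamma ((s + e) / 2))⁻¹‖
          ≤ 2 * Real.pi ^ (4 : ℝ) * (C₁ * Real.exp (4 * (1 + |s.im|))) := by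
            gcongr
            exact a2.trans (mul_le_mul_of_nonneg_left a3 hC₁)
        _ = 2 * Real.pi ^ (4 : ℝ) * C₁ * Real.exp (4 * (1 + |s.im|)) := by ring
        _ ≤ _ := by
            gcongr
            linarith [Real.add_one_le_exp (2 * Real.pi ^ (4 : ℝ) * C₁)]
    · have hn0 : (0 : ℝ) ≤ dg F := Nat.cast_nonneg _
      have c1 : (18 : ℝ) ^ dg F ≤ Real.exp (18 * dg F) := by
        rw [Real.exp_mul, Real.rpow_natCast]
        exact pow_le_pow_left₀ (by norm_num) (by linarith [Real.add_one_le_exp (18 : ℝ)]) _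
      have c2 : (2 : ℝ) ^ dg F ≤ 18 ^ dg F := pow_le_pow_left₀ (by norm_num) (by norm_num) _
      have c0 : ∀ k : ℝ, k ≤ 18 → Real.exp (k * dg F) * 18 ^ dg F ≤ Real.exp (36 * dg F) :=
        fun k hk => by
          refine (mul_le_mul_of_nonneg_left c1 (Real.exp_pos _).le).trans ?_
          rw [← Real.exp_add, Real.exp_le_exp]
          nlinarith
      have c3 : Real.exp (2 * dg F) * (DD F * 3 ^ dg F) ^ 2 * 2 ^ dg F =
          DD F ^ 2 * (Real.exp (2 * dg F) * 18 ^ dg F) := by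
        rw [show (18 : ℝ) = 3 * 3 * 2 by norm_num, mul_pow, mul_pow, mul_pow]; ring
      have c4 : DD F ≤ DD F ^ 2 := by nlinarith
      have c5 : Real.exp (4 * dg F) * 2 ^ dg F ≤ DD F ^ 2 * Real.exp (36 * dg F) :=
        ((mul_le_mul_of_nonneg_left c2 (Real.exp_pos _).le).trans (c0 4 (by norm_num))).trans
          (le_mul_of_one_le_left (by positivity) (hD.trans c4))
      have c7 : (2 : ℝ) ^ dg F ≤ Real.exp (36 * dg F) := by
        have := c0 0 (by norm_num)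
        rw [zero_mul, Real.exp_zero, one_mul] at this
        exact c2.trans this
      have c6 : DD F * 2 ^ dg F ≤ DD F ^ 2 * Real.exp (36 * dg F) := by gcongr
      have c8 : DD F ^ 2 * (Real.exp (2 * dg F) * 18 ^ dg F) ≤ DD F ^ 2 * Real.exp (36 * dg F) :=
        mul_le_mul_of_nonneg_left (c0 2 (by norm_num)) (by positivity)
      rw [c3] at b1
      refine (norm_add_le _ _).trans ?_
      rw [norm_mul]
      calc _ ≤ 4 * (1 + |s.im|) * (DD F ^ 2 * Real.exp (36 * dg F) +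
              DD F ^ 2 * Real.exp (36 * dg F)) +
            8 * (1 + |s.im|) * (DD F ^ 2 * Real.exp (36 * dg F)) := by
            refine add_le_add (mul_le_mul b3 (b1.trans (by linarith)) (norm_nonneg _)
              (by positivity)) (b2.trans ?_)
            calc 8 * DD F * 2 ^ dg F = 8 * 1 * (DD F * 2 ^ dg F) := by ring
              _ ≤ _ := by gcongr
        _ = (1 + |s.im|) * 16 * DD F ^ 2 * Real.exp (36 * dg F) := by ring
  · obtain ⟨a, ⟨ha, -⟩, -⟩ := hcl ⊤ top_ne_bot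
    have h1 : 0 < (∑ a ∈ 𝒜, S a).re := by
      rw [Complex.re_sum]
      exact Finset.sum_pos (fun a ha => (hSΛ a ha).2.1 he0 hψ0) ⟨a, ha⟩
    have h2 : ∑ a ∈ 𝒜, S a ≠ 0 := fun h => by rw [h] at h1; simp at h1
    simp only [sub_self, zero_mul, zero_add]
    refine mul_ne_zero (left_ne_zero_of_mul_eq_one (ch2_G_mul (F := F) (s := (1 + e) / 2)
      (by rw [hre, one_re]; positivity))) ?_
    exact div_ne_zero (mul_ne_zero (by exact_mod_cast hκ0.ne') h2) (by exact_mod_cast hc0.ne')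

end Crest.Agent.R014.HR
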