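import Crest.Agent.GQ.CPrime
import Crest.Agent.R014.HHecke

/-! # R014 part H: the uniform prime ideal theorem for totally real fields -/

set_option autoImplicit false

noncomputable section

open NumberField Complex MeasureTheory

namespace Crest.Agent.R014

open GC

theorem HR.zf (F : Type) [Field F] [NumberField F] [IsTotallyReal F] : ZF F := by
  by_cases h : ∃ w : F, IsPrimitiveRoot w 3
  · obtain ⟨w, hw⟩ := h
    obtain ⟨G, hG, hG'⟩ := zf_omega F hw
    refine ⟨fun s => (s - 1) * G s, (differentiableOn_id.sub_const 1).mul hG, fun s hs => ?_⟩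
    simp only
    rw [mul_assoc, hG' s hs, mul_one]
  · obtain ⟨L, _, _, _, w, h2, hw, hF⟩ := exists_ext F h
    obtain ⟨G, hG, hG'⟩ := zf_omega L hw
    obtain ⟨C, -, hC⟩ := HR.hecke
    obtain ⟨Φ, hΦ, hΦ1, -, -⟩ := hC F chi3 1 psi_chi3 le_rfl (by simp [chi3])
    refine ⟨fun s => G s * Φ s, hG.mul hΦ.differentiableOn, fun s hs => ?_⟩
    have h3 := hG' s hs
    rw [ZZ_ext F L h2 hw hF hs] at h3
    simp only
    rw [hΦ1 s hs]
    linear_combination (s - 1) * h3


theorem prime_count_real : ∃ C : ℝ, 0 < C ∧ ∀ (F : Type) [Field F] [NumberField F]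
    [NumberField.IsTotallyReal F] (x : ℝ), 0 < x →
      Summable (fun p : ℕ => GC.bP F p * GC.wG (p / x)) ∧
      |∑' p : ℕ, GC.bP F p * GC.wG (p / x) - GC.cG * x| ≤ C * GC.BF F * x ^ GC.theta1 := by
  obtain ⟨C1, hC1, H1⟩ := HR.hecke
  obtain ⟨C2, hC2, H2⟩ := logDeriv_ZZ
  obtain ⟨C3, hC3, H3⟩ := pnt_abs
  refine ⟨C3 * (C1 + C2 + 1), by positivity, fun F _ _ _ x hx => ?_⟩
  obtain ⟨Φ, hΦ, hΦ1, hΦ2, hΦ3⟩ := H1 F chi0 0 psi_chi0 zero_le_one (by simp [chi0])
  obtain ⟨E, hE, hE1, hE2⟩ := H2 F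
  obtain ⟨H, hH, hH1⟩ := HR.zf F
  have hB : 1 ≤ BF F := one_le_BF
  have hn : (dg F : ℝ) ≤ BF F := by
    have := Real.log_nonneg (one_le_DD (F := F))
    unfold BF; linarith
  have hn0 : (0 : ℝ) ≤ dg F := Nat.cast_nonneg _
  have ht : (3 / 4 : ℝ) < GQ.theta0 := by unfold GQ.theta0; norm_num
  have hid : ∀ s : ℂ, GQ.theta0 < s.re → Φ s * H s = (s - 1) ^ 2 := by
    refine cpr_ext (f := fun s => Φ s * H s) (g := fun s => (s - 1) ^ 2)
      (hΦ.differentiableOn.mul hH) (by fun_prop) fun s hs => ?_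
    have := hH1 s hs
    rw [hΦ1 s hs]
    linear_combination (s - 1) * this
  have hne : ∀ s : ℂ, GQ.theta0 < s.re → Φ s ≠ 0 := by
    intro s hs h0
    have h1 := hid s hs
    rw [h0, zero_mul] at h1
    have h2 : s = 1 := sub_eq_zero.1 (pow_eq_zero_iff (two_ne_zero) |>.1 h1.symm)
    rw [h2] at h0
    exact hΦ3 rfl rfl h0
  have key := H3 Φ E (bP F) ((C1 + C2 + 1) * BF F) (by nlinarith) hΦ.differentiableOn hne
    (fun s hs hs' => (hΦ2 s (by linarith) hs').trans (Real.exp_le_exp.2 (by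
      have : 0 ≤ 1 + |s.im| := by positivity
      gcongr
      linarith)))
    (fun s hs => by
      have hs1 : 1 < s.re := by rw [hs]; norm_num
      rw [hΦ1 s hs1, norm_mul, ZZ_eq_exp psi_chi0 hs1, Complex.norm_exp]
      have h1 : 1 ≤ ‖s - 1‖ := by
        have := Complex.re_le_norm (s - 1)
        rw [Complex.sub_re, hs, Complex.one_re] at this
        linarith
      have h2 := norm_ell_le (F := F) psi_chi0 hs.ge
      have h3 := Complex.abs_re_le_norm (ell F chi0 s)
      have h4 := neg_abs_le (ell F chi0 s).re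
      refine le_trans ?_ (le_mul_of_one_le_left (Real.exp_pos _).le h1)
      refine Real.exp_le_exp.2 ?_
      nlinarith)
    (hE.mono fun s hs => lt_trans ht hs)
    (fun s hs => (hE1 s (lt_trans ht hs)).trans (by nlinarith))
    (by simp [bP]) (summable_bP F)
    (fun s hs => by
      have hs1 : 1 < s.re := by rw [hs]; norm_num
      have ho' : IsOpen {s : ℂ | 1 < s.re} := isOpen_lt continuous_const Complex.continuous_re
      have h1 : Φ =ᶠ[nhds s] fun s => (s - 1) * ZZ F chi0 s := by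
        filter_upwards [ho'.mem_nhds (show s ∈ {s : ℂ | 1 < s.re} from hs1)] with s hs
          using hΦ1 s hs
      have h2 := ((hasDerivAt_id s).sub_const 1).mul (hE2 s hs1)
      have h3 : HasDerivAt Φ _ s := h2.congr_of_eventuallyEq h1
      have h4 : s - 1 ≠ 0 := fun h => by
        rw [sub_eq_zero.1 h] at hs1; simp at hs1
      have h5 : ZZ F chi0 s ≠ 0 := by
        rw [ZZ_eq_exp psi_chi0 hs1]; exact Complex.exp_ne_zero _
      rw [h3.deriv, hΦ1 s hs1]
      simp only [id]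
      field_simp
      ring)
    x hx
  refine ⟨key.1, key.2.trans (le_of_eq (by ring))⟩

end Crest.Agent.R014
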