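import Crest.Agent.R014.IEqA

/-! # Row 14: Gaussian deconvolution -/

set_option autoImplicit false

noncomputable section

open Finset Filter Topology
open scoped Classical

namespace Crest.Agent.R014

/-- The weight of a prime. -/
def ieqb_w (a : ℕ → ℝ) (p : ℕ) : ℝ := if p.Prime then a p * (Real.log p / p) else 0

/-- The smoothed prime sum. -/
def ieqb_K (a : ℕ → ℝ) (y : ℝ) : ℝ := ∑' p : ℕ, ieqb_w a p * Real.exp (-(Real.log p - y) ^ 2)

theorem ieqb_w_nonneg {a : ℕ → ℝ} (ha : ∀ p, 0 ≤ a p) (p : ℕ) : 0 ≤ ieqb_w a p := by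
  unfold ieqb_w
  split_ifs with h
  · exact mul_nonneg (ha p) (div_nonneg (Real.log_natCast_nonneg p) (Nat.cast_nonneg p))
  · exact le_rfl

theorem ieqb_K_eq (a : ℕ → ℝ) (y : ℝ) : ieqb_K a y = ∑' p : ℕ, (if p.Prime then
      a p * (Real.log p / p * Real.exp (-(Real.log p - y) ^ 2)) else 0) := by
  unfold ieqb_K ieqb_w
  refine tsum_congr fun p => ?_
  split_ifs with h
  · ring
  · simp

theorem ieqb_sum : ∃ C : ℝ, 0 < C ∧ ∀ (n : ℕ) (a : ℕ → ℝ), (∀ p, 0 ≤ a p) →
    (∀ p : ℕ, p.Prime → a p ≤ n) → ∀ y : ℝ,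
    Summable (fun p : ℕ => ieqb_w a p * Real.exp (-(Real.log p - y) ^ 2)) ∧
      ieqb_K a y ≤ n * C := by
  obtain ⟨C, hC, h⟩ := gauss_primes
  refine ⟨C, hC, fun n a ha han y => ?_⟩
  obtain ⟨h1, h2⟩ := h y
  have hle : ∀ p : ℕ, ieqb_w a p * Real.exp (-(Real.log p - y) ^ 2) ≤
      (n : ℝ) * (if p.Prime then Real.log p / p * Real.exp (-(Real.log p - y) ^ 2) else 0) := by
    intro p
    unfold ieqb_w
    split_ifs with hp
    · rw [mul_assoc]
      exact mul_le_mul_of_nonneg_right (han p hp)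
        (mul_nonneg (div_nonneg (Real.log_natCast_nonneg p) (Nat.cast_nonneg p)) (Real.exp_pos _).le)
    · simp
  have hs : Summable (fun p : ℕ => ieqb_w a p * Real.exp (-(Real.log p - y) ^ 2)) :=
    Summable.of_nonneg_of_le (fun p => mul_nonneg (ieqb_w_nonneg ha p) (Real.exp_pos _).le) hle
      (h1.mul_left _)
  refine ⟨hs, ?_⟩
  calc ieqb_K a y ≤ ∑' p : ℕ, (n : ℝ) *
        (if p.Prime then Real.log p / p * Real.exp (-(Real.log p - y) ^ 2) else 0) :=
        hs.tsum_le_tsum hle (h1.mul_left _)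
    _ = n * ∑' p : ℕ,
        (if p.Prime then Real.log p / p * Real.exp (-(Real.log p - y) ^ 2) else 0) := tsum_mul_left
    _ ≤ n * C := mul_le_mul_of_nonneg_left h2 (Nat.cast_nonneg n)

theorem ieqb_norm_ee (x : ℝ) : ‖ee x‖ = 1 := by
  unfold ee
  rw [show (2 * Real.pi * Complex.I * x : ℂ) = ((2 * Real.pi * x : ℝ) : ℂ) * Complex.I by
    push_cast; ring]
  exact Complex.norm_exp_ofReal_mul_I _

theorem ieqb_cont (ω α β : ℝ) (hα : 1 ≤ α) (h : α ≤ β) :
    ContinuousOn (fun y : ℝ => ee (ω * y) / (y : ℂ)) (Set.uIcc α β) := by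
  refine ContinuousOn.div ?_ Complex.continuous_ofReal.continuousOn fun y hy => ?_
  · unfold ee
    fun_prop
  · rw [Set.uIcc_of_le h] at hy
    have : 0 < y := by linarith [hy.1]
    exact_mod_cast this.ne'

theorem ieqb_K_int {a : ℕ → ℝ} (ha : ∀ p, 0 ≤ a p) {B : ℝ} (hB : ∀ y, ieqb_K a y ≤ B) (α β : ℝ) :
    IntervalIntegrable (ieqb_K a) MeasureTheory.volume α β := by
  have hm : Measurable (ieqb_K a) := by
    unfold ieqb_K
    exact Measurable.tsum fun p => by fun_prop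
  refine (intervalIntegrable_const (c := B)).mono_fun' hm.aestronglyMeasurable
    (Eventually.of_forall fun y => ?_)
  have : 0 ≤ ieqb_K a y :=
    tsum_nonneg fun p => mul_nonneg (ieqb_w_nonneg ha p) (Real.exp_pos _).le
  simpa [abs_of_nonneg this] using hB y

theorem ieqb_swap {a : ℕ → ℝ} (ha : ∀ p, 0 ≤ a p) {B : ℝ} (hB : ∀ y, ieqb_K a y ≤ B)
    (hs : ∀ y : ℝ, Summable (fun p : ℕ => ieqb_w a p * Real.exp (-(Real.log p - y) ^ 2)))
    (ω α β : ℝ) (hα : 1 ≤ α) (h : α ≤ β) :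
    HasSum (fun p : ℕ => (ieqb_w a p : ℂ) *
      ∫ y in α..β, ee (ω * y) / y * (Real.exp (-(Real.log p - y) ^ 2) : ℝ))
      (∫ y in α..β, ee (ω * y) / y * (ieqb_K a y : ℂ)) := by
  simp only [← intervalIntegral.integral_const_mul]
  refine intervalIntegral.hasSum_integral_of_dominated_convergence
    (fun p y => ieqb_w a p * Real.exp (-(Real.log p - y) ^ 2)) (fun p => ?_) (fun p => ?_)
    (Eventually.of_forall fun y _ => hs y) (ieqb_K_int ha hB α β) (Eventually.of_forall fun y _ => ?_)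
  · refine ContinuousOn.aestronglyMeasurable ?_ measurableSet_uIoc
    refine (continuousOn_const.mul ((ieqb_cont ω α β hα h).mul ?_)).mono Set.uIoc_subset_uIcc
    fun_prop
  · refine Eventually.of_forall fun y hy => ?_
    rw [Set.uIoc_of_le h] at hy
    have hy1 : 1 ≤ y := by linarith [hy.1]
    rw [norm_mul, norm_mul, norm_div, ieqb_norm_ee, Complex.norm_real, Complex.norm_real,
      Complex.norm_real, Real.norm_of_nonneg (ieqb_w_nonneg ha p),
      Real.norm_of_nonneg (Real.exp_pos _).le, Real.norm_of_nonneg (by linarith)]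
    refine mul_le_mul_of_nonneg_left ?_ (ieqb_w_nonneg ha p)
    refine mul_le_of_le_one_left (Real.exp_pos _).le ?_
    rw [div_le_one (by linarith)]
    exact hy1
  · have h1 := (Complex.hasSum_ofReal.2 (hs y).hasSum).mul_left (ee (ω * y) / y)
    have e : (fun p : ℕ => (ieqb_w a p : ℂ) *
        (ee (ω * y) / y * (Real.exp (-(Real.log p - y) ^ 2) : ℝ))) = fun p : ℕ =>
        ee (ω * y) / y * ((ieqb_w a p * Real.exp (-(Real.log p - y) ^ 2) : ℝ) : ℂ) := by
      funext p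
      rw [Complex.ofReal_mul]
      ring
    rw [e]
    exact h1

theorem ieqb_core (n : ℕ) : ∃ C0 : ℝ, 0 < C0 ∧ ∀ (a : ℕ → ℝ) (u0 : ℝ), (∀ p, 0 ≤ a p) →
    (∀ p : ℕ, p.Prime → a p ≤ n) → 1 ≤ u0 →
    (∀ y : ℝ, u0 ≤ y → |ieqb_K a y - √Real.pi| ≤ 1 / y) → ∀ α β ω : ℝ, u0 ≤ α → α ≤ β →
    |ω| ≤ 1 / 7 → ‖∑ p ∈ lp α β, ((a p / p : ℝ) : ℂ) * ee (ω * Real.log p) -
      (Real.exp (Real.pi ^ 2 * ω ^ 2) : ℝ) * ∫ y in α..β, ee (ω * y) / y‖ ≤ C0 / α := by
  obtain ⟨C1, hC1, h1⟩ := gsm_approx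
  obtain ⟨C2, hC2, h2⟩ := ieqb_sum
  obtain ⟨C3, hC3, h3⟩ := primes_log_tail
  refine ⟨C1 * (2 * (n * C2) + n * C3) + 3, by positivity,
    fun a u0 ha han hu0 hK α β ω hα hαβ hω => ?_⟩
  have hα1 : 1 ≤ α := hu0.trans hα
  have hα0 : 0 < α := by linarith
  have hs := fun y => (h2 n a ha han y).1
  have hB := fun y => (h2 n a ha han y).2
  have hpi : 0 < √Real.pi := Real.sqrt_pos.2 Real.pi_pos
  have hpi1 : 1 ≤ √Real.pi := Real.one_le_sqrt.2 (by linarith [Real.pi_gt_three])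
  set E : ℝ := Real.exp (Real.pi ^ 2 * ω ^ 2) with hE
  have hE0 : 0 < E := Real.exp_pos _
  have hE3 : E ≤ 3 := by
    have hω2 : ω ^ 2 ≤ (1 / 7) ^ 2 := by
      rw [← sq_abs]
      exact pow_le_pow_left₀ (abs_nonneg _) hω 2
    have hp : Real.pi ^ 2 ≤ 4 ^ 2 := pow_le_pow_left₀ Real.pi_pos.le Real.pi_le_four 2
    have : Real.pi ^ 2 * ω ^ 2 ≤ 1 := by
      have := mul_le_mul hp hω2 (sq_nonneg _) (by norm_num)
      linarith
    exact (Real.exp_le_exp.2 this).trans (by linarith [Real.exp_one_lt_d9])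
  have s1 : HasSum (fun p : ℕ => (ieqb_w a p : ℂ) * gsm α β ω (Real.log p))
      (((E / √Real.pi : ℝ) : ℂ) * ∫ y in α..β, ee (ω * y) / y * (ieqb_K a y : ℂ)) := by
    have := (ieqb_swap ha hB hs ω α β hα1 hαβ).mul_left ((E / √Real.pi : ℝ) : ℂ)
    have e : (fun p : ℕ => (ieqb_w a p : ℂ) * gsm α β ω (Real.log p)) = fun p : ℕ =>
        ((E / √Real.pi : ℝ) : ℂ) * ((ieqb_w a p : ℂ) *
          ∫ y in α..β, ee (ω * y) / y * (Real.exp (-(Real.log p - y) ^ 2) : ℝ)) := by
      funext p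
      unfold gsm
      ring
    rw [e]
    exact this
  have hlog : ∀ p : ℕ, p.Prime → 0 < Real.log p := fun p hp =>
    Real.log_pos (by exact_mod_cast hp.one_lt)
  have s2 : HasSum (fun p : ℕ => (ieqb_w a p : ℂ) *
      (if α < Real.log p ∧ Real.log p ≤ β then ee (ω * Real.log p) / (Real.log p : ℝ) else 0))
      (∑ p ∈ lp α β, ((a p / p : ℝ) : ℂ) * ee (ω * Real.log p)) := by
    have e : ∑ p ∈ lp α β, ((a p / p : ℝ) : ℂ) * ee (ω * Real.log p) = ∑ p ∈ lp α β,
        (ieqb_w a p : ℂ) *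
      (if α < Real.log p ∧ Real.log p ≤ β then ee (ω * Real.log p) / (Real.log p : ℝ) else 0) := by
      refine Finset.sum_congr rfl fun p hp => ?_
      rw [mem_lp] at hp
      have hl : ((Real.log p : ℝ) : ℂ) ≠ 0 := by exact_mod_cast (hlog p hp.1).ne'
      rw [if_pos hp.2, ieqb_w, if_pos hp.1, Complex.ofReal_mul, Complex.ofReal_div,
        Complex.ofReal_div]
      field_simp
    rw [e]
    refine hasSum_sum_of_ne_finset_zero fun p hp => ?_
    rw [mem_lp] at hp
    by_cases hpp : p.Prime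
    · rw [if_neg fun h => hp ⟨hpp, h⟩, mul_zero]
    · rw [ieqb_w, if_neg hpp, Complex.ofReal_zero, zero_mul]
  have s3 : HasSum (fun p : ℕ => ieqb_w a p *
      (if α < Real.log p ∧ Real.log p ≤ β then 1 / Real.log p ^ 2 else 0))
      (∑ p ∈ lp α β, a p * (1 / (p * Real.log p))) := by
    have e : ∑ p ∈ lp α β, a p * (1 / (p * Real.log p)) = ∑ p ∈ lp α β, ieqb_w a p *
      (if α < Real.log p ∧ Real.log p ≤ β then 1 / Real.log p ^ 2 else 0) := by
      refine Finset.sum_congr rfl fun p hp => ?_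
      rw [mem_lp] at hp
      have hl := (hlog p hp.1).ne'
      rw [if_pos hp.2, ieqb_w, if_pos hp.1]
      field_simp
    rw [e]
    refine hasSum_sum_of_ne_finset_zero fun p hp => ?_
    rw [mem_lp] at hp
    by_cases hpp : p.Prime
    · rw [if_neg fun h => hp ⟨hpp, h⟩, mul_zero]
    · rw [ieqb_w, if_neg hpp, zero_mul]
  have s4 := ((((hs α).hasSum.add (hs β).hasSum).div_const α).add s3).mul_left C1
  have b1 := (s1.sub s2).norm_le_of_bounded s4 fun p => by
    rw [← mul_sub, norm_mul, Complex.norm_real, Real.norm_of_nonneg (ieqb_w_nonneg ha p)]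
    refine (mul_le_mul_of_nonneg_left (h1 α β ω (Real.log p) hα1 hαβ hω)
      (ieqb_w_nonneg ha p)).trans (le_of_eq ?_)
    ring
  have b2 : ∑ p ∈ lp α β, a p * (1 / (p * Real.log p)) ≤ n * (C3 / α) := by
    refine le_trans ?_ (mul_le_mul_of_nonneg_left (h3 α β hα1) (Nat.cast_nonneg n))
    rw [Finset.mul_sum]
    refine Finset.sum_le_sum fun p hp => ?_
    rw [mem_lp] at hp
    have := hlog p hp.1
    exact mul_le_mul_of_nonneg_right (han p hp.1) (by positivity)
  have b3 : C1 * ((ieqb_K a α + ieqb_K a β) / α + ∑ p ∈ lp α β, a p * (1 / (p * Real.log p))) ≤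
      C1 * (2 * (n * C2) + n * C3) / α := by
    rw [mul_div_assoc]
    refine mul_le_mul_of_nonneg_left ?_ hC1.le
    rw [add_div (2 * _), mul_div_assoc (n : ℝ) C3]
    refine add_le_add (div_le_div_of_nonneg_right ?_ hα0.le) b2
    linarith [hB α, hB β]
  have hi0 : IntervalIntegrable (fun y : ℝ => ee (ω * y) / (y : ℂ)) MeasureTheory.volume α β :=
    (ieqb_cont ω α β hα1 hαβ).intervalIntegrable
  have hi1 : IntervalIntegrable (fun y : ℝ => ee (ω * y) / (y : ℂ) * (ieqb_K a y : ℂ))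
      MeasureTheory.volume α β := by
    refine IntervalIntegrable.continuousOn_mul ?_ (ieqb_cont ω α β hα1 hαβ)
    exact ⟨(ieqb_K_int ha hB α β).1.ofReal, (ieqb_K_int ha hB α β).2.ofReal⟩
  have b4 : ‖((E / √Real.pi : ℝ) : ℂ) * (∫ y in α..β, ee (ω * y) / y * (ieqb_K a y : ℂ)) -
      (E : ℝ) * ∫ y in α..β, ee (ω * y) / y‖ ≤ 3 / α := by
    have e : ((E / √Real.pi : ℝ) : ℂ) * (∫ y in α..β, ee (ω * y) / y * (ieqb_K a y : ℂ)) -
        (E : ℝ) * ∫ y in α..β, ee (ω * y) / y = ((E / √Real.pi : ℝ) : ℂ) *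
          ∫ y in α..β, (ee (ω * y) / y * (ieqb_K a y : ℂ) - ee (ω * y) / y * (√Real.pi : ℝ)) := by
      rw [intervalIntegral.integral_sub hi1 (hi0.mul_const _), intervalIntegral.integral_mul_const,
        Complex.ofReal_div]
      have : ((√Real.pi : ℝ) : ℂ) ≠ 0 := by exact_mod_cast hpi.ne'
      field_simp
    have h0 : (0 : ℝ) ∉ Set.uIcc α β := by
      rw [Set.uIcc_of_le hαβ]
      intro h
      linarith [h.1]
    have hint : ‖∫ y in α..β, (ee (ω * y) / y * (ieqb_K a y : ℂ) -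
        ee (ω * y) / y * (√Real.pi : ℝ))‖ ≤ ∫ y in α..β, y ^ (-2 : ℤ) := by
      refine intervalIntegral.norm_integral_le_of_norm_le hαβ (Eventually.of_forall fun y hy => ?_)
        (intervalIntegral.intervalIntegrable_zpow (Or.inr h0))
      have hy0 : 0 < y := by linarith [hy.1]
      rw [← mul_sub, ← Complex.ofReal_sub, norm_mul, norm_div, ieqb_norm_ee, Complex.norm_real,
        Complex.norm_real, Real.norm_of_nonneg hy0.le, Real.norm_eq_abs]
      refine (mul_le_mul_of_nonneg_left (hK y (by linarith [hy.1])) (by positivity)).trans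
        (le_of_eq ?_)
      rw [zpow_neg, zpow_two]
      field_simp
    rw [integral_zpow (Or.inr ⟨by norm_num, h0⟩)] at hint
    have hβ0 : 0 < β := by linarith
    have hint' : ‖∫ y in α..β, (ee (ω * y) / y * (ieqb_K a y : ℂ) -
        ee (ω * y) / y * (√Real.pi : ℝ))‖ ≤ 1 / α := by
      refine hint.trans ?_
      norm_num
      have : 0 < β⁻¹ := by positivity
      rw [div_neg, div_one]
      linarith
    rw [e, norm_mul, Complex.norm_real, Real.norm_of_nonneg (by positivity)]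
    have : E / √Real.pi ≤ 3 := (div_le_self hE0.le hpi1).trans hE3
    calc _ ≤ 3 * (1 / α) := mul_le_mul this hint' (norm_nonneg _) (by norm_num)
      _ = 3 / α := by ring
  rw [add_div]
  refine le_trans ?_ (add_le_add (b1.trans b3) b4)
  rw [norm_sub_rev (_ * _) (Finset.sum _ _)]
  exact norm_sub_le_norm_sub_add_norm_sub _ _ _

/-- Sum `gsm_approx` against the weights `a_p log p / p` at `t = log p`; interchange sum and
integral (`integral_tsum` / `hasSum_integral_of_summable_norm`) in `∑_p a_p log p / p * gsm`, which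
becomes `exp (π² ω²) ∫_α^β e(ω y)/y (1 + O(1/y)) dy`.  For `ω = 0` this is `log (β/α) + O(1/α)`;
for `ω ≠ 0` use `osc_integral` and `1/α ≤ 1/(|ω| α)`. -/
theorem equi_of_smooth (n : ℕ) : ∃ C0 : ℝ, 0 < C0 ∧ ∀ (a : ℕ → ℝ) (u0 : ℝ), (∀ p, 0 ≤ a p) →
    (∀ p : ℕ, p.Prime → a p ≤ n) → 1 ≤ u0 →
    (∀ y : ℝ, u0 ≤ y → |∑' p : ℕ, (if p.Prime then
      a p * (Real.log p / p * Real.exp (-(Real.log p - y) ^ 2)) else 0) - √Real.pi| ≤ 1 / y) →
    Equi C0 a u0 := by
  obtain ⟨C, hC, h⟩ := ieqb_core n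
  refine ⟨C + 3, by positivity, fun a u0 ha han hu0 hK => ?_⟩
  have h' := h a u0 ha han hu0 (fun y hy => by rw [ieqb_K_eq]; exact hK y hy)
  constructor
  · intro α β hα hαβ
    have hα0 : 0 < α := by linarith
    have h1 := h' α β 0 hα hαβ (by norm_num)
    have e0 : ee 0 = 1 := by simp [ee]
    have e1 : ∫ y in α..β, (1 : ℂ) / (y : ℂ) = ((Real.log (β / α) : ℝ) : ℂ) := by
      rw [← integral_one_div_of_pos hα0 (by linarith), ← intervalIntegral.integral_ofReal]
      simp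
    simp only [zero_mul, e0, mul_one, e1, ne_eq, OfNat.ofNat_ne_zero, not_false_eq_true, zero_pow,
      mul_zero, Real.exp_zero, Complex.ofReal_one, one_mul] at h1
    rw [← Complex.ofReal_sum, ← Complex.ofReal_sub, Complex.norm_real, Real.norm_eq_abs] at h1
    refine h1.trans (div_le_div_of_nonneg_right (by linarith) hα0.le)
  · intro α β ω hα hαβ hω0 hω
    have hα0 : 0 < α := by linarith
    have hw : 0 < |ω| := abs_pos.2 hω0
    have h1 := h' α β ω hα hαβ hω
    have h2 := osc_integral α β ω hα0 hαβ hω0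
    have hE3 : Real.exp (Real.pi ^ 2 * ω ^ 2) ≤ 3 := by
      have hω2 : ω ^ 2 ≤ (1 / 7) ^ 2 := by
        rw [← sq_abs]
        exact pow_le_pow_left₀ (abs_nonneg _) hω 2
      have hp : Real.pi ^ 2 ≤ 4 ^ 2 := pow_le_pow_left₀ Real.pi_pos.le Real.pi_le_four 2
      have : Real.pi ^ 2 * ω ^ 2 ≤ 1 := by
        have := mul_le_mul hp hω2 (sq_nonneg _) (by norm_num)
        linarith
      exact (Real.exp_le_exp.2 this).trans (by linarith [Real.exp_one_lt_d9])
    have h3 : ‖((Real.exp (Real.pi ^ 2 * ω ^ 2) : ℝ) : ℂ) * ∫ y in α..β, ee (ω * y) / y‖ ≤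
        3 / (|ω| * α) := by
      rw [norm_mul, Complex.norm_real, Real.norm_of_nonneg (Real.exp_pos _).le]
      calc _ ≤ 3 * (1 / (|ω| * α)) := mul_le_mul hE3 h2 (norm_nonneg _) (by norm_num)
        _ = _ := by ring
    have h4 : C / α ≤ C / (|ω| * α) := by
      refine div_le_div_of_nonneg_left hC.le (by positivity) ?_
      exact mul_le_of_le_one_left hα0.le (by linarith)
    rw [add_div]
    refine le_trans ?_ (add_le_add (h1.trans h4) h3)
    exact norm_le_norm_sub_add _ _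

end Crest.Agent.R014

end
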