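import Crest.Agent.R014.AId
import Crest.Agent.R014.IEqB
import Crest.Agent.R014.HMain

/-! # Row 14: equidistribution of prime ideals -/

set_option autoImplicit false

noncomputable section

open MeasureTheory Filter Topology Set
open scoped ENNReal NumberField Classical
open Crest.NumberTheoryR.Packets

namespace Crest.Agent.R014

universe u

variable {d : ℕ} {K : Type u} [Field K] [NumberField K]

theorem aeq_absNorm {F L : Type*} [Field F] [NumberField F] [Field L] [NumberField L]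
    (e : 𝓞 F ≃+* 𝓞 L) (I : Ideal (𝓞 F)) :
    Ideal.absNorm (I.map (e : 𝓞 F →+* 𝓞 L)) = Ideal.absNorm I := by
  rw [Ideal.absNorm_apply, Ideal.absNorm_apply, Submodule.cardQuot_apply, Submodule.cardQuot_apply]
  exact (Nat.card_congr (Ideal.quotientEquiv I _ e rfl).toEquiv).symm

theorem aeq_card {F L : Type*} [Field F] [NumberField F] [Field L] [NumberField L]
    (e : 𝓞 F ≃+* 𝓞 L) (k : ℕ) : Nat.card {I : Ideal (𝓞 F) // Ideal.absNorm I = k} =
      Nat.card {I : Ideal (𝓞 L) // Ideal.absNorm I = k} := by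
  refine Nat.card_congr ⟨fun I => ⟨I.1.map (e : 𝓞 F →+* 𝓞 L), by rw [aeq_absNorm, I.2]⟩,
    fun I => ⟨I.1.map (e.symm : 𝓞 L →+* 𝓞 F), by rw [aeq_absNorm, I.2]⟩, fun I => ?_, fun I => ?_⟩
  · ext1
    simp [Ideal.map_map]
  · ext1
    simp [Ideal.map_map]

/-- Transport along `K ≃+* Shrink K` (or any countable model in `Type`): the numbers of ideals of
given norm, the degree and the discriminant are invariant. -/
theorem exists_small_model (K : Type u) [Field K] [NumberField K] [NumberField.IsTotallyReal K] :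
    ∃ (F : Type) (_ : Field F) (_ : NumberField F) (_ : NumberField.IsTotallyReal F),
      Module.finrank ℚ F = Module.finrank ℚ K ∧ NumberField.discr F = NumberField.discr K ∧
      ∀ k, GC.a1 F k = rI K k := by
  have : Small.{0} K := small_of_injective (Module.finBasis ℚ K).equivFun.injective
  have e : Shrink.{0} K ≃+* K := Shrink.ringEquiv K
  have : NumberField (Shrink.{0} K) := NumberField.of_ringEquiv _ _ e.symm
  refine ⟨Shrink.{0} K, inferInstance, inferInstance,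
    NumberField.IsTotallyReal.ofRingEquiv e.symm, ?_,
    NumberField.discr_eq_discr_of_ringEquiv _ e, fun k => ?_⟩
  · exact (AlgEquiv.ofRingEquiv (R := ℚ) (f := e) fun _ => by simp).toLinearEquiv.finrank_eq
  · exact aeq_card (NumberField.RingOfIntegers.mapRingEquiv e) k

/-- `prime_count_real` with `x = exp (y - 1/2)`:
`wG (p/x) / x = exp (1/4) exp (-(log p - y)²) / p`, `cG = √π exp (1/4)`. -/
theorem smooth_rI (n : ℕ) : ∃ C : ℝ, 0 < C ∧ ∀ (K : Type u) [Field K] [NumberField K]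
    [NumberField.IsTotallyReal K], Module.finrank ℚ K = n → ∀ y : ℝ,
    |∑' p : ℕ, (if p.Prime ∧ p ≠ 3 then
        (rI K p : ℝ) * (Real.log p / p * Real.exp (-(Real.log p - y) ^ 2)) else 0) - √Real.pi| ≤
      C * (1 + Real.log |(NumberField.discr K : ℝ)|) * Real.exp (-(y / 2000)) := by
  obtain ⟨C, hC, h⟩ := prime_count_real
  refine ⟨C * (n + 1), by positivity, fun K _ _ _ hn y => ?_⟩
  obtain ⟨F, _, _, _, h1, h2, h3⟩ := exists_small_model K
  have hx : 0 < Real.exp (y - 1 / 2) := Real.exp_pos _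
  obtain ⟨-, h4⟩ := h F _ hx
  have e1 : ∀ p : ℕ, GC.bP F p * GC.wG (p / Real.exp (y - 1 / 2)) =
      (Real.exp (1 / 4) * Real.exp (y - 1 / 2)) * (if p.Prime ∧ p ≠ 3 then
        (rI K p : ℝ) * (Real.log p / p * Real.exp (-(Real.log p - y) ^ 2)) else 0) := by
    intro p
    unfold GC.bP
    split_ifs with hp
    · have hp0 : (0 : ℝ) < p := by exact_mod_cast hp.1.pos
      have e2 : GC.wG (p / Real.exp (y - 1 / 2)) * p =
          Real.exp (1 / 4) * Real.exp (y - 1 / 2) * Real.exp (-(Real.log p - y) ^ 2) := by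
        unfold GC.wG
        rw [Real.log_div hp0.ne' hx.ne', Real.log_exp]
        conv_lhs => rw [← Real.exp_log hp0]
        rw [Real.log_exp, ← Real.exp_add, ← Real.exp_add, ← Real.exp_add]
        congr 1
        ring
      rw [h3, eq_div_of_mul_eq hp0.ne' e2]
      ring
    · simp
  rw [tsum_congr e1, tsum_mul_left] at h4
  obtain ⟨S, hS⟩ : ∃ S, S = ∑' p : ℕ, (if p.Prime ∧ p ≠ 3 then
    (rI K p : ℝ) * (Real.log p / p * Real.exp (-(Real.log p - y) ^ 2)) else 0) := ⟨_, rfl⟩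
  rw [← hS] at h4 ⊢
  have e3 : Real.exp (1 / 4) * Real.exp (y - 1 / 2) * S - GC.cG * Real.exp (y - 1 / 2) =
      (Real.exp (1 / 4) * Real.exp (y - 1 / 2)) * (S - √Real.pi) := by
    unfold GC.cG; ring
  have hL : 0 ≤ Real.log |(NumberField.discr K : ℝ)| := by
    rw [Real.log_abs]; exact Real.log_intCast_nonneg _
  have hB : GC.BF F ≤ (n + 1) * (1 + Real.log |(NumberField.discr K : ℝ)|) := by
    unfold GC.BF GC.DD GC.dg
    rw [h1, hn, h2]
    have : (0 : ℝ) ≤ n := Nat.cast_nonneg n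
    nlinarith
  have e4 : Real.exp (y - 1 / 2) ^ GC.theta1 ≤
      (Real.exp (1 / 4) * Real.exp (y - 1 / 2)) * Real.exp (-(y / 2000)) := by
    rw [← Real.exp_mul, ← Real.exp_add, ← Real.exp_add]
    unfold GC.theta1
    exact Real.exp_le_exp.2 (by linarith)
  have hp : 0 < Real.exp (1 / 4) * Real.exp (y - 1 / 2) := by positivity
  rw [e3, abs_mul, abs_of_pos hp] at h4
  refine le_of_mul_le_mul_left (h4.trans ?_) hp
  calc C * GC.BF F * Real.exp (y - 1 / 2) ^ GC.theta1
      ≤ C * ((n + 1) * (1 + Real.log |(NumberField.discr K : ℝ)|)) *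
        ((Real.exp (1 / 4) * Real.exp (y - 1 / 2)) * Real.exp (-(y / 2000))) :=
        mul_le_mul (mul_le_mul_of_nonneg_left hB hC.le) e4 (by positivity) (by positivity)
    _ = _ := by ring

theorem aeq_sum_log {m : ℕ} (hm : m ≠ 0) : ∑ p ∈ m.primeFactors, Real.log p ≤ Real.log m := by
  rw [← Real.log_prod fun p hp => by exact_mod_cast (Nat.prime_of_mem_primeFactors hp).ne_zero,
    ← Nat.cast_prod]
  refine Real.log_le_log ?_ ?_
  · exact_mod_cast Finset.prod_pos fun p hp => (Nat.prime_of_mem_primeFactors hp).pos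
  · exact_mod_cast Nat.le_of_dvd (Nat.pos_of_ne_zero hm) (Nat.prod_primeFactors_dvd m)

theorem aeq_w {p : ℕ} (hp : p.Prime) {y : ℝ} (hy : 2 ≤ y) :
    Real.log p / p * Real.exp (-(Real.log p - y) ^ 2) ≤ Real.log p * Real.exp (-(y / 2000)) := by
  have hp0 : (0 : ℝ) < p := by exact_mod_cast hp.pos
  have hl := Real.log_natCast_nonneg p
  rw [div_mul_eq_mul_div, mul_div_assoc]
  refine mul_le_mul_of_nonneg_left ?_ hl
  rw [div_le_iff₀ hp0]
  conv_rhs => rw [← Real.exp_log hp0]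
  rw [← Real.exp_add]
  refine Real.exp_le_exp.2 ?_
  nlinarith [sq_nonneg (Real.log p - y + 1 / 2)]

theorem aeq_diff {n : ℕ} (hn : Module.finrank ℚ K = n) {f : ℕ} (hf : f ≠ 0) {y : ℝ} (hy : 2 ≤ y) :
    |(∑' p : ℕ, (if p.Prime then
        rG K f p * (Real.log p / p * Real.exp (-(Real.log p - y) ^ 2)) else 0)) -
      ∑' p : ℕ, (if p.Prime ∧ p ≠ 3 then
        (rI K p : ℝ) * (Real.log p / p * Real.exp (-(Real.log p - y) ^ 2)) else 0)| ≤
      n * Real.log ((3 * f : ℕ) : ℝ) * Real.exp (-(y / 2000)) := by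
  obtain ⟨C, -, hC⟩ := gauss_primes
  obtain ⟨w, hw⟩ : ∃ w : ℕ → ℝ, ∀ p : ℕ, w p = Real.log p / p * Real.exp (-(Real.log p - y) ^ 2) :=
    ⟨_, fun _ => rfl⟩
  have hs := (hC y).1.mul_left (n : ℝ)
  simp only [← hw] at hs ⊢
  have hw0 : ∀ p, 0 ≤ w p := fun p => by
    rw [hw]
    exact mul_nonneg (div_nonneg (Real.log_natCast_nonneg p) (Nat.cast_nonneg p)) (Real.exp_pos _).le
  have hI : ∀ p : ℕ, p.Prime → (rI K p : ℝ) ≤ n := fun p hp => by
    exact_mod_cast (rI_pow_le hn hp 0).1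
  have hG := rm_rG hn f
  have b1 : ∀ p : ℕ, 0 ≤ (if p.Prime then rG K f p * w p else 0) ∧
      (if p.Prime then rG K f p * w p else 0) ≤ n * (if p.Prime then w p else 0) := by
    intro p
    split_ifs with hp
    · exact ⟨mul_nonneg (hG.nonneg p) (hw0 p), mul_le_mul_of_nonneg_right (hG.prime p hp) (hw0 p)⟩
    · simp
  have b2 : ∀ p : ℕ, 0 ≤ (if p.Prime ∧ p ≠ 3 then (rI K p : ℝ) * w p else 0) ∧
      (if p.Prime ∧ p ≠ 3 then (rI K p : ℝ) * w p else 0) ≤ n * (if p.Prime then w p else 0) := by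
    intro p
    by_cases hp : p.Prime ∧ p ≠ 3
    · rw [if_pos hp, if_pos hp.1]
      exact ⟨mul_nonneg (Nat.cast_nonneg _) (hw0 p), mul_le_mul_of_nonneg_right (hI p hp.1) (hw0 p)⟩
    · rw [if_neg hp]
      refine ⟨le_rfl, mul_nonneg (Nat.cast_nonneg _) ?_⟩
      split_ifs
      · exact hw0 p
      · exact le_rfl
  have s1 := Summable.of_nonneg_of_le (fun p => (b1 p).1) (fun p => (b1 p).2) hs
  have s2 := Summable.of_nonneg_of_le (fun p => (b2 p).1) (fun p => (b2 p).2) hs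
  have h3 : 3 * f ≠ 0 := by omega
  rw [← s1.tsum_sub s2, tsum_eq_sum (s := (3 * f).primeFactors) (by
    intro p hp
    by_cases hpp : p.Prime
    · have h4 : ¬ p ∣ 3 * f := fun h => hp (Nat.mem_primeFactors.2 ⟨hpp, h, h3⟩)
      have h5 : p ≠ 3 := fun h => h4 (h ▸ Dvd.intro _ rfl)
      have h6 : p.Coprime f := (Nat.Prime.coprime_iff_not_dvd hpp).2 fun h => h4 (h.mul_left 3)
      rw [if_pos hpp, if_pos ⟨hpp, h5⟩, rG, if_pos h6, sub_self]
    · simp [hpp])]
  refine (Finset.abs_sum_le_sum_abs _ _).trans ?_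
  refine le_trans ?_ (mul_le_mul_of_nonneg_right
    (mul_le_mul_of_nonneg_left (aeq_sum_log h3) (Nat.cast_nonneg n)) (Real.exp_pos _).le)
  rw [Finset.mul_sum, Finset.sum_mul]
  refine Finset.sum_le_sum fun p hp => ?_
  have hpp := Nat.prime_of_mem_primeFactors hp
  have h7 : n * (if p.Prime then w p else 0) ≤ n * Real.log p * Real.exp (-(y / 2000)) := by
    rw [if_pos hpp, mul_assoc, hw]
    exact mul_le_mul_of_nonneg_left (aeq_w hpp hy) (Nat.cast_nonneg n)
  rw [abs_le]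
  constructor <;> linarith [b1 p, b2 p]

theorem aeq_num {A t y : ℝ} (hA : 0 ≤ A) (h1 : 4000 ≤ t) (h2 : 2 * 4000 ^ 2 * A ≤ t)
    (hy : t ^ 2 ≤ y) : A * Real.exp t * Real.exp (-(y / 2000)) ≤ 1 / y := by
  have hy1 : 4000 * t ≤ y := by nlinarith
  have hy0 : 0 < y := by linarith
  have h3 : Real.exp t * Real.exp (-(y / 2000)) ≤ (Real.exp (y / 4000))⁻¹ := by
    rw [← Real.exp_add, ← Real.exp_neg]
    exact Real.exp_le_exp.2 (by linarith)
  have h4 := Real.quadratic_le_exp_of_nonneg (x := y / 4000) (by positivity)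
  rw [mul_assoc]
  refine (mul_le_mul_of_nonneg_left h3 hA).trans ?_
  rw [← div_eq_mul_inv, div_le_div_iff₀ (Real.exp_pos _) hy0]
  have h5 : 2 * 4000 ^ 2 * A ≤ y := by linarith
  nlinarith

/-- The primes dividing `3 f` contribute at most
`n log (3 f) (exp (-y²/4) + exp (-y/2))` (split at `log p = y/2`).  For `y ≥ uu f = (log log f)²`
and `f` large all errors are at most `1/y`; `equi_of_smooth`. -/
theorem equi_rG (n : ℕ) : ∃ (C0 : ℝ) (f0 : ℕ), ∀ (K : Type u) [Field K] [NumberField K]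
    [NumberField.IsTotallyReal K], Module.finrank ℚ K = n → ∀ f : ℕ, f0 ≤ f →
    |(NumberField.discr K : ℝ)| ≤ f → Equi C0 (rG K f) (uu f) := by
  obtain ⟨C0, -, h0⟩ := equi_of_smooth n
  obtain ⟨C, hC, h⟩ := smooth_rI.{u} n
  obtain ⟨T, hT1, hT2⟩ : ∃ T : ℝ, 4000 ≤ T ∧ 2 * 4000 ^ 2 * (2 * C + 2 * n) ≤ T :=
    ⟨max 4000 _, le_max_left _ _, le_max_right _ _⟩
  refine ⟨C0, ⌈Real.exp (Real.exp T)⌉₊, fun K _ _ _ hn f hf hD => ?_⟩
  have hf1 : Real.exp (Real.exp T) ≤ f := (Nat.le_ceil _).trans (by exact_mod_cast hf)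
  have hf0 : (0 : ℝ) < f := (Real.exp_pos _).trans_le hf1
  have hL : Real.exp T ≤ Real.log f := (Real.le_log_iff_exp_le hf0).2 hf1
  have hL0 : 0 < Real.log f := (Real.exp_pos _).trans_le hL
  have hL3 : 3 ≤ Real.log f := by linarith [Real.add_one_le_exp T]
  have ht : T ≤ Real.log (Real.log f) := (Real.le_log_iff_exp_le hL0).2 hL
  have hG := rm_rG hn f
  have hu : 2 ≤ uu f := by unfold uu; nlinarith
  refine h0 _ _ hG.nonneg hG.prime (by linarith) fun y hy => ?_
  have h1 := h K hn y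
  have h2 := aeq_diff hn (f := f) (by exact_mod_cast hf0.ne') (hu.trans hy)
  have h3 := aeq_num (A := 2 * C + 2 * n) (by positivity) (hT1.trans ht) (hT2.trans ht) hy
  rw [Real.exp_log hL0] at h3
  have h4 : Real.log |(NumberField.discr K : ℝ)| ≤ Real.log f :=
    Real.log_le_log (abs_pos.2 (by exact_mod_cast NumberField.discr_ne_zero K)) hD
  have h5 : Real.log ((3 * f : ℕ) : ℝ) ≤ 2 * Real.log f := by
    rw [Nat.cast_mul, Real.log_mul (by norm_num) hf0.ne']
    have := Real.log_le_sub_one_of_pos (x := ((3 : ℕ) : ℝ)) (by norm_num)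
    push_cast at this ⊢
    linarith
  have he := Real.exp_pos (-(y / 2000))
  have h6 : C * (1 + Real.log |(NumberField.discr K : ℝ)|) * Real.exp (-(y / 2000)) ≤
      C * (2 * Real.log f) * Real.exp (-(y / 2000)) :=
    mul_le_mul_of_nonneg_right (mul_le_mul_of_nonneg_left (by linarith) hC.le) he.le
  have h7 : n * Real.log ((3 * f : ℕ) : ℝ) * Real.exp (-(y / 2000)) ≤
      n * (2 * Real.log f) * Real.exp (-(y / 2000)) :=
    mul_le_mul_of_nonneg_right (mul_le_mul_of_nonneg_left h5 (Nat.cast_nonneg n)) he.le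
  refine (abs_sub_le _ _ _).trans ((add_le_add (h2.trans h7) (h1.trans h6)).trans ?_)
  refine le_trans (le_of_eq ?_) h3
  ring

end Crest.Agent.R014

end
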