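import Crest.Agent.R014.DLat

/-! # Row 14: open sets of lattices -/

set_option autoImplicit false

noncomputable section

open MeasureTheory ProbabilityTheory Filter Topology Set
open scoped ENNReal Matrix NumberField
open Crest.NumberTheoryR.Packets

namespace Crest.Agent.R014

variable {n : ℕ}

theorem dlat2_cont (v : Fin n → ℝ) : Continuous fun h : SLR n => v ᵥ* h.1 :=
  continuous_pi fun j => continuous_finsetSum Finset.univ (f := fun i (h : SLR n) => v i * h.1 i j)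
    fun i _ => continuous_const.mul (continuous_entry i j)

theorem dlat2_cont' (w : Fin n → ℝ) : Continuous fun h : SLR n => w ᵥ* ((h⁻¹).1)ᵀ :=
  continuous_pi fun j => continuous_finsetSum Finset.univ
    (f := fun i (h : SLR n) => w i * (h⁻¹).1 j i) fun i _ =>
      continuous_const.mul ((continuous_entry j i).comp continuous_inv)

theorem dlat2_open {U : Set ((Fin n → ℝ) × (Fin n → ℝ))} (hU : IsOpen U) :
    IsOpen {x : ModSpace n | ∃ v w, PrimIn (lat x) v ∧ PrimIn (dualL (lat x)) w ∧ (v, w) ∈ U} := by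
  rw [isOpen_iff_act]
  rintro x ⟨v, w, hv, hw, h⟩
  have := ((dlat2_cont v).prodMk (dlat2_cont' w)).continuousAt (x := 1) |>.eventually
    (hU.mem_nhds (by simpa using h))
  exact this.mono fun g hg => ⟨_, _, primIn_act hv g, primIn_dual_act hw g, hg⟩

theorem dlat2_inBox (ρ : ℝ) : IsOpen {v : Fin n → ℝ | InBox ρ v} := by
  simp only [InBox, ofPred_forall]
  exact isOpen_iInter_of_finite fun i =>
    (isOpen_lt continuous_const (continuous_apply i).abs).inter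
      (isOpen_lt (continuous_apply i).abs continuous_const)

theorem isOpen_boxSet (ρ : ℝ) : IsOpen (boxSet n ρ) := by
  exact dlat2_open ((dlat2_inBox ρ).prod (dlat2_inBox ρ))

theorem isOpen_pairSet (ρ : ℝ) (S : Finset (Fin n)) (θ δ : ℝ) : IsOpen (pairSet ρ S θ δ) := by
  have h : IsOpen {p : (Fin n → ℝ) × (Fin n → ℝ) | |∑ i ∈ S, p.1 i * p.2 i - θ| < δ} :=
    isOpen_lt (by fun_prop) continuous_const
  convert dlat2_open (((dlat2_inBox ρ).prod (dlat2_inBox ρ)).inter h) using 1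
  ext x
  simp only [pairSet, mem_ofPred_eq, mem_inter_iff, mem_prod, and_assoc]

theorem dlat2_short (r : ℝ) : IsOpen {v : Fin n → ℝ | v ≠ 0 ∧ ‖v‖ < r} :=
  isOpen_ne.inter (isOpen_lt continuous_norm continuous_const)

theorem dlat2_open_dual (r : ℝ) :
    IsOpen {x : ModSpace n | ∃ v ∈ dualL (lat x), v ≠ 0 ∧ ‖v‖ < r} := by
  rw [isOpen_iff_act]
  rintro x ⟨v, hv, h⟩
  have := (dlat2_cont' v).continuousAt (x := 1) |>.eventually
    ((dlat2_short r).mem_nhds (by simpa using h))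
  exact this.mono fun g hg => ⟨_, (vecMul_mem_dual x g v).2 hv, hg⟩

theorem isOpen_shortSet (r : ℝ) : IsOpen (shortSet n r) := by
  rw [isOpen_iff_act]
  rintro x ⟨v, hv, h⟩
  have := (dlat2_cont v).continuousAt (x := 1) |>.eventually
    ((dlat2_short r).mem_nhds (by simpa using h))
  exact this.mono fun g hg => ⟨_, (vecMul_mem_lat x g v).2 hv, hg⟩

theorem dlat2_ae (hn : 0 < n) (μ : Measure (ModSpace n)) [IsFiniteMeasure μ] (hA : AInv μ)
    (Λ : ModSpace n → Submodule ℤ (Fin n → ℝ)) (hf : ∀ x R, {v | v ∈ Λ x ∧ ‖v‖ ≤ R}.Finite)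
    (ho : ∀ r, IsOpen {x | ∃ v ∈ Λ x, v ≠ 0 ∧ ‖v‖ < r})
    (ht : ∀ t, ∃ t', ∀ x, ∀ v ∈ Λ x, v ᵥ* (dA t).1 ∈ Λ (act x (dA t'))) :
    ∀ᵐ x ∂μ, ∀ v ∈ Λ x, v ≠ 0 → ∀ i, v i ≠ 0 := by
  set sh : ℝ → Set (ModSpace n) := fun r => {x | ∃ v ∈ Λ x, v ≠ 0 ∧ ‖v‖ < r} with hsh
  have t := tendsto_measure_iInter_atTop (μ := μ) (s := fun k : ℕ => sh (1 / ((k : ℝ) + 1)))
    (fun k => (ho _).measurableSet.nullMeasurableSet)
    (fun a b hab x ⟨v, hv, h0, h⟩ => ⟨v, hv, h0, h.trans_le (Nat.one_div_le_one_div hab)⟩)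
    ⟨0, measure_ne_top _ _⟩
  have e : ⋂ k : ℕ, sh (1 / ((k : ℝ) + 1)) = ∅ := by
    refine eq_empty_of_forall_notMem fun x hx => ?_
    have : ∀ᶠ k : ℕ in atTop, ∀ v ∈ {v | v ∈ Λ x ∧ ‖v‖ ≤ 1}, v ≠ 0 → 1 / ((k : ℝ) + 1) < ‖v‖ :=
      (eventually_all_finite (hf x 1)).2 fun v _ => eventually_imp_distrib_left.2 fun h0 =>
        tendsto_one_div_add_atTop_nhds_zero_nat.eventually (gt_mem_nhds (norm_pos_iff.2 h0))
    obtain ⟨k, hk⟩ := this.exists
    obtain ⟨v, hv, h0, h⟩ := mem_iInter.1 hx k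
    refine lt_asymm h (hk v ⟨hv, h.le.trans ?_⟩ h0)
    rw [div_le_one (by positivity)]
    simp
  rw [e, measure_empty] at t
  have key : ∀ (i : Fin n) (R : ℕ), μ {x | ∃ v ∈ Λ x, v ≠ 0 ∧ v i = 0 ∧ ‖v‖ < R} = 0 := by
    intro i R
    refine le_antisymm (ge_of_tendsto' t fun k => ?_) zero_le
    have hn' : (0 : ℝ) < n := by exact_mod_cast hn
    obtain ⟨t', ht'⟩ := ht (Pi.single i (n * Real.log ((R + 1) * (k + 1))))
    have e0 := Measure.map_apply (μ := μ) (measurable_act_left (dA t'))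
      (ho (1 / ((k : ℝ) + 1))).measurableSet
    rw [hA t'] at e0
    refine le_trans (measure_mono fun x ⟨v, hv, h0, hi, hR⟩ => ?_) e0.ge
    refine ⟨_, ht' x v hv, ?_⟩
    have e1 : v ᵥ* (dA (Pi.single i (n * Real.log ((R + 1) * (k + 1))))).1 =
        (((R : ℝ) + 1) * (k + 1))⁻¹ • v := by
      funext j
      rw [vecMul_dA]
      by_cases hj : j = i
      · simp [hj, hi]
      · rw [Pi.single_eq_of_ne hj, Finset.sum_pi_single', if_pos (Finset.mem_univ _),
          mul_div_cancel_left₀ _ hn'.ne', zero_sub, Real.exp_neg, Real.exp_log (by positivity),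
          mul_comm]
        rfl
    rw [e1]
    refine ⟨smul_ne_zero (by positivity) h0, ?_⟩
    rw [norm_smul, Real.norm_of_nonneg (by positivity), inv_mul_lt_iff₀ (by positivity), mul_assoc,
      mul_one_div_cancel (by positivity)]
    linarith
  have := (ae_all_iff (μ := μ)).2 fun i => (ae_all_iff (μ := μ)).2 fun R =>
    measure_eq_zero_iff_ae_notMem.1 (key i R)
  filter_upwards [this] with x hx v hv h0 i hi
  obtain ⟨R, hR⟩ := exists_nat_gt ‖v‖
  exact hx i R ⟨v, hv, h0, hi, hR⟩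

/-- By invariance under the diagonal group, a vector with a zero coordinate can be made arbitrarily
short, and the measure of the (open) set of lattices with a nonzero vector (resp. dual vector) of
norm `< ε` tends to `0`.  Hence almost every lattice lies in `boxSet n ρ` for large `ρ`. -/
theorem boxSet_large (hn : 2 ≤ n) (μ : Measure (ModSpace n)) [IsFiniteMeasure μ] (hA : AInv μ)
    {ε : ℝ≥0∞} (hε : ε ≠ 0) : ∃ ρ : ℝ, 1 ≤ ρ ∧ μ (boxSet n ρ)ᶜ ≤ ε := by
  have h1 := dlat2_ae (by omega) μ hA lat finite_lat isOpen_shortSet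
    fun t => ⟨t, fun x v hv => (vecMul_mem_lat x _ v).2 hv⟩
  have h2 := dlat2_ae (by omega) μ hA (fun x => dualL (lat x)) finite_dual dlat2_open_dual
    fun t => ⟨-t, fun x v hv => by
      have := (vecMul_mem_dual x (dA (-t)) v).2 hv
      rwa [← dA_neg, neg_neg, show (dA t).1ᵀ = (dA t).1 from Matrix.diagonal_transpose _] at this⟩
  have mono : ∀ {a b : ℝ}, 0 < a → a ≤ b → ∀ v : Fin n → ℝ, InBox a v → InBox b v :=
    fun ha hab v h i => ⟨(inv_anti₀ ha hab).trans_lt (h i).1, (h i).2.trans_le hab⟩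
  have ev : ∀ v : Fin n → ℝ, (∀ i, v i ≠ 0) → ∀ᶠ k : ℕ in atTop, InBox (k + 1) v := fun v hv => by
    have t : Tendsto (fun k : ℕ => (k : ℝ) + 1) atTop atTop :=
      tendsto_atTop_add_const_right _ _ tendsto_natCast_atTop_atTop
    exact eventually_all.2 fun i =>
      (t.inv_tendsto_atTop.eventually (gt_mem_nhds (abs_pos.2 (hv i)))).and
        (t.eventually_gt_atTop _)
  have t := tendsto_measure_iInter_atTop (μ := μ) (s := fun k : ℕ => (boxSet n (k + 1))ᶜ)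
    (fun k => (isOpen_boxSet _).measurableSet.compl.nullMeasurableSet)
    (fun a b hab => compl_subset_compl.2 fun x ⟨v, w, hv, hw, p, q⟩ =>
      ⟨v, w, hv, hw, mono (by positivity) (by simpa using hab) v p,
        mono (by positivity) (by simpa using hab) w q⟩) ⟨0, measure_ne_top _ _⟩
  have z : μ (⋂ k : ℕ, (boxSet n (k + 1))ᶜ) = 0 := by
    rw [measure_eq_zero_iff_ae_notMem]
    filter_upwards [h1, h2] with x p q hx
    obtain ⟨v, hv⟩ := exists_primIn (by omega) x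
    obtain ⟨w, hw⟩ := exists_primIn_dual (by omega) x
    obtain ⟨k, hk⟩ := ((ev v (p v hv.1 hv.2.1)).and (ev w (q w hw.1 hw.2.1))).exists
    exact mem_iInter.1 hx k ⟨v, w, hv, hw, hk⟩
  rw [z] at t
  obtain ⟨k, hk⟩ := (t.eventually (ge_mem_nhds (pos_iff_ne_zero.2 hε))).exists
  exact ⟨k + 1, by simp, hk⟩

theorem dlat2_box {ρ : ℝ} (hρ : 1 ≤ ρ) {v : Fin n → ℝ} (hv : InBox ρ v)
    {A : Matrix (Fin n) (Fin n) ℝ}
    (hA : ∀ i j, |A i j - (1 : Matrix (Fin n) (Fin n) ℝ) i j| ≤ 1 / (2 * ρ ^ 2 * (n + 1))) :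
    InBox (2 * ρ) (v ᵥ* A) := by
  intro j
  have e : (v ᵥ* A) j - v j = ∑ i, v i * (A i j - (1 : Matrix (Fin n) (Fin n) ℝ) i j) := by
    simp [Matrix.vecMul, dotProduct, mul_sub, Matrix.one_apply]
  have b : |(v ᵥ* A) j - v j| ≤ (2 * ρ)⁻¹ := by
    rw [e]
    calc _ ≤ ∑ _i : Fin n, ρ * (1 / (2 * ρ ^ 2 * (n + 1))) :=
          (Finset.abs_sum_le_sum_abs _ _).trans (Finset.sum_le_sum fun i _ => by
            rw [abs_mul]
            gcongr
            exacts [(hv i).2.le, hA i j])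
      _ ≤ _ := by
        simp only [Finset.sum_const, Finset.card_univ, Fintype.card_fin, nsmul_eq_mul]
        field_simp
        linarith
  have b1 := abs_sub_abs_le_abs_sub ((v ᵥ* A) j) (v j)
  have b2 := abs_sub_abs_le_abs_sub (v j) ((v ᵥ* A) j)
  rw [abs_sub_comm] at b2
  have c1 : ρ⁻¹ = (2 * ρ)⁻¹ + (2 * ρ)⁻¹ := by field_simp; norm_num
  have c2 : (2 * ρ)⁻¹ ≤ 1 := inv_le_one_of_one_le₀ (by linarith)
  constructor <;> linarith [(hv j).1, (hv j).2]

/-- With `v' = v h`, `w' = w h⁻ᵀ`, `∑_S v'_i w'_i = v h π_S h⁻¹ wᵀ` and `h π_S - π_S h` has only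
cross entries. -/
theorem pair_near (n : ℕ) {ρ : ℝ} (hρ : 1 ≤ ρ) : ∃ r C : ℝ, 0 < r ∧ 0 < C ∧
    ∀ (S : Finset (Fin n)), ∀ y ∈ boxSet n ρ, ∃ θ : ℝ, ∀ (h : SLR n) (δ : ℝ), 0 < δ →
      Near r h → Near r h⁻¹ → (∀ i ∈ S, ∀ j ∉ S, |h.1 i j| ≤ δ ∧ |h.1 j i| ≤ δ) →
      act y h ∈ pairSet (2 * ρ) S θ (C * δ) := by
  refine ⟨1 / (2 * ρ ^ 2 * (n + 1)), 2 * n ^ 2 * ρ ^ 2 + 1, by positivity, by positivity, ?_⟩
  rintro S y ⟨v, w, hv, hw, bv, bw⟩
  refine ⟨∑ i ∈ S, v i * w i, fun h δ hδ h1 h2 h3 => ?_⟩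
  have bw' := dlat2_box hρ bw (A := ((h⁻¹).1)ᵀ) fun i j => by
    simpa [Matrix.one_apply, eq_comm] using h2 j i
  refine ⟨_, _, primIn_act hv h, primIn_dual_act hw h, dlat2_box hρ bv h1, bw', ?_⟩
  set w' := w ᵥ* ((h⁻¹).1)ᵀ with hw'
  have e : w' ᵥ* h.1ᵀ = w := by
    rw [hw', Matrix.vecMul_vecMul, ← Matrix.transpose_mul, ← Matrix.SpecialLinearGroup.coe_mul]
    simp
  have e2 : ∑ i ∈ S, (v ᵥ* h.1) i * w' i - ∑ i ∈ S, v i * w i = ∑ i, ∑ j,
      ((if j ∈ S then 1 else 0) - if i ∈ S then 1 else 0) * (v i * h.1 i j * w' j) := by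
    simp only [sub_mul, Finset.sum_sub_distrib, ite_mul, one_mul, zero_mul]
    congr 1
    · rw [Finset.sum_comm]
      simp [Matrix.vecMul, dotProduct, Finset.sum_mul]
    · rw [← e]
      simp [Matrix.vecMul, dotProduct, Finset.mul_sum, mul_comm, mul_left_comm]
  have b : ∀ i j, |((if j ∈ S then 1 else 0) - if i ∈ S then 1 else 0) * (v i * h.1 i j * w' j)| ≤
      ρ * δ * (2 * ρ) := fun i j => by
    have q : |h.1 i j| ≤ δ → |v i * h.1 i j * w' j| ≤ ρ * δ * (2 * ρ) := fun hq => by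
      rw [abs_mul, abs_mul]
      gcongr
      exacts [(bv i).2.le, (bw' j).2.le]
    by_cases hi : i ∈ S <;> by_cases hj : j ∈ S <;> simp only [hi, hj, if_true, if_false]
    · simp; positivity
    · simpa using q (h3 i hi j hj).1
    · simpa using q (h3 j hj i hi).2
    · simp; positivity
  rw [e2]
  calc _ ≤ ∑ _i : Fin n, ∑ _j : Fin n, ρ * δ * (2 * ρ) :=
        (Finset.abs_sum_le_sum_abs _ _).trans (Finset.sum_le_sum fun i _ =>
          (Finset.abs_sum_le_sum_abs _ _).trans (Finset.sum_le_sum fun j _ => b i j))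
    _ < _ := by
      simp only [Finset.sum_const, Finset.card_univ, Fintype.card_fin, nsmul_eq_mul]
      linarith

end Crest.Agent.R014

end
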