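import Crest.Agent.R014.DHigh

/-! # Row 14: the commutator argument -/

set_option autoImplicit false

noncomputable section

open MeasureTheory ProbabilityTheory Filter Topology Set
open scoped ENNReal Matrix NumberField
open Crest.NumberTheoryR.Packets

namespace Crest.Agent.R014

theorem dhi2_dirac {ρ : Measure ℝ} [IsProbabilityMeasure ρ] (h : ∀ᵐ s ∂ρ, s = 0) :
    ρ = Measure.dirac 0 := by
  have h1 : ρ.map id = ρ.map (fun _ => (0 : ℝ)) := Measure.map_congr h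
  rw [Measure.map_id, Measure.map_const, measure_univ, one_smul] at h1
  exact h1

theorem dhi2_ex {ρ : Measure ℝ} [IsProbabilityMeasure ρ] (h : ρ ≠ Measure.dirac 0) {Q : ℝ → Prop}
    (hQ : ∀ᵐ s ∂ρ, Q s) : ∃ s, s ≠ 0 ∧ Q s := by
  by_contra hc
  apply h
  apply dhi2_dirac
  filter_upwards [hQ] with s hs
  by_contra h0
  exact hc ⟨s, h0, hs⟩

theorem dhi2_typ {X : Type*} [MeasurableSpace X] {μ : Measure X} [IsFiniteMeasure μ]
    {u : X → ℝ → X} (hu : IsFlow u) {f : Kernel X ℝ} {X0 : Set X} (l : IsLeaf μ u f X0)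
    {Q : X → Prop} (hQ : ∀ᵐ y ∂μ, Q y) : ∀ᵐ x ∂μ, ∀ᵐ s ∂(f x), Q (u x s) := by
  haveI := l.markov
  have h1 : ∀ᵐ y ∂((μ ⊗ₘ f).map (fun p => u p.1 p.2)), Q y := l.typ.ae_le hQ
  have h2 : ∀ᵐ p ∂(μ ⊗ₘ f), Q (u p.1 p.2) := ae_of_ae_map hu.meas.aemeasurable h1
  exact Measure.ae_ae_of_ae_compProd h2

theorem dhi2_pair {X : Type*} [MeasurableSpace X] {μ : Measure X} [IsFiniteMeasure μ]
    {u : X → ℝ → X} {f g : Kernel X ℝ} {X0 : Set X} (l : IsLeaf μ u f X0)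
    (h : PairEq μ u g) : ∀ᵐ x ∂μ, ∀ᵐ s ∂(f x), g (u x s) = g x := by
  haveI := l.markov
  have h1 : (μ ⊗ₘ f).map Prod.fst ≪ μ := by
    have : (μ ⊗ₘ f).map Prod.fst = μ := Measure.fst_compProd μ f
    rw [this]
  exact Measure.ae_ae_of_ae_compProd (h (μ ⊗ₘ f) inferInstance h1 l.typ)

/-- Two steps: first along `u`, then along `v`. -/
theorem dhi2_two {X : Type*} [MeasurableSpace X] {μ : Measure X} [IsFiniteMeasure μ]
    {u v : X → ℝ → X} (hu : IsFlow u) (hv : IsFlow v) {f g k : Kernel X ℝ} {X0 X1 X2 : Set X}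
    (lu : IsLeaf μ u f X0) (lv : IsLeaf μ v g X1) (hX : μ X2ᶜ = 0) (h1 : PairEq μ u g)
    (h2 : PairEq μ u k) (h4 : PairEq μ v k) :
    ∀ᵐ x ∂μ, ∀ᵐ s ∂(f x), ∀ᵐ t ∂(g x), k (v (u x s) t) = k x ∧ v (u x s) t ∈ X2 := by
  have hX' : ∀ᵐ y ∂μ, y ∈ X2 := hX
  have a1 : ∀ᵐ y ∂μ, ∀ᵐ t ∂(g y), k (v y t) = k y ∧ v y t ∈ X2 := by
    filter_upwards [dhi2_pair lv h4, dhi2_typ hv lv hX'] with y hy1 hy2
    exact hy1.and hy2
  filter_upwards [dhi2_typ hu lu a1, dhi2_pair lu h1, dhi2_pair lu h2] with x hx1 hx2 hx3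
  filter_upwards [hx1, hx2, hx3] with s hs1 hs2 hs3
  rw [hs2, hs3] at hs1
  exact hs1

/-- On the space `(x, s, t) ~ μ ⊗ (fα x ⊗ fβ x)`: the law of `uα x s` is `≪ μ`,
`fβ (uα x s) = fβ x`, so the law of `(uα x s, t)` is `≪ μ ⊗ fβ` and the law of `uβ (uα x s) t` is
`≪ μ`; symmetrically for `uα (uβ x t) s`.  Hence `fγ` takes the value `fγ x` at both points, the
second lies in `Xγ`, and they differ by `uγ · (s t)`. -/
theorem quad {X : Type*} [MeasurableSpace X] {μ : Measure X} [IsFiniteMeasure μ]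
    {uα uβ uγ : X → ℝ → X} (hα : IsFlow uα) (hβ : IsFlow uβ) (hγ : IsFlow uγ)
    {fα fβ fγ : Kernel X ℝ} {Xα Xβ Xγ : Set X} (lα : IsLeaf μ uα fα Xα) (lβ : IsLeaf μ uβ fβ Xβ)
    (lγ : IsLeaf μ uγ fγ Xγ) (h1 : PairEq μ uα fβ) (h2 : PairEq μ uα fγ) (h3 : PairEq μ uβ fα)
    (h4 : PairEq μ uβ fγ) (hrel : ∀ x s t, uβ (uα x s) t = uγ (uα (uβ x t) s) (s * t)) :
    ∀ᵐ x ∂μ, fα x ≠ Measure.dirac 0 → fβ x ≠ Measure.dirac 0 →
      ∃ r ≠ 0, aff 1 r (fγ x) = fγ x := by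
  haveI := lα.markov
  haveI := lβ.markov
  haveI := lγ.markov
  filter_upwards [dhi2_two hα hβ lα lβ lγ.conull h1 h2 h4,
    dhi2_two hβ hα lβ lα lγ.conull h3 h4 h2] with x hx1 hx2 hxα hxβ
  have hm : Measurable fun p : ℝ × ℝ => uα (uβ x p.1) p.2 :=
    hα.meas.comp ((hβ.meas.comp (measurable_const.prodMk measurable_fst)).prodMk measurable_snd)
  have hms : MeasurableSet {p : ℝ × ℝ | fγ (uα (uβ x p.1) p.2) = fγ x ∧ uα (uβ x p.1) p.2 ∈ Xγ} := by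
    refine MeasurableSet.inter ?_ (hm lγ.meas)
    exact measurableSet_meas_eq (κ := fun p : ℝ × ℝ => fγ (uα (uβ x p.1) p.2))
      (κ' := fun _ => fγ x) (fγ.measurable.comp hm) measurable_const
      (fun _ => inferInstance) (fun _ => inferInstance)
  have hx3 := (Measure.ae_ae_comm (μ := fβ x) (ν := fα x)
    (p := fun t s => fγ (uα (uβ x t) s) = fγ x ∧ uα (uβ x t) s ∈ Xγ) hms).1 hx2
  obtain ⟨s, hs0, hs1, hs2⟩ := dhi2_ex hxα (hx1.and hx3)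
  obtain ⟨t, ht0, ⟨ht1, -⟩, ht2, ht3⟩ := dhi2_ex hxβ (hs1.and hs2)
  refine ⟨-(s * t), neg_ne_zero.2 (mul_ne_zero hs0 ht0), ?_⟩
  have := lγ.equiv _ ht3 (s * t)
  rw [← hrel, ht1, ht2] at this
  exact this.symm

/-- `quad` with `pairEq_root` (`t = e_i`, `-e_j`, `-e_k`, `e_j`), `rt_comm`, then `stab_cau` with
`a = act · (dA e_k)`. -/
theorem high {n : ℕ} {μ : Measure (ModSpace n)} [IsFiniteMeasure μ] (hA : AInv μ)
    {i j k : Fin n} (hij : i ≠ j) (hjk : j ≠ k) (hik : i ≠ k)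
    {fα fβ fγ : Kernel (ModSpace n) ℝ} {Xα Xβ Xγ : Set (ModSpace n)}
    (lα : IsLeaf μ (rtF hij) fα Xα) (lβ : IsLeaf μ (rtF hjk) fβ Xβ)
    (lγ : IsLeaf μ (rtF hik) fγ Xγ) :
    ∀ᵐ x ∂μ, fα x ≠ Measure.dirac 0 → fβ x ≠ Measure.dirac 0 → fγ x = cauM := by
  haveI := lγ.markov
  have h1 : PairEq μ (rtF hij) fβ := pairEq_root hA hij hjk (Pi.single i 1)
    (by simp [hij.symm, hik.symm]) (by simp [hij.symm]) lβ
  have h2 : PairEq μ (rtF hij) fγ := pairEq_root hA hij hik (Pi.single j (-1))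
    (by simp [hij, hjk.symm]) (by simp [hij]) lγ
  have h3 : PairEq μ (rtF hjk) fα := pairEq_root hA hjk hij (Pi.single k (-1))
    (by simp [hik, hjk]) (by simp [hjk]) lα
  have h4 : PairEq μ (rtF hjk) fγ := pairEq_root hA hjk hik (Pi.single j 1)
    (by simp [hij, hjk.symm]) (by simp [hjk.symm]) lγ
  have hrel : ∀ x s t, rtF hjk (rtF hij x s) t = rtF hik (rtF hij (rtF hjk x t) s) (s * t) := by
    intro x s t
    simp only [rtF, act_mul]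
    rw [rt_comm hij hjk hik]
  have hq := quad (isFlow_rtF hij) (isFlow_rtF hjk) (isFlow_rtF hik) lα lβ lγ h1 h2 h3 h4 hrel
  have ha : MeasurePreserving (actE (dA (Pi.single k (1 : ℝ)))) μ μ :=
    ⟨(actE _).measurable, hA _⟩
  have hsc := lγ.scale (actE (dA (Pi.single k (1 : ℝ)))) (Real.exp 1) (Real.exp_pos 1) ha (by
    intro x s
    simp only [actE_apply, rtF, act_mul]
    rw [rt_mul_dA]
    simp [hik])
  have hc1 : Real.exp 1 ≠ 1 := by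
    have := Real.add_one_lt_exp (x := 1) one_ne_zero
    linarith
  filter_upwards [hq, stab_cau ha fγ (Real.exp_pos 1) hc1 hsc] with x hx1 hx2 a b
  exact hx2 (hx1 a b)

end Crest.Agent.R014

end
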