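import Crest.Agent.R014.DCovB
import Crest.Agent.R014.DHigh2

/-! # Row 14: measure rigidity under the pair bound -/

set_option autoImplicit false

noncomputable section

open MeasureTheory ProbabilityTheory Filter Topology Set
open scoped ENNReal Matrix NumberField
open Crest.NumberTheoryR.Packets

namespace Crest.Agent.R014

theorem graph_full {n : ℕ} (E : Fin n → Fin n → Prop)
    (h1 : ∀ S : Finset (Fin n), S.Nonempty → S ≠ Finset.univ → ∃ i ∈ S, ∃ j ∉ S, E i j)
    (h2 : ∀ i j k, i ≠ j → j ≠ k → i ≠ k → E i j → E j k → E i k) :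
    ∀ i j, i ≠ j → E i j := by
  classical
  intro i j hij
  by_contra hE
  let S : Finset (Fin n) := Finset.univ.filter fun k => k = i ∨ E i k
  have hS : ∀ k, k ∈ S ↔ k = i ∨ E i k := fun k => by simp [S]
  have hj : j ∉ S := fun h => ((hS j).1 h).elim (fun e => hij e.symm) hE
  obtain ⟨a, ha, b, hb, hab⟩ := h1 S ⟨i, (hS i).2 (Or.inl rfl)⟩
    (fun h => hj (h ▸ Finset.mem_univ j))
  have hbi : i ≠ b := fun e => hb ((hS b).2 (Or.inl e.symm))
  have hab' : a ≠ b := fun e => hb (e ▸ ha)
  by_cases hai : a = i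
  · exact hb ((hS b).2 (Or.inr (hai ▸ hab)))
  · have := ((hS a).1 ha).resolve_left hai
    exact hb ((hS b).2 (Or.inr (h2 i a b (Ne.symm hai) hab' hbi this hab)))

theorem restrict_inv {X : Type*} [MeasurableSpace X] {μ : Measure X} {a : X → X}
    (ha : MeasurePreserving a μ μ) {Y : Set X} (hY : MeasurableSet Y)
    (h : ∀ᵐ x ∂μ, a x ∈ Y ↔ x ∈ Y) : (μ.restrict Y).map a = μ.restrict Y := by
  ext s hs
  rw [Measure.map_apply ha.measurable hs, Measure.restrict_apply (ha.measurable hs),
    Measure.restrict_apply hs, ← ha.measure_preimage (hs.inter hY).nullMeasurableSet]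
  refine measure_congr ?_
  filter_upwards [h] with x hx
  change (a x ∈ s ∧ x ∈ Y) = (a x ∈ s ∧ a x ∈ Y)
  rw [hx]

theorem rootTriv_of_dirac {n : ℕ} {μ μ' : Measure (ModSpace n)} (hμ : μ' ≪ μ) {i j : Fin n}
    {h : i ≠ j} {f : Kernel (ModSpace n) ℝ} {X0 : Set (ModSpace n)} (hf : IsLeaf μ (rtF h) f X0)
    (h0 : ∀ᵐ x ∂μ', f x = Measure.dirac 0) : RootTriv μ' h := by
  have := hf.markov
  have hm : MeasurableSet {x | f x = Measure.dirac (0 : ℝ)} :=
    measurableSet_meas_eq f.measurable measurable_const (fun _ => inferInstance)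
      (fun _ => inferInstance)
  refine ⟨X0 ∩ {x | f x = Measure.dirac 0}, hf.meas.inter hm, ?_, ?_⟩
  · rw [compl_inter]
    exact measure_union_null (hμ hf.conull) h0
  · rintro x ⟨hx, hx0⟩ s ⟨-, hs⟩
    have h1 := hf.equiv x hx s
    have hs' : f (rtF h x s) = Measure.dirac 0 := hs
    have hx0' : f x = Measure.dirac 0 := hx0
    rw [hs', hx0', aff_dirac one_pos] at h1
    have := MeasureTheory.injective_dirac h1
    linarith

/-- Choose leafwise measures `f i j` for all roots.  For a relation `E` let `Y E` be the set of `x`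
with `E i j ↔ f i j x ≠ δ₀` for all `i ≠ j`; `μ.restrict (Y E)` is `A`-invariant and satisfies `PB`.
If it is nonzero, `cover`, `high` (`cauM ≠ δ₀`) and `graph_full` show that `E` is full.  So a.e.
all `f i j x ≠ δ₀`, by `high` all `f i k x = cauM`, and `μ` is invariant under all root groups. -/
theorem dyn {n : ℕ} (hn : 3 ≤ n) {μ : Measure (ModSpace n)} [IsFiniteMeasure μ] (hA : AInv μ)
    {c : ℝ} (hc : 0 < c) (hPB : PB μ c) (g : SLR n) : μ.map (fun x => act x g) = μ := by
  classical
  choose f X0 hf using fun (p : {p : Fin n × Fin n // p.1 ≠ p.2}) =>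
    exists_leaf (μ := μ) (isFlow_rtF p.2)
  have hM := fun p => (hf p).markov
  have hm : ∀ p, MeasurableSet {x | f p x = Measure.dirac (0 : ℝ)} := fun p =>
    measurableSet_meas_eq (f p).measurable measurable_const (fun _ => inferInstance)
      (fun _ => inferInstance)
  let Y : ({p : Fin n × Fin n // p.1 ≠ p.2} → Prop) → Set (ModSpace n) := fun E =>
    {x | ∀ p, E p ↔ f p x ≠ Measure.dirac 0}
  have hY : ∀ E, MeasurableSet (Y E) := fun E => by
    have : Y E = ⋂ p, {x | E p ↔ f p x ≠ Measure.dirac 0} := by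
      ext x; simp [Y]
    rw [this]
    refine MeasurableSet.iInter fun p => ?_
    by_cases hp : E p
    · convert (hm p).compl using 1
      ext x; simp [hp]
    · convert hm p using 1
      ext x; simp [hp]
  have hcau : cauM ≠ Measure.dirac 0 := fun h => by
    have h1 : cauM {0} = 0 := cauM_ac (by simp)
    rw [h] at h1
    simp at h1
  have hmp : ∀ t, MeasurePreserving (fun x => act x (dA t)) μ μ := fun t =>
    ⟨measurable_act_left _, hA t⟩
  have hinv : ∀ t p, ∀ᵐ x ∂μ,
      (f p (act x (dA t)) = Measure.dirac 0 ↔ f p x = Measure.dirac 0) := fun t p => by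
    have h1 := (hf p).scale (actE (dA t)) (Real.exp (t p.1.2 - t p.1.1)) (Real.exp_pos _) (hmp t)
      (fun x s => by
        simp only [actE_apply, rtF, act_mul, rt_mul_dA])
    filter_upwards [h1] with x hx
    rw [actE_apply] at hx
    rw [hx, aff_eq_dirac_iff (Real.exp_pos _)]
  have key : ∀ E, μ (Y E) ≠ 0 → ∀ p, E p := fun E hE => by
    have hne : μ.restrict (Y E) ≠ 0 := by
      rwa [Ne, Measure.restrict_eq_zero]
    have hA' : AInv (μ.restrict (Y E)) := fun t => by
      refine restrict_inv (hmp t) (hY E) ?_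
      filter_upwards [ae_all_iff.2 (hinv t)] with x hx
      refine forall_congr' fun p => ?_
      rw [Ne, Ne, hx p]
    have hPB' : PB (μ.restrict (Y E)) c := fun ρ hρ => by
      obtain ⟨C, hC⟩ := hPB ρ hρ
      exact ⟨C, fun S h1 h2 θ δ h3 h4 =>
        (Measure.restrict_le_self _).trans (hC S h1 h2 θ δ h3 h4)⟩
    have hfull := graph_full (fun i j => ∃ h : i ≠ j, E ⟨(i, j), h⟩) (fun S h1 h2 => by
      by_contra hcon
      push Not at hcon
      refine hne (cover (by omega) hA' hc hPB' h1 h2 fun i hi j hj h => ?_)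
      refine rootTriv_of_dirac (Measure.absolutelyContinuous_of_le Measure.restrict_le_self)
        (hf ⟨(i, j), h⟩) ?_
      filter_upwards [ae_restrict_mem (hY E)] with x hx
      by_contra h0
      exact hcon i hi j hj h ((hx _).2 h0)) (fun i j k hij hjk hik ⟨_, e1⟩ ⟨_, e2⟩ => by
      refine ⟨hik, ?_⟩
      have h1 := high hA hij hjk hik (hf ⟨(i, j), hij⟩) (hf ⟨(j, k), hjk⟩) (hf ⟨(i, k), hik⟩)
      by_contra h0
      refine hE (measure_mono_null (fun x hx => ?_) h1)
      intro h2
      have h3 := h2 ((hx _).1 e1) ((hx _).1 e2)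
      exact h0 ((hx _).2 (h3 ▸ hcau)))
    rintro ⟨⟨i, j⟩, h⟩
    exact (hfull i j h).2
  have hall : ∀ᵐ x ∂μ, ∀ p, f p x ≠ Measure.dirac 0 := by
    have h1 : ∀ E, ∀ᵐ x ∂μ, x ∈ Y E → ∀ p, E p := fun E => by
      by_cases hE : μ (Y E) = 0
      · filter_upwards [measure_eq_zero_iff_ae_notMem.1 hE] with x hx h using (hx h).elim
      · exact Eventually.of_forall fun x _ => key E hE
    filter_upwards [ae_all_iff.2 h1] with x hx
    exact hx (fun p => f p x ≠ Measure.dirac 0) fun p => Iff.rfl
  refine rt_induction (by omega) (fun g => μ.map (fun x => act x g) = μ) ?_ ?_ g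
  · intro i k hik s
    obtain ⟨j, hij, hjk⟩ : ∃ j : Fin n, i ≠ j ∧ j ≠ k := by
      by_contra hcon
      push Not at hcon
      have h1 : (Finset.univ : Finset (Fin n)) ⊆ {i, k} := fun j _ => by
        by_cases h : i = j
        · simp [h]
        · simp [hcon j h]
      have h2 := Finset.card_le_card h1
      have h3 : ({i, k} : Finset (Fin n)).card ≤ 2 := Finset.card_le_two
      simp only [Finset.card_univ, Fintype.card_fin] at h2
      omega
    refine (hf ⟨(i, k), hik⟩).inv ?_ s
    filter_upwards [hall, high hA hij hjk hik (hf ⟨(i, j), hij⟩) (hf ⟨(j, k), hjk⟩)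
      (hf ⟨(i, k), hik⟩)] with x hx h1
    exact h1 (hx _) (hx _)
  · intro g h hg hh
    have : (fun x => act x (g * h)) = (fun x => act x h) ∘ fun x => act x g := by
      funext x; simp only [Function.comp, act_mul]
    rw [this, ← Measure.map_map (measurable_act_left h) (measurable_act_left g), hg, hh]

end Crest.Agent.R014

end
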