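import Crest.Agent.R014.DRed
import Crest.Agent.R014.DLat2

/-! # Row 14: Mahler's criterion -/

set_option autoImplicit false

noncomputable section

open MeasureTheory ProbabilityTheory Filter Topology Set
open scoped ENNReal Matrix NumberField
open Crest.NumberTheoryR.Packets

namespace Crest.Agent.R014

theorem dred2_basis (n : ℕ) {r : ℝ} (hr : 0 < r) : ∃ K : ℝ, ∀ x : ModSpace n, x ∉ shortSet n r →
    ∃ B : Matrix (Fin n) (Fin n) ℝ,
      (∀ v, v ∈ lat x ↔ ∃ e : Fin n → ℤ, v = (fun i => (e i : ℝ)) ᵥ* B) ∧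
      ∀ (z : Fin n → ℝ) (i : Fin n), z ᵥ* B = Pi.single i 1 → ∀ j, |z j| ≤ K := by
  obtain ⟨c, hc, H⟩ := reduced_basis n
  refine ⟨(c * r)⁻¹, fun x hx => ?_⟩
  let T : (Fin n → ℝ) ≃ₗ[ℤ] EuclideanSpace ℝ (Fin n) :=
    (WithLp.linearEquiv 2 ℝ (Fin n → ℝ)).symm.restrictScalars ℤ
  have hT : ∀ v, T v = WithLp.toLp 2 v := fun v => rfl
  have hli : LinearIndependent ℤ
      fun i : Fin n => ((Quotient.out x : SLR n) : Matrix (Fin n) (Fin n) ℝ) i := by
    have h : LinearIndependent ℝ ((Quotient.out x : SLR n) : Matrix (Fin n) (Fin n) ℝ).row :=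
      Matrix.linearIndependent_rows_of_det_ne_zero
        ((Quotient.out x : SLR n).2.trans_ne one_ne_zero)
    exact h.restrict_scalars' ℤ
  obtain ⟨b, hb1, hb2⟩ := H (EuclideanSpace ℝ (Fin n)) ((lat x).map T.toLinearMap)
    (Submodule.FG.map _ (Submodule.fg_span (finite_range _)))
    (by
      rw [LinearEquiv.finrank_map_eq, lat, finrank_span_eq_card hli, Fintype.card_fin]) r hr
    (by
      rintro _ ⟨v, hv, rfl⟩ h0
      have hv0 : v ≠ 0 := fun h => h0 (by rw [h, map_zero])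
      have h1 : r ≤ ‖v‖ := not_lt.1 fun h => hx ⟨v, hv, hv0, h⟩
      refine h1.trans ((pi_norm_le_iff_of_nonneg (norm_nonneg _)).2 fun i => ?_)
      exact PiLp.norm_apply_le (WithLp.toLp 2 v : EuclideanSpace ℝ (Fin n)) i)
  have key : ∀ z : Fin n → ℝ, ∑ i, z i • b i =
      WithLp.toLp 2 (z ᵥ* (Matrix.of fun i j => b i j)) := by
    intro z
    ext j
    simp [Matrix.vecMul, dotProduct]
  refine ⟨Matrix.of fun i j => b i j, fun v => ?_, fun z i hz j => ?_⟩
  · have h0 : v ∈ lat x ↔ T v ∈ (lat x).map T.toLinearMap :=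
      ⟨fun h => ⟨v, h, rfl⟩, fun ⟨w, hw, e⟩ => T.injective e ▸ hw⟩
    rw [h0, ← hb1, Submodule.mem_span_range_iff_exists_fun]
    refine exists_congr fun e => ?_
    have := key fun i => (e i : ℝ)
    simp only [Int.cast_smul_eq_zsmul] at this
    rw [this, hT, eq_comm]
    exact (WithLp.toLp_injective 2).eq_iff
  · have h := hb2 z
    rw [key, hz] at h
    have h1 : ‖(WithLp.toLp 2 (Pi.single i (1 : ℝ)) : EuclideanSpace ℝ (Fin n))‖ = 1 := by
      simp
    rw [h1] at h
    have h2 : |z j| ≤ ‖z‖ := norm_le_pi_norm z j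
    refine h2.trans ?_
    rw [← one_div, le_div_iff₀ (mul_pos hc hr), mul_comm]
    exact h

theorem dred2_rep (n : ℕ) {r : ℝ} (hr : 0 < r) : ∃ K : ℝ, ∀ x : ModSpace n, x ∉ shortSet n r →
    ∃ g : SLR n, mkX g = x ∧ ∀ i j, |(g⁻¹).1 i j| ≤ K := by
  obtain ⟨K, hK⟩ := dred2_basis n hr
  refine ⟨K, fun x hx => ?_⟩
  obtain ⟨B, hB, hb⟩ := hK x hx
  obtain ⟨g, rfl⟩ := mkX_surj x
  have h1 : ∀ i, ∃ e : Fin n → ℤ, B i = (fun i => (e i : ℝ)) ᵥ* g.1 := fun i =>
    (mem_lat_mkX g _).1 ((hB _).2 ⟨Pi.single i 1, by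
      ext j
      simp [Matrix.vecMul, dotProduct, Pi.single_apply]⟩)
  have h2 : ∀ i, ∃ e : Fin n → ℤ, g.1 i = (fun i => (e i : ℝ)) ᵥ* B := fun i =>
    (hB _).1 ((mem_lat_mkX g _).2 ⟨Pi.single i 1, by
      ext j
      simp [Matrix.vecMul, dotProduct, Pi.single_apply]⟩)
  choose A hA using h1
  choose A' hA' using h2
  have e1 : B = (Matrix.of A).map (Int.castRingHom ℝ) * g.1 := by
    ext i j
    rw [hA i]
    rfl
  have e2 : g.1 = (Matrix.of A').map (Int.castRingHom ℝ) * B := by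
    ext i j
    rw [hA' i]
    rfl
  have d1 : B.det = ((Matrix.of A).det : ℤ) := by
    rw [e1, Matrix.det_mul, g.2, mul_one]
    exact ((Int.castRingHom ℝ).map_det _).symm
  have d2 : (Matrix.of A').det * (Matrix.of A).det = 1 := by
    have := g.2
    rw [e2, Matrix.det_mul, d1] at this
    have h3 : ((Matrix.of A').map (Int.castRingHom ℝ)).det = ((Matrix.of A').det : ℤ) :=
      ((Int.castRingHom ℝ).map_det _).symm
    rw [h3] at this
    exact_mod_cast this
  obtain ⟨s, s1, s2⟩ : ∃ s : Fin n → ℤ, (∀ i, s i * s i = 1) ∧ (∏ i, (s i : ℝ)) * B.det = 1 := by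
    rcases Int.eq_one_or_neg_one_of_mul_eq_one' d2 with h | h
    · exact ⟨1, by simp, by simp [d1, h.2]⟩
    · rcases Nat.eq_zero_or_pos n with rfl | hn
      · have := h.2
        simp at this
      · refine ⟨fun i => if i = ⟨0, hn⟩ then -1 else 1, fun i => by dsimp only; split_ifs <;> simp, ?_⟩
        rw [d1, h.2]
        simp [Finset.prod_ite_eq']
  have s3 : ∀ i, (s i : ℝ) * s i = 1 := fun i => by exact_mod_cast s1 i
  let g' : SLR n := ⟨Matrix.diagonal (fun i => (s i : ℝ)) * B, by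
    rw [Matrix.det_mul, Matrix.det_diagonal, s2]⟩
  have hv : ∀ y : Fin n → ℝ, y ᵥ* g'.1 = (fun i => y i * s i) ᵥ* B := by
    intro y
    show y ᵥ* (Matrix.diagonal (fun i => (s i : ℝ)) * B) = _
    rw [← Matrix.vecMul_vecMul]
    congr 1
    ext i
    rw [Matrix.vecMul_diagonal]
  refine ⟨g', lat_inj (Submodule.ext fun v => ?_), fun i j => ?_⟩
  · rw [mem_lat_mkX, hB]
    constructor
    · rintro ⟨e, rfl⟩
      exact ⟨fun i => e i * s i, by rw [hv]; push_cast; rfl⟩
    · rintro ⟨e, rfl⟩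
      refine ⟨fun i => e i * s i, ?_⟩
      rw [hv]
      congr 1
      ext i
      push_cast
      rw [mul_assoc, s3, mul_one]
  · have h3 : (g'⁻¹).1 i ᵥ* g'.1 = Pi.single i 1 := by
      have h4 : (g'⁻¹).1 * g'.1 = 1 := by
        rw [← Matrix.SpecialLinearGroup.coe_mul, inv_mul_cancel]
        rfl
      ext k
      have := congrFun (congrFun h4 i) k
      rw [Matrix.one_apply] at this
      rw [Pi.single_apply]
      refine this.trans ?_
      simp only [eq_comm]
    rw [hv] at h3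
    have h5 := hb _ i h3 j
    have h6 : |(s j : ℝ)| = 1 := by
      have := congrArg abs (s3 j)
      rw [abs_mul, abs_one] at this
      nlinarith [abs_nonneg (s j : ℝ)]
    rwa [abs_mul, h6, mul_one] at h5

/-- Mahler: a reduced basis gives a representative `g` (change the sign of one row if necessary)
with `g⁻¹` bounded, hence `g = adj (g⁻¹)` bounded; so the closed set is contained in the image of
a compact set. -/
theorem isCompact_compl_shortSet (n : ℕ) {r : ℝ} (hr : 0 < r) : IsCompact (shortSet n r)ᶜ := by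
  obtain ⟨K, hK⟩ := dred2_rep n hr
  refine ((isCompact_bdd K).image (continuous_mkX.comp continuous_inv)).of_isClosed_subset
    (isOpen_shortSet r).isClosed_compl fun x hx => ?_
  obtain ⟨g, h1, h2⟩ := hK x hx
  exact ⟨g⁻¹, h2, by simpa using h1⟩

end Crest.Agent.R014

end
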