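import Crest.Agent.R014.DLimit
import Crest.Agent.R014.DMain
import Crest.Agent.R014.DRed2

/-! # Row 14: limits of invariant measures, II -/

set_option autoImplicit false

noncomputable section

open MeasureTheory ProbabilityTheory Filter Topology Set
open scoped ENNReal Matrix NumberField
open Crest.NumberTheoryR.Packets

namespace Crest.Agent.R014

/-- Each finite measure on the σ-compact space is tight; `isCompact_compl_shortSet`. -/
theorem tight_of_short {n : ℕ} (μ : ℕ → Measure (ModSpace n)) [∀ i, IsProbabilityMeasure (μ i)]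
    (ht : ∀ ε : ℝ, 0 < ε → ∃ r : ℝ, 0 < r ∧ ∀ᶠ i in atTop, μ i (shortSet n r) ≤ ENNReal.ofReal ε) :
    IsTightMeasureSet (range μ) := by
  rw [isTightMeasureSet_iff_exists_isCompact_measure_compl_le]
  intro ε hε
  obtain ⟨e, he, heε⟩ : ∃ e : ℝ, 0 < e ∧ ENNReal.ofReal e ≤ ε := by
    rcases eq_or_ne ε ∞ with rfl | h
    · exact ⟨1, one_pos, le_top⟩
    · exact ⟨ε.toReal, ENNReal.toReal_pos hε.ne' h, ENNReal.ofReal_toReal_le⟩
  obtain ⟨r, hr, hev⟩ := ht e he
  obtain ⟨N, hN⟩ := eventually_atTop.1 hev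
  have h1 : ∀ i, ∃ K : Set (ModSpace n), IsCompact K ∧ μ i Kᶜ ≤ ε := fun i => by
    obtain ⟨K, hK, h⟩ := isTightMeasureSet_iff_exists_isCompact_measure_compl_le.1
      (isTightMeasureSet_singleton_of_innerRegular (μ := μ i)) ε hε
    exact ⟨K, hK, h _ rfl⟩
  choose K hK hK' using h1
  refine ⟨(shortSet n r)ᶜ ∪ ⋃ i ∈ Iio N, K i, (isCompact_compl_shortSet n hr).union
    ((finite_Iio N).isCompact_biUnion fun i _ => hK i), ?_⟩
  rintro _ ⟨i, rfl⟩
  rcases lt_or_ge i N with hi | hi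
  · refine (measure_mono (compl_subset_compl.2 ?_)).trans (hK' i)
    exact (subset_biUnion_of_mem (u := K) (mem_Iio.2 hi)).trans subset_union_right
  · refine (measure_mono ?_).trans ((hN i hi).trans heε)
    rw [compl_subset_comm]
    exact subset_union_left

/-- Prokhorov (`isCompact_closure_of_isTightMeasureSet`): along every ultrafilter `𝒰 ≤ atTop` the
measures converge to a probability measure which is `A`-invariant and satisfies `PB`
(`ProbabilityMeasure.le_liminf_measure_open_of_tendsto`, `isOpen_pairSet`), hence is Haar (`dyn`),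
and unique (`haar_unique`). -/
theorem limit_thm {n : ℕ} (hn : 3 ≤ n) (μ : ℕ → Measure (ModSpace n))
    [∀ i, IsProbabilityMeasure (μ i)] (hA : ∀ i, AInv (μ i))
    (ht : ∀ ε : ℝ, 0 < ε → ∃ r : ℝ, 0 < r ∧ ∀ᶠ i in atTop, μ i (shortSet n r) ≤ ENNReal.ofReal ε)
    {c : ℝ} (hc : 0 < c)
    (hPB : ∀ ρ : ℝ, 1 ≤ ρ → ∃ C : ℝ, ∀ δ : ℝ, 0 < δ → δ ≤ 1 → ∀ᶠ i in atTop,
      ∀ S : Finset (Fin n), S.Nonempty → S ≠ Finset.univ → ∀ θ : ℝ,
        μ i (pairSet ρ S θ δ) ≤ ENNReal.ofReal (C * δ ^ c)) :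
    ∃ ν : Measure (ModSpace n), IsHaarProbability ν ∧
      (∀ f : ModSpace n → ℝ, Continuous f → HasCompactSupport f →
        Tendsto (fun i => ∫ x, f x ∂(μ i)) atTop (𝓝 (∫ x, f x ∂ν))) ∧
      ∀ ε : ℝ, 0 < ε → ∃ C : Set (ModSpace n), IsCompact C ∧
        ∀ᶠ i in atTop, 1 - ε ≤ ((μ i) C).toReal := by
  have htight := tight_of_short μ ht
  let P : ℕ → ProbabilityMeasure (ModSpace n) := fun i => ⟨μ i, inferInstance⟩
  have hcpt : IsCompact (closure (range P)) := by
    refine isCompact_closure_of_isTightMeasureSet (htight.subset ?_)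
    rintro _ ⟨_, ⟨i, rfl⟩, rfl⟩
    exact ⟨i, rfl⟩
  have key : ∀ 𝒰 : Ultrafilter ℕ, (𝒰 : Filter ℕ) ≤ atTop → ∃ ν : ProbabilityMeasure (ModSpace n),
      Tendsto P 𝒰 (𝓝 ν) ∧ IsHaarProbability (ν : Measure (ModSpace n)) := by
    intro 𝒰 h𝒰
    obtain ⟨ν, -, hν : Tendsto P 𝒰 (𝓝 ν)⟩ := hcpt.ultrafilter_le_nhds (𝒰.map P)
      (.trans (by simp) (monotone_principal subset_closure))
    refine ⟨ν, hν, inferInstance, dyn hn (fun t => ?_) hc fun ρ hρ => ?_⟩
    · have h1 := ProbabilityMeasure.tendsto_map_of_tendsto_of_continuous P ν hν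
        (continuous_act_left (dA t))
      have h2 : (fun i => (P i).map (continuous_act_left (dA t)).measurable.aemeasurable) = P :=
        funext fun i => Subtype.ext (hA i t)
      rw [h2] at h1
      have h3 := tendsto_nhds_unique h1 hν
      exact congrArg Subtype.val h3
    · obtain ⟨C, hC⟩ := hPB ρ hρ
      refine ⟨C, fun S hS hS' θ δ h0 h1 => ?_⟩
      refine (ProbabilityMeasure.le_liminf_measure_open_of_tendsto hν
        (isOpen_pairSet ρ S θ δ)).trans (liminf_le_of_frequently_le' (Eventually.frequently ?_))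
      exact ((hC δ h0 h1).filter_mono h𝒰).mono fun i hi => hi S hS hS' θ
  obtain ⟨ν, -, hν⟩ := key (Ultrafilter.of atTop) (Ultrafilter.of_le _)
  have hlim : Tendsto P atTop (𝓝 ν) := by
    rw [tendsto_iff_ultrafilter]
    intro 𝒰 h𝒰
    obtain ⟨ν', h1, h2⟩ := key 𝒰 h𝒰
    rwa [show ν = ν' from Subtype.ext (haar_unique hν h2)]
  refine ⟨ν, hν, fun f hf hf' => ?_, fun ε hε => ?_⟩
  · exact ProbabilityMeasure.tendsto_iff_forall_integral_tendsto.1 hlim
      (ofCompactSupport f hf hf')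
  · obtain ⟨K, hK, hK'⟩ := isTightMeasureSet_iff_exists_isCompact_measure_compl_le.1 htight
      (ENNReal.ofReal ε) (ENNReal.ofReal_pos.2 hε)
    refine ⟨K, hK, Eventually.of_forall fun i => ?_⟩
    have h1 : (μ i).real Kᶜ ≤ ε := ENNReal.toReal_le_of_le_ofReal hε.le (hK' _ ⟨i, rfl⟩)
    have h2 := measureReal_add_measureReal_compl (μ := μ i) hK.measurableSet
    rw [probReal_univ] at h2
    change 1 - ε ≤ (μ i).real K
    linarith

end Crest.Agent.R014

end
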