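import Crest.Agent.R014.AMain2
import Crest.Agent.R014.DLimit2
import Crest.Agent.R014.DLat2

/-! # Row 14: the main theorem -/

set_option autoImplicit false

noncomputable section

open MeasureTheory Filter Topology Set
open scoped ENNReal NumberField Classical
open Crest.NumberTheoryR.Packets

namespace Crest.Agent.R014

universe u

variable {d : ℕ} {K : Type u} [Field K] [NumberField K]

/-- Choose `κ = log (1/δ) / (B + 1/100)` in `mass_pair`; `exists_pkt`, `isOpen_pairSet`. -/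
theorem packet_pair (d : ℕ) (hd : 2 ≤ d) : ∃ c : ℝ, 0 < c ∧ ∀ ρ : ℝ, 1 ≤ ρ → ∃ C : ℝ,
    ∀ δ : ℝ, 0 < δ → δ ≤ 1 → ∃ f0 : ℕ, ∀ (K : Type u) [Field K] [NumberField K] (E : Dat d K)
    (m : LatticeBasis (d + 1) K) (μ : Measure (ModSpace (d + 1))), IsPrimitiveField K →
    IsPacketMeasure m E.σ μ → f0 ≤ ff m.lattice → ∀ S : Finset (Fin (d + 1)), S.Nonempty →
    S ≠ Finset.univ → ∀ θ : ℝ, μ (pairSet ρ S θ δ) ≤ ENNReal.ofReal (C * δ ^ c) := by
  obtain ⟨B, hB, h⟩ := mass_pair.{u} d hd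
  have hB' : 0 < B + 1 / 100 := by positivity
  refine ⟨(1 / 100) / (B + 1 / 100), by positivity, fun ρ hρ => ?_⟩
  obtain ⟨C, hC, h⟩ := h ρ hρ
  refine ⟨2 * C, fun δ hδ hδ1 => ?_⟩
  have hl : 0 ≤ -Real.log δ := by linarith [Real.log_nonpos hδ.le hδ1]
  obtain ⟨f0, h⟩ := h (-Real.log δ / (B + 1 / 100)) δ (by positivity) hδ hδ1
  refine ⟨f0, fun K _ _ E m μ hK hμ hf S hS hS' θ => ?_⟩
  obtain ⟨P, hP⟩ := exists_pkt E m hμ
  refine hP _ _ (isOpen_pairSet ρ S θ δ).measurableSet ?_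
  refine (h K E _ P S θ hK (isLat_lattice m) hf hS hS').trans (le_of_eq ?_)
  congr 2
  have h1 : Real.exp (-(-Real.log δ / (B + 1 / 100) / 100)) = δ ^ ((1 / 100) / (B + 1 / 100)) := by
    rw [Real.rpow_def_of_pos hδ]; congr 1; field_simp
  have h2 : Real.exp (B * (-Real.log δ / (B + 1 / 100))) * δ = δ ^ ((1 / 100) / (B + 1 / 100)) := by
    rw [Real.rpow_def_of_pos hδ]
    conv_lhs => rw [← Real.exp_log hδ]
    rw [Real.log_exp, ← Real.exp_add]; congr 1; field_simp; ring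
  rw [h1, h2]; ring

/-- `mass_short`, `sum_short`. -/
theorem packet_short (d : ℕ) (hd : 2 ≤ d) {ε : ℝ} (hε : 0 < ε) : ∃ r : ℝ, 0 < r ∧ ∃ f0 : ℕ,
    ∀ (K : Type u) [Field K] [NumberField K] (E : Dat d K) (m : LatticeBasis (d + 1) K)
    (μ : Measure (ModSpace (d + 1))), IsPrimitiveField K → IsPacketMeasure m E.σ μ →
    f0 ≤ ff m.lattice → μ (shortSet (d + 1) r) ≤ ENNReal.ofReal ε := by
  obtain ⟨C, hC, h⟩ := mass_short.{u} d
  obtain ⟨C', hC', h'⟩ := sum_short.{u} d hd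
  set r : ℝ := min 1 (ε / (C * C')) with hr
  have hr0 : 0 < r := lt_min one_pos (by positivity)
  have hr1 : r ≤ 1 := min_le_left _ _
  have hY1 : r ^ (d + 1) ≤ r := by
    rw [pow_succ]; exact mul_le_of_le_one_left hr0.le (pow_le_one₀ hr0.le hr1)
  obtain ⟨f0, h'⟩ := h' (r ^ (d + 1)) (by positivity) (hY1.trans hr1)
  refine ⟨r, hr0, f0, fun K _ _ E m μ hK hμ hf => ?_⟩
  obtain ⟨P, hP⟩ := exists_pkt E m hμ
  have hM := isLat_lattice m
  refine hP _ _ (isOpen_shortSet r).measurableSet ?_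
  have h1 := h K E _ P r (C' * r ^ (d + 1) * P.V) hM hr0
    (fun 𝒯 h𝒯 => h' K E _ P 𝒯 hK hM hf h𝒯)
  refine le_trans (P.mass_mono ?_) (h1.trans (ENNReal.ofReal_le_ofReal ?_))
  · rintro L _ t _ ⟨x, hx, hxe⟩
    rw [← hxe]; exact hx
  · have hV := P.V_pos hM
    have h2 : r ^ (d + 1) ≤ ε / (C * C') := hY1.trans (min_le_right _ _)
    rw [le_div_iff₀ (by positivity)] at h2
    nlinarith

theorem isPrimitiveField_of_prime (h : (Module.finrank ℚ K).Prime) : IsPrimitiveField K := by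
  intro F
  have := Module.finrank_mul_finrank ℚ F K
  rcases (Nat.dvd_prime h).1 (Dvd.intro _ this) with h1 | h1
  · left; exact IntermediateField.finrank_eq_one_iff.1 h1
  · right
    rw [h1] at this
    have h2 : Module.finrank F K = 1 := by
      have := h.pos
      nlinarith
    exact IntermediateField.finrank_eq_one_iff_eq_top.1 h2

theorem latticeDisc_maximal {n : ℕ} (m : LatticeBasis n K) (h : m.IsMaximalOrder) :
    latticeDisc m = |(NumberField.discr K : ℝ)| := by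
  have : multiplierOrder m = (integralClosure ℤ K).toSubring.toAddSubgroup := by
    ext a
    change (∀ x ∈ m.lattice, a * x ∈ m.lattice) ↔ IsIntegral ℤ a
    constructor
    · intro ha
      simpa using (h _).1 (ha 1 ((h 1).2 isIntegral_one))
    · intro ha x hx
      exact (h _).2 (ha.mul ((h x).1 hx))
  simp [latticeDisc, this]

/-- `limit_thm` applied to one choice of packet measures gives `ν`; for any other choice the limit
is the same by `haar_unique`. -/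
theorem main_thm (d : ℕ) (hd : 2 ≤ d) (K : ℕ → Type u) [∀ i, Field (K i)] [∀ i, NumberField (K i)]
    (hdeg : ∀ i, Module.finrank ℚ (K i) = d + 1) (hprim : ∀ i, IsPrimitiveField (K i))
    (m : ∀ i, LatticeBasis (d + 1) (K i)) (σ : ∀ i, Fin (d + 1) ≃ (K i →+* ℝ))
    (hdisc : Tendsto (fun i => latticeDisc (m i)) atTop atTop) :
    ∃ ν : Measure (ModSpace (d + 1)), IsHaarProbability ν ∧
      (∀ i, ∃ μ : Measure (ModSpace (d + 1)), IsPacketMeasure (m i) (σ i) μ) ∧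
      ∀ μ : ℕ → Measure (ModSpace (d + 1)), (∀ i, IsPacketMeasure (m i) (σ i) (μ i)) →
        (∀ f : ModSpace (d + 1) → ℝ, Continuous f → HasCompactSupport f →
          Tendsto (fun i => ∫ x, f x ∂(μ i)) atTop (𝓝 (∫ x, f x ∂ν))) ∧
        (∀ ε : ℝ, 0 < ε → ∃ C : Set (ModSpace (d + 1)), IsCompact C ∧
          ∀ᶠ i in atTop, 1 - ε ≤ ((μ i) C).toReal) := by
  let E : ∀ i, Dat d (K i) := fun i => ⟨σ i, hdeg i⟩
  have hex : ∀ i, ∃ μ : Measure (ModSpace (d + 1)), IsPacketMeasure (m i) (σ i) μ :=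
    fun i => exists_isPacketMeasure (E i) (m i)
  have hf : ∀ f0 : ℕ, ∀ᶠ i in atTop, f0 ≤ ff (m i).lattice := by
    intro f0
    filter_upwards [hdisc.eventually_ge_atTop (f0 : ℝ)] with i hi
    rw [(E i).latticeDisc_eq] at hi
    exact_mod_cast hi
  have key : ∀ μ : ℕ → Measure (ModSpace (d + 1)), (∀ i, IsPacketMeasure (m i) (σ i) (μ i)) →
      ∃ ν : Measure (ModSpace (d + 1)), IsHaarProbability ν ∧
      (∀ f : ModSpace (d + 1) → ℝ, Continuous f → HasCompactSupport f →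
        Tendsto (fun i => ∫ x, f x ∂(μ i)) atTop (𝓝 (∫ x, f x ∂ν))) ∧
      ∀ ε : ℝ, 0 < ε → ∃ C : Set (ModSpace (d + 1)), IsCompact C ∧
        ∀ᶠ i in atTop, 1 - ε ≤ ((μ i) C).toReal := by
    intro μ hμ
    haveI : ∀ i, IsProbabilityMeasure (μ i) :=
      fun i => IsPacketMeasure.isProb (E i) (m i) (hμ i)
    obtain ⟨c, hc, hp⟩ := packet_pair.{u} d hd
    refine limit_thm (by omega) μ (fun i => IsPacketMeasure.aInv (E i) (m i) (hμ i))
      (fun ε hε => ?_) hc (fun ρ hρ => ?_)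
    · obtain ⟨r, hr, f0, h⟩ := packet_short.{u} d hd hε
      exact ⟨r, hr, (hf f0).mono fun i hi => h (K i) (E i) (m i) (μ i) (hprim i) (hμ i) hi⟩
    · obtain ⟨C, h⟩ := hp ρ hρ
      refine ⟨C, fun δ hδ hδ1 => ?_⟩
      obtain ⟨f0, h⟩ := h δ hδ hδ1
      exact (hf f0).mono fun i hi => h (K i) (E i) (m i) (μ i) (hprim i) (hμ i) hi
  choose μ0 hμ0 using hex
  obtain ⟨ν, hν, -⟩ := key μ0 hμ0
  refine ⟨ν, hν, fun i => ⟨μ0 i, hμ0 i⟩, fun μ hμ => ?_⟩
  obtain ⟨ν', hν', h⟩ := key μ hμ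
  rwa [haar_unique hν hν']

end Crest.Agent.R014

end
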