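import Crest.Agent.R014.DDefs

/-! # Row 14: reduced bases and Mahler's criterion -/

set_option autoImplicit false

noncomputable section

open MeasureTheory ProbabilityTheory Filter Topology Set
open scoped ENNReal Matrix NumberField
open Crest.NumberTheoryR.Packets

namespace Crest.Agent.R014

theorem dred_proj {E : Type} [NormedAddCommGroup E] [InnerProductSpace ℝ E] {b : E} (hb : b ≠ 0) :
    ∃ (τ : E →ₗ[ℝ] ℝ) (P : E →ₗ[ℝ] E), P b = 0 ∧ (∀ x, x = P x + τ x • b) ∧
      ∀ x (t : ℝ), ‖P x + t • b‖ ^ 2 = ‖P x‖ ^ 2 + t ^ 2 * ‖b‖ ^ 2 := by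
  have hn : ‖b‖ ^ 2 ≠ 0 := pow_ne_zero _ (norm_ne_zero_iff.2 hb)
  let τ : E →ₗ[ℝ] ℝ := (‖b‖ ^ 2)⁻¹ • innerₛₗ ℝ b
  have hτ : ∀ x, τ x = (‖b‖ ^ 2)⁻¹ * inner ℝ b x := fun x => rfl
  let P : E →ₗ[ℝ] E := LinearMap.id - τ.smulRight b
  have hP : ∀ x, P x = x - τ x • b := fun x => rfl
  refine ⟨τ, P, ?_, fun x => by rw [hP, sub_add_cancel], fun x t => ?_⟩
  · rw [hP, hτ, real_inner_self_eq_norm_sq, inv_mul_cancel₀ hn, one_smul, sub_self]
  · have h0 : inner ℝ (P x) b = 0 := by
      rw [hP, inner_sub_left, real_inner_smul_left, real_inner_self_eq_norm_sq, hτ,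
        real_inner_comm b x]
      field_simp
      ring
    rw [norm_add_sq_real, real_inner_smul_right, h0, norm_smul, mul_pow, Real.norm_eq_abs, sq_abs]
    ring

theorem dred_short {E : Type} [NormedAddCommGroup E] (L : Submodule ℤ E) (hL : L ≠ ⊥) {l : ℝ}
    (hl : 0 < l) (h : ∀ x ∈ L, x ≠ 0 → l ≤ ‖x‖) :
    ∃ b ∈ L, b ≠ 0 ∧ ∀ x ∈ L, x ≠ 0 → 3 / 4 * ‖b‖ ≤ ‖x‖ := by
  let S : Set ℝ := {r | ∃ x ∈ L, x ≠ 0 ∧ ‖x‖ = r}
  obtain ⟨x₀, hx₀, hx₀'⟩ := (Submodule.ne_bot_iff L).1 hL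
  have hne : S.Nonempty := ⟨_, x₀, hx₀, hx₀', rfl⟩
  have hlb : l ∈ lowerBounds S := by
    rintro _ ⟨x, hx, hx', rfl⟩
    exact h x hx hx'
  have hm : l ≤ sInf S := le_csInf hne hlb
  obtain ⟨_, ⟨b, hb, hb', rfl⟩, hlt⟩ :=
    exists_lt_of_csInf_lt hne (show sInf S < 4 / 3 * sInf S by linarith)
  refine ⟨b, hb, hb', fun x hx hx' => ?_⟩
  have := csInf_le ⟨l, hlb⟩ (show ‖x‖ ∈ S from ⟨x, hx, hx', rfl⟩)
  linarith

theorem dred_rank {E : Type} [AddCommGroup E] [Module ℝ E] (L : Submodule ℤ E) (hL : L.FG)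
    (P : E →ₗ[ℤ] E) {b : E} (hb : b ∈ L) (hb0 : b ≠ 0) (hP : P b = 0)
    (hk : ∀ x ∈ L, P x = 0 → ∃ n : ℤ, x = n • b) :
    Module.finrank ℤ (L.map P) + 1 = Module.finrank ℤ L := by
  have : Module.Finite ℤ L := Module.Finite.iff_fg.2 hL
  let f : L →ₗ[ℤ] E := P ∘ₗ L.subtype
  have h1 : LinearMap.range f = L.map P := by
    rw [LinearMap.range_comp, Submodule.range_subtype]
  have h2 : LinearMap.ker f = Submodule.span ℤ {(⟨b, hb⟩ : L)} := by
    refine le_antisymm (fun x hx => ?_) ?_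
    · obtain ⟨n, hn⟩ := hk x.1 x.2 hx
      exact Submodule.mem_span_singleton.2 ⟨n, Subtype.ext hn.symm⟩
    · rw [Submodule.span_le, Set.singleton_subset_iff]
      exact hP
  have h3 : Module.finrank ℤ (LinearMap.ker f) = 1 := by
    rw [h2]
    have hinj : Function.Injective (LinearMap.toSpanSingleton ℤ L ⟨b, hb⟩) := by
      rw [injective_iff_map_eq_zero]
      intro n hn
      have h0 : (n : ℝ) • b = 0 := by
        rw [Int.cast_smul_eq_zsmul]
        exact congrArg Subtype.val hn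
      exact_mod_cast (smul_eq_zero.1 h0).resolve_right hb0
    rw [← LinearMap.range_toSpanSingleton, LinearMap.finrank_range_of_inj hinj,
      Module.finrank_self]
  rw [← h1, ← h3, ← f.quotKerEquivRange.finrank_eq]
  exact Submodule.finrank_quotient_add_finrank _

/-- Hermite reduction.  Induction on `k`: take `b₀ ∈ L` with `‖b₀‖ < 1.1 m`, `m` the infimum of the
norms of nonzero vectors; `L ∩ ℝ b₀ = ℤ b₀`; the orthogonal projection `L'` of `L` along `b₀` has
rank `k - 1` and minimum `≥ m / 2`; lift a basis of `L'` with `b₀`-coefficients at most `1/2`. -/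
theorem reduced_basis (k : ℕ) : ∃ c : ℝ, 0 < c ∧ ∀ (E : Type) [NormedAddCommGroup E]
    [InnerProductSpace ℝ E] (L : Submodule ℤ E), L.FG → Module.finrank ℤ L = k →
    ∀ l : ℝ, 0 < l → (∀ x ∈ L, x ≠ 0 → l ≤ ‖x‖) →
    ∃ b : Fin k → E, Submodule.span ℤ (range b) = L ∧
      ∀ x : Fin k → ℝ, c * l * ‖x‖ ≤ ‖∑ i, x i • b i‖ := by
  induction k with
  | zero =>
    refine ⟨1, one_pos, fun E _ _ L hL hk l hl h => ⟨Fin.elim0, ?_, fun x => ?_⟩⟩
    · by_contra hne
      have hL0 : L ≠ ⊥ := fun e => hne (by simp [e])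
      obtain ⟨b, hb, hb0⟩ := (Submodule.ne_bot_iff L).1 hL0
      have : Module.Finite ℤ L := Module.Finite.iff_fg.2 hL
      obtain ⟨n, hn, hn'⟩ := Module.finrank_eq_zero_iff.1 hk ⟨b, hb⟩
      have h0 : (n : ℝ) • b = 0 := by
        rw [Int.cast_smul_eq_zsmul]
        exact congrArg Subtype.val hn'
      exact hn (by exact_mod_cast (smul_eq_zero.1 h0).resolve_right hb0)
    · rw [Subsingleton.elim x 0, norm_zero, mul_zero]
      exact norm_nonneg _
  | succ k ih =>
    obtain ⟨c, hc, ih⟩ := ih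
    refine ⟨c / (c + k + 2), by positivity, fun E _ _ L hL hk l hl h => ?_⟩
    have hL0 : L ≠ ⊥ := by
      rintro rfl
      simp at hk
    obtain ⟨b, hb, hb0, hmin⟩ := dred_short L hL0 hl h
    obtain ⟨τ, P, hPb, hdec, hpy⟩ := dred_proj hb0
    have hβ : 0 < ‖b‖ := norm_pos_iff.2 hb0
    have hred : ∀ x ∈ L, ∃ s : ℝ, |s| ≤ 1 / 2 ∧ P x + s • b = x - round (τ x) • b := fun x hx =>
      ⟨τ x - round (τ x), abs_sub_round _, by
        rw [sub_smul, ← add_sub_assoc, ← hdec x, Int.cast_smul_eq_zsmul]⟩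
    have hmem : ∀ x ∈ L, x - round (τ x) • b ∈ L := fun x hx =>
      L.sub_mem hx (L.smul_mem _ hb)
    have hsq : ∀ s : ℝ, |s| ≤ 1 / 2 → s ^ 2 * ‖b‖ ^ 2 ≤ 1 / 4 * ‖b‖ ^ 2 := fun s hs => by
      have : s ^ 2 ≤ 1 / 4 := by nlinarith [abs_nonneg s, sq_abs s]
      exact mul_le_mul_of_nonneg_right this (sq_nonneg _)
    have hker : ∀ x ∈ L, P x = 0 → ∃ n : ℤ, x = n • b := by
      intro x hx h0
      obtain ⟨s, hs, e⟩ := hred x hx
      refine ⟨round (τ x), sub_eq_zero.1 ?_⟩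
      by_contra hne
      have h1 := hmin _ (hmem x hx) hne
      have h2 := hpy x s
      rw [e, h0, norm_zero] at h2
      have h3 := hsq s hs
      nlinarith
    have hrk := dred_rank L hL (P.restrictScalars ℤ) hb hb0 hPb hker
    have hlow : ∀ y ∈ L.map (P.restrictScalars ℤ), y ≠ 0 → ‖b‖ / 2 ≤ ‖y‖ := by
      rintro _ ⟨x, hx, rfl⟩ hne
      change P x ≠ 0 at hne
      change _ ≤ ‖P x‖
      obtain ⟨s, hs, e⟩ := hred x hx
      have h2 := hpy x s
      have hne' : x - round (τ x) • b ≠ 0 := by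
        intro h0
        rw [e, h0, norm_zero] at h2
        have := norm_pos_iff.2 hne
        nlinarith [mul_nonneg (sq_nonneg s) (sq_nonneg ‖b‖)]
      have h1 := hmin _ (hmem x hx) hne'
      rw [e] at h2
      have h3 := hsq s hs
      refine le_of_sq_le_sq ?_ (norm_nonneg _)
      nlinarith
    obtain ⟨b', hspan, hest⟩ := ih E (L.map (P.restrictScalars ℤ)) (hL.map _) (by omega)
      (‖b‖ / 2) (by positivity) hlow
    have hlift : ∀ i, ∃ y ∈ L, ∃ s : ℝ, |s| ≤ 1 / 2 ∧ P y = b' i ∧ y = b' i + s • b := by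
      intro i
      have : b' i ∈ L.map (P.restrictScalars ℤ) := hspan ▸ Submodule.subset_span ⟨i, rfl⟩
      obtain ⟨x, hx, e⟩ := this
      change P x = b' i at e
      obtain ⟨s, hs, e'⟩ := hred x hx
      refine ⟨_, hmem x hx, s, hs, ?_, by rw [← e', e]⟩
      rw [map_sub, map_zsmul, hPb, smul_zero, sub_zero, e]
    choose y hy s hs hPy hys using hlift
    refine ⟨Fin.cons b y, le_antisymm ?_ fun x hx => ?_, fun x => ?_⟩
    · rw [Submodule.span_le]
      rintro _ ⟨i, rfl⟩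
      refine Fin.cases ?_ (fun i => ?_) i
      · exact hb
      · exact hy i
    · have h1 : P x ∈ Submodule.span ℤ (range b') := hspan ▸ ⟨x, hx, rfl⟩
      obtain ⟨a, ha⟩ := (Submodule.mem_span_range_iff_exists_fun ℤ).1 h1
      have hz : ∑ i, a i • y i ∈ L := L.sum_mem fun i _ => L.smul_mem _ (hy i)
      obtain ⟨n, hn⟩ := hker (x - ∑ i, a i • y i) (L.sub_mem hx hz) (by
        rw [map_sub, map_sum, ← ha]
        simp only [map_zsmul, hPy, sub_self])
      rw [sub_eq_iff_eq_add] at hn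
      rw [hn]
      refine Submodule.add_mem _ (Submodule.smul_mem _ _ (Submodule.subset_span ⟨0, rfl⟩))
        (Submodule.sum_mem _ fun i _ => Submodule.smul_mem _ _
          (Submodule.subset_span ⟨i.succ, rfl⟩))
    · set x' : Fin k → ℝ := fun i => x i.succ with hx'
      set t : ℝ := x 0 + ∑ i, x' i * s i with ht
      have hw : P (∑ i, x' i • y i) = ∑ i, x' i • b' i := by
        rw [map_sum]
        simp only [map_smul, hPy]
      have hv : ∑ i, x i • (Fin.cons b y : Fin (k + 1) → E) i =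
          P (∑ i, x' i • y i) + t • b := by
        rw [Fin.sum_univ_succ, hw, ht, add_smul, Finset.sum_smul, add_left_comm,
          ← Finset.sum_add_distrib]
        simp only [Fin.cons_zero, Fin.cons_succ]
        congr 1
        refine Finset.sum_congr rfl fun i _ => ?_
        rw [hys i, smul_add, smul_smul]
      have h2 := hpy (∑ i, x' i • y i) t
      rw [← hv, hw] at h2
      set N := ‖∑ i, x i • (Fin.cons b y : Fin (k + 1) → E) i‖ with hN
      have hN0 : 0 ≤ N := norm_nonneg _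
      have h3 : c * (‖b‖ / 2) * ‖x'‖ ≤ N := (hest x').trans (le_of_sq_le_sq
        (by nlinarith [mul_nonneg (sq_nonneg t) (sq_nonneg ‖b‖)]) hN0)
      have h4 : |t| * ‖b‖ ≤ N := le_of_sq_le_sq
        (by rw [mul_pow, sq_abs]; nlinarith [sq_nonneg ‖∑ i, x' i • b' i‖]) hN0
      have h5 : |x 0| ≤ |t| + k * (‖x'‖ / 2) := by
        have e : x 0 = t - ∑ i, x' i * s i := by rw [ht]; ring
        have h6 : |∑ i, x' i * s i| ≤ k * (‖x'‖ / 2) := by
          refine (Finset.abs_sum_le_sum_abs _ _).trans ?_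
          refine (Finset.sum_le_card_nsmul _ _ (‖x'‖ / 2) fun i _ => ?_).trans (by simp)
          rw [abs_mul]
          have := norm_le_pi_norm x' i
          rw [Real.norm_eq_abs] at this
          nlinarith [hs i, abs_nonneg (x' i), abs_nonneg (s i)]
        rw [e]
        exact (abs_sub _ _).trans (by linarith)
      have hd : 0 < c + k + 2 := by positivity
      have hk0 : (0 : ℝ) ≤ k := Nat.cast_nonneg k
      have h7 : ‖x‖ ≤ (c + k + 2) * N / (c * ‖b‖) := by
        refine (pi_norm_le_iff_of_nonneg (by positivity)).2 fun i => ?_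
        rw [Real.norm_eq_abs, le_div_iff₀ (by positivity)]
        refine Fin.cases ?_ (fun i => ?_) i
        · have h8 := mul_le_mul_of_nonneg_right h5 (show 0 ≤ c * ‖b‖ by positivity)
          have h9 := mul_le_mul_of_nonneg_left h3 hk0
          have h10 := mul_le_mul_of_nonneg_left h4 hc.le
          nlinarith
        · have h8 := norm_le_pi_norm x' i
          rw [Real.norm_eq_abs] at h8
          have h9 := mul_le_mul_of_nonneg_right h8 (show 0 ≤ c * ‖b‖ by positivity)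
          have h10 : 0 ≤ (c + k) * N := by positivity
          change |x' i| * _ ≤ _
          nlinarith
      rw [le_div_iff₀ (by positivity)] at h7
      have hlb : l ≤ ‖b‖ := h b hb hb0
      rw [div_mul_eq_mul_div, div_mul_eq_mul_div, div_le_iff₀ hd]
      have h8 := mul_le_mul_of_nonneg_left hlb (show 0 ≤ c * ‖x‖ by positivity)
      nlinarith

end Crest.Agent.R014

end
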