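import Crest.Agent.R014.APkt
import Crest.Agent.R014.DRed

/-! # Row 14: geometry of numbers -/

set_option autoImplicit false

noncomputable section

open MeasureTheory Filter Topology Set
open scoped ENNReal NumberField Classical
open Crest.NumberTheoryR.Packets

namespace Crest.Agent.R014

universe u

variable {d : ℕ} {K : Type u} [Field K] [NumberField K]

/-- The dual basis of a family satisfying the conclusion of `reduced_basis` is short: if
`c ‖x‖ ≤ ‖∑ x i • b i‖` for all `x`, and `w` lies in the span with `⟪w, b j⟫ = δ_{ij}`, write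
`w = ∑ x j • b j`; then `‖w‖² = x i ≤ ‖w‖ / c`. -/
theorem exists_dual_family {F : Type} [NormedAddCommGroup F] [InnerProductSpace ℝ F] {k : ℕ}
    (b : Fin k → F) {c : ℝ} (hc : 0 < c) (h : ∀ x : Fin k → ℝ, c * ‖x‖ ≤ ‖∑ i, x i • b i‖) :
    ∃ w : Fin k → F, (∀ i, w i ∈ Submodule.span ℝ (range b)) ∧
      (∀ i j, inner ℝ (w i) (b j) = if i = j then 1 else 0) ∧ ∀ i, ‖w i‖ ≤ c⁻¹ := by
  let S : (Fin k → ℝ) →ₗ[ℝ] F := Fintype.linearCombination ℝ b
  have hS : ∀ x, S x = ∑ i, x i • b i := fun x => rfl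
  let A : (Fin k → ℝ) →ₗ[ℝ] (Fin k → ℝ) :=
    LinearMap.pi fun j => (innerₗ F (b j)).comp S
  have hA : ∀ x j, A x j = inner ℝ (S x) (b j) := fun x j => by
    simp [A, real_inner_comm]
  have hsq : ∀ x, ‖S x‖ ^ 2 = ∑ j, x j * A x j := fun x => by
    rw [← real_inner_self_eq_norm_sq]
    conv_lhs => rw [hS, inner_sum]
    refine Finset.sum_congr rfl fun j _ => ?_
    rw [real_inner_smul_right, hA, hS]
  have hinj : Function.Injective A := by
    rw [injective_iff_map_eq_zero]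
    intro x hx
    have h1 := hsq x
    simp only [hx, Pi.zero_apply, mul_zero, Finset.sum_const_zero] at h1
    have h2 : ‖S x‖ = 0 := by simpa using h1
    have h3 := h x
    rw [← hS, h2] at h3
    have : ‖x‖ ≤ 0 := by
      by_contra hh
      exact absurd h3 (not_le.2 (mul_pos hc (not_le.1 hh)))
    exact norm_le_zero_iff.1 this
  choose x hx using fun i => (LinearMap.injective_iff_surjective.1 hinj) (Pi.single i 1)
  refine ⟨fun i => S (x i), fun i => ?_, fun i j => ?_, fun i => ?_⟩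
  · beta_reduce
    rw [hS]
    exact Submodule.sum_mem _ fun j _ =>
      Submodule.smul_mem _ _ (Submodule.subset_span (mem_range_self j))
  · rw [← hA, hx, Pi.single_apply]
    simp [eq_comm]
  · have h1 := hsq (x i)
    rw [hx] at h1
    have h2 : ∑ j, x i j * (Pi.single i (1 : ℝ) : Fin k → ℝ) j = x i i := by
      simp [Pi.single_apply]
    have h3 : x i i ≤ ‖x i‖ := (le_abs_self _).trans (norm_le_pi_norm (x i) i)
    have h4 := h (x i)
    rw [← hS] at h4
    rcases (norm_nonneg (S (x i))).eq_or_lt with h5 | h5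
    · beta_reduce
      rw [← h5]
      positivity
    · beta_reduce
      rw [inv_eq_one_div, le_div_iff₀ hc]
      refine le_of_mul_le_mul_left ?_ h5
      have h6 := mul_le_mul_of_nonneg_left h3 hc.le
      rw [← h2, ← h1] at h6
      nlinarith only [h6, h4]

theorem ageo_basis {n : ℕ} (b b' : Fin n → Fin n → ℝ)
    (h : ∀ i j, b i ⬝ᵥ b' j = if i = j then 1 else 0) :
    ∃ B : Module.Basis (Fin n) ℝ (Fin n → ℝ), ⇑B = b := by
  have hli : LinearIndependent ℝ b := by
    rw [Fintype.linearIndependent_iff]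
    intro g hg j
    have := congrArg (· ⬝ᵥ b' j) hg
    simpa [sum_dotProduct, h] using this
  exact ⟨basisOfLinearIndependentOfCardEqFinrank' b hli (by simp), by simp⟩

theorem ageo_dualL {n : ℕ} (b b' : Fin n → Fin n → ℝ)
    (h : ∀ i j, b i ⬝ᵥ b' j = if i = j then 1 else 0) :
    dualL (Submodule.span ℤ (range b')) = Submodule.span ℤ (range b) := by
  obtain ⟨B, rfl⟩ := ageo_basis b b' h
  apply le_antisymm
  · intro v hv
    rw [Module.Basis.mem_span_iff_repr_mem]
    intro j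
    obtain ⟨k, hk⟩ := hv (b' j) (Submodule.subset_span (mem_range_self j))
    refine ⟨k, ?_⟩
    have e : b' j ⬝ᵥ v = B.repr v j := by
      conv_lhs => rw [dotProduct_comm, ← B.sum_repr v, sum_dotProduct]
      simp only [smul_dotProduct, h, smul_eq_mul, mul_ite, mul_one, mul_zero, Finset.sum_ite_eq',
        Finset.mem_univ, if_true]
    rw [← e, hk]
    simp
  · rw [Submodule.span_le]
    rintro _ ⟨i, rfl⟩ v hv
    induction hv using Submodule.span_induction with
    | mem x hx =>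
      obtain ⟨j, rfl⟩ := hx
      refine ⟨if i = j then 1 else 0, ?_⟩
      rw [dotProduct_comm, h]
      split_ifs <;> simp
    | zero => exact ⟨0, by simp⟩
    | add x y _ _ hx hy =>
      obtain ⟨k, hk⟩ := hx
      obtain ⟨l, hl⟩ := hy
      exact ⟨k + l, by rw [add_dotProduct, hk, hl]; push_cast; ring⟩
    | smul c x _ hx =>
      obtain ⟨k, hk⟩ := hx
      exact ⟨c * k, by rw [smul_dotProduct, hk]; simp⟩

theorem ageo_exists_dual {n : ℕ} (b : Module.Basis (Fin n) ℝ (Fin n → ℝ)) :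
    ∃ b' : Fin n → Fin n → ℝ, ∀ i j, b' i ⬝ᵥ b j = if i = j then 1 else 0 := by
  refine ⟨fun i k => b.coord i (fun l => if k = l then 1 else 0), fun i j => ?_⟩
  have := LinearMap.pi_apply_eq_sum_univ (b.coord i) (b j)
  rw [dotProduct_comm, dotProduct]
  simp only [smul_eq_mul] at this
  rw [← this]
  simp [Finsupp.single_apply, eq_comm]

/-- `reduced_basis` for the dual lattice in `EuclideanSpace`, and `exists_dual_family`. -/
theorem exists_short_basis (n : ℕ) : ∃ C : ℝ, 0 < C ∧ ∀ (b0 : Module.Basis (Fin n) ℝ (Fin n → ℝ))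
    (l : ℝ), 0 < l → (∀ w ∈ dualL (Submodule.span ℤ (range b0)), w ≠ 0 → l ≤ ‖w‖) →
    ∃ b : Module.Basis (Fin n) ℝ (Fin n → ℝ), Submodule.span ℤ (range b) = Submodule.span ℤ (range b0) ∧
      ∀ i, ‖b i‖ ≤ C / l := by
  obtain ⟨c, hc, hred⟩ := reduced_basis n
  refine ⟨c⁻¹, inv_pos.2 hc, fun b0 l hl hw => ?_⟩
  obtain ⟨b0', hb0'⟩ := ageo_exists_dual b0
  obtain ⟨B0, rfl⟩ := ageo_basis b0' b0 hb0'
  have hd := ageo_dualL B0 b0 hb0'
  let φ : (Fin n → ℝ) ≃ₗ[ℝ] EuclideanSpace ℝ (Fin n) := (WithLp.linearEquiv 2 ℝ _).symm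
  have hφ : ∀ v i, φ v i = v i := fun _ _ => rfl
  have hnorm : ∀ x : EuclideanSpace ℝ (Fin n), ‖φ.symm x‖ ≤ ‖x‖ := fun x =>
    (pi_norm_le_iff_of_nonneg (norm_nonneg x)).2 fun i => PiLp.norm_apply_le x i
  have hmap : ∀ f : Fin n → Fin n → ℝ, Submodule.span ℤ (range (φ ∘ f)) =
      (Submodule.span ℤ (range f)).map (φ.restrictScalars ℤ).toLinearMap := fun f => by
    rw [Submodule.map_span, ← range_comp]
    rfl
  obtain ⟨b, hb, hlow⟩ := hred (EuclideanSpace ℝ (Fin n)) (Submodule.span ℤ (range (φ ∘ B0)))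
    (Submodule.fg_span (finite_range _))
    (by
      rw [finrank_span_eq_card, Fintype.card_fin]
      exact (B0.map φ).linearIndependent.restrict_scalars' ℤ) l hl
    (by
      intro x hx hx0
      rw [hmap] at hx
      obtain ⟨v, hv, rfl⟩ := hx
      have h1 := hw v (hd ▸ hv) (fun h => hx0 (by rw [h]; exact map_zero _))
      have h2 := hnorm (φ v)
      rw [φ.symm_apply_apply] at h2
      exact h1.trans h2)
  obtain ⟨w, -, hw1, hw2⟩ := exists_dual_family b (mul_pos hc hl) hlow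
  have hdual : ∀ i j, φ.symm (w i) ⬝ᵥ φ.symm (b j) = if i = j then 1 else 0 := fun i j => by
    rw [← hw1 i j, PiLp.inner_apply, dotProduct]
    refine Finset.sum_congr rfl fun k _ => ?_
    simp [φ, mul_comm]
  obtain ⟨B, hB⟩ := ageo_basis _ _ hdual
  refine ⟨B, ?_, fun i => ?_⟩
  · have e1 : Submodule.span ℤ (range fun j => φ.symm (b j)) = Submodule.span ℤ (range B0) := by
      apply Submodule.map_injective_of_injective (f := (φ.restrictScalars ℤ).toLinearMap)
        φ.injective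
      rw [← hmap, ← hmap, ← hb]
      congr 2
    rw [hB, ← ageo_dualL _ _ hdual, e1]
    refine ageo_dualL _ _ fun i j => ?_
    rw [dotProduct_comm, hb0']
    simp [eq_comm]
  · rw [hB]
    refine ((hnorm _).trans (hw2 i)).trans (le_of_eq ?_)
    rw [mul_inv, div_eq_mul_inv]

/-- Translates of a fundamental domain by distinct lattice points are a.e. disjoint. -/
theorem card_mul_le {n : ℕ} (Λ : Submodule ℤ (Fin n → ℝ)) [Countable Λ] {F Ω : Set (Fin n → ℝ)}
    (hF : IsAddFundamentalDomain Λ F volume) (T : Finset (Fin n → ℝ)) (hT : ∀ v ∈ T, v ∈ Λ)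
    (hΩ : ∀ v ∈ T, ∀ y ∈ F, v + y ∈ Ω) : T.card * volume F ≤ volume Ω := by
  open Pointwise in
  have : MeasurableVAdd Λ (Fin n → ℝ) :=
    (inferInstance : MeasurableVAdd Λ.toAddSubgroup (Fin n → ℝ))
  have : VAddInvariantMeasure Λ (Fin n → ℝ) volume :=
    (inferInstance : VAddInvariantMeasure Λ.toAddSubgroup (Fin n → ℝ) volume)
  have h1 := measure_biUnion_finset₀ (μ := volume) (s := T.subtype (· ∈ Λ))
    (f := fun g : Λ => g +ᵥ F) (fun g _ g' _ hne => hF.aedisjoint hne)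
    (fun g _ => hF.nullMeasurableSet_vadd g)
  simp only [measure_vadd, Finset.sum_const, nsmul_eq_mul] at h1
  rw [Finset.card_subtype, Finset.filter_true_of_mem hT] at h1
  rw [← h1]
  refine measure_mono (iUnion₂_subset fun g hg => ?_)
  rintro _ ⟨y, hy, rfl⟩
  exact hΩ g (Finset.mem_subtype.1 hg) y hy

theorem card_ball_le {n : ℕ} (b : Module.Basis (Fin n) ℝ (Fin n → ℝ)) {R T : ℝ} (hT0 : 0 ≤ T)
    (hb : ∀ i, ‖b i‖ ≤ R) (𝒯 : Finset (Fin n → ℝ))
    (h : ∀ v ∈ 𝒯, v ∈ Submodule.span ℤ (range b) ∧ ‖v‖ ≤ T) :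
    𝒯.card * ZLattice.covolume (Submodule.span ℤ (range b)) ≤ (2 * (T + n * R)) ^ n := by
  have hs : ∑ i, ‖b i‖ ≤ n * R := by
    simpa using Finset.sum_le_sum fun i (_ : i ∈ Finset.univ) => hb i
  have hs0 : 0 ≤ ∑ i, ‖b i‖ := by positivity
  have hr : 0 ≤ T + n * R := by linarith only [hs, hs0, hT0]
  have h1 := card_mul_le (Submodule.span ℤ (range b)) (Ω := Metric.closedBall 0 (T + n * R))
    (ZSpan.isAddFundamentalDomain b volume) 𝒯 (fun v hv => (h v hv).1) (fun v hv y hy => by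
      rw [mem_closedBall_zero_iff]
      have h2 := ZSpan.norm_fract_le b y
      rw [(ZSpan.fract_eq_self (b := b)).2 hy] at h2
      linarith only [norm_add_le v y, (h v hv).2, h2, hs])
  rw [Real.volume_pi_closedBall _ hr, Fintype.card_fin] at h1
  rw [ZLattice.covolume_eq_measure_fundamentalDomain _ _ (ZSpan.isAddFundamentalDomain b volume)]
  have h2 := ENNReal.toReal_le_of_le_ofReal (by positivity) h1
  rwa [ENNReal.toReal_mul, ENNReal.toReal_natCast] at h2

theorem ageo_covol {n : ℕ} (b : Module.Basis (Fin n) ℝ (Fin n → ℝ)) :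
    ZLattice.covolume (Submodule.span ℤ (range b)) = |(Matrix.of b).det| := by
  rw [ZLattice.covolume_eq_measure_fundamentalDomain _ _ (ZSpan.isAddFundamentalDomain b volume),
    ZSpan.volume_real_fundamentalDomain]

theorem ageo_mulL {n : ℕ} (b : Module.Basis (Fin n) ℝ (Fin n → ℝ)) {s : Fin n → ℝ}
    (hs : ∀ j, s j ≠ 0) : ∃ B : Module.Basis (Fin n) ℝ (Fin n → ℝ),
      mulL (Submodule.span ℤ (range b)) s = Submodule.span ℤ (range B) ∧
      ZLattice.covolume (Submodule.span ℤ (range B)) =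
        ZLattice.covolume (Submodule.span ℤ (range b)) * |∏ j, s j| := by
  obtain ⟨b', hb'⟩ := ageo_exists_dual b
  obtain ⟨B, hB⟩ := ageo_basis (fun i => b i * s) (fun i => b' i * s⁻¹) fun i j => by
    have : (b i * s) ⬝ᵥ (b' j * s⁻¹) = b' j ⬝ᵥ b i := by
      simp only [dotProduct, Pi.mul_apply, Pi.inv_apply]
      refine Finset.sum_congr rfl fun k _ => ?_
      field_simp [hs k]
    rw [this, hb']
    simp [eq_comm]
  refine ⟨B, ?_, ?_⟩
  · rw [mulL, Submodule.map_span, ← range_comp, hB]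
    rfl
  · rw [ageo_covol, ageo_covol, ← abs_mul, ← Matrix.det_diagonal, ← Matrix.det_mul]
    congr 2
    ext i j
    simp [hB, Matrix.mul_diagonal]

/-- Uniform point count along a diagonal orbit: nonzero vectors of the dual lattice have
`|∏ w j| ≥ c` along the whole orbit (`Dat.exists_norm_ge`), hence norm `≥ c^{1/n}`. -/
theorem Dat.card_orbit_le (E : Dat d K) {L : Submodule ℤ K} (hL : IsLat L) {t : Fin (d + 1) → ℝ}
    (ht : ∀ j, t j ≠ 0) : ∃ T0 : ℝ, ∀ T : ℝ, T0 ≤ T → ∀ (u : Fin d → ℝ) (𝒯 : Finset (Fin (d + 1) → ℝ)),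
      (∀ v ∈ 𝒯, v ∈ mulL (E.img L) (t * fl u) ∧ ‖v‖ ≤ T) →
      𝒯.card * (E.cv L * |∏ j, t j|) ≤ (4 * T) ^ (d + 1) := by
  obtain ⟨C, hC, hsb⟩ := exists_short_basis (d + 1)
  obtain ⟨c, hc, hn⟩ := E.exists_norm_ge hL.dual
  obtain ⟨m, rfl⟩ := hL.exists_basis E
  obtain ⟨b, -, hb⟩ := E.exists_real_basis m
  have ht0 : 0 < |∏ j, t j| := abs_pos.2 (Finset.prod_ne_zero_iff.2 fun j _ => ht j)
  set l : ℝ := min 1 (c / |∏ j, t j|) with hl
  have hl0 : 0 < l := lt_min one_pos (by positivity)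
  refine ⟨(d + 1 : ℕ) * (C / l), fun T hT u 𝒯 h => ?_⟩
  have hs : ∀ j, (t * fl u) j ≠ 0 := fun j => mul_ne_zero (ht j) (Real.exp_pos _).ne'
  have hp : ∏ j, (t * fl u) j = ∏ j, t j := by
    simp only [Pi.mul_apply, Finset.prod_mul_distrib, prod_fl, mul_one]
  obtain ⟨B, hB1, hB2⟩ := ageo_mulL b hs
  rw [← hb] at hB1 hB2
  obtain ⟨b', hb1, hb2⟩ := hsb B l hl0 (by
    intro w hw hw0
    rw [← hB1, dualL_mulL _ hs, E.dualL_img hL, mem_mulL] at hw
    obtain ⟨_, ⟨x, hx, rfl⟩, rfl⟩ := hw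
    have hx0 : x ≠ 0 := fun h => hw0 (by rw [h, map_zero, zero_mul])
    have h1 := hn x hx hx0
    set w := E.e x * (t * fl u)⁻¹ with hw
    have h2 : |∏ j, w j| = |∏ j, E.σ j x| / |∏ j, t j| := by
      rw [← abs_div, ← hp, ← Finset.prod_div_distrib]
      rfl
    have h3 : |∏ j, w j| ≤ ‖w‖ ^ (d + 1) := by
      rw [Finset.abs_prod]
      refine (Finset.prod_le_prod (fun j _ => abs_nonneg _)
        (fun j _ => norm_le_pi_norm w j)).trans (le_of_eq ?_)
      simp
    by_contra hlt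
    rw [not_le] at hlt
    have h4 : ‖w‖ ^ (d + 1) ≤ ‖w‖ :=
      pow_le_of_le_one (norm_nonneg _) (hlt.le.trans (min_le_left _ _)) (Nat.succ_ne_zero d)
    have h5 : c / |∏ j, t j| ≤ |∏ j, E.σ j x| / |∏ j, t j| := by gcongr
    have h6 : l ≤ c / |∏ j, t j| := min_le_right _ _
    linarith only [h2, h3, h4, h5, h6, hlt])
  have hT0 : 0 ≤ T := le_trans (by positivity) hT
  have h1 := card_ball_le b' hT0 hb2 𝒯 fun v hv => ⟨by rw [hb1, ← hB1]; exact (h v hv).1, (h v hv).2⟩
  rw [hb1, hB2, hp] at h1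
  refine h1.trans (pow_le_pow_left₀ (by positivity) ?_ _)
  linarith only [hT]

end Crest.Agent.R014

end
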