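import Crest.Agent.R014.ADefs

/-! # Row 14: lattices in a number field -/

set_option autoImplicit false

noncomputable section

open MeasureTheory Filter Topology Set
open scoped ENNReal NumberField Classical
open Crest.NumberTheoryR.Packets

namespace Crest.Agent.R014

universe u

variable {d : ℕ} {K : Type u} [Field K] [NumberField K]

theorem Dat.e_mul (E : Dat d K) (x y : K) : E.e (x * y) = E.e x * E.e y := by
  funext i
  simp

theorem Dat.e_one (E : Dat d K) : E.e 1 = 1 := by
  funext i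
  simp

theorem Dat.e_injective (E : Dat d K) : Function.Injective E.e :=
  fun _ _ h => (E.σ 0).injective (congrFun h 0)

theorem alat_equiv (E : Dat d K) :
    ∃ e : Fin (d + 1) ≃ (K →ₐ[ℚ] ℂ), ∀ i x, e i x = (E.σ i x : ℂ) := by
  let g : Fin (d + 1) → (K →ₐ[ℚ] ℂ) := fun i => (Complex.ofRealHom.comp (E.σ i)).toRatAlgHom
  have hg : ∀ i x, g i x = (E.σ i x : ℂ) := fun _ _ => rfl
  have hi : Function.Injective g := fun i j h => by
    refine E.σ.injective (RingHom.ext fun x => Complex.ofReal_injective ?_)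
    rw [← hg, ← hg, h]
  have hb : Function.Bijective g :=
    (Fintype.bijective_iff_injective_and_card g).2
      ⟨hi, by rw [AlgHom.card, E.deg, Fintype.card_fin]⟩
  exact ⟨Equiv.ofBijective g hb, hg⟩

/-- The `d + 1` real embeddings give `d + 1 = [K : ℚ]` distinct complex embeddings, hence all of
them; `trace_eq_sum_embeddings`. -/
theorem Dat.sum_σ (E : Dat d K) (x : K) : ∑ i, E.σ i x = (tr x : ℝ) := by
  obtain ⟨e, he⟩ := alat_equiv E
  apply Complex.ofReal_injective
  have h := trace_eq_sum_embeddings ℂ (K := ℚ) (L := K) (x := x)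
  rw [← e.sum_comp] at h
  simp only [he] at h
  push_cast
  rw [← h]
  rfl

theorem Dat.prod_σ (E : Dat d K) (x : K) : ∏ i, E.σ i x = (Algebra.norm ℚ x : ℝ) := by
  obtain ⟨e, he⟩ := alat_equiv E
  apply Complex.ofReal_injective
  have h := Algebra.norm_eq_prod_embeddings ℚ ℂ x
  rw [← e.prod_comp] at h
  simp only [he] at h
  push_cast
  rw [← h]
  rfl

theorem isLat_lattice {n : ℕ} (m : LatticeBasis n K) : IsLat m.lattice :=
  ⟨Submodule.fg_span (finite_range _), (Submodule.span_span_of_tower ℤ ℚ _).trans m.spans⟩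

theorem alat_basis {n : ℕ} (m : LatticeBasis n K) :
    ∃ b : Module.Basis (Fin n) ℚ K, ⇑b = m.vec :=
  ⟨Module.Basis.mk ((LinearIndependent.iff_fractionRing ℤ ℚ).1 m.linIndep) m.spans.ge,
    Module.Basis.coe_mk _ _⟩

theorem alat_mk {n : ℕ} {L : Submodule ℤ K} (h : IsLat L) (b : Module.Basis (Fin n) ℤ L) :
    ∃ m : LatticeBasis n K, m.lattice = L := by
  have h1 : Submodule.span ℤ (range (L.subtype ∘ b)) = L := by
    rw [range_comp, ← Submodule.map_span, b.span_eq, Submodule.map_subtype_top]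
  refine ⟨⟨L.subtype ∘ b, b.linearIndependent.map' _ L.ker_subtype, ?_⟩, h1⟩
  rw [← Submodule.span_span_of_tower ℤ ℚ, h1, h.2]

theorem IsLat.exists_basis (E : Dat d K) {L : Submodule ℤ K} (h : IsLat L) :
    ∃ m : LatticeBasis (d + 1) K, m.lattice = L := by
  have : Module.Finite ℤ L := Module.Finite.iff_fg.2 h.1
  obtain ⟨m, hm⟩ := alat_mk h (Module.finBasis ℤ L)
  obtain ⟨b, -⟩ := alat_basis m
  have hn : Module.finrank ℤ L = d + 1 := by
    rw [← E.deg, Module.finrank_eq_card_basis b, Fintype.card_fin]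
  exact alat_mk h (Module.finBasisOfFinrankEq ℤ L hn)

theorem alat_det_sq (E : Dat d K) (m : LatticeBasis (d + 1) K) :
    (embMatrix m E.σ).det ^ 2 = (Algebra.discr ℚ m.vec : ℝ) := by
  have h : (Rat.castHom ℝ).mapMatrix (Algebra.traceMatrix ℚ m.vec) =
      embMatrix m E.σ * (embMatrix m E.σ).transpose := by
    ext i j
    have := E.sum_σ (m.vec i * m.vec j)
    simp only [map_mul] at this
    simp only [RingHom.mapMatrix_apply, Matrix.map_apply, Algebra.traceMatrix_apply,
      Algebra.traceForm_apply, Matrix.mul_apply, Matrix.transpose_apply, embMatrix, this]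
    rfl
  rw [sq]
  nth_rewrite 2 [← Matrix.det_transpose]
  rw [← Matrix.det_mul, ← h, ← RingHom.map_det, Algebra.discr_def]
  rfl

/-- The square of the determinant is the discriminant of the basis. -/
theorem Dat.det_ne_zero (E : Dat d K) (m : LatticeBasis (d + 1) K) : (embMatrix m E.σ).det ≠ 0 := by
  obtain ⟨b, hb⟩ := alat_basis m
  have h1 := Algebra.discr_not_zero_of_basis ℚ b
  intro h0
  have h2 := alat_det_sq E m
  rw [h0, ← hb, zero_pow two_ne_zero] at h2
  exact h1 (by exact_mod_cast h2.symm)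

theorem Dat.exists_real_basis (E : Dat d K) (m : LatticeBasis (d + 1) K) :
    ∃ b : Module.Basis (Fin (d + 1)) ℝ (Fin (d + 1) → ℝ), (∀ i, b i = E.e (m.vec i)) ∧
      E.img m.lattice = Submodule.span ℤ (range b) := by
  have hli := Matrix.linearIndependent_rows_of_det_ne_zero (E.det_ne_zero m)
  have hb : ⇑(basisOfPiSpaceOfLinearIndependent hli) = E.e ∘ m.vec :=
    coe_basisOfPiSpaceOfLinearIndependent hli
  refine ⟨basisOfPiSpaceOfLinearIndependent hli, fun i => congrFun hb i, ?_⟩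
  rw [hb, range_comp, ← Submodule.map_span]
  rfl

theorem Dat.discrete_img (E : Dat d K) {L : Submodule ℤ K} (h : IsLat L) :
    DiscreteTopology (E.img L) := by
  obtain ⟨m, rfl⟩ := h.exists_basis E
  obtain ⟨b, -, hb⟩ := E.exists_real_basis m
  rw [hb]
  infer_instance

theorem Dat.span_img (E : Dat d K) {L : Submodule ℤ K} (h : IsLat L) :
    Submodule.span ℝ (E.img L : Set (Fin (d + 1) → ℝ)) = ⊤ := by
  obtain ⟨m, rfl⟩ := h.exists_basis E
  obtain ⟨b, -, hb⟩ := E.exists_real_basis m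
  rw [hb]
  exact ZSpan.span_top b

theorem Dat.cv_lattice (E : Dat d K) (m : LatticeBasis (d + 1) K) :
    E.cv m.lattice = |(embMatrix m E.σ).det| := by
  obtain ⟨b, hb1, hb⟩ := E.exists_real_basis m
  unfold Dat.cv
  rw [hb, ZLattice.covolume_eq_measure_fundamentalDomain _ volume
    (ZSpan.isAddFundamentalDomain b volume), ZSpan.volume_real_fundamentalDomain]
  congr 2
  ext i j
  rw [Matrix.of_apply, hb1]
  rfl

theorem Dat.cv_pos (E : Dat d K) {L : Submodule ℤ K} (h : IsLat L) : 0 < E.cv L := by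
  obtain ⟨m, rfl⟩ := h.exists_basis E
  rw [E.cv_lattice]
  exact abs_pos.2 (E.det_ne_zero m)

theorem IsLat.exists_mul_mem {L : Submodule ℤ K} (h : IsLat L) (x : K) :
    ∃ e : ℕ, e ≠ 0 ∧ (e : K) * x ∈ L := by
  have hx : x ∈ Submodule.span ℚ (L : Set K) := by rw [h.2]; trivial
  induction hx using Submodule.span_induction with
  | mem x hx => exact ⟨1, one_ne_zero, by simpa using hx⟩
  | zero => exact ⟨1, one_ne_zero, by simp⟩
  | add x y _ _ hx hy =>
    obtain ⟨e, he, hx⟩ := hx
    obtain ⟨e', he', hy⟩ := hy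
    refine ⟨e * e', mul_ne_zero he he', ?_⟩
    have : ((e * e' : ℕ) : K) * (x + y) = e' • ((e : K) * x) + e • ((e' : K) * y) := by
      simp only [nsmul_eq_mul]; push_cast; ring
    rw [this]
    exact L.add_mem (nsmul_mem hx _) (nsmul_mem hy _)
  | smul q x _ hx =>
    obtain ⟨e, he, hx⟩ := hx
    refine ⟨q.den * e, mul_ne_zero q.den_ne_zero he, ?_⟩
    have h1 : (q.den : K) * (q : K) = (q.num : K) := by exact_mod_cast Rat.den_mul_eq_num q
    have : ((q.den * e : ℕ) : K) * (q • x) = q.num • ((e : K) * x) := by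
      rw [Rat.smul_def, zsmul_eq_mul, ← h1]; push_cast; ring
    rw [this]
    exact L.smul_mem _ hx

theorem IsLat.exists_mul_le {L L' : Submodule ℤ K} (h : IsLat L) (h' : L'.FG) :
    ∃ e : ℕ, e ≠ 0 ∧ ∀ x ∈ L', (e : K) * x ∈ L := by
  obtain ⟨S, rfl⟩ := h'
  choose e he0 he using h.exists_mul_mem
  refine ⟨∏ x ∈ S, e x, Finset.prod_ne_zero_iff.2 fun x _ => he0 x, fun x hx => ?_⟩
  induction hx using Submodule.span_induction with
  | mem x hx =>
    obtain ⟨k, hk⟩ := Finset.dvd_prod_of_mem e (Finset.mem_coe.1 hx)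
    have : ((e x * k : ℕ) : K) * x = k • ((e x : K) * x) := by
      simp only [nsmul_eq_mul]; push_cast; ring
    rw [hk, this]
    exact nsmul_mem (he x) _
  | zero => simp
  | add x y _ _ hx hy => rw [mul_add]; exact L.add_mem hx hy
  | smul c x _ hx => rw [mul_smul_comm]; exact L.smul_mem c hx

theorem IsLat.of_le {L₁ L L₂ : Submodule ℤ K} (h₁ : IsLat L₁) (h₂ : IsLat L₂) (h : L₁ ≤ L)
    (h' : L ≤ L₂) : IsLat L :=
  ⟨h₂.1.of_le h', top_le_iff.1 (h₁.2 ▸ Submodule.span_mono h)⟩

theorem alat_span_top {L : Submodule ℤ K} (h : ∀ x : K, ∃ e : ℕ, e ≠ 0 ∧ (e : K) * x ∈ L) :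
    Submodule.span ℚ (L : Set K) = ⊤ := by
  refine top_le_iff.1 fun x _ => ?_
  obtain ⟨e, he, hx⟩ := h x
  have he' : (e : K) ≠ 0 := Nat.cast_ne_zero.2 he
  have : x = ((e : ℚ)⁻¹) • ((e : K) * x) := by
    rw [Rat.smul_def]; push_cast; field_simp
  rw [this]
  exact Submodule.smul_mem _ _ (Submodule.subset_span hx)

theorem IsLat.of_mul_mem {L L' : Submodule ℤ K} (h' : IsLat L') (h : L ≤ L') {e : ℕ} (he : e ≠ 0)
    (hL : ∀ x ∈ L', (e : K) * x ∈ L) : IsLat L := by
  refine ⟨h'.1.of_le h, alat_span_top fun x => ?_⟩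
  obtain ⟨k, hk, hx⟩ := h'.exists_mul_mem x
  refine ⟨e * k, mul_ne_zero he hk, ?_⟩
  rw [Nat.cast_mul, mul_assoc]
  exact hL _ hx

theorem IsLat.sc {L : Submodule ℤ K} (h : IsLat L) {c : K} (hc : c ≠ 0) : IsLat (sc c L) := by
  refine ⟨h.1.map _, alat_span_top fun x => ?_⟩
  obtain ⟨k, hk, hx⟩ := h.exists_mul_mem (c⁻¹ * x)
  exact ⟨k, hk, mem_sc.2 ⟨_, hx, by field_simp⟩⟩

theorem alat_OK : OK K = Submodule.span ℤ (range (NumberField.integralBasis K)) := by
  ext x
  rw [NumberField.mem_span_integralBasis, mem_OK, IsIntegralClosure.isIntegral_iff (A := 𝓞 K)]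
  rfl

theorem isLat_OK : IsLat (OK K) := by
  rw [alat_OK]
  exact ⟨Submodule.fg_span (finite_range _),
    (Submodule.span_span_of_tower ℤ ℚ _).trans (NumberField.integralBasis K).span_eq⟩

/-- `ZLattice.covolume_div_covolume_eq_relIndex`. -/
theorem Dat.cv_index (E : Dat d K) {L L' : Submodule ℤ K} (h : IsLat L) (h' : IsLat L')
    (hle : L ≤ L') : L.toAddSubgroup.relIndex L'.toAddSubgroup ≠ 0 ∧
      E.cv L = (L.toAddSubgroup.relIndex L'.toAddSubgroup : ℝ) * E.cv L' := by
  have := E.discrete_img h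
  have := E.discrete_img h'
  have : IsZLattice ℝ (E.img L) := ⟨E.span_img h⟩
  have : IsZLattice ℝ (E.img L') := ⟨E.span_img h'⟩
  have h1 := ZLattice.covolume_div_covolume_eq_relIndex (E.img L) (E.img L')
    (Submodule.map_mono hle)
  have h2 : (E.img L).toAddSubgroup.relIndex (E.img L').toAddSubgroup =
      L.toAddSubgroup.relIndex L'.toAddSubgroup := by
    unfold Dat.img
    rw [Submodule.map_toAddSubgroup, Submodule.map_toAddSubgroup]
    exact AddSubgroup.relIndex_map_map_of_injective _ _ E.e_injective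
  rw [h2] at h1
  have h3 := E.cv_pos h
  have h4 := E.cv_pos h'
  have h5 : E.cv L = (L.toAddSubgroup.relIndex L'.toAddSubgroup : ℝ) * E.cv L' :=
    (div_eq_iff h4.ne').1 h1
  refine ⟨fun h0 => ?_, h5⟩
  rw [h0, Nat.cast_zero, zero_mul] at h5
  exact h3.ne' h5

theorem relIndex_mul_mem {L L' : Submodule ℤ K} {x : K} (hx : x ∈ L') :
    ((L.toAddSubgroup.relIndex L'.toAddSubgroup : ℕ) : K) * x ∈ L := by
  rw [← nsmul_eq_mul]
  exact AddSubgroup.nsmul_relIndex_mem L.toAddSubgroup (K := L'.toAddSubgroup) hx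

theorem Dat.cv_sc (E : Dat d K) {L : Submodule ℤ K} (h : IsLat L) {c : K} (hc : c ≠ 0) :
    E.cv (sc c L) = |∏ j, E.σ j c| * E.cv L := by
  obtain ⟨m, rfl⟩ := h.exists_basis E
  have h1 : Submodule.span ℤ (range (LinearMap.mulLeft ℤ c ∘ m.vec)) = sc c m.lattice := by
    rw [range_comp, ← Submodule.map_span]
    rfl
  let m' : LatticeBasis (d + 1) K :=
    ⟨LinearMap.mulLeft ℤ c ∘ m.vec, m.linIndep.map' _
      (LinearMap.ker_eq_bot.2 (mul_right_injective₀ hc)),
      by rw [← Submodule.span_span_of_tower ℤ ℚ, h1, (h.sc hc).2]⟩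
  have h2 : sc c m.lattice = m'.lattice := h1.symm
  have h3 : embMatrix m' E.σ = Matrix.of fun i j => E.σ j c * embMatrix m E.σ i j := by
    ext i j
    exact map_mul (E.σ j) c (m.vec i)
  rw [h2, E.cv_lattice, E.cv_lattice, h3, Matrix.det_mul_row, abs_mul]

theorem Dat.cv_OK_sq (E : Dat d K) : E.cv (OK K) ^ 2 = |(NumberField.discr K : ℝ)| := by
  let e : Module.Free.ChooseBasisIndex ℤ (𝓞 K) ≃ Fin (d + 1) :=
    Fintype.equivFinOfCardEq
      ((Module.finrank_eq_card_basis (NumberField.integralBasis K)).symm.trans E.deg)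
  have hr : range (NumberField.integralBasis K ∘ e.symm) = range (NumberField.integralBasis K) :=
    e.symm.surjective.range_comp _
  let m : LatticeBasis (d + 1) K :=
    ⟨NumberField.integralBasis K ∘ e.symm, (LinearIndependent.iff_fractionRing ℤ ℚ).2
      ((NumberField.integralBasis K).linearIndependent.comp _ e.symm.injective),
      by rw [hr, (NumberField.integralBasis K).span_eq]⟩
  have h1 : OK K = m.lattice := by
    rw [alat_OK, ← hr]
    rfl
  have h2 := alat_det_sq E m
  have h3 : Algebra.discr ℚ m.vec = (NumberField.discr K : ℚ) := by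
    rw [NumberField.coe_discr]
    exact Algebra.discr_reindex ℚ (NumberField.integralBasis K) e
  rw [h3, Rat.cast_intCast] at h2
  rw [h1, E.cv_lattice, sq_abs, ← h2, abs_of_nonneg (sq_nonneg _)]

end Crest.Agent.R014

end
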