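import Crest.Agent.R014.ALat

/-! # Row 14: duality and finiteness -/

set_option autoImplicit false

noncomputable section

open MeasureTheory Filter Topology Set
open scoped ENNReal NumberField Classical
open Crest.NumberTheoryR.Packets

namespace Crest.Agent.R014

universe u

variable {d : ℕ} {K : Type u} [Field K] [NumberField K]

theorem alat2_basis {L : Submodule ℤ K} (h : IsLat L) :
    ∃ (n : ℕ) (b : Module.Basis (Fin n) ℚ K), L = Submodule.span ℤ (range b) := by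
  have : Submodule.IsLattice ℚ L := ⟨h.1, h.2⟩
  let b := Module.finBasis ℤ L
  refine ⟨_, b.extendOfIsLattice ℚ, ?_⟩
  have h1 := congrArg (Submodule.map L.subtype) b.span_eq
  rw [Submodule.map_subtype_top, Submodule.map_span, ← range_comp] at h1
  refine h1.symm.trans (congrArg (fun f => Submodule.span ℤ (range f)) (funext fun i => ?_))
  exact (Module.Basis.extendOfIsLattice_apply ℚ b i).symm

/-- A rational basis as a lattice basis. -/
def alat2_lb {n : ℕ} (b : Module.Basis (Fin n) ℚ K) : LatticeBasis n K :=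
  ⟨b, b.linearIndependent.restrict_scalars' ℤ, b.span_eq⟩

/-- The trace dual basis. -/
def alat2_db {n : ℕ} (b : Module.Basis (Fin n) ℚ K) : Module.Basis (Fin n) ℚ K :=
  (Algebra.traceForm ℚ K).dualBasis (traceForm_nondegenerate ℚ K) b

theorem alat2_dual {n : ℕ} (b : Module.Basis (Fin n) ℚ K) :
    dual (Submodule.span ℤ (range b)) = Submodule.span ℤ (range (alat2_db b)) :=
  LinearMap.BilinForm.dualSubmodule_span_of_basis _ (traceForm_nondegenerate ℚ K) b

theorem alat2_tr {n : ℕ} (b : Module.Basis (Fin n) ℚ K) (i j : Fin n) :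
    tr (b i * alat2_db b j) = if i = j then 1 else 0 :=
  LinearMap.BilinForm.apply_dualBasis_right (traceForm_nondegenerate ℚ K)
    (Algebra.traceForm_isSymm ℚ) b i j

theorem alat2_basis' (E : Dat d K) {L : Submodule ℤ K} (h : IsLat L) :
    ∃ b : Module.Basis (Fin (d + 1)) ℚ K, L = Submodule.span ℤ (range b) := by
  obtain ⟨m, rfl⟩ := h.exists_basis E
  refine ⟨Module.Basis.mk ((LinearIndependent.iff_fractionRing ℤ ℚ).1 m.linIndep) m.spans.ge, ?_⟩
  rw [Module.Basis.coe_mk]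
  rfl

theorem alat2_dot (E : Dat d K) (x y : K) : E.e x ⬝ᵥ E.e y = (tr (x * y) : ℝ) := by
  rw [← E.sum_σ]
  simp [dotProduct]

theorem alat2_one_le (E : Dat d K) {y : K} (hy : IsIntegral ℤ y) (h0 : y ≠ 0) :
    1 ≤ |∏ j, E.σ j y| := by
  obtain ⟨k, hk⟩ := IsIntegrallyClosed.isIntegral_iff.1 (Algebra.isIntegral_norm ℚ hy)
  have h1 : Algebra.norm ℚ y ≠ 0 := Algebra.norm_ne_zero_iff.2 h0
  rw [E.prod_σ, ← hk]
  have h2 : k ≠ 0 := by
    rintro rfl
    exact h1 (by simpa using hk.symm)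
  have := Int.one_le_abs h2
  simp only [eq_intCast, Rat.cast_intCast]
  exact_mod_cast this

omit [NumberField K] in
theorem alat2_finite {L L'' : Submodule ℤ K}
    (h : L.toAddSubgroup.relIndex L''.toAddSubgroup ≠ 0) : {L' | L ≤ L' ∧ L' ≤ L''}.Finite := by
  have : Finite (L''.toAddSubgroup ⧸ L.toAddSubgroup.addSubgroupOf L''.toAddSubgroup) :=
    Nat.finite_of_card_ne_zero h
  refine Set.Finite.of_finite_image (f := fun L' : Submodule ℤ K =>
    {q : L''.toAddSubgroup ⧸ L.toAddSubgroup.addSubgroupOf L''.toAddSubgroup |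
      ∃ x : L''.toAddSubgroup, QuotientAddGroup.mk x = q ∧ x.1 ∈ L'}) (toFinite _) ?_
  have key : ∀ L₁ L₂ : Submodule ℤ K, L₁ ≤ L'' → L ≤ L₂ →
      {q : L''.toAddSubgroup ⧸ L.toAddSubgroup.addSubgroupOf L''.toAddSubgroup |
        ∃ x : L''.toAddSubgroup, QuotientAddGroup.mk x = q ∧ x.1 ∈ L₁} ⊆
      {q | ∃ x : L''.toAddSubgroup, QuotientAddGroup.mk x = q ∧ x.1 ∈ L₂} → L₁ ≤ L₂ := by
    intro L₁ L₂ h1 h2 h3 x hx
    obtain ⟨y, hy, hy2⟩ := h3 ⟨⟨x, h1 hx⟩, rfl, hx⟩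
    have h4 : -y.1 + x ∈ L := QuotientAddGroup.eq.1 hy
    simpa using L₂.add_mem hy2 (h2 h4)
  intro L₁ h1 L₂ h2 e
  exact le_antisymm (key _ _ h1.2 h2.1 e.le) (key _ _ h2.2 h1.1 e.ge)

theorem IsLat.dual {L : Submodule ℤ K} (h : IsLat L) : IsLat (dual L) := by
  obtain ⟨n, b, rfl⟩ := alat2_basis h
  rw [alat2_dual]
  exact isLat_lattice (alat2_lb (alat2_db b))

theorem IsLat.dual_dual {L : Submodule ℤ K} (h : IsLat L) :
    R014.dual (R014.dual L) = L := by
  obtain ⟨n, b, rfl⟩ := alat2_basis h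
  exact LinearMap.BilinForm.dualSubmodule_dualSubmodule_of_basis _
    (traceForm_nondegenerate ℚ K) (Algebra.traceForm_isSymm ℚ) b

theorem dual_anti {L L' : Submodule ℤ K} (h : L ≤ L') : dual L' ≤ dual L := by
  exact fun x hx => mem_dual.2 fun y hy => mem_dual.1 hx y (h hy)

theorem dual_sc (L : Submodule ℤ K) {c : K} (hc : c ≠ 0) : dual (sc c L) = sc c⁻¹ (dual L) := by
  ext x
  rw [mem_dual, mem_sc]
  constructor
  · intro hx
    refine ⟨c * x, mem_dual.2 fun y hy => ?_, by rw [← mul_assoc, inv_mul_cancel₀ hc, one_mul]⟩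
    rw [show c * x * y = x * (c * y) by ring]
    exact hx _ (mem_sc.2 ⟨y, hy, rfl⟩)
  · rintro ⟨z, hz, rfl⟩ y' hy'
    obtain ⟨y, hy, rfl⟩ := mem_sc.1 hy'
    rw [show c⁻¹ * z * (c * y) = z * y by field_simp]
    exact mem_dual.1 hz y hy

theorem sc_sc (L : Submodule ℤ K) (c c' : K) : sc c (sc c' L) = sc (c * c') L := by
  ext x
  simp [mem_sc, mul_assoc]

theorem sc_one (L : Submodule ℤ K) : sc 1 L = L := by
  ext x
  simp [mem_sc]

/-- The embedding matrices of a basis and of its trace dual basis are inverse transposes. -/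
theorem Dat.cv_dual (E : Dat d K) {L : Submodule ℤ K} (h : IsLat L) :
    E.cv (dual L) = (E.cv L)⁻¹ := by
  obtain ⟨b, rfl⟩ := alat2_basis' E h
  rw [alat2_dual]
  have h1 := E.cv_lattice (alat2_lb b)
  have h2 := E.cv_lattice (alat2_lb (alat2_db b))
  have h3 : embMatrix (alat2_lb b) E.σ * (embMatrix (alat2_lb (alat2_db b)) E.σ).transpose = 1 := by
    ext i j
    have := alat2_dot E (b i) (alat2_db b j)
    rw [alat2_tr] at this
    refine this.trans ?_
    rw [Matrix.one_apply]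
    split_ifs <;> simp
  have h4 := congrArg (fun A => |Matrix.det A|) h3
  simp only [Matrix.det_mul, Matrix.det_transpose, Matrix.det_one, abs_mul, abs_one] at h4
  rw [← h1, ← h2] at h4
  exact eq_inv_of_mul_eq_one_right h4

theorem Dat.dualL_img (E : Dat d K) {L : Submodule ℤ K} (h : IsLat L) :
    dualL (E.img L) = E.img (dual L) := by
  obtain ⟨b, rfl⟩ := alat2_basis' E h
  ext w
  constructor
  · intro hw
    choose k hk using fun i =>
      hw (E.e (b i)) (Submodule.mem_map_of_mem (Submodule.subset_span ⟨i, rfl⟩))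
    refine ⟨∑ j, k j • alat2_db b j, ?_, ?_⟩
    · rw [alat2_dual]
      exact Submodule.sum_mem _ fun j _ => Submodule.smul_mem _ _ (Submodule.subset_span ⟨j, rfl⟩)
    · rw [← sub_eq_zero]
      refine Matrix.eq_zero_of_mulVec_eq_zero (E.det_ne_zero (alat2_lb b)) (funext fun i => ?_)
      change E.e (b i) ⬝ᵥ (E.e (∑ j, k j • alat2_db b j) - w) = 0
      rw [dotProduct_sub, hk, map_sum, dotProduct_sum, sub_eq_zero, Finset.sum_eq_single i]
      · rw [map_smul, dotProduct_smul, alat2_dot, alat2_tr]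
        simp
      · intro j _ hj
        rw [map_smul, dotProduct_smul, alat2_dot, alat2_tr, if_neg (Ne.symm hj)]
        simp
      · exact fun hi => absurd (Finset.mem_univ i) hi
  · rintro ⟨x, hx, rfl⟩ _ ⟨y, hy, rfl⟩
    obtain ⟨k, hk⟩ := mem_dual.1 hx y hy
    exact ⟨k, by rw [alat2_dot, mul_comm, hk, Rat.cast_intCast]⟩

theorem dualL_mulL {n : ℕ} (Λ : Submodule ℤ (Fin n → ℝ)) {t : Fin n → ℝ} (ht : ∀ j, t j ≠ 0) :
    dualL (mulL Λ t) = mulL (dualL Λ) t⁻¹ := by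
  have hm : ∀ u v : Fin n → ℝ, (u * t) ⬝ᵥ v = u ⬝ᵥ (v * t) := fun u v =>
    Finset.sum_congr rfl fun j _ => by simp only [Pi.mul_apply]; ring
  have h1 : ∀ v : Fin n → ℝ, v * t * t⁻¹ = v := fun v => funext fun j => by
    simp [ht j]
  have h2 : ∀ v : Fin n → ℝ, v * t⁻¹ * t = v := fun v => funext fun j => by
    simp [ht j]
  ext w
  rw [mem_mulL]
  constructor
  · intro hw
    refine ⟨w * t, fun u hu => ?_, h1 w⟩
    rw [← hm]
    exact hw _ (mem_mulL.2 ⟨u, hu, rfl⟩)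
  · rintro ⟨v, hv, rfl⟩ u' hu'
    obtain ⟨u, hu, rfl⟩ := mem_mulL.1 hu'
    rw [hm, h2]
    exact hv u hu

theorem Dat.img_sc (E : Dat d K) (L : Submodule ℤ K) (c : K) :
    E.img (sc c L) = mulL (E.img L) (E.e c) := by
  ext w
  rw [mem_mulL]
  constructor
  · rintro ⟨x, hx, rfl⟩
    obtain ⟨y, hy, rfl⟩ := mem_sc.1 hx
    exact ⟨E.e y, Submodule.mem_map_of_mem hy, by rw [E.e_mul, mul_comm]⟩
  · rintro ⟨_, ⟨y, hy, rfl⟩, rfl⟩
    exact ⟨c * y, mem_sc.2 ⟨y, hy, rfl⟩, by rw [E.e_mul, mul_comm]⟩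

/-- A multiple of `L` consists of algebraic integers, whose norms are nonzero integers. -/
theorem Dat.exists_norm_ge (E : Dat d K) {L : Submodule ℤ K} (h : IsLat L) :
    ∃ c : ℝ, 0 < c ∧ ∀ x ∈ L, x ≠ 0 → c ≤ |∏ j, E.σ j x| := by
  obtain ⟨e, he, hL⟩ := (isLat_OK (K := K)).exists_mul_le h.1
  have he' : (0 : ℝ) < e := by positivity
  refine ⟨((e : ℝ) ^ (d + 1))⁻¹, by positivity, fun x hx h0 => ?_⟩
  have h1 := alat2_one_le E (mem_OK.1 (hL x hx)) (mul_ne_zero (Nat.cast_ne_zero.2 he) h0)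
  simp only [map_mul, map_natCast, Finset.prod_mul_distrib, Finset.prod_const, Finset.card_univ,
    Fintype.card_fin, abs_mul] at h1
  rw [abs_of_pos (by positivity)] at h1
  rwa [inv_le_iff_one_le_mul₀' (by positivity)]

/-- If the index of `L` in `L'` is `e ≤ N` then `L ≤ L' ≤ (N!)⁻¹ L`, a finite quotient. -/
theorem Dat.finite_over (E : Dat d K) {L : Submodule ℤ K} (h : IsLat L) {c : ℝ} (hc : 0 < c) :
    {L' | IsLat L' ∧ L ≤ L' ∧ c ≤ E.cv L'}.Finite := by
  have hN : (((⌊E.cv L / c⌋₊).factorial : ℕ) : K) ≠ 0 := Nat.cast_ne_zero.2 (Nat.factorial_ne_zero _)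
  have key : ∀ L', IsLat L' → L ≤ L' → c ≤ E.cv L' →
      L' ≤ sc (((⌊E.cv L / c⌋₊).factorial : ℕ) : K)⁻¹ L := by
    intro L' h1 h2 h3 x hx
    obtain ⟨a1, a2⟩ := E.cv_index h h1 h2
    have a3 : L.toAddSubgroup.relIndex L'.toAddSubgroup ≤ ⌊E.cv L / c⌋₊ := by
      refine Nat.le_floor ?_
      rw [le_div_iff₀ hc, a2]
      exact mul_le_mul_of_nonneg_left h3 (Nat.cast_nonneg _)
    obtain ⟨k, hk⟩ := Nat.dvd_factorial (Nat.pos_of_ne_zero a1) a3
    refine mem_sc.2 ⟨(((⌊E.cv L / c⌋₊).factorial : ℕ) : K) * x, ?_,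
      by rw [← mul_assoc, inv_mul_cancel₀ hN, one_mul]⟩
    rw [hk, Nat.cast_mul, mul_comm _ (k : K), mul_assoc, ← nsmul_eq_mul]
    exact nsmul_mem (relIndex_mul_mem hx) k
  have h0 : L ≤ sc (((⌊E.cv L / c⌋₊).factorial : ℕ) : K)⁻¹ L := fun x hx =>
    mem_sc.2 ⟨(((⌊E.cv L / c⌋₊).factorial : ℕ) : K) * x, by
      rw [← nsmul_eq_mul]; exact nsmul_mem hx _, by rw [← mul_assoc, inv_mul_cancel₀ hN, one_mul]⟩
  exact (alat2_finite (E.cv_index h (h.sc (inv_ne_zero hN)) h0).1).subset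
    fun L' hL' => ⟨hL'.2.1, key L' hL'.1 hL'.2.1 hL'.2.2⟩

/-- `K` spans `ℝⁿ` and is a `ℚ`-vector space, so it is dense. -/
theorem Dat.exists_sign (E : Dat d K) {t : Fin (d + 1) → ℝ} (ht : ∀ j, t j ≠ 0) :
    ∃ c : K, ∀ j, 0 < E.σ j c * t j := by
  obtain ⟨m, -⟩ := (isLat_OK (K := K)).exists_basis E
  obtain ⟨b, hb, -⟩ := E.exists_real_basis m
  have ho : IsOpen {r : Fin (d + 1) → ℝ | ∀ j, 0 < (∑ i, r i * b i j) * t j} := by
    rw [ofPred_forall]
    exact isOpen_iInter_of_finite fun j => isOpen_lt continuous_const (by fun_prop)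
  have hd : DenseRange (Pi.map fun (_ : Fin (d + 1)) (q : ℚ) => (q : ℝ)) :=
    DenseRange.piMap fun _ => Rat.denseRange_cast
  obtain ⟨q, hq⟩ := hd.exists_mem_open ho ⟨b.repr t, fun j => by
    have := congrFun (b.sum_repr t) j
    simp only [Finset.sum_apply, Pi.smul_apply, smul_eq_mul] at this
    rw [this]
    exact mul_self_pos.2 (ht j)⟩
  refine ⟨∑ i, (q i : K) * m.vec i, fun j => ?_⟩
  have := hq j
  simpa [hb] using this

/-- The traces of `dual L` form a subgroup `g ℤ`, `g ≠ 0`, and `1/g ∈ dual (dual L) = L`. -/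
theorem prim_dual {L : Submodule ℤ K} (h : IsLat L) (h1 : (1 : K) ∈ L)
    (hq : ∀ q : ℚ, (q : K) ∈ L → ∃ k : ℤ, q = k) : Prim (dual L) := by
  let J : Ideal ℤ :=
    { carrier := {k | ∃ x ∈ dual L, tr x = k}
      zero_mem' := ⟨0, zero_mem _, by simp [tr]⟩
      add_mem' := by
        rintro a b ⟨x, hx, ha⟩ ⟨y, hy, hb⟩
        exact ⟨x + y, add_mem hx hy, by rw [Int.cast_add, ← ha, ← hb]; simp [tr]⟩
      smul_mem' := by
        rintro c a ⟨x, hx, ha⟩
        refine ⟨c • x, Submodule.smul_mem _ c hx, ?_⟩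
        rw [smul_eq_mul, Int.cast_mul, ← ha, tr, map_zsmul, zsmul_eq_mul, tr] }
  obtain ⟨g, hg⟩ := (IsPrincipalIdealRing.principal J).principal
  have key : ∀ q : ℚ, (∃ k : ℤ, q * g = k) → ∃ k : ℤ, q = k := by
    rintro q ⟨k, hk⟩
    refine hq q ?_
    rw [← h.dual_dual]
    refine mem_dual.2 fun y hy => ?_
    obtain ⟨a, ha⟩ := mem_dual.1 hy 1 h1
    rw [mul_one] at ha
    have : a ∈ J := ⟨y, hy, ha⟩
    rw [hg] at this
    obtain ⟨c, rfl⟩ := Ideal.mem_span_singleton'.1 this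
    refine ⟨c * k, ?_⟩
    rw [← Rat.smul_def, tr, map_smul, ← tr, ha, smul_eq_mul]
    push_cast
    rw [← hk]
    ring
  have hg0 : (g : ℚ) ≠ 0 := by
    intro h0
    obtain ⟨k, hk⟩ := key (1 / 2) ⟨0, by simp [h0]⟩
    have : (1 : ℚ) = 2 * k := by linarith
    have : (1 : ℤ) = 2 * k := by exact_mod_cast this
    omega
  obtain ⟨k, hk⟩ := key (g : ℚ)⁻¹ ⟨1, by simp [hg0]⟩
  have hgJ : k • g ∈ J := J.smul_mem k (hg ▸ Submodule.mem_span_singleton_self g)
  obtain ⟨x, hx, hx'⟩ := hgJ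
  refine ⟨x, hx, hx'.trans ?_⟩
  rw [smul_eq_mul, Int.cast_mul, ← hk, inv_mul_cancel₀ hg0]

theorem Dat.cv_idL (E : Dat d K) {I : Ideal (𝓞 K)} (hI : I ≠ ⊥) :
    IsLat (idL I) ∧ (idL I).toAddSubgroup.relIndex (OK K).toAddSubgroup = Ideal.absNorm I := by
  constructor
  · refine isLat_OK.of_mul_mem (e := Ideal.absNorm I) (fun x hx => ?_)
      (Ideal.absNorm_eq_zero_iff.not.2 hI) fun x hx => ?_
    · obtain ⟨y, -, rfl⟩ := mem_idL.1 hx
      exact y.2
    · obtain ⟨y, rfl⟩ : ∃ y : 𝓞 K, (y : K) = x := ⟨⟨x, hx⟩, rfl⟩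
      exact mem_idL.2 ⟨(Ideal.absNorm I : 𝓞 K) * y, I.mul_mem_right _ I.absNorm_mem, by simp⟩
  · have e1 : (idL I).toAddSubgroup = I.toAddSubgroup.map (algebraMap (𝓞 K) K).toAddMonoidHom := by
      ext x
      exact mem_idL
    have e2 : (OK K).toAddSubgroup = (⊤ : AddSubgroup (𝓞 K)).map
        (algebraMap (𝓞 K) K).toAddMonoidHom := by
      ext x
      exact ⟨fun hx => ⟨⟨x, hx⟩, trivial, rfl⟩, fun ⟨y, _, hy⟩ => hy ▸ y.2⟩
    rw [e1, e2, AddSubgroup.relIndex_map_map_of_injective _ _ NumberField.RingOfIntegers.coe_injective,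
      AddSubgroup.relIndex_top_right]
    rfl

/-- Algebraic integers are `1`-separated in the sup norm; pigeonhole with `⌊σ j x + R⌋`. -/
theorem Dat.card_integers_le (E : Dat d K) {R : ℝ} (hR : 0 ≤ R) (T : Finset K)
    (hT : ∀ x ∈ T, IsIntegral ℤ x ∧ ∀ j, |E.σ j x| ≤ R) : (T.card : ℝ) ≤ (2 * R + 1) ^ (d + 1) := by
  have h1 : T.card ≤ (Fintype.piFinset fun _ : Fin (d + 1) => Finset.range (⌊2 * R⌋₊ + 1)).card := by
    refine Finset.card_le_card_of_injOn (fun x j => ⌊E.σ j x + R⌋₊) (fun x hx => ?_) ?_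
    · refine Finset.mem_coe.2 (Fintype.mem_piFinset.2 fun j => Finset.mem_range.2 ?_)
      exact Nat.lt_succ_of_le (Nat.floor_mono (by linarith [(abs_le.1 ((hT x hx).2 j)).2]))
    · intro x hx y hy e
      by_contra hne
      have a1 := alat2_one_le E ((hT x hx).1.sub (hT y hy).1) (sub_ne_zero.2 hne)
      have a2 : ∀ j, |E.σ j (x - y)| < 1 := by
        intro j
        have b0 : ⌊E.σ j x + R⌋₊ = ⌊E.σ j y + R⌋₊ := congrFun e j
        have b1 := Nat.floor_le (show 0 ≤ E.σ j x + R by linarith [(abs_le.1 ((hT x hx).2 j)).1])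
        have b2 := Nat.floor_le (show 0 ≤ E.σ j y + R by linarith [(abs_le.1 ((hT y hy).2 j)).1])
        have b3 := Nat.lt_floor_add_one (E.σ j x + R)
        have b4 := Nat.lt_floor_add_one (E.σ j y + R)
        rw [b0] at b1 b3
        rw [map_sub, abs_lt]
        constructor <;> linarith
      rw [Finset.abs_prod, Fin.prod_univ_succ] at a1
      have a3 : ∏ j : Fin d, |E.σ j.succ (x - y)| ≤ 1 :=
        Finset.prod_le_one (fun _ _ => abs_nonneg _) fun _ _ => (a2 _).le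
      exact absurd ((mul_le_of_le_one_right (abs_nonneg _) a3).trans_lt (a2 0)) (not_lt.2 a1)
  simp only [Fintype.card_piFinset, Finset.card_range, Finset.prod_const, Finset.card_univ,
    Fintype.card_fin] at h1
  have h2 : (T.card : ℝ) ≤ ((⌊2 * R⌋₊ : ℝ) + 1) ^ (d + 1) := by exact_mod_cast h1
  refine h2.trans ?_
  gcongr
  exact Nat.floor_le (by linarith)

end Crest.Agent.R014

end
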