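import Crest.Agent.R014.AMult

/-! # Row 14: local structure of the lattices, I -/

set_option autoImplicit false

noncomputable section

open MeasureTheory Filter Topology Set
open scoped ENNReal NumberField Classical
open Crest.NumberTheoryR.Packets

namespace Crest.Agent.R014

universe u

variable {d : ℕ} {K : Type u} [Field K] [NumberField K]

/-! Throughout `O = mult N`, `f = ff N`; `f • dual O ≤ O ≤ 𝓞 K ≤ dual O` (`ff_mul_mem`). -/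

theorem aloc_nat {L : Submodule ℤ K} (n : ℕ) {x : K} (hx : x ∈ L) : (n : K) * x ∈ L := by
  simpa only [nsmul_eq_mul] using nsmul_mem hx n

theorem aloc_pow {L : Submodule ℤ K} (f k : ℕ) {x : K} (hx : x ∈ L) : (f : K) ^ k * x ∈ L := by
  simpa only [Nat.cast_pow] using aloc_nat (f ^ k) hx

theorem aloc_bez {L : Submodule ℤ K} {e f k : ℕ} (h : e.Coprime f) {x : K} (ha : (e : K) * x ∈ L)
    (hb : (f : K) ^ k * x ∈ L) : x ∈ L := by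
  obtain ⟨a, b, hab⟩ := Nat.isCoprime_iff_coprime.2 (h.pow_right k)
  have h1 := congrArg (Int.cast : ℤ → K) hab
  push_cast at h1
  convert L.add_mem (L.smul_mem a ha) (L.smul_mem b hb) using 1
  simp only [zsmul_eq_mul]
  linear_combination (-x) * h1

theorem aloc_split (f : ℕ) {e : ℕ} (he : e ≠ 0) :
    ∃ k b : ℕ, b ≠ 0 ∧ b.Coprime f ∧ e ∣ f ^ k * b := by
  induction e using Nat.strong_induction_on with
  | _ e ih =>
    by_cases h : e.Coprime f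
    · exact ⟨0, e, he, h, by simp⟩
    · obtain ⟨e', he'⟩ := Nat.gcd_dvd_left e f
      have h0 : e' ≠ 0 := by rintro rfl; simp [he] at he'
      have h1 : e.gcd f ≠ 0 := Nat.gcd_ne_zero_left he
      obtain ⟨k, b, hb, hbf, hd⟩ := ih e' (by
        calc e' < e.gcd f * e' := lt_mul_left (Nat.pos_of_ne_zero h0) (by unfold Nat.Coprime at h; omega)
          _ = e := he'.symm) h0
      refine ⟨k + 1, b, hb, hbf, ?_⟩
      rw [he', pow_succ', mul_assoc]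
      exact mul_dvd_mul (Nat.gcd_dvd_right e f) hd

theorem aloc_lift {x : K} (hx : x ∈ OK K) : ∃ y : 𝓞 K, (y : K) = x := ⟨⟨x, hx⟩, rfl⟩

theorem aloc_coe (y : 𝓞 K) : (y : K) ∈ OK K := y.isIntegral_coe

theorem aloc_idL {I : Ideal (𝓞 K)} {y : 𝓞 K} : (y : K) ∈ idL I ↔ y ∈ I :=
  ⟨fun h => by
    obtain ⟨z, hz, e⟩ := mem_idL.1 h
    rwa [← NumberField.RingOfIntegers.ext e], fun h => mem_idL.2 ⟨y, h, rfl⟩⟩

theorem aloc_idL_mul {I : Ideal (𝓞 K)} {x z : K} (hx : x ∈ idL I) (hz : z ∈ OK K) :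
    x * z ∈ idL I := by
  obtain ⟨x, hx', rfl⟩ := mem_idL.1 hx
  obtain ⟨z, rfl⟩ := aloc_lift hz
  exact mem_idL.2 ⟨x * z, I.mul_mem_right z hx', map_mul _ _ _⟩

theorem aloc_norm (I : Ideal (𝓞 K)) {x : K} (hx : x ∈ OK K) : (Ideal.absNorm I : K) * x ∈ idL I :=
  aloc_idL_mul (mem_idL.2 ⟨_, I.absNorm_mem, map_natCast _ _⟩) hx

theorem aloc_sat {f k : ℕ} {I : Ideal (𝓞 K)} (hI : Cop f I) {x : K} (hx : x ∈ OK K)
    (h : (f : K) ^ k * x ∈ idL I) : x ∈ idL I :=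
  aloc_bez hI.2 (aloc_norm I hx) h

theorem aloc_f {N : Submodule ℤ K} (hN : IsLat N) {x : K} (hx : x ∈ dual (mult N)) :
    (ff N : K) ^ 1 * x ∈ OK K := by
  rw [pow_one]
  exact hN.mult_le_OK (ff_mul_mem hx)

theorem aloc_ex (f : ℕ) {Q : Submodule ℤ K} (hQ : IsLat Q) :
    ∃ k b : ℕ, b ≠ 0 ∧ b.Coprime f ∧ ∀ y : 𝓞 K, (b : K) * ((f : K) ^ k * (y : K)) ∈ Q := by
  obtain ⟨e, he, h⟩ := hQ.exists_mul_le (isLat_OK (K := K)).1
  obtain ⟨k, b, hb, hbf, c, hc⟩ := aloc_split f he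
  refine ⟨k, b, hb, hbf, fun y => ?_⟩
  have h1 := congrArg (Nat.cast : ℕ → K) hc
  push_cast at h1
  convert aloc_nat c (h _ (aloc_coe y)) using 1
  linear_combination (y : K) * h1

theorem aloc_PS {N P : Submodule ℤ K} (hP : P ∈ PS N) :
    ∃ k : ℕ, ∀ y : 𝓞 K, (ff N : K) ^ k * (y : K) ∈ P := by
  obtain ⟨k, b, hb, hbf, h⟩ := aloc_ex (ff N) hP.1.1.1
  exact ⟨k, fun y => hP.2 ▸ ⟨⟨0, aloc_pow _ _ (aloc_pow _ _ (aloc_coe y))⟩, b, hb, hbf, h y⟩⟩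

theorem aloc_nn {f : ℕ} {ν : K} {w : 𝓞 K} (hw : (w : K) = (f : K) ^ 1 * ν) : w ∈ nn f ν :=
  ⟨0, fun y => mem_sc.2 ⟨_, aloc_pow f 1 (aloc_coe y), by
    rw [show ((w * y : 𝓞 K) : K) = w * y from map_mul _ _ _, hw]
    ring⟩⟩

theorem QS.le_PP (E : Dat d K) {N Q : Submodule ℤ K} (hN : IsLat N) (hQ : Q ∈ QS N) :
    Q ≤ PP (ff N) Q := fun x hx =>
  ⟨⟨1, aloc_f hN (hQ.2 hx)⟩, 1, one_ne_zero, Nat.coprime_one_left _, aloc_nat 1 hx⟩

/-- For `x ∈ PP f Q`, `y ∈ O` the rational `tr (x y)` is killed by a power of `f` and by an integer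
prime to `f`. -/
theorem QS.PP_le (E : Dat d K) {N Q : Submodule ℤ K} (hN : IsLat N) (hQ : Q ∈ QS N) :
    PP (ff N) Q ≤ dual (mult N) := fun _ ⟨⟨_, hk⟩, _, _, he, hx⟩ =>
  aloc_bez he (hQ.2 hx) (hN.OK_le_dual_mult hk)

theorem PP_PP (f : ℕ) (Q : Submodule ℤ K) : PP f (PP f Q) = PP f Q := by
  refine le_antisymm (fun x ⟨hk, e, he0, he, _, e', he0', he', hx⟩ => ?_) fun x hx =>
    ⟨hx.1, 1, one_ne_zero, Nat.coprime_one_left _, aloc_nat 1 hx⟩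
  exact ⟨hk, e' * e, mul_ne_zero he0' he0, he'.mul_left he, by rwa [Nat.cast_mul, mul_assoc]⟩

/-- Write a multiplier `e` with `e 𝓞 K ⊆ Q` as (a divisor of `f^k`) times (an integer prime to `f`). -/
theorem IsLat.exists_pow_mul_mem_PP {f : ℕ} (hf : f ≠ 0) {Q : Submodule ℤ K} (hQ : IsLat Q) :
    ∃ k : ℕ, ∀ y : 𝓞 K, (f : K) ^ k * (y : K) ∈ PP f Q := by
  obtain ⟨k, b, hb, hbf, h⟩ := aloc_ex f hQ
  exact ⟨k, fun y => ⟨⟨0, aloc_pow (L := OK K) _ _ (aloc_pow _ _ (aloc_coe y))⟩, b, hb, hbf, h y⟩⟩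

theorem QS.mem_aa (E : Dat d K) {N Q : Submodule ℤ K} (hN : IsLat N) (hQ : Q ∈ QS N) {x : 𝓞 K} :
    x ∈ aa (ff N) Q ↔ ∃ k : ℕ, (ff N : K) ^ k * (x : K) ∈ Q := by
  refine ⟨fun ⟨k, hk⟩ => ⟨k, by simpa using hk 1⟩, fun ⟨k, hk⟩ => ⟨k + 1, fun y => ?_⟩⟩
  have h1 := ff_mul_mem (hN.OK_le_dual_mult (aloc_coe y))
  rw [← mult_of_mem_gen hN hQ.1] at h1
  convert mem_mult.1 h1 _ hk using 1
  push_cast
  ring

/-- The ideal contains a nonzero integer prime to `f`. -/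
theorem IsLat.cop_aa {f : ℕ} (hf : f ≠ 0) {Q : Submodule ℤ K} (hQ : IsLat Q) : Cop f (aa f Q) := by
  obtain ⟨k, b, hb, hbf, h⟩ := aloc_ex f hQ
  have h1 : Ideal.span {(b : 𝓞 K)} ≤ aa f Q := (Ideal.span_singleton_le_iff_mem _).2
    ⟨k, fun y => by convert h y using 1; push_cast; ring⟩
  have h2 := Ideal.absNorm_dvd_absNorm_of_le h1
  rw [Ideal.absNorm_span_natCast] at h2
  refine ⟨Ideal.absNorm_eq_zero_iff.not.1 (ne_zero_of_dvd_ne_zero (pow_ne_zero _ hb) h2), ?_⟩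
  exact (hbf.pow_left _).coprime_dvd_left h2

theorem QS.eq_cut (E : Dat d K) {N Q : Submodule ℤ K} (hN : IsLat N) (hQ : Q ∈ QS N) :
    Q = cut (ff N) (PP (ff N) Q) (aa (ff N) Q) := by
  refine le_antisymm ?_ ?_
  · intro x hx
    obtain ⟨z, hz⟩ := aloc_lift (aloc_f hN (hQ.2 hx))
    exact ⟨QS.le_PP E hN hQ hx, 1,
      mem_idL.2 ⟨z, (QS.mem_aa E hN hQ).2 ⟨0, aloc_pow _ _ (hz ▸ aloc_pow _ _ hx)⟩, hz⟩⟩
  · rintro x ⟨⟨-, e, -, he, hx⟩, k, hk⟩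
    obtain ⟨y, hy, hk⟩ := mem_idL.1 hk
    obtain ⟨l, hl⟩ := (QS.mem_aa E hN hQ).1 hy
    exact aloc_bez (k := l + k) he hx (by rwa [pow_add, mul_assoc, ← hk])

theorem PS.mul_mem_cut (E : Dat d K) {N P : Submodule ℤ K} (hN : IsLat N) (hP : P ∈ PS N)
    {I : Ideal (𝓞 K)} {x : K} (hx : x ∈ P) : (Ideal.absNorm I : K) * x ∈ cut (ff N) P I := ⟨aloc_nat _ hx, 1, by
    rw [mul_left_comm]
    exact aloc_norm I (aloc_f hN (hP.1.2 hx))⟩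

/-- For `k` large `x ↦ f^k x` induces an isomorphism `P / cut ≃ 𝓞 K / I` (surjective because
`f^j 𝓞 K ⊆ P` and `f` is invertible modulo `I`; injective because `f^k x ∈ 𝓞 K`, `f^{k+j} x ∈ I`
imply `f^k x ∈ I`). -/
theorem PS.index_cut (E : Dat d K) {N P : Submodule ℤ K} (hN : IsLat N) (hP : P ∈ PS N)
    {I : Ideal (𝓞 K)} (hI : Cop (ff N) I) : IsLat (cut (ff N) P I) ∧
      (cut (ff N) P I).toAddSubgroup.relIndex P.toAddSubgroup = Ideal.absNorm I ∧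
      E.cv (cut (ff N) P I) = Ideal.absNorm I * E.cv P := by
  have h0 := Ideal.absNorm_eq_zero_iff.not.2 hI.1
  have hle : cut (ff N) P I ≤ P := fun _ hx => hx.1
  have h1 := hP.1.1.1.of_mul_mem hle h0 fun x hx => PS.mul_mem_cut E hN hP hx
  have h2 : (cut (ff N) P I).toAddSubgroup = (idL I).toAddSubgroup.comap
      (AddMonoidHom.mulLeft ((ff N : K) ^ 1)) ⊓ P.toAddSubgroup := by
    ext x
    refine ⟨fun ⟨hx, k, hk⟩ => ⟨aloc_sat (k := k) hI (aloc_f hN (hP.1.2 hx)) ?_, hx⟩,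
      fun ⟨h, hx⟩ => ⟨hx, 1, h⟩⟩
    rw [AddMonoidHom.coe_mulLeft, mul_left_comm]
    exact aloc_pow _ _ hk
  have h3 : P.toAddSubgroup.map (AddMonoidHom.mulLeft ((ff N : K) ^ 1)) ⊔ (idL I).toAddSubgroup =
      (OK K).toAddSubgroup := by
    refine le_antisymm (sup_le ?_ fun x hx => ?_) fun x hx => ?_
    · rintro _ ⟨x, hx, rfl⟩
      exact aloc_f hN (hP.1.2 hx)
    · obtain ⟨y, -, rfl⟩ := mem_idL.1 hx
      exact aloc_coe y
    · obtain ⟨k, hk⟩ := aloc_PS hP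
      obtain ⟨y, rfl⟩ := aloc_lift hx
      refine aloc_bez (L := AddSubgroup.toIntSubmodule (P.toAddSubgroup.map
        (AddMonoidHom.mulLeft ((ff N : K) ^ 1)) ⊔ (idL I).toAddSubgroup)) (k := 1 + k) (x := y) hI.2
        (AddSubgroup.mem_sup_right (aloc_norm I hx)) (AddSubgroup.mem_sup_left
          (AddSubgroup.mem_map.2 ⟨_, hk y, ?_⟩))
      rw [pow_add, mul_assoc]
      rfl
  have h4 : (cut (ff N) P I).toAddSubgroup.relIndex P.toAddSubgroup = Ideal.absNorm I := by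
    rw [h2, AddSubgroup.inf_relIndex_right, AddSubgroup.relIndex_comap,
      ← AddSubgroup.relIndex_sup_right, h3, (E.cv_idL hI.1).2]
  exact ⟨h1, h4, h4 ▸ (E.cv_index h1 hP.1.1.1 hle).2⟩

theorem PS.PP_cut (E : Dat d K) {N P : Submodule ℤ K} (hN : IsLat N) (hP : P ∈ PS N)
    {I : Ideal (𝓞 K)} (hI : Cop (ff N) I) :
    PP (ff N) (cut (ff N) P I) = P ∧ aa (ff N) (cut (ff N) P I) = I := by
  refine ⟨le_antisymm (fun x ⟨hk, e, he0, he, hx⟩ => hP.2 ▸ ⟨hk, e, he0, he, hx.1⟩) fun x hx =>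
    ⟨⟨1, aloc_f hN (hP.1.2 hx)⟩, _, Ideal.absNorm_eq_zero_iff.not.2 hI.1, hI.2,
      PS.mul_mem_cut E hN hP hx⟩, le_antisymm ?_ ?_⟩
  · rintro x ⟨k, hk⟩
    obtain ⟨-, l, hl⟩ := hk 1
    rw [mul_one, ← mul_assoc, ← pow_add] at hl
    exact aloc_idL.1 (aloc_sat hI (aloc_coe x) hl)
  · intro x hx
    obtain ⟨k, hk⟩ := aloc_PS hP
    exact ⟨k, fun y => ⟨hk _, 0, aloc_pow _ _ (aloc_pow _ _ (aloc_idL.2 (I.mul_mem_right y hx)))⟩⟩

theorem PS.mem_cut_iff (E : Dat d K) {N P : Submodule ℤ K} (hN : IsLat N) (hP : P ∈ PS N)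
    {I : Ideal (𝓞 K)} (hI : Cop (ff N) I) {ν : K} (hν : ν ∈ P) :
    ν ∈ cut (ff N) P I ↔ nn (ff N) ν ≤ I := by
  refine ⟨fun ⟨_, l, hl⟩ x ⟨k, hk⟩ => ?_, fun h => ⟨hν, 1, ?_⟩⟩
  · obtain ⟨z, hz, e⟩ := mem_sc.1 (hk 1)
    refine aloc_idL.1 (aloc_sat (k := l + k) hI (aloc_coe x) ?_)
    rw [mul_one] at e
    rw [pow_add, mul_assoc, ← e, ← mul_assoc]
    exact aloc_idL_mul hl hz
  · obtain ⟨w, hw⟩ := aloc_lift (aloc_f hN (hP.1.2 hν))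
    exact mem_idL.2 ⟨w, h (aloc_nn hw), hw⟩

/-- `f ν ∈ nn f ν` is an algebraic integer of norm `f^n N(ν)`. -/
theorem nn_norm (E : Dat d K) {N : Submodule ℤ K} (hN : IsLat N) {ν : K} (hν : ν ∈ dual (mult N))
    (h0 : ν ≠ 0) : Cop (ff N) (nn (ff N) ν) ∧
      (Ideal.absNorm (nn (ff N) ν) : ℝ) ≤ (ff N : ℝ) ^ (d + 1) * |∏ j, E.σ j ν| := by
  have hf := hN.ff_ne_zero E
  refine ⟨(isLat_OK.sc h0).cop_aa hf, ?_⟩
  obtain ⟨w, hw⟩ := aloc_lift (aloc_f hN hν)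
  have h2 : w ≠ 0 := fun h => by
    rw [h] at hw
    exact mul_ne_zero (pow_ne_zero _ (Nat.cast_ne_zero.2 hf)) h0 hw.symm
  have h3 := Int.le_of_dvd (abs_pos.2 (Algebra.norm_ne_zero_iff.2 h2))
    ((dvd_abs _ _).2 (Ideal.absNorm_dvd_norm_of_mem (aloc_nn hw)))
  have h4 := E.prod_σ w
  rw [← Algebra.coe_norm_int, hw, Rat.cast_intCast] at h4
  simp only [map_mul, pow_one, map_natCast, Finset.prod_mul_distrib, Finset.prod_const,
    Finset.card_univ, Fintype.card_fin] at h4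
  rw [← abs_of_nonneg (by positivity : (0 : ℝ) ≤ (ff N : ℝ) ^ (d + 1)), ← abs_mul, h4]
  exact_mod_cast h3

theorem QS.cv_ge (E : Dat d K) {N Q : Submodule ℤ K} (hN : IsLat N) (hQ : Q ∈ QS N) :
    (E.cv Q)⁻¹ ≤ ff N := by
  obtain ⟨h1, h2⟩ := E.cv_index hQ.1.1 hN.mult.dual hQ.2
  have h3 := E.cv_pos hN.mult
  have h4 := hN.ff_eq E
  have h5 : (1 : ℝ) ≤ ff N := Nat.one_le_cast.2 (Nat.pos_of_ne_zero (hN.ff_ne_zero E))
  have h6 : (E.cv (mult N))⁻¹ ≤ E.cv Q := by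
    rw [h2, E.cv_dual hN.mult]
    exact le_mul_of_one_le_left (inv_pos.2 h3).le (Nat.one_le_cast.2 (Nat.pos_of_ne_zero h1))
  refine (inv_le_of_inv_le₀ h3 h6).trans ?_
  nlinarith

end Crest.Agent.R014

end
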