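import Crest.Agent.R014.ADefs

/-! # Row 14: the parameters -/

set_option autoImplicit false

noncomputable section

open MeasureTheory Filter Topology Set
open scoped ENNReal NumberField Classical
open Crest.NumberTheoryR.Packets

namespace Crest.Agent.R014

universe u

variable {d : ℕ} {K : Type u} [Field K] [NumberField K]

theorem eta1_pos (d : ℕ) : 0 < eta1 d := by
  unfold eta1
  positivity

theorem apar_eta_le (d : ℕ) : eta1 d ≤ 1 := by
  unfold eta1
  have h1 : (1 : ℝ) ≤ ((d : ℝ) + 1) ^ 3 := one_le_pow₀ (by linarith [Nat.cast_nonneg (α := ℝ) d])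
  rw [div_le_one (by positivity)]
  linarith

theorem apar_log : Tendsto (fun f : ℕ => Real.log f) atTop atTop :=
  Real.tendsto_log_atTop.comp tendsto_natCast_atTop_atTop

theorem apar_U (d f : ℕ) (κ : ℝ) : (par d f κ).U = eta1 d / 40 / (3 + κ) * Real.log f := rfl

theorem apar_E (d f : ℕ) (κ : ℝ) : (par d f κ).E = (f : ℝ) ^ (eta1 d / 40) := rfl

theorem apar_a_le (d : ℕ) {κ : ℝ} (hκ : 0 ≤ κ) : eta1 d / 40 / (3 + κ) ≤ eta1 d / 120 := by
  have h := eta1_pos d
  rw [div_le_iff₀ (by linarith)]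
  nlinarith

theorem tendsto_uu : Tendsto uu atTop atTop := by
  unfold uu
  exact (tendsto_pow_atTop two_ne_zero).comp (Real.tendsto_log_atTop.comp apar_log)

theorem par_ok (d : ℕ) {κ : ℝ} (hκ : 0 ≤ κ) : ∀ᶠ f : ℕ in atTop, (par d f κ).Ok (uu f) := by
  have hη := eta1_pos d
  have hη1 := apar_eta_le d
  have ha : 0 < eta1 d / 40 / (3 + κ) := by positivity
  have ha1 : eta1 d / 40 / (3 + κ) ≤ 1 := (apar_a_le d hκ).trans (by linarith)
  have hb := apar_log.eventually
    ((Real.isLittleO_pow_log_id_atTop (n := 4000)).bound ha)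
  have hll : Tendsto (fun f : ℕ => Real.log (Real.log f)) atTop atTop :=
    Real.tendsto_log_atTop.comp apar_log
  filter_upwards [hb, hll.eventually_ge_atTop 3, apar_log.eventually_ge_atTop 1,
    eventually_ge_atTop 1] with f hb h3 h1 hf
  set a := eta1 d / 40 / (3 + κ) with hadef
  set L := Real.log (f : ℝ) with hL
  have hu : uu f = Real.log L ^ 2 := rfl
  have hu1 : 1 ≤ uu f := by rw [hu]; nlinarith
  have hbig : uu f ^ 2000 ≤ a * L := by
    rw [hu, ← pow_mul]
    simp only [id, Real.norm_eq_abs] at hb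
    rw [abs_of_nonneg (by linarith : (0 : ℝ) ≤ L)] at hb
    exact (le_abs_self _).trans hb
  have huU : uu f ≤ a * L := (le_self_pow₀ hu1 (by norm_num)).trans hbig
  have hL3 : L ^ 3 ≤ Real.exp (uu f) := by
    have : L ^ 3 = Real.exp (3 * Real.log L) := by
      rw [show (3 : ℝ) * Real.log L = ((3 : ℕ) : ℝ) * Real.log L by norm_num, Real.exp_nat_mul,
        Real.exp_log (by linarith)]
    rw [this, hu]
    exact Real.exp_le_exp.mpr (by nlinarith)
  have hq : 1 ≤ a * L / uu f := by rw [le_div_iff₀ (by linarith)]; linarith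
  have hn : ⌊a * L / uu f⌋₊ ≠ 0 := by
    have := Nat.floor_pos.mpr hq
    omega
  have hJ : (par d f κ).J = Nat.log 2 ⌊a * L / uu f⌋₊ := rfl
  have hU : (par d f κ).U = a * L := rfl
  refine ⟨?_, ?_, by rw [hU]; exact hbig, ?_, hκ, ?_, ?_⟩
  · rw [hJ, hU, le_div_iff₀ (by positivity)]
    have e1 : ((2 ^ Nat.log 2 ⌊a * L / uu f⌋₊ : ℕ) : ℝ) ≤ (⌊a * L / uu f⌋₊ : ℝ) := by
      exact_mod_cast Nat.pow_log_le_self 2 hn
    have e2 : (⌊a * L / uu f⌋₊ : ℝ) ≤ a * L / uu f := Nat.floor_le (by linarith)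
    have e3 := e1.trans e2
    rw [le_div_iff₀ (by linarith)] at e3
    push_cast at e3
    linarith
  · rw [hJ, hU, div_le_iff₀ (by positivity)]
    have e1 : ⌊a * L / uu f⌋₊ + 1 ≤ 2 ^ (Nat.log 2 ⌊a * L / uu f⌋₊ + 1) :=
      Nat.lt_pow_succ_log_self (by norm_num) _
    have e1' : ((⌊a * L / uu f⌋₊ : ℝ) + 1) ≤ 2 ^ (Nat.log 2 ⌊a * L / uu f⌋₊ + 1) := by
      exact_mod_cast e1
    have e2 : a * L / uu f < (⌊a * L / uu f⌋₊ : ℝ) + 1 := Nat.lt_floor_add_one _
    have e3 := (e2.trans_le e1').le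
    rw [div_le_iff₀ (by linarith), pow_succ] at e3
    linarith
  · rw [hU]
    refine le_trans (pow_le_pow_left₀ (by positivity) ?_ 3) hL3
    nlinarith
  · rw [apar_E]
    exact Real.one_le_rpow (by exact_mod_cast hf) (by positivity)
  · rw [apar_E, Real.log_rpow (by exact_mod_cast hf)]
    refine le_trans ?_ ((le_self_pow₀ h1 (by norm_num)).trans hL3)
    nlinarith

theorem par_E (d : ℕ) {κ : ℝ} (hκ : 0 ≤ κ) {f : ℕ} (hf : 2 ≤ f) :
    Real.log (par d f κ).E / (par d f κ).U = 3 + κ := by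
  have hη := eta1_pos d
  have hf' : (1 : ℝ) < f := by exact_mod_cast hf
  have hL := Real.log_pos hf'
  rw [apar_E, apar_U, Real.log_rpow (by linarith)]
  field_simp

/-- `exp (2 U) ≤ f^{η/60}`. -/
theorem par_U_le (d : ℕ) (hd : 1 ≤ d) {κ c : ℝ} (hκ : 0 ≤ κ) (hc : 0 < c) : ∀ᶠ f : ℕ in atTop,
    2 * (par d f κ).U ≤ Real.log (c * ((f : ℝ) ^ eta1 d) ^ d) := by
  have hη := eta1_pos d
  have ht : Tendsto (fun f : ℕ => eta1 d / 2 * Real.log f) atTop atTop :=
    apar_log.const_mul_atTop (by positivity)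
  filter_upwards [ht.eventually_ge_atTop (-Real.log c), eventually_ge_atTop 1] with f h1 hf
  have hf' : (1 : ℝ) ≤ f := by exact_mod_cast hf
  have hL := Real.log_nonneg hf'
  have hd' : (1 : ℝ) ≤ d := by exact_mod_cast hd
  rw [apar_U, Real.log_mul hc.ne' (by positivity), Real.log_pow, Real.log_rpow (by linarith)]
  have h2 := mul_le_mul_of_nonneg_right (apar_a_le d hκ) hL
  have h3 : 0 ≤ eta1 d * Real.log f := by positivity
  nlinarith

theorem par_loss (d : ℕ) {κ c ε : ℝ} (hκ : 0 ≤ κ) (hc : 1 ≤ c) (hε : 0 < ε) : ∀ᶠ f : ℕ in atTop,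
    (par d f κ).U * (1 + Real.log (c * f)) ^ (d + 1) * (f : ℝ) ^ (-eta1 d) ≤ ε := by
  have hη := eta1_pos d
  have hη1 := apar_eta_le d
  have ht : Tendsto (fun f : ℕ => eta1 d * Real.log f) atTop atTop :=
    apar_log.const_mul_atTop hη
  have h0 := ((Real.tendsto_pow_mul_exp_neg_atTop_nhds_zero (d + 2)).comp ht).const_mul
    ((2 / eta1 d) ^ (d + 2))
  rw [mul_zero] at h0
  filter_upwards [h0.eventually (ge_mem_nhds hε), apar_log.eventually_ge_atTop (1 + Real.log c),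
    eventually_ge_atTop 1] with f h1 h2 hf
  have hf' : (1 : ℝ) ≤ f := by exact_mod_cast hf
  have hL := Real.log_nonneg hf'
  have hlc := Real.log_nonneg hc
  refine le_trans ?_ h1
  simp only [Function.comp]
  rw [← mul_assoc, ← mul_pow, Real.rpow_def_of_pos (by linarith),
    show Real.log f * -eta1 d = -(eta1 d * Real.log f) by ring,
    show 2 / eta1 d * (eta1 d * Real.log f) = 2 * Real.log f by field_simp,
    Real.log_mul (by linarith) (by linarith), apar_U]
  refine mul_le_mul_of_nonneg_right ?_ (Real.exp_pos _).le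
  rw [pow_succ' (2 * Real.log f) (d + 1)]
  have h3 := mul_le_mul_of_nonneg_right (apar_a_le d hκ) hL
  refine mul_le_mul (by nlinarith) (pow_le_pow_left₀ (by linarith) (by linarith) _)
    (pow_nonneg (by linarith) _) (by linarith)

/-- `Q = ⌈f^{η/2}⌉`; `E^6 exp (12 U) ≤ f^{η (6/40 + 12/120)}`. -/
theorem par_Q (d : ℕ) {κ c δ : ℝ} (hκ : 0 ≤ κ) (hδ : 0 < δ) : ∀ᶠ f : ℕ in atTop, ∃ Q : ℕ, 0 < Q ∧
    Q * (c / (f : ℝ) ^ eta1 d) ≤ δ ∧
    (par d f κ).E ^ 6 * Real.exp (par d f κ).U ^ 12 * (par d f κ).U ≤ Q := by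
  have hη := eta1_pos d
  have ht : Tendsto (fun f : ℕ => (f : ℝ) ^ (eta1 d / 2)) atTop atTop :=
    (tendsto_rpow_atTop (by positivity)).comp tendsto_natCast_atTop_atTop
  filter_upwards [ht.eventually_ge_atTop (2 * |c| / δ), eventually_ge_atTop 1] with f h1 hf
  have hf' : (1 : ℝ) ≤ f := by exact_mod_cast hf
  have hL := Real.log_nonneg hf'
  have hx : 1 ≤ (f : ℝ) ^ (eta1 d / 2) := Real.one_le_rpow hf' (by positivity)
  refine ⟨⌈(f : ℝ) ^ (eta1 d / 2)⌉₊, Nat.ceil_pos.mpr (by linarith), ?_, ?_⟩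
  · have e1 : (⌈(f : ℝ) ^ (eta1 d / 2)⌉₊ : ℝ) ≤ 2 * (f : ℝ) ^ (eta1 d / 2) := by
      have := Nat.ceil_lt_add_one (show 0 ≤ (f : ℝ) ^ (eta1 d / 2) by linarith)
      linarith
    have e2 : (f : ℝ) ^ eta1 d = (f : ℝ) ^ (eta1 d / 2) * (f : ℝ) ^ (eta1 d / 2) := by
      rw [← Real.rpow_add (by linarith)]; congr 1; ring
    rw [e2]
    generalize (f : ℝ) ^ (eta1 d / 2) = x at *
    have hx0 : 0 < x := by linarith
    calc (⌈x⌉₊ : ℝ) * (c / (x * x)) ≤ (⌈x⌉₊ : ℝ) * (|c| / (x * x)) := by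
          gcongr
          exact le_abs_self c
      _ ≤ (2 * x) * (|c| / (x * x)) := by gcongr
      _ = 2 * |c| / x := by field_simp
      _ ≤ δ := by
          rw [div_le_iff₀ hδ] at h1
          rw [div_le_iff₀ hx0]
          linarith
  · refine le_trans ?_ (Nat.le_ceil _)
    have h3 := mul_le_mul_of_nonneg_right (apar_a_le d hκ) hL
    have h4 : (par d f κ).U ≤ Real.exp (par d f κ).U := by
      linarith [Real.add_one_le_exp (par d f κ).U]
    refine (mul_le_mul_of_nonneg_left h4 (by rw [apar_E]; positivity)).trans ?_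
    rw [apar_E, apar_U, Real.rpow_def_of_pos (by linarith), Real.rpow_def_of_pos (by linarith),
      ← Real.exp_nat_mul, ← Real.exp_nat_mul, ← Real.exp_add, ← Real.exp_add]
    refine Real.exp_le_exp.mpr ?_
    have h5 : 0 ≤ eta1 d * Real.log f := by positivity
    push_cast
    nlinarith

theorem par_A0 (d : ℕ) {κ R : ℝ} (hκ : 0 ≤ κ) (hR : 1 ≤ R) : ∀ᶠ f : ℕ in atTop,
    Real.log (((f : ℝ) * R) ^ (d + 1)) ≤ (80 * (d + 1) / eta1 d * (3 + κ)) * (par d f κ).U := by
  have hη := eta1_pos d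
  filter_upwards [apar_log.eventually_ge_atTop (Real.log R), eventually_ge_atTop 1] with f h1 hf
  have hf' : (1 : ℝ) ≤ f := by exact_mod_cast hf
  have e : 80 * ((d : ℝ) + 1) / eta1 d * (3 + κ) * (par d f κ).U =
      ((d : ℝ) + 1) * (2 * Real.log f) := by
    rw [apar_U]
    field_simp
    ring
  rw [e, Real.log_pow, Real.log_mul (by linarith) (by linarith)]
  push_cast
  exact mul_le_mul_of_nonneg_left (by linarith) (by positivity)

end Crest.Agent.R014

end
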