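import Crest.Agent.R014.AGeo
import Crest.Agent.R014.ALoc

/-! # Row 14: short bases and packing -/

set_option autoImplicit false

noncomputable section

open MeasureTheory Filter Topology Set
open scoped ENNReal NumberField Classical
open Crest.NumberTheoryR.Packets

namespace Crest.Agent.R014

universe u

variable {d : ℕ} {K : Type u} [Field K] [NumberField K]

/-- The parametrisation of the trace zero hyperplane. -/
def asb_ι (d : ℕ) : (Fin d → ℝ) →ₗ[ℝ] (Fin (d + 1) → ℝ) where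
  toFun y := Fin.cons (-∑ i, y i) y
  map_add' y y' := by
    funext j
    refine Fin.cases ?_ (fun i => ?_) j
    · simp [Finset.sum_add_distrib, add_comm]
    · simp
  map_smul' c y := by
    funext j
    refine Fin.cases ?_ (fun i => ?_) j
    · simp [Finset.mul_sum]
    · simp

theorem asb_ι_inj : Function.Injective (asb_ι d) := fun y y' h => by
  funext i
  simpa [asb_ι] using congrFun h i.succ

theorem asb_ι_sum (y : Fin d → ℝ) : ∑ j, asb_ι d y j = 0 := by
  rw [Fin.sum_univ_succ]; simp [asb_ι]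

theorem asb_ι_tail {z : Fin (d + 1) → ℝ} (h : ∑ j, z j = 0) : asb_ι d (fun i => z i.succ) = z := by
  rw [Fin.sum_univ_succ] at h
  funext j
  refine Fin.cases ?_ (fun i => ?_) j
  · simp only [asb_ι, LinearMap.coe_mk, AddHom.coe_mk, Fin.cons_zero]; linarith
  · simp [asb_ι]

theorem asb_ι_le (y : Fin d → ℝ) (j : Fin (d + 1)) : |asb_ι d y j| ≤ (d + 1) * ‖y‖ := by
  have h : ∀ i, |y i| ≤ ‖y‖ := fun i => norm_le_pi_norm y i
  have h0 := norm_nonneg y
  have h1 : 0 ≤ d * ‖y‖ := by positivity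
  refine Fin.cases ?_ (fun i => ?_) j
  · simp only [asb_ι, LinearMap.coe_mk, AddHom.coe_mk, Fin.cons_zero, abs_neg]
    refine (Finset.abs_sum_le_sum_abs _ _).trans
      ((Finset.sum_le_card_nsmul _ _ _ fun i _ => h i).trans ?_)
    simp only [Finset.card_univ, Fintype.card_fin, nsmul_eq_mul]
    linarith
  · simp only [asb_ι, LinearMap.coe_mk, AddHom.coe_mk, Fin.cons_succ]
    linarith [h i]

theorem asb_Ico (t : ℤ) (a : ℝ) : (t : ℝ) + a ∈ Ico (0 : ℝ) 1 ↔ t = -⌊a⌋ := by
  rw [← Int.floor_eq_zero_iff, Int.floor_intCast_add, add_eq_zero_iff_eq_neg]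

theorem asb_div {Q : ℤ} (hQ : 0 < Q) (x a : ℤ) : Q * a ≤ x ∧ x < Q * a + Q ↔ x / Q = a := by
  constructor
  · rintro ⟨h1, h2⟩
    refine le_antisymm (Int.lt_add_one_iff.1 ((Int.ediv_lt_iff_lt_mul hQ).2 (by linarith)))
      ((Int.le_ediv_iff_mul_le hQ).2 (by linarith))
  · rintro rfl
    have h1 := Int.mul_ediv_add_emod x Q
    have h2 := Int.emod_nonneg x hQ.ne'
    have h3 := Int.emod_lt_of_pos x hQ
    constructor <;> linarith

/-- Let `π` be the orthogonal projection of `EuclideanSpace ℝ (Fin (d+1))` along `(1, …, 1)`.  The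
group `π (img (dual P))` is finitely generated of rank `d` (kernel `dual P ∩ ℚ` of rank one) and its
nonzero vectors have norm `≥ l/2`.  Apply `reduced_basis` and `exists_dual_family`; the dual family
lies in the trace zero hyperplane and pairs integrally with `img (dual P)`, so it lies in
`img (dual (dual P)) = img P` (`Dat.dualL_img`), and it spans the trace zero part of `P`. -/
theorem exists_isSB (d : ℕ) : ∃ C : ℝ, 0 < C ∧ ∀ (K : Type u) [Field K] [NumberField K]
    (E : Dat d K) (P : Submodule ℤ K) (l : ℝ), 0 < l → IsLat P → (1 : K) ∈ dual P → Prim P →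
    GoodB E l P → ∃ ν0 b, IsSB E P (C / l) ν0 b := by
  obtain ⟨C, hC, hsb⟩ := exists_short_basis d
  refine ⟨2 * (d + 1) * C, by positivity, fun K _ _ E P l hl hP h1 ⟨ν0, hν0, htr⟩ hG => ?_⟩
  haveI := E.discrete_img hP
  have hint : ∀ x ∈ P, ∃ k : ℤ, tr x = k := fun x hx => by
    simpa using mem_dual.1 h1 x hx
  have hs0 : ∑ j, E.σ j ν0 = 1 := by rw [E.sum_σ, htr, Rat.cast_one]
  set Λ := ZLattice.comap ℝ (E.img P) (asb_ι d) with hΛ
  have hmem : ∀ y, y ∈ Λ ↔ ∃ x ∈ P, E.e x = asb_ι d y := fun y => Iff.rfl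
  haveI : DiscreteTopology Λ :=
    ZLattice.comap_discreteTopology ℝ _ (LinearMap.continuous_of_finiteDimensional _) asb_ι_inj
  let ρ : (Fin (d + 1) → ℝ) →ₗ[ℝ] (Fin d → ℝ) :=
    { toFun := fun z i => z i.succ - (∑ j, z j) * E.σ i.succ ν0
      map_add' := fun z z' => by funext i; simp only [Pi.add_apply, Finset.sum_add_distrib]; ring
      map_smul' := fun c z => by
        funext i; simp only [Pi.smul_apply, smul_eq_mul, ← Finset.mul_sum, RingHom.id_apply]; ring }
  have hρ : ∀ z i, ρ z i = z i.succ - (∑ j, z j) * E.σ i.succ ν0 := fun _ _ => rfl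
  have hρ1 : ∀ x (k : ℤ), tr x = k → E.e (x - k • ν0) = asb_ι d (ρ (E.e x)) := fun x k hk => by
    have h2 : ∑ j, E.e x j = k := by
      simp only [Dat.e_apply]; rw [E.sum_σ, hk, Rat.cast_intCast]
    rw [← asb_ι_tail (z := E.e (x - k • ν0))]
    · congr 1
      funext i
      rw [hρ, h2]
      simp
    · simp only [Dat.e_apply, map_sub, map_zsmul, Finset.sum_sub_distrib, zsmul_eq_mul,
        ← Finset.mul_sum, hs0, map_mul, map_intCast] at h2 ⊢
      rw [h2]; ring
  have hρ2 : ∀ x ∈ P, ρ (E.e x) ∈ Λ := fun x hx => by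
    obtain ⟨k, hk⟩ := hint x hx
    exact (hmem _).2 ⟨_, P.sub_mem hx (P.smul_mem k hν0), hρ1 x k hk⟩
  haveI : IsZLattice ℝ Λ := ⟨by
    refine top_le_iff.1 fun y _ => ?_
    have h2 : ρ (asb_ι d y) = y := by
      funext i; rw [hρ, asb_ι_sum]; simp [asb_ι]
    have h3 : asb_ι d y ∈ Submodule.span ℝ (E.img P : Set (Fin (d + 1) → ℝ)) := by
      rw [E.span_img hP]; trivial
    have h4 := Submodule.mem_map_of_mem (f := ρ) h3
    rw [h2, Submodule.map_span] at h4
    refine Submodule.span_mono ?_ h4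
    rintro _ ⟨_, ⟨x, hx, rfl⟩, rfl⟩
    exact hρ2 x hx⟩
  let bz : Module.Basis (Fin d) ℤ Λ :=
    Module.finBasisOfFinrankEq ℤ Λ (by rw [ZLattice.rank ℝ Λ, Module.finrank_fin_fun])
  obtain ⟨b', hb', hb'n⟩ := hsb (bz.ofZLatticeBasis ℝ) (l / 2) (by positivity) (by
    rw [bz.ofZLatticeBasis_span ℝ]
    intro w hw hw0
    set s : ℝ := ∑ i, E.σ i.succ ν0 * w i with hs
    have h2 : (fun j => (Fin.cons 0 w : Fin (d + 1) → ℝ) j - s) ∈ dualL (E.img P) := by
      rintro _ ⟨x, hx, rfl⟩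
      obtain ⟨k, hk⟩ := hw _ (hρ2 x hx)
      refine ⟨k, ?_⟩
      rw [← hk]
      simp only [dotProduct, hρ, mul_sub, sub_mul, Finset.sum_sub_distrib, ← Finset.sum_mul, hs,
        mul_assoc, ← Finset.mul_sum]
      rw [Fin.sum_univ_succ]
      simp
    rw [E.dualL_img hP] at h2
    obtain ⟨β, hβ, hβe⟩ := h2
    have h3 : ∀ j, E.σ j β = (Fin.cons 0 w : Fin (d + 1) → ℝ) j - s := fun j => congrFun hβe j
    have h4 : ∀ j, |(Fin.cons 0 w : Fin (d + 1) → ℝ) j| ≤ ‖w‖ := fun j => by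
      refine Fin.cases ?_ (fun i => ?_) j
      · simp
      · simpa using norm_le_pi_norm w i
    obtain ⟨i, j, hij⟩ := hG β hβ (by
      rintro q rfl
      apply hw0
      funext i
      have h5 := h3 0
      have h6 := h3 i.succ
      simp only [map_ratCast, Fin.cons_zero, Fin.cons_succ] at h5 h6
      simp only [Pi.zero_apply]
      linarith)
    rw [h3, h3, sub_sub_sub_cancel_right] at hij
    linarith [abs_sub (Fin.cons (α := fun _ => ℝ) 0 w i) (Fin.cons (α := fun _ => ℝ) 0 w j),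
      h4 i, h4 j])
  rw [bz.ofZLatticeBasis_span ℝ] at hb'
  have h2 : ∀ i, ∃ x ∈ P, E.e x = asb_ι d (b' i) := fun i =>
    (hmem _).1 (hb' ▸ Submodule.subset_span ⟨i, rfl⟩)
  choose b hbP hbe using h2
  have h3 : ∀ m : Fin d → ℤ, E.e (∑ i, m i • b i) = asb_ι d (∑ i, m i • b' i) := fun m => by
    simp only [map_sum, map_zsmul, hbe]
  refine ⟨ν0, b, htr, fun i => ?_, fun t m => ?_, fun x hx => ?_, fun t m m' h => ?_,
    fun i j => ?_⟩
  · have h4 := asb_ι_sum (b' i)
    rw [← hbe] at h4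
    simp only [Dat.e_apply] at h4
    rw [E.sum_σ] at h4
    exact_mod_cast h4
  · exact P.add_mem (P.smul_mem _ hν0) (P.sum_mem fun i _ => P.smul_mem _ (hbP i))
  · obtain ⟨k, hk⟩ := hint x hx
    have h4 := hρ2 x hx
    rw [← hb'] at h4
    obtain ⟨m, hm⟩ := (Submodule.mem_span_range_iff_exists_fun ℤ).1 h4
    refine ⟨k, m, ?_⟩
    have h5 : ∑ i, m i • b i = x - k • ν0 := E.e_injective (by rw [h3, hm, hρ1 x k hk])
    rw [pt, h5]; ring
  · have h4 : ∑ i, m i • b' i = ∑ i, m' i • b' i :=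
      asb_ι_inj (by rw [← h3, ← h3, add_left_cancel h])
    funext i
    simp only [← Int.cast_smul_eq_zsmul ℝ] at h4
    have h5 := congrArg (fun z => b'.repr z i) h4
    simpa only [b'.repr_sum_self, Int.cast_inj] using h5
  · have h4 : E.σ j (b i) = asb_ι d (b' i) j := congrFun (hbe i) j
    rw [h4]
    refine (asb_ι_le _ j).trans ((mul_le_mul_of_nonneg_left (hb'n i) (by positivity)).trans
      (le_of_eq ?_))
    field_simp

theorem IsSB.tr_pt {E : Dat d K} {P : Submodule ℤ K} {r : ℝ} {ν0 : K} {b : Fin d → K}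
    (h : IsSB E P r ν0 b) (t : ℤ) (m : Fin d → ℤ) : tr (pt ν0 b t m) = t := by
  have h0 := h.tr0
  have h1 := h.trb
  unfold tr at h0 h1 ⊢
  simp only [pt, map_add, map_sum, map_zsmul, h0, h1, smul_zero, Finset.sum_const_zero, add_zero]
  simp

/-- The sheared parallelepiped `{s (1,…,1)/n + ∑ y i σ(b i) | s, y i ∈ [0,1)}` is a fundamental domain
for `img P`: the trace coordinate determines `t`, then the `σ(b i)` form a basis of the trace zero
hyperplane. -/
theorem IsSB.exists_fund {E : Dat d K} {P : Submodule ℤ K} {r : ℝ} {ν0 : K} {b : Fin d → K}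
    (hP : IsLat P) (h : IsSB E P r ν0 b) : ∃ F : Set (Fin (d + 1) → ℝ),
      IsAddFundamentalDomain (E.img P) F volume ∧ volume F = ENNReal.ofReal (E.cv P) ∧
      ∀ z ∈ F, ∃ s : ℝ, 0 ≤ s ∧ s ≤ 1 ∧ ∀ j, |z j - s / (d + 1)| ≤ d * r := by
  haveI := E.discrete_img hP
  haveI : IsZLattice ℝ (E.img P) := ⟨E.span_img hP⟩
  let v : Fin (d + 1) → Fin (d + 1) → ℝ := Fin.cons (E.e ν0) fun i => E.e (b i)
  have hv : ∀ t m, E.e (pt ν0 b t m) = ∑ j, (Fin.cons (t : ℝ) (fun i => (m i : ℝ)) :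
      Fin (d + 1) → ℝ) j • v j := fun t m => by
    rw [Fin.sum_univ_succ]
    simp only [pt, map_add, map_sum, map_zsmul, v, Fin.cons_zero, Fin.cons_succ,
      Int.cast_smul_eq_zsmul]
  have hspan : ⊤ ≤ Submodule.span ℝ (range v) := by
    rw [← E.span_img hP, Submodule.span_le]
    rintro _ ⟨x, hx, rfl⟩
    obtain ⟨t, m, rfl⟩ := h.surj x hx
    rw [hv]
    exact Submodule.sum_mem _ fun j _ => Submodule.smul_mem _ _ (Submodule.subset_span ⟨j, rfl⟩)
  let B := basisOfTopLeSpanOfCardEqFinrank v hspan (by simp)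
  have hB : ∀ j, B j = v j := fun j => congrFun (coe_basisOfTopLeSpanOfCardEqFinrank _ _ _) j
  have hrep : ∀ t m j, B.repr (E.e (pt ν0 b t m)) j =
      (Fin.cons (t : ℝ) (fun i => (m i : ℝ)) : Fin (d + 1) → ℝ) j := fun t m j => by
    rw [hv]
    simp only [← hB]
    exact congrFun (B.repr_sum_self _) j
  have hco : ∀ z j, z j = B.repr z 0 * E.σ j ν0 + ∑ i, B.repr z (Fin.succ i) * E.σ j (b i) :=
    fun z j => by
      conv_lhs => rw [← B.sum_repr z]
      rw [Fin.sum_univ_succ]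
      simp [hB, v, Finset.sum_apply]
  let o : Fin (d + 1) → ℝ := fun _ => 1 / (d + 1)
  have ho : B.repr o 0 = 1 := by
    have h1 : ∑ j, o j = 1 := by
      simp only [o, Finset.sum_const, Finset.card_univ, Fintype.card_fin, nsmul_eq_mul]
      push_cast
      field_simp
    rw [Finset.sum_congr rfl fun j _ => hco o j, Finset.sum_add_distrib, Finset.sum_comm] at h1
    simpa only [← Finset.mul_sum, E.sum_σ, h.tr0, h.trb, Rat.cast_one, Rat.cast_zero, mul_one,
      mul_zero, Finset.sum_const_zero, add_zero] using h1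
  let F : Set (Fin (d + 1) → ℝ) := {z | B.repr z 0 ∈ Ico (0 : ℝ) 1 ∧
    ∀ i : Fin d, B.repr z i.succ - B.repr z 0 * B.repr o i.succ ∈ Ico (0 : ℝ) 1}
  have hmeas : ∀ j, Measurable fun z => B.repr z j := fun j =>
    (B.coord j).continuous_of_finiteDimensional.measurable
  have hF : MeasurableSet F := by
    simp only [F, setOf_and, setOf_forall]
    exact (hmeas 0 measurableSet_Ico).inter (MeasurableSet.iInter fun i =>
      ((hmeas _).sub ((hmeas 0).mul_const _)) measurableSet_Ico)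
  have hbd : ∀ z ∈ F, ∃ s : ℝ, 0 ≤ s ∧ s ≤ 1 ∧ ∀ j, |z j - s / (d + 1)| ≤ d * r := by
    rintro z ⟨h0, h1⟩
    refine ⟨B.repr z 0, h0.1, h0.2.le, fun j => ?_⟩
    have e : z j - B.repr z 0 / (d + 1) =
        ∑ i, (B.repr z (Fin.succ i) - B.repr z 0 * B.repr o (Fin.succ i)) * E.σ j (b i) := by
      have h2 : (1 : ℝ) / (d + 1) = _ := hco o j
      rw [div_eq_mul_one_div, h2, ho, hco z j]
      simp only [sub_mul, Finset.sum_sub_distrib, mul_assoc, ← Finset.mul_sum]
      ring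
    rw [e]
    refine (Finset.abs_sum_le_sum_abs _ _).trans
      ((Finset.sum_le_card_nsmul _ _ r fun i _ => ?_).trans (by simp))
    rw [abs_mul, abs_of_nonneg (h1 i).1]
    exact (mul_le_of_le_one_left (abs_nonneg _) (h1 i).2.le).trans (h.small i j)
  have hfd : IsAddFundamentalDomain (E.img P) F volume := by
    refine IsAddFundamentalDomain.mk' hF.nullMeasurableSet fun x => ?_
    have key : ∀ t m, E.e (pt ν0 b t m) + x ∈ F ↔ t = -⌊B.repr x 0⌋ ∧
        ∀ i, m i = -⌊B.repr x i.succ - (t + B.repr x 0) * B.repr o i.succ⌋ := fun t m => by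
      simp only [F, mem_setOf_eq, map_add, Finsupp.add_apply, hrep, Fin.cons_zero, Fin.cons_succ,
        add_sub_assoc, asb_Ico]
    refine ⟨⟨E.e (pt ν0 b (-⌊B.repr x 0⌋) fun i => -⌊B.repr x i.succ -
      (((-⌊B.repr x 0⌋ : ℤ) : ℝ) + B.repr x 0) * B.repr o i.succ⌋), _, h.mem _ _, rfl⟩,
      (key _ _).2 ⟨rfl, fun _ => rfl⟩, ?_⟩
    rintro ⟨_, y, hy, rfl⟩ hg
    obtain ⟨t, m, rfl⟩ := h.surj y hy
    obtain ⟨rfl, h2⟩ := (key t m).1 hg
    obtain rfl := funext h2
    rfl
  refine ⟨F, hfd, ?_, hbd⟩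
  have hfin : volume F ≠ ⊤ := by
    refine ((measure_mono (?_ : F ⊆ Metric.closedBall 0 (1 + |d * r|))).trans_lt
      measure_closedBall_lt_top).ne
    intro z hz
    obtain ⟨s, hs0, hs1, hs⟩ := hbd z hz
    rw [mem_closedBall_zero_iff, pi_norm_le_iff_of_nonneg (by positivity)]
    intro j
    have h2 : s / (d + 1) ≤ 1 := by
      rw [div_le_one (by positivity)]; linarith [(Nat.cast_nonneg d : (0 : ℝ) ≤ d)]
    have h3 : 0 ≤ s / (d + 1) := by positivity
    have h4 := abs_le.1 (hs j)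
    rw [Real.norm_eq_abs, abs_le]
    constructor <;> linarith [le_abs_self (d * r), h4.1, h4.2]
  rw [Dat.cv, ZLattice.covolume_eq_measure_fundamentalDomain _ _ hfd, Measure.real,
    ENNReal.ofReal_toReal hfin]

/-- A slab `|∑ c j z j - θ| ≤ w` in a box, with `c i ≠ 0`.  (Fubini, or the volume preserving
shear.) -/
theorem vol_slab {n : ℕ} (c : Fin (n + 1) → ℝ) (i : Fin (n + 1)) (hc : c i ≠ 0) (θ : ℝ) {w R : ℝ}
    (hw : 0 ≤ w) (hR : 0 ≤ R) :
    volume {z : Fin (n + 1) → ℝ | (∀ j, |z j| ≤ R) ∧ |∑ j, c j * z j - θ| ≤ w} ≤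
      ENNReal.ofReal ((2 * R) ^ n * (2 * w / |c i|)) := by
  let A : Set (ℝ × (Fin n → ℝ)) := {p | p.2 ∈ Metric.closedBall 0 R ∧
    |c i * p.1 + (∑ j, c (i.succAbove j) * p.2 j - θ)| ≤ w}
  have hA : MeasurableSet A := by
    refine IsClosed.measurableSet (IsClosed.and ?_ (isClosed_le (by fun_prop) continuous_const))
    exact Metric.isClosed_closedBall.preimage continuous_snd
  have h1 : {z : Fin (n + 1) → ℝ | (∀ j, |z j| ≤ R) ∧ |∑ j, c j * z j - θ| ≤ w} ⊆
      MeasurableEquiv.piFinSuccAbove (fun _ => ℝ) i ⁻¹' A := by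
    rintro z ⟨h0, h2⟩
    refine ⟨?_, ?_⟩
    · rw [mem_closedBall_zero_iff, pi_norm_le_iff_of_nonneg hR]
      exact fun j => h0 _
    · rw [Fin.sum_univ_succAbove _ i, add_sub_assoc] at h2
      exact h2
  refine (measure_mono h1).trans ?_
  rw [(volume_preserving_piFinSuccAbove (fun _ => ℝ) i).measure_preimage hA.nullMeasurableSet,
    Measure.volume_eq_prod, Measure.prod_apply_symm hA]
  have hc0 : 0 < |c i| := abs_pos.2 hc
  calc ∫⁻ y, volume ((fun x => (x, y)) ⁻¹' A)
      ≤ ∫⁻ y, (Metric.closedBall (0 : Fin n → ℝ) R).indicator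
          (fun _ => ENNReal.ofReal (2 * w / |c i|)) y := by
        refine lintegral_mono fun y => ?_
        by_cases hy : y ∈ Metric.closedBall (0 : Fin n → ℝ) R
        · rw [indicator_of_mem hy, mul_div_assoc,
            ← Real.volume_closedBall (-(∑ j, c (i.succAbove j) * y j - θ) / c i)]
          refine measure_mono fun x hx => ?_
          have h2 : |c i * x + (∑ j, c (i.succAbove j) * y j - θ)| ≤ w := hx.2
          rw [Metric.mem_closedBall, Real.dist_eq, le_div_iff₀ hc0, ← abs_mul]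
          rw [sub_mul, div_mul_cancel₀ _ hc, sub_neg_eq_add, mul_comm]
          exact h2
        · have : (fun x => (x, y)) ⁻¹' A = ∅ := eq_empty_of_forall_notMem fun x hx => hy hx.1
          simp [this]
    _ = _ := by
        rw [lintegral_indicator_const measurableSet_closedBall, Real.volume_pi_closedBall _ hR,
          Fintype.card_fin, ← ENNReal.ofReal_mul (by positivity), mul_comm]

/-- The fundamental domain lies in the slab `|z 0 - z j| ≤ 2 d r`, `|z 0| ≤ 1 + d r`. -/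
theorem IsSB.cv_le (d : ℕ) : ∃ C : ℝ, 0 < C ∧ ∀ (K : Type u) [Field K] [NumberField K]
    (E : Dat d K) (P : Submodule ℤ K) (r : ℝ) (ν0 : K) (b : Fin d → K), IsLat P → 0 ≤ r → r ≤ 1 →
    IsSB E P r ν0 b → E.cv P ≤ C * r ^ d := by
  refine ⟨2 * (1 + d) * (4 * (d + 1)) ^ d, by positivity,
    fun K _ _ E P r ν0 b hP hr0 hr1 h => ?_⟩
  obtain ⟨F, -, hF, hb⟩ := h.exists_fund hP
  have hd : (0 : ℝ) ≤ d := Nat.cast_nonneg d
  let A : Set (ℝ × (Fin d → ℝ)) := {p | p.1 ∈ Metric.closedBall 0 (1 + d) ∧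
    dist p.2 (fun _ => p.1) ≤ 2 * (d + 1) * r}
  have hA : MeasurableSet A := by
    refine IsClosed.measurableSet (IsClosed.and ?_ (isClosed_le (by fun_prop) continuous_const))
    exact Metric.isClosed_closedBall.preimage continuous_fst
  have h1 : F ⊆ MeasurableEquiv.piFinSuccAbove (fun _ => ℝ) 0 ⁻¹' A := by
    intro z hz
    obtain ⟨s, hs0, hs1, hs⟩ := hb z hz
    have h4 := abs_le.1 (hs 0)
    refine ⟨?_, ?_⟩
    · have h2 : s / (d + 1) ≤ 1 := by rw [div_le_one (by positivity)]; linarith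
      have h3 : 0 ≤ s / (d + 1) := by positivity
      have h5 : d * r ≤ d := mul_le_of_le_one_right hd hr1
      change z 0 ∈ Metric.closedBall (0 : ℝ) (1 + d)
      rw [mem_closedBall_zero_iff, Real.norm_eq_abs, abs_le]
      constructor <;> linarith [h4.1, h4.2]
    · change dist (fun j => z (Fin.succAbove 0 j)) (fun _ => z 0) ≤ 2 * (d + 1) * r
      rw [dist_pi_le_iff (by positivity)]
      intro j
      have h5 := abs_le.1 (hs (Fin.succAbove 0 j))
      rw [Real.dist_eq, abs_le]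
      constructor <;> linarith [h4.1, h4.2, h5.1, h5.2]
  have h2 := measure_mono (μ := volume) h1
  rw [hF, (volume_preserving_piFinSuccAbove (fun _ => ℝ) 0).measure_preimage hA.nullMeasurableSet,
    Measure.volume_eq_prod, Measure.prod_apply hA] at h2
  have h3 : ∫⁻ x, volume (Prod.mk x ⁻¹' A) ≤ ∫⁻ x, (Metric.closedBall (0 : ℝ) (1 + d)).indicator
      (fun _ => ENNReal.ofReal ((2 * (2 * (d + 1) * r)) ^ d)) x := by
    refine lintegral_mono fun x => ?_
    by_cases hx : x ∈ Metric.closedBall (0 : ℝ) (1 + d)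
    · have h4 := Real.volume_pi_closedBall (fun _ : Fin d => x)
        (show 0 ≤ 2 * (d + 1) * r by positivity)
      rw [Fintype.card_fin] at h4
      rw [indicator_of_mem hx, ← h4]
      exact measure_mono fun y hy => hy.2
    · have : Prod.mk x ⁻¹' A = ∅ := eq_empty_of_forall_notMem fun y hy => hx hy.1
      simp [this]
  rw [lintegral_indicator_const measurableSet_closedBall, Real.volume_closedBall,
    ← ENNReal.ofReal_mul (by positivity)] at h3
  refine ((ENNReal.ofReal_le_ofReal_iff (by positivity)).1 (h2.trans h3)).trans (le_of_eq ?_)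
  rw [show 2 * (2 * ((d : ℝ) + 1) * r) = 4 * (d + 1) * r by ring, mul_pow]
  ring

/-- For fixed trace `t` apply `card_mul_le` with the functional
`ψ z = ∑_{j ∈ S} z j - (#S / n) ∑_j z j`, which kills `(1, …, 1)` and has coefficient
`1 - #S/n ≥ 1/n` at an index of `S`; `vol_slab`. -/
theorem pack (d : ℕ) {R : ℝ} (hR : 0 ≤ R) : ∃ C : ℝ, 0 < C ∧ ∀ (K : Type u) [Field K] [NumberField K]
    (E : Dat d K) (P : Submodule ℤ K) (r : ℝ) (ν0 : K) (b : Fin d → K) (S : Finset (Fin (d + 1)))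
    (θ w : ℝ) (t : ℤ) (T : Finset (Fin d → ℤ)), IsLat P → 0 ≤ r → r ≤ 1 → 0 ≤ w → IsSB E P r ν0 b →
    S.Nonempty → S ≠ Finset.univ → (∀ m ∈ T, Reg E R S θ w (pt ν0 b t m)) →
    (T.card : ℝ) ≤ C * (E.cv P)⁻¹ * (w + r) := by
  have hd : (0 : ℝ) ≤ d := Nat.cast_nonneg d
  refine ⟨(2 * (R + 1 + d)) ^ d * (2 * (d + 1) * ((d + 1) * d + 1)), by positivity,
    fun K _ _ E P r ν0 b S θ w t T hP hr0 hr1 hw h ⟨i, hi⟩ hS hT => ?_⟩
  obtain ⟨F, hfd, hF, hb⟩ := h.exists_fund hP
  haveI := E.discrete_img hP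
  haveI : Countable (E.img P) := countable_of_Lindelof_of_discrete
  have hcv := E.cv_pos hP
  set a : ℝ := S.card / (d + 1) with ha
  have hSd : (S.card : ℝ) ≤ d := by
    have := Finset.card_lt_card (Finset.ssubset_univ_iff.2 hS)
    rw [Finset.card_univ, Fintype.card_fin] at this
    exact_mod_cast Nat.lt_succ_iff.1 this
  have ha0 : 0 ≤ a := by positivity
  have ha1 : 1 / (d + 1) ≤ 1 - a := by
    rw [ha, le_sub_iff_add_le, ← add_div, div_le_one (by positivity)]; linarith
  have ha2 : (0 : ℝ) < 1 / (d + 1) := by positivity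
  set c : Fin (d + 1) → ℝ := fun j => (if j ∈ S then 1 else 0) - a with hc
  have hc1 : ∀ z : Fin (d + 1) → ℝ, ∑ j, c j * z j = ∑ j ∈ S, z j - a * ∑ j, z j := fun z => by
    simp only [hc, sub_mul, Finset.sum_sub_distrib, ite_mul, one_mul, zero_mul,
      Finset.sum_ite_mem, Finset.univ_inter, Finset.mul_sum]
  have hc2 : ∀ j, |c j| ≤ 1 := fun j => by
    simp only [hc]
    rw [abs_le]
    split_ifs <;> constructor <;> linarith
  have hci : c i = 1 - a := by simp only [hc, if_pos hi]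
  have hinj : Set.InjOn (fun m => E.e (pt ν0 b t m)) T := fun m _ m' _ e =>
    h.inj t m m' (E.e_injective e)
  have h1 := card_mul_le (E.img P) hfd (Ω := {z | (∀ j, |z j| ≤ R + 1 + d) ∧
      |∑ j, c j * z j - (θ - a * t)| ≤ w + (d + 1) * (d * r)})
    (T.image fun m => E.e (pt ν0 b t m)) (by
      intro v hv
      obtain ⟨m, -, rfl⟩ := Finset.mem_image.1 hv
      exact ⟨_, h.mem t m, rfl⟩) (by
      intro v hv y hy
      obtain ⟨m, hm, rfl⟩ := Finset.mem_image.1 hv
      obtain ⟨s, hs0, hs1, hs⟩ := hb y hy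
      obtain ⟨h2, h3⟩ := hT m hm
      refine ⟨fun j => ?_, ?_⟩
      · have h4 : s / (d + 1) ≤ 1 := by rw [div_le_one (by positivity)]; linarith
        have h5 : 0 ≤ s / (d + 1) := by positivity
        have h6 : d * r ≤ d := mul_le_of_le_one_right hd hr1
        have h7 := abs_le.1 (hs j)
        have h8 := abs_le.1 (h2 j)
        rw [Pi.add_apply, Dat.e_apply, abs_le]
        constructor <;> linarith [h7.1, h7.2, h8.1, h8.2]
      · have h4 : ∑ j, c j * (s / (d + 1)) = 0 := by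
          rw [hc1 fun _ => s / (d + 1)]
          simp only [Finset.sum_const, Finset.card_univ, Fintype.card_fin, nsmul_eq_mul, ha]
          push_cast
          field_simp
          ring
        have h5 : |∑ j, c j * (y j - s / (d + 1))| ≤ (d + 1) * (d * r) := by
          refine (Finset.abs_sum_le_sum_abs _ _).trans
            ((Finset.sum_le_card_nsmul _ _ (d * r) fun j _ => ?_).trans (by simp))
          rw [abs_mul]
          exact (mul_le_of_le_one_left (abs_nonneg _) (hc2 j)).trans (hs j)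
        have h6 : ∑ j, c j * E.σ j (pt ν0 b t m) = ∑ j ∈ S, E.σ j (pt ν0 b t m) - a * t := by
          rw [hc1, E.sum_σ, h.tr_pt, Rat.cast_intCast]
        have e : ∑ j, c j * (E.e (pt ν0 b t m) + y) j - (θ - a * t) =
            (∑ j ∈ S, E.σ j (pt ν0 b t m) - θ) + ∑ j, c j * (y j - s / (d + 1)) := by
          simp only [Pi.add_apply, Dat.e_apply, mul_add, mul_sub, Finset.sum_add_distrib,
            Finset.sum_sub_distrib, h4, h6]
          ring
        rw [e]
        exact (abs_add_le _ _).trans (add_le_add h3 h5))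
  have h2 := h1.trans (vol_slab c i (by rw [hci]; linarith) (θ - a * t) (by positivity)
    (by positivity))
  rw [Finset.card_image_of_injOn hinj, hF, ← ENNReal.ofReal_natCast,
    ← ENNReal.ofReal_mul (Nat.cast_nonneg _), ENNReal.ofReal_le_ofReal_iff (by positivity)] at h2
  have h3 : 2 * (w + (d + 1) * (d * r)) / |c i| ≤ 2 * (d + 1) * ((d + 1) * d + 1) * (w + r) := by
    rw [hci, abs_of_nonneg (by linarith)]
    refine (div_le_div_of_nonneg_left (by positivity) ha2 ha1).trans ?_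
    rw [div_div_eq_mul_div, div_one]
    have h4 : w + (d + 1) * (d * r) ≤ ((d + 1) * d + 1) * (w + r) := by
      have : 0 ≤ (d + 1) * d * w := by positivity
      nlinarith
    have h5 := mul_le_mul_of_nonneg_left h4 (show (0 : ℝ) ≤ 2 * (d + 1) by positivity)
    linarith
  rw [mul_right_comm, ← div_eq_mul_inv, le_div_iff₀ hcv, mul_assoc]
  exact h2.trans (mul_le_mul_of_nonneg_left h3 (by positivity))

/-- The cubes `Q c + [0,Q)^d` meeting the region are disjoint and contained in the region with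
`R + d`, `w + (d+1) d Q r`. -/
theorem pack_cubes (d : ℕ) {R : ℝ} (hR : 0 ≤ R) : ∃ C : ℝ, 0 < C ∧ ∀ (K : Type u) [Field K]
    [NumberField K] (E : Dat d K) (P : Submodule ℤ K) (r : ℝ) (ν0 : K) (b : Fin d → K)
    (S : Finset (Fin (d + 1))) (θ w : ℝ) (t : ℤ) (Q : ℕ) (T : Finset (Fin d → ℤ)), IsLat P → 0 ≤ r →
    0 < Q → Q * r ≤ 1 → 0 ≤ w → IsSB E P r ν0 b → S.Nonempty → S ≠ Finset.univ →
    (∀ m ∈ T, Reg E R S θ w (pt ν0 b t m)) → ∃ 𝒞 : Finset (Fin d → ℤ),
      (∀ m ∈ T, ∃ m0 ∈ 𝒞, m ∈ cube m0 Q) ∧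
      (𝒞.card : ℝ) * (Q : ℝ) ^ d ≤ C * (E.cv P)⁻¹ * (w + Q * r) := by
  have hd : (0 : ℝ) ≤ d := Nat.cast_nonneg d
  obtain ⟨C, hC, hp⟩ := pack.{u} d (R := R + d) (by positivity)
  refine ⟨C * ((d + 1) * d + 1), by positivity,
    fun K _ _ E P r ν0 b S θ w t Q T hP hr0 hQ hQr hw h hS hS' hT => ?_⟩
  have hQ' : (0 : ℤ) < Q := by exact_mod_cast hQ
  have hQ1 : (1 : ℝ) ≤ Q := by exact_mod_cast hQ
  have hrQ : r ≤ Q * r := le_mul_of_one_le_left hr0 hQ1
  have hcube : ∀ m m' : Fin d → ℤ,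
      m' ∈ cube (fun i => Q * (m i / Q)) Q ↔ ∀ i, m' i / Q = m i / Q := fun m m' => by
    simp only [cube, Fintype.mem_piFinset, Finset.mem_Ico]
    exact forall_congr' fun i => asb_div hQ' _ _
  set 𝒞 := T.image fun m i => (Q : ℤ) * (m i / Q) with h𝒞
  refine ⟨𝒞, fun m hm => ⟨_, Finset.mem_image_of_mem _ hm, (hcube m m).2 fun _ => rfl⟩, ?_⟩
  have hcard : ((𝒞.biUnion fun m0 => cube m0 Q).card : ℝ) = 𝒞.card * (Q : ℝ) ^ d := by
    rw [Finset.card_biUnion]
    · simp [cube]
    · intro m0 h0 m1 h1 hne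
      obtain ⟨m, -, rfl⟩ := Finset.mem_image.1 h0
      obtain ⟨m', -, rfl⟩ := Finset.mem_image.1 h1
      refine Finset.disjoint_left.2 fun z hz hz' => hne ?_
      funext i
      rw [← (hcube m z).1 hz i, (hcube m' z).1 hz' i]
  have h1 := hp K E P r ν0 b S θ (w + (d + 1) * (d * (Q * r))) t (𝒞.biUnion fun m0 => cube m0 Q)
    hP hr0 (by linarith) (by positivity) h hS hS' (by
      intro z hz
      obtain ⟨m0, h0, hz⟩ := Finset.mem_biUnion.1 hz
      obtain ⟨m, hm, rfl⟩ := Finset.mem_image.1 h0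
      obtain ⟨h2, h3⟩ := hT m hm
      have h4 : ∀ i, |(z i : ℝ) - m i| ≤ Q := fun i => by
        have h5 := (asb_div hQ' _ _).2 ((hcube m z).1 hz i)
        have h6 := (asb_div hQ' (m i) _).2 rfl
        have h7 : |z i - m i| ≤ Q := abs_le.2 ⟨by linarith [h5.1, h6.2], by linarith [h5.2, h6.1]⟩
        exact_mod_cast h7
      have h5 : ∀ j, |E.σ j (pt ν0 b t z) - E.σ j (pt ν0 b t m)| ≤ d * (Q * r) := fun j => by
        have e : E.σ j (pt ν0 b t z) - E.σ j (pt ν0 b t m) =
            ∑ i, ((z i : ℝ) - m i) * E.σ j (b i) := by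
          simp only [pt, map_add, map_sum, zsmul_eq_mul, map_mul, map_intCast, sub_mul,
            Finset.sum_sub_distrib]
          ring
        rw [e]
        refine (Finset.abs_sum_le_sum_abs _ _).trans
          ((Finset.sum_le_card_nsmul _ _ (Q * r) fun i _ => ?_).trans (by simp))
        rw [abs_mul]
        exact mul_le_mul (h4 i) (h.small i j) (abs_nonneg _) (by positivity)
      refine ⟨fun j => ?_, ?_⟩
      · have h6 := abs_le.1 (h5 j)
        have h7 := abs_le.1 (h2 j)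
        have h8 : d * (Q * r) ≤ d := mul_le_of_le_one_right hd hQr
        rw [abs_le]
        constructor <;> linarith [h6.1, h6.2, h7.1, h7.2]
      · have e : ∑ j ∈ S, E.σ j (pt ν0 b t z) - θ = (∑ j ∈ S, E.σ j (pt ν0 b t m) - θ) +
            ∑ j ∈ S, (E.σ j (pt ν0 b t z) - E.σ j (pt ν0 b t m)) := by
          rw [Finset.sum_sub_distrib]; ring
        rw [e]
        refine (abs_add_le _ _).trans (add_le_add h3 ((Finset.abs_sum_le_sum_abs _ _).trans
          ((Finset.sum_le_card_nsmul _ _ _ fun j _ => h5 j).trans ?_)))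
        rw [nsmul_eq_mul]
        refine mul_le_mul_of_nonneg_right ?_ (by positivity)
        have := Finset.card_le_univ S
        rw [Fintype.card_fin] at this
        exact_mod_cast this)
  rw [hcard] at h1
  refine h1.trans ?_
  have h2 : w + (d + 1) * (d * (Q * r)) + r ≤ ((d + 1) * d + 1) * (w + Q * r) := by
    have : 0 ≤ (d + 1) * d * w := by positivity
    nlinarith
  have h3 := mul_le_mul_of_nonneg_left h2
    (show 0 ≤ C * (E.cv P)⁻¹ from mul_nonneg hC.le (inv_nonneg.2 (E.cv_pos hP).le))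
  linarith

end Crest.Agent.R014

end
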