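import Crest.Agent.R014.APkt2

/-! # Row 14: unfolding, upper bounds -/

set_option autoImplicit false

noncomputable section

open MeasureTheory Filter Topology Set
open scoped ENNReal NumberField Classical
open Crest.NumberTheoryR.Packets

namespace Crest.Agent.R014

universe u

variable {d : ℕ} {K : Type u} [Field K] [NumberField K]

theorem aunf_ne {c : ℝ} {t : Fin (d + 1) → ℝ} (ht : c * |∏ j, t j| = 1) (j : Fin (d + 1)) :
    t j ≠ 0 := by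
  intro h
  rw [Finset.prod_eq_zero (Finset.mem_univ j) h] at ht
  simp at ht

theorem aunf_back {Λ Λ' : Submodule ℤ (Fin (d + 1) → ℝ)} {u w : Fin d → ℝ}
    (h : mulL Λ (fl u) = mulL Λ' (fl w)) : Λ = mulL Λ' (fl (w - u)) := by
  have h1 := congrArg (fun X => mulL X (fl (-u))) h
  simp only [mulL_mul, ← fl_add, add_neg_cancel, fl_zero, mulL_one] at h1
  rw [sub_eq_add_neg]
  exact h1

/-- One lattice `L` and one sign vector.  If `mulL (img L) t0 = mulL (Λ i) (fl u0)` (`complete`), then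
no other orbit contributes (`distinct`) and the set of `u ∈ D i` is contained in
`⋃_{π ∈ per} D i ∩ (π + u0 + S)`; `IsAddFundamentalDomain.measure_eq_tsum`. -/
theorem Pkt.mass_one {E : Dat d K} {M : Submodule ℤ K} (P : Pkt E M) {L : Submodule ℤ K}
    (hL : L ∈ gen M) {t0 : Fin (d + 1) → ℝ} (ht : E.cv L * |∏ j, t0 j| = 1) (S : Set (Fin d → ℝ)) :
    P.mass {Λ | ∃ s ∈ S, Λ = mulL (E.img L) (t0 * fl s)} ≤ volume S := by
  obtain ⟨i, u0, h⟩ := P.complete L hL t0 ht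
  have key : ∀ j u s, mulL (P.Λ j) (fl u) = mulL (E.img L) (t0 * fl s) →
      P.Λ j = mulL (P.Λ i) (fl (u0 + s - u)) := by
    intro j u s h1
    rw [← mulL_mul, h, mulL_mul, ← fl_add] at h1
    exact aunf_back h1
  have hc : Countable (per (P.Λ i)) := by
    obtain ⟨L', hL', t, ht', e⟩ := P.shape i
    rw [e]
    exact E.countable_per hL'.1 (aunf_ne ht')
  unfold Pkt.mass
  rw [Finset.sum_eq_single_of_mem i (Finset.mem_univ i)]
  · have h1 := (P.fund i).measure_eq_tsum ((fun w => -u0 + w) ⁻¹' S)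
    rw [measure_preimage_add] at h1
    rw [h1]
    refine le_trans (measure_mono ?_) (measure_iUnion_le _)
    rintro u ⟨hu, s, hs, e⟩
    have h2 : u0 + s - u ∈ per (P.Λ i) := (key i u s e).symm
    refine mem_iUnion.2 ⟨⟨_, neg_mem h2⟩, ⟨u0 + s, by simpa using hs, ?_⟩, hu⟩
    change -(u0 + s - u) + (u0 + s) = u
    abel
  · intro j _ hj
    rw [← measure_empty (μ := (volume : Measure (Fin d → ℝ)))]
    congr 1
    refine eq_empty_of_forall_notMem ?_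
    rintro u ⟨-, s, -, e⟩
    exact hj (P.distinct i j _ (key j u s e)).symm

theorem aunf_iUnion {E : Dat d K} {M : Submodule ℤ K} (P : Pkt E M) {ι : Type*} [Countable ι]
    (𝒜 : ι → Set (Submodule ℤ (Fin (d + 1) → ℝ))) :
    P.mass (⋃ a, 𝒜 a) ≤ ∑' a, P.mass (𝒜 a) := by
  unfold Pkt.mass
  rw [Summable.tsum_finsetSum fun _ _ => ENNReal.summable]
  refine Finset.sum_le_sum fun i _ => le_trans (measure_mono ?_) (measure_iUnion_le _)
  rintro u ⟨hu, h⟩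
  obtain ⟨a, ha⟩ := mem_iUnion.1 h
  exact mem_iUnion.2 ⟨a, hu, ha⟩

theorem aunf_countable : {L : Submodule ℤ K | L.FG}.Countable := by
  have : Countable K := (Module.finBasis ℚ K).equivFun.injective.countable
  refine (countable_range fun s : Finset K => Submodule.span ℤ (s : Set K)).mono ?_
  rintro L ⟨s, hs⟩
  exact ⟨s, hs⟩

/-- The base point attached to a covolume and a sign vector. -/
def aunf_t (d : ℕ) (c : ℝ) (ε : Fin (d + 1) → Bool) : Fin (d + 1) → ℝ :=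
  fun j => (if ε j then 1 else -1) * c⁻¹ ^ (((d + 1 : ℕ) : ℝ)⁻¹)

theorem aunf_pow {c : ℝ} (hc : 0 < c) :
    (c⁻¹ ^ (((d + 1 : ℕ) : ℝ)⁻¹)) ^ (d + 1) = c⁻¹ :=
  Real.rpow_inv_natCast_pow (inv_nonneg.2 hc.le) (Nat.succ_ne_zero d)

theorem aunf_t_prod {c : ℝ} (hc : 0 < c) (ε : Fin (d + 1) → Bool) :
    c * |∏ j, aunf_t d c ε j| = 1 := by
  have h : ∀ j, |aunf_t d c ε j| = c⁻¹ ^ (((d + 1 : ℕ) : ℝ)⁻¹) := by
    intro j
    unfold aunf_t
    rw [abs_mul, abs_of_nonneg (Real.rpow_nonneg (inv_nonneg.2 hc.le) _)]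
    split_ifs <;> simp
  rw [Finset.abs_prod, Finset.prod_congr rfl fun j _ => h j, Finset.prod_const, Finset.card_univ,
    Fintype.card_fin, aunf_pow hc, mul_inv_cancel₀ hc.ne']

theorem aunf_t_exists {c : ℝ} (hc : 0 < c) {v : Fin (d + 1) → ℝ} (hv : c * |∏ j, v j| = 1) :
    ∃ (ε : Fin (d + 1) → Bool) (s : Fin d → ℝ), v = aunf_t d c ε * fl s := by
  have ha : 0 < c⁻¹ ^ (((d + 1 : ℕ) : ℝ)⁻¹) := Real.rpow_pos_of_pos (inv_pos.2 hc) _
  obtain ⟨s, hs⟩ := exists_fl (t := fun j => |v j| / c⁻¹ ^ (((d + 1 : ℕ) : ℝ)⁻¹))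
    (fun j => div_pos (abs_pos.2 (aunf_ne hv j)) ha) (by
      rw [Finset.prod_div_distrib, ← Finset.abs_prod, Finset.prod_const, Finset.card_univ,
        Fintype.card_fin, aunf_pow hc, div_inv_eq_mul, mul_comm, hv])
  refine ⟨fun j => decide (0 ≤ v j), s, funext fun j => ?_⟩
  rw [hs, Pi.mul_apply]
  unfold aunf_t
  rw [mul_assoc, mul_div_cancel₀ _ ha.ne']
  by_cases h : 0 ≤ v j
  · simp [h, abs_of_nonneg h]
  · simp [h, abs_of_neg (not_le.1 h)]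

/-- Countable union over the lattices `L` (there are countably many finitely generated submodules)
and the `2^{d+1}` sign vectors: `v = ε (cv L)^{-1/n} fl s` (`Dat.Lof_spec`, `exists_fl`). -/
theorem Pkt.mass_le {E : Dat d K} {M : Submodule ℤ K} (P : Pkt E M) (𝒲 : Set (Submodule ℤ K))
    (Ω : Set (Fin (d + 1) → ℝ)) (Φ : ℝ → ℝ) (hΦ0 : ∀ c, 0 ≤ Φ c)
    (hΦ : ∀ (c : ℝ) (t0 : Fin (d + 1) → ℝ), 0 < c → c * |∏ j, t0 j| = 1 →
      volume {s : Fin d → ℝ | t0 * fl s ∈ Ω} ≤ ENNReal.ofReal (Φ c)) {B : ℝ}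
    (hB : ∀ 𝒯 : Finset (Submodule ℤ K), (∀ L ∈ 𝒯, L ∈ gen M ∧ (1 : K) ∈ L ∧ L ∈ 𝒲) →
      ∑ L ∈ 𝒯, Φ (E.cv L) ≤ B) :
    P.mass {Λ | ∃ v ∈ Λ, v ≠ 0 ∧ v ∈ Ω ∧ E.Lof Λ v ∈ 𝒲} ≤ ENNReal.ofReal (2 ^ (d + 1) * B) := by
  set 𝒢 : Set (Submodule ℤ K) := {L | L ∈ gen M ∧ (1 : K) ∈ L ∧ L ∈ 𝒲} with h𝒢
  have hc : Countable 𝒢 := (aunf_countable.mono fun L hL => hL.1.1.1).to_subtype
  set 𝒜 : 𝒢 × (Fin (d + 1) → Bool) → Set (Submodule ℤ (Fin (d + 1) → ℝ)) := fun a =>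
    {Λ | ∃ s ∈ {s : Fin d → ℝ | aunf_t d (E.cv a.1.1) a.2 * fl s ∈ Ω},
      Λ = mulL (E.img a.1.1) (aunf_t d (E.cv a.1.1) a.2 * fl s)} with h𝒜
  have h1 : P.mass {Λ | ∃ v ∈ Λ, v ≠ 0 ∧ v ∈ Ω ∧ E.Lof Λ v ∈ 𝒲} ≤ P.mass (⋃ a, 𝒜 a) := by
    refine P.mass_mono ?_
    rintro L hL t ht ⟨v, hv, h0, hΩ, hW⟩
    obtain ⟨a1, a2, a3, a4⟩ := E.Lof_spec hL ht hv h0
    obtain ⟨ε, s, hs⟩ := aunf_t_exists (E.cv_pos a1.1) a4
    refine mem_iUnion.2 ⟨(⟨_, a1, a2, hW⟩, ε), s, ?_, ?_⟩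
    · simp only [mem_ofPred_eq]
      rw [← hs]
      exact hΩ
    · simp only
      rw [← hs]
      exact a3
  have h2 : ∀ a, P.mass (𝒜 a) ≤ ENNReal.ofReal (Φ (E.cv a.1.1)) := fun a =>
    (P.mass_one a.1.2.1 (aunf_t_prod (E.cv_pos a.1.2.1.1) a.2) _).trans
      (hΦ _ _ (E.cv_pos a.1.2.1.1) (aunf_t_prod (E.cv_pos a.1.2.1.1) a.2))
  have h3 : ∑' L : 𝒢, ENNReal.ofReal (Φ (E.cv L.1)) ≤ ENNReal.ofReal B := by
    rw [ENNReal.tsum_eq_iSup_sum]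
    refine iSup_le fun s => ?_
    rw [← ENNReal.ofReal_sum_of_nonneg fun _ _ => hΦ0 _]
    refine ENNReal.ofReal_le_ofReal ?_
    have := hB (s.map (Function.Embedding.subtype _)) (fun L hL => by
      obtain ⟨L', -, rfl⟩ := Finset.mem_map.1 hL
      exact L'.2)
    rwa [Finset.sum_map] at this
  refine h1.trans ((aunf_iUnion P 𝒜).trans ((ENNReal.tsum_le_tsum h2).trans ?_))
  rw [ENNReal.tsum_prod' (f := fun a : 𝒢 × (Fin (d + 1) → Bool) =>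
    ENNReal.ofReal (Φ (E.cv a.1.1)))]
  simp only [tsum_fintype, Finset.sum_const, Finset.card_univ, Fintype.card_fun, Fintype.card_bool,
    Fintype.card_fin, nsmul_eq_mul]
  rw [ENNReal.tsum_mul_left, ENNReal.ofReal_mul (by positivity), ENNReal.ofReal_pow (by norm_num),
    ENNReal.ofReal_ofNat]
  push_cast
  exact mul_le_mul_right h3 _

theorem aunf_log {t0 : Fin (d + 1) → ℝ} (s : Fin d → ℝ) {j : Fin (d + 1)} (h : t0 j ≠ 0) :
    Real.log |(t0 * fl s) j| = Real.log |t0 j| + lg s j := by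
  rw [Pi.mul_apply, abs_mul]
  unfold fl
  rw [Real.log_mul (abs_pos.2 h).ne' (abs_pos.2 (Real.exp_pos _).ne').ne',
    Real.log_abs (Real.exp _), Real.log_exp]

theorem aunf_sum_log {c : ℝ} {t0 : Fin (d + 1) → ℝ} (ht : c * |∏ j, t0 j| = 1)
    (s : Fin d → ℝ) : ∑ j, Real.log |(t0 * fl s) j| = -Real.log c := by
  have h1 : c * |∏ j, (t0 * fl s) j| = 1 := by
    simp only [Pi.mul_apply]
    rw [Finset.prod_mul_distrib, prod_fl, mul_one, ht]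
  rw [← Real.log_prod fun j _ => (abs_pos.2 (aunf_ne h1 j)).ne', ← Finset.abs_prod,
    eq_inv_of_mul_eq_one_right h1, Real.log_inv]

theorem aunf_vol {t0 : Fin (d + 1) → ℝ} (ht : ∀ j, t0 j ≠ 0) {a b : ℝ} (hab : a ≤ b)
    {A : Set (Fin d → ℝ)}
    (h : ∀ s ∈ A, ∀ j, a ≤ Real.log |(t0 * fl s) j| ∧ Real.log |(t0 * fl s) j| ≤ b) :
    volume A ≤ ENNReal.ofReal ((b - a) ^ d) := by
  have h1 : A ⊆ Icc (fun i => a - Real.log |t0 i.castSucc|)
      (fun i => b - Real.log |t0 i.castSucc|) := by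
    intro s hs
    have h2 : ∀ i : Fin d, a ≤ Real.log |t0 i.castSucc| + s i ∧
        Real.log |t0 i.castSucc| + s i ≤ b := by
      intro i
      have h3 := h s hs i.castSucc
      rw [aunf_log s (ht _)] at h3
      simpa [lg] using h3
    exact ⟨fun i => by linarith [(h2 i).1], fun i => by linarith [(h2 i).2]⟩
  refine (measure_mono h1).trans (le_of_eq ?_)
  rw [Real.volume_Icc_pi, ENNReal.ofReal_pow (sub_nonneg.2 hab)]
  simp

/-- Each `s i` lies in an interval of length `2 log ρ`. -/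
theorem vol_box {ρ : ℝ} (hρ : 1 ≤ ρ) {c : ℝ} {t0 : Fin (d + 1) → ℝ} (hc : 0 < c)
    (ht : c * |∏ j, t0 j| = 1) : volume {s : Fin d → ℝ | InBox ρ (t0 * fl s)} ≤
      ENNReal.ofReal (if |Real.log c| ≤ (d + 1) * Real.log ρ then (2 * Real.log ρ) ^ d else 0) := by
  have hρ0 : 0 < ρ := lt_of_lt_of_le one_pos hρ
  have hl : 0 ≤ Real.log ρ := Real.log_nonneg hρ
  have key : ∀ s ∈ {s : Fin d → ℝ | InBox ρ (t0 * fl s)}, ∀ j,
      -Real.log ρ ≤ Real.log |(t0 * fl s) j| ∧ Real.log |(t0 * fl s) j| ≤ Real.log ρ := by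
    intro s hs j
    obtain ⟨h1, h2⟩ := hs j
    rw [← Real.log_inv]
    exact ⟨Real.log_le_log (inv_pos.2 hρ0) h1.le,
      Real.log_le_log ((inv_pos.2 hρ0).trans h1) h2.le⟩
  split_ifs with h
  · refine (aunf_vol (aunf_ne ht) (by linarith) key).trans (le_of_eq ?_)
    congr 2
    ring
  · have : {s : Fin d → ℝ | InBox ρ (t0 * fl s)} = ∅ := by
      refine eq_empty_of_forall_notMem fun s hs => h ?_
      rw [← abs_neg, ← aunf_sum_log ht s]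
      refine (Finset.abs_sum_le_sum_abs _ _).trans ?_
      refine (Finset.sum_le_card_nsmul _ _ (Real.log ρ) fun j _ => abs_le.2 (key s hs j)).trans ?_
      simp
    rw [this]
    simp

/-- With `y j = log r - log |t0 j| - lg s j > 0` we have `∑ y j = log (r^n c) =: a`, so the set is
empty unless `a > 0`, and each `s i` lies in an interval of length `a`; `a^d ≤ C exp (a/2)`. -/
theorem vol_short (d : ℕ) : ∃ C : ℝ, 0 < C ∧ ∀ (r c : ℝ) (t0 : Fin (d + 1) → ℝ), 0 < r → 0 < c →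
    c * |∏ j, t0 j| = 1 → volume {s : Fin d → ℝ | ‖t0 * fl s‖ < r} ≤
      ENNReal.ofReal (if 1 ≤ r ^ (d + 1) * c then C * √(r ^ (d + 1) * c) else 0) := by
  refine ⟨2 ^ d * d.factorial, by positivity, fun r c t0 hr hc ht => ?_⟩
  set a := Real.log (r ^ (d + 1) * c) with ha
  have hpos : 0 < r ^ (d + 1) * c := by positivity
  have k1 : ∀ s ∈ {s : Fin d → ℝ | ‖t0 * fl s‖ < r}, ∀ j,
      0 ≤ Real.log r - Real.log |(t0 * fl s) j| := by
    intro s hs j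
    have h0 : (t0 * fl s) j ≠ 0 := mul_ne_zero (aunf_ne ht j) (Real.exp_pos _).ne'
    exact sub_nonneg.2 (Real.log_le_log (abs_pos.2 h0)
      ((norm_le_pi_norm (t0 * fl s) j).trans (le_of_lt hs)))
  have k2 : ∀ s : Fin d → ℝ, ∑ j, (Real.log r - Real.log |(t0 * fl s) j|) = a := by
    intro s
    rw [Finset.sum_sub_distrib, aunf_sum_log ht s, ha, Real.log_mul (by positivity) hc.ne',
      Real.log_pow]
    simp
  split_ifs with h
  · have ha0 : 0 ≤ a := Real.log_nonneg h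
    refine (aunf_vol (a := Real.log r - a) (b := Real.log r) (aunf_ne ht) (by linarith)
      fun s hs j => ⟨?_, by linarith [k1 s hs j]⟩).trans (ENNReal.ofReal_le_ofReal ?_)
    · have := Finset.single_le_sum (fun j _ => k1 s hs j) (Finset.mem_univ j)
      rw [k2] at this
      linarith
    · have h1 := Real.pow_div_factorial_le_exp (a / 2) (by linarith) d
      rw [Real.exp_half, ha, Real.exp_log hpos, ← ha, div_le_iff₀ (by positivity), div_pow,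
        div_le_iff₀ (by positivity)] at h1
      rw [sub_sub_cancel]
      linarith
  · have : {s : Fin d → ℝ | ‖t0 * fl s‖ < r} = ∅ := by
      refine eq_empty_of_forall_notMem fun s hs => h ?_
      have h1 : 0 ≤ a := k2 s ▸ Finset.sum_nonneg fun j _ => k1 s hs j
      exact (Real.log_nonneg_iff hpos).1 h1
    rw [this]
    simp

theorem aunf_dual_sum (E : Dat d K) {M : Submodule ℤ K} (hM : IsLat M) (𝒲 : Set (Submodule ℤ K))
    (p : ℝ → Prop) (ψ : ℝ → ℝ) {B : ℝ}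
    (hB : ∀ 𝒯 : Finset (Submodule ℤ K), (∀ Q ∈ 𝒯, Q ∈ QS (dual M) ∧ Prim Q ∧ Q ∈ 𝒲 ∧
      p (E.cv Q)⁻¹) → ∑ Q ∈ 𝒯, ψ (E.cv Q)⁻¹ ≤ B) (𝒯 : Finset (Submodule ℤ K))
    (h : ∀ L ∈ 𝒯, L ∈ gen M ∧ (1 : K) ∈ L ∧
      L ∈ {L : Submodule ℤ K | dual L ∈ 𝒲 ∧ ∀ q : ℚ, (q : K) ∈ L → ∃ k : ℤ, q = k}) :
    ∑ L ∈ 𝒯, (if p (E.cv L) then ψ (E.cv L) else 0) ≤ B := by
  have hl : ∀ L ∈ 𝒯.filter fun L => p (E.cv L), IsLat L := fun L hL =>
    (h L (Finset.mem_filter.1 hL).1).1.1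
  have h1 := hB ((𝒯.filter fun L => p (E.cv L)).image dual) (fun Q hQ => by
    obtain ⟨L, hL, rfl⟩ := Finset.mem_image.1 hQ
    obtain ⟨a1, a2, a3, a4⟩ := h L (Finset.mem_filter.1 hL).1
    refine ⟨dual_mem_QS hM a1 a2, prim_dual a1.1 a2 a4, a3, ?_⟩
    rw [E.cv_dual a1.1, inv_inv]
    exact (Finset.mem_filter.1 hL).2)
  rw [Finset.sum_image fun L hL L' hL' e => by
    rw [← (hl L hL).dual_dual, ← (hl L' hL').dual_dual, e]] at h1
  rw [← Finset.sum_filter]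
  refine le_trans (le_of_eq (Finset.sum_congr rfl fun L hL => ?_)) h1
  rw [E.cv_dual (hl L hL), inv_inv]

theorem aunf_e_rat (E : Dat d K) (q : ℚ) (v : Fin (d + 1) → ℝ) :
    E.e (q : K) * v = (q : ℝ) • v := by
  funext j
  simp

/-- `Pkt.mass_le` and `vol_box`, with `Q = dual L` (`dual_mem_QS`, `Dat.cv_dual`; `prim_dual`). -/
theorem mass_box (d : ℕ) {ρ : ℝ} (hρ : 1 ≤ ρ) : ∃ C : ℝ, 0 < C ∧ ∀ (K : Type u) [Field K]
    [NumberField K] (E : Dat d K) (M : Submodule ℤ K) (P : Pkt E M) (𝒲 : Set (Submodule ℤ K))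
    (B : ℝ), IsLat M →
    (∀ 𝒯 : Finset (Submodule ℤ K), (∀ Q ∈ 𝒯, Q ∈ QS (dual M) ∧ Prim Q ∧ Q ∈ 𝒲 ∧
      |Real.log (E.cv Q)| ≤ (d + 1) * Real.log ρ) → (𝒯.card : ℝ) ≤ B) →
    P.mass {Λ | ∃ v, PrimIn Λ v ∧ InBox ρ v ∧ dual (E.Lof Λ v) ∈ 𝒲} ≤ ENNReal.ofReal (C * B) := by
  have hl : 0 ≤ (2 * Real.log ρ) ^ d := pow_nonneg (by linarith [Real.log_nonneg hρ]) d
  refine ⟨2 ^ (d + 1) * ((2 * Real.log ρ) ^ d + 1), by positivity,
    fun K _ _ E M P 𝒲 B hM hB => ?_⟩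
  have hB0 : 0 ≤ B := by simpa using hB ∅ (by simp)
  have h1 := P.mass_le {L | dual L ∈ 𝒲 ∧ ∀ q : ℚ, (q : K) ∈ L → ∃ k : ℤ, q = k} {v | InBox ρ v}
    (fun c => if |Real.log c| ≤ (d + 1) * Real.log ρ then (2 * Real.log ρ) ^ d else 0)
    (fun c => by split_ifs <;> simp [hl]) (fun c t0 hc ht => vol_box hρ hc ht)
    (B := ((2 * Real.log ρ) ^ d + 1) * B)
    (aunf_dual_sum E hM 𝒲 (fun c => |Real.log c| ≤ (d + 1) * Real.log ρ)
      (fun _ => (2 * Real.log ρ) ^ d) fun 𝒯 h => by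
        have := hB 𝒯 fun Q hQ => by simpa [Real.log_inv] using h Q hQ
        rw [Finset.sum_const, nsmul_eq_mul, mul_comm]
        exact mul_le_mul (by linarith) this (Nat.cast_nonneg _) (by linarith))
  rw [mul_assoc]
  refine le_trans (P.mass_mono ?_) h1
  rintro L - t - ⟨v, ⟨a1, a2, a3⟩, a4, a5⟩
  refine ⟨v, a1, a2, a4, a5, fun q hq => ?_⟩
  rw [Dat.mem_Lof, aunf_e_rat] at hq
  obtain ⟨k, hk⟩ := a3 q hq
  exact ⟨k, by exact_mod_cast hk⟩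

theorem aunf_prim (E : Dat d K) {L : Submodule ℤ K} (hL : IsLat L) (h1 : (1 : K) ∈ L) :
    ∃ k : ℕ, 0 < k ∧ (((k : ℚ)⁻¹ : ℚ) : K) ∈ L ∧
      ∀ q : ℚ, ((q * (k : ℚ)⁻¹ : ℚ) : K) ∈ L → ∃ m : ℤ, q = m := by
  obtain ⟨c, hc, h⟩ := E.exists_norm_ge hL
  set S : Set ℕ := {k | 0 < k ∧ (((k : ℚ)⁻¹ : ℚ) : K) ∈ L} with hS
  have hne : S.Nonempty := ⟨1, one_pos, by simpa using h1⟩
  have hb : BddAbove S := by
    refine ⟨⌈c⁻¹⌉₊, fun k hk => ?_⟩
    have hk1 : (1 : ℝ) ≤ k := by exact_mod_cast hk.1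
    have h2 := h _ hk.2 (by simpa using hk.1.ne')
    have h3 : |∏ j, E.σ j (((k : ℚ)⁻¹ : ℚ) : K)| = (k : ℝ)⁻¹ ^ (d + 1) := by simp
    have h4 : (k : ℝ)⁻¹ ^ (d + 1) ≤ (k : ℝ)⁻¹ :=
      pow_le_of_le_one (by positivity) (inv_le_one_of_one_le₀ hk1) (Nat.succ_ne_zero d)
    have h5 : (k : ℝ) ≤ c⁻¹ := (le_inv_comm₀ hc (by linarith)).1 (by linarith)
    exact_mod_cast h5.trans (Nat.le_ceil _)
  obtain ⟨hk0, hk⟩ := Nat.sSup_mem hne hb
  refine ⟨sSup S, hk0, hk, fun q hq => ?_⟩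
  obtain ⟨u, w, huw⟩ : IsCoprime q.num (q.den : ℤ) :=
    Int.isCoprime_iff_gcd_eq_one.2 q.reduced
  have e : (((q.den * sSup S : ℕ) : ℚ)⁻¹ : ℚ) =
      u * (q * ((sSup S : ℕ) : ℚ)⁻¹) + w * ((sSup S : ℕ) : ℚ)⁻¹ := by
    have a1 : (u : ℚ) * q.num + w * q.den = 1 := by exact_mod_cast huw
    have a2 : (q.den : ℚ) ≠ 0 := by exact_mod_cast q.den_ne_zero
    have a3 : ((sSup S : ℕ) : ℚ) ≠ 0 := by exact_mod_cast hk0.ne'
    have a4 : q * q.den = q.num := Rat.mul_den_eq_num q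
    push_cast
    field_simp
    linear_combination -a1 - u * a4
  have hm : q.den * sSup S ∈ S := by
    refine ⟨Nat.mul_pos q.pos hk0, ?_⟩
    rw [e, Rat.cast_add, Rat.cast_mul (u : ℚ), Rat.cast_mul (w : ℚ), Rat.cast_intCast,
      Rat.cast_intCast, ← zsmul_eq_mul, ← zsmul_eq_mul]
    exact L.add_mem (L.smul_mem u hq) (L.smul_mem w hk)
  have h6 := le_csSup hb hm
  have h7 : q.den = 1 := by
    have := q.pos
    nlinarith
  exact ⟨q.num, (Rat.den_eq_one_iff q).1 h7 |>.symm⟩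

/-- A lattice of the packet with a short vector has a short primitive vector (it is discrete: if
`v = σ(x) t`, the rationals `q` with `q x ∈ L` form a group `q0 ℤ` with `1 ∈ q0 ℤ`). -/
theorem mass_short (d : ℕ) : ∃ C : ℝ, 0 < C ∧ ∀ (K : Type u) [Field K]
    [NumberField K] (E : Dat d K) (M : Submodule ℤ K) (P : Pkt E M) (r B : ℝ), IsLat M → 0 < r →
    (∀ 𝒯 : Finset (Submodule ℤ K), (∀ Q ∈ 𝒯, Q ∈ QS (dual M) ∧ Prim Q ∧ E.cv Q ≤ r ^ (d + 1)) →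
      ∑ Q ∈ 𝒯, √(r ^ (d + 1) / E.cv Q) ≤ B) →
    P.mass {Λ | ∃ v ∈ Λ, v ≠ 0 ∧ ‖v‖ < r} ≤ ENNReal.ofReal (C * B) := by
  obtain ⟨C, hC, hv⟩ := vol_short d
  refine ⟨2 ^ (d + 1) * C, by positivity, fun K _ _ E M P r B hM hr hB => ?_⟩
  have h1 := P.mass_le {L | dual L ∈ univ ∧ ∀ q : ℚ, (q : K) ∈ L → ∃ k : ℤ, q = k} {v | ‖v‖ < r}
    (fun c => if 1 ≤ r ^ (d + 1) * c then C * √(r ^ (d + 1) * c) else 0)
    (fun c => by split_ifs <;> positivity) (fun c t0 hc ht => hv r c t0 hr hc ht) (B := C * B)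
    (aunf_dual_sum E hM univ (fun c => 1 ≤ r ^ (d + 1) * c)
      (fun c => C * √(r ^ (d + 1) * c)) fun 𝒯 h => by
        have := hB 𝒯 fun Q hQ => by
          obtain ⟨a1, a2, -, a3⟩ := h Q hQ
          exact ⟨a1, a2, (one_le_div (E.cv_pos a1.1.1)).1 a3⟩
        rw [← Finset.mul_sum]
        exact mul_le_mul_of_nonneg_left this hC.le)
  rw [mul_assoc]
  refine le_trans (P.mass_mono ?_) h1
  rintro L hL t ht ⟨v, a1, a2, a3⟩
  obtain ⟨b1, b2, -, -⟩ := E.Lof_spec hL ht a1 a2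
  obtain ⟨k, hk, c1, c2⟩ := aunf_prim E b1.1 b2
  rw [Dat.mem_Lof, aunf_e_rat] at c1
  have hk1 : (1 : ℝ) ≤ k := by exact_mod_cast hk
  have hk2 : (((k : ℚ)⁻¹ : ℚ) : ℝ) = (k : ℝ)⁻¹ := by simp
  refine ⟨_, c1, smul_ne_zero (by rw [hk2]; positivity) a2, ?_, mem_univ _, fun q hq => ?_⟩
  · refine lt_of_le_of_lt ?_ a3
    rw [norm_smul, hk2, Real.norm_eq_abs, abs_of_nonneg (by positivity)]
    exact mul_le_of_le_one_left (norm_nonneg _) (inv_le_one_of_one_le₀ hk1)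
  · refine c2 q ?_
    rw [Dat.mem_Lof, aunf_e_rat, smul_smul, ← Rat.cast_mul] at hq
    rw [Dat.mem_Lof, aunf_e_rat]
    exact hq

end Crest.Agent.R014

end
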