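import Crest.Agent.R014.IHT
import Crest.Agent.R014.IBas

/-! # Row 14: counting integers with weights -/

set_option autoImplicit false

noncomputable section

open Finset Filter Topology
open scoped Classical

namespace Crest.Agent.R014

theorem ict_kap_pos (r : ℕ → ℝ) {U : ℝ} (hU : 0 < U) : 0 < kap r U :=
  div_pos (Real.exp_pos _) hU

theorem ict_div_le (C0 : ℝ) {α : ℝ} (h : 1 ≤ α) : C0 / α ≤ |C0| :=
  (div_le_div_of_nonneg_right (le_abs_self C0) (by linarith)).trans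
    (div_le_self (abs_nonneg _) h)

theorem ict_core (A : ℕ) (C0 : ℝ) : ∃ C : ℝ, 0 < C ∧ ∀ (r F : ℕ → ℝ) (u0 U Z x : ℝ), SubM A F →
    Equi C0 r u0 → 3 ≤ u0 → u0 ≤ U → 0 < Z → U ≤ Real.log Z →
    pm F 0 (Real.log Z) ≤ pm r 0 (Real.log Z) + x →
    ∑ k ∈ upto Z, F k ≤ C * Z * kap r U * Real.exp x := by
  obtain ⟨C, hC, h⟩ := ht_bound A
  refine ⟨C * Real.exp |C0|, by positivity, fun r F u0 U Z x hF hE h3 hu hZ hU hx => ?_⟩
  have hU0 : 0 < U := by linarith
  have hL0 : 0 < Real.log Z := by linarith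
  have hZ2 : 2 ≤ Z := by
    have := Real.add_one_le_exp (Real.log Z)
    rw [Real.exp_log hZ] at this
    linarith
  have h1 := (abs_le.1 (hE.main U (Real.log Z) hu hU)).2
  have h2 := ict_div_le C0 (α := U) (by linarith)
  have h4 := pm_add r hU0.le hU
  have h5 : Real.exp (pm F 0 (Real.log Z)) ≤
      Real.exp (pm r 0 U) * (Real.log Z / U) * Real.exp |C0| * Real.exp x := by
    rw [← Real.exp_log (div_pos hL0 hU0), ← Real.exp_add, ← Real.exp_add, ← Real.exp_add]
    exact Real.exp_le_exp.2 (by linarith)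
  refine (h F hF Z hZ2).trans ((mul_le_mul_of_nonneg_left h5 (by positivity)).trans (le_of_eq ?_))
  unfold kap
  field_simp

/-- `ht_bound`, `pm_add` and `Equi.main` on `(U, log Z]`. -/
theorem ct1 (n : ℕ) (C0 : ℝ) : ∃ C : ℝ, 0 < C ∧ ∀ (r : ℕ → ℝ) (u0 U Z : ℝ), RM n r →
    Equi C0 r u0 → 3 ≤ u0 → u0 ≤ U → 0 < Z → U ≤ Real.log Z →
    ∑ k ∈ upto Z, r k ≤ C * Z * kap r U := by
  obtain ⟨C, hC, h⟩ := ict_core (n + 1) C0
  refine ⟨C, hC, fun r u0 U Z hr hE h3 hu hZ hU => ?_⟩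
  simpa using h r r u0 U Z 0 hr.subM hE h3 hu hZ hU (by simp)

theorem ict_sm_le (U : ℝ) {k : ℕ} (hk : k ≠ 0) : sm U k ≤ k :=
  Nat.le_of_dvd (Nat.pos_of_ne_zero hk) (Dvd.intro _ (npart_mul_npart _ hk))

theorem ict_sm_prime {U : ℝ} (hU : 0 < U) {p : ℕ} (hp : p.Prime) :
    (sm U p : ℝ) ^ (1 / U) ≤ 1 + if Real.log p ≤ U then 2 * (Real.log p / U) else 0 := by
  have hp0 : (0 : ℝ) < p := by exact_mod_cast hp.pos
  split_ifs with h
  · have h1 : (sm U p : ℝ) ≤ p := by exact_mod_cast ict_sm_le U hp.ne_zero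
    refine (Real.rpow_le_rpow (Nat.cast_nonneg _) h1 (by positivity)).trans ?_
    rw [Real.rpow_def_of_pos hp0, mul_one_div]
    have h0 : 0 ≤ Real.log p / U := div_nonneg (Real.log_natCast_nonneg p) hU.le
    have h2 : |Real.log p / U| ≤ 1 := by
      rw [abs_of_nonneg h0]
      exact (div_le_one hU).2 h
    have h3 := (abs_le.1 (Real.abs_exp_sub_one_le h2)).2
    rw [abs_of_nonneg h0] at h3
    linarith
  · have : sm U p = 1 := by
      unfold sm npart
      rw [hp.primeFactors, Finset.filter_singleton, if_neg h, Finset.prod_empty]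
    rw [this]
    simp

theorem ict_subM2 {n : ℕ} {r : ℕ → ℝ} (hr : RM n r) {U : ℝ} (hU : 3 ≤ U) :
    SubM (3 * n + 1) fun k => r k * (sm U k : ℝ) ^ (1 / U) := by
  have hU0 : 0 < U := by linarith
  refine ⟨fun k => mul_nonneg (hr.nonneg k) (by positivity), ?_, fun a b ha hb hab => ?_,
    fun p hp => ?_, fun p j hp _ => ?_⟩
  · have : sm U 1 = 1 := by simp [sm, npart]
    simp [this, hr.one]
  · have : sm U (a * b) = sm U a * sm U b := npart_mul _ ha hb
    rw [hr.mul a b ha hb hab, this, Nat.cast_mul,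
      Real.mul_rpow (Nat.cast_nonneg _) (Nat.cast_nonneg _)]
    exact le_of_eq (by ring)
  · have h1 : (sm U p : ℝ) ^ (1 / U) ≤ 3 := by
      refine (ict_sm_prime hU0 hp).trans ?_
      split_ifs with h
      · have := (div_le_one hU0).2 h
        linarith
      · norm_num
    have h2 := mul_le_mul (hr.prime p hp) h1 (by positivity) (Nat.cast_nonneg n)
    push_cast
    linarith
  · have hp1 : (1 : ℝ) ≤ p := by exact_mod_cast hp.one_lt.le
    have h1 : (sm U (p ^ j) : ℝ) ≤ (p : ℝ) ^ (j : ℝ) := by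
      rw [Real.rpow_natCast]
      exact_mod_cast ict_sm_le U (pow_ne_zero j hp.ne_zero)
    have h2 : (sm U (p ^ j) : ℝ) ^ (1 / U) ≤ (p : ℝ) ^ ((j : ℝ) / 3) := by
      refine (Real.rpow_le_rpow (Nat.cast_nonneg _) h1 (by positivity)).trans ?_
      rw [← Real.rpow_mul (by linarith), mul_one_div]
      exact Real.rpow_le_rpow_of_exponent_le hp1
        (div_le_div_of_nonneg_left (Nat.cast_nonneg j) (by norm_num) hU)
    refine mul_le_mul ((hr.pow p j hp).trans ?_) h2 (by positivity) (by positivity)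
    have h3 : (1 : ℝ) ≤ (j : ℝ) + 1 := by linarith [Nat.cast_nonneg (α := ℝ) j]
    have h4 : ((j : ℝ) + 1) ^ n ≤ ((j : ℝ) + 1) ^ (3 * n + 1) := pow_le_pow_right₀ h3 (by omega)
    refine h4.trans (le_mul_of_one_le_left (by positivity) ?_)
    push_cast
    linarith [Nat.cast_nonneg (α := ℝ) n]

theorem ict_pm2 (n : ℕ) : ∃ D : ℝ, ∀ (r : ℕ → ℝ) (U L : ℝ), RM n r → 3 ≤ U →
    pm (fun k => r k * (sm U k : ℝ) ^ (1 / U)) 0 L ≤ pm r 0 L + D := by
  obtain ⟨M, hM, h⟩ := R008.mertens1_le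
  refine ⟨2 * n * (1 + M), fun r U L hr hU => ?_⟩
  have hU0 : 0 < U := by linarith
  have h1 : pm (fun k => r k * (sm U k : ℝ) ^ (1 / U)) 0 L ≤ ∑ p ∈ lp 0 L,
      (r p / p + if Real.log p ≤ U then 2 * n / U * (Real.log p / p) else 0) := by
    refine Finset.sum_le_sum fun p hp => ?_
    have hpp := (mem_lp.1 hp).1
    have hp0 : (0 : ℝ) < p := by exact_mod_cast hpp.pos
    have h2 := mul_le_mul_of_nonneg_left (ict_sm_prime hU0 hpp) (hr.nonneg p)
    refine (div_le_div_of_nonneg_right h2 hp0.le).trans ?_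
    split_ifs with h3
    · have h4 : 0 ≤ 2 * (Real.log p / U) / p :=
        div_nonneg (mul_nonneg two_pos.le (div_nonneg (Real.log_natCast_nonneg p) hU0.le)) hp0.le
      have h5 := mul_le_mul_of_nonneg_right (hr.prime p hpp) h4
      have e1 : r p * (1 + 2 * (Real.log p / U)) / p
          = r p / p + r p * (2 * (Real.log p / U) / p) := by ring
      have e2 : 2 * (n : ℝ) / U * (Real.log p / p) = n * (2 * (Real.log p / U) / p) := by ring
      rw [e1, e2]
      linarith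
    · simp
  rw [Finset.sum_add_distrib, ← Finset.sum_filter, ← Finset.mul_sum] at h1
  have h6 : ∑ p ∈ (lp 0 L).filter (fun p : ℕ => Real.log p ≤ U), Real.log p / p ≤ U + M := by
    have h7 := h (Real.exp U) (Real.one_le_exp hU0.le)
    rw [Real.log_exp] at h7
    refine le_trans (Finset.sum_le_sum_of_subset_of_nonneg (fun p hp => ?_) fun p _ _ =>
      div_nonneg (Real.log_natCast_nonneg p) (Nat.cast_nonneg p)) h7
    obtain ⟨hp1, hp2⟩ := Finset.mem_filter.1 hp
    have hpp := (mem_lp.1 hp1).1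
    have hp0 : (0 : ℝ) < p := by exact_mod_cast hpp.pos
    exact (R008.mem_primesIoc le_rfl (Real.exp_pos _).le).2
      ⟨hpp, hp0, (Real.log_le_iff_le_exp hp0).1 hp2⟩
  have h8 : 2 * (n : ℝ) / U * (U + M) ≤ 2 * n * (1 + M) := by
    have e : 2 * (n : ℝ) / U * (U + M) = 2 * n * (1 + M / U) := by field_simp
    rw [e]
    have := div_le_self hM.le (show 1 ≤ U by linarith)
    gcongr
  have h9 := mul_le_mul_of_nonneg_left h6 (show 0 ≤ 2 * (n : ℝ) / U by positivity)
  unfold pm at h1 ⊢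
  linarith

/-- Rankin: `ht_bound` for `F k = r k * (sm U k)^{1/U}` (in `SubM (3n+1)`), with
`p^{1/U} - 1 ≤ 2 log p / U` for `log p ≤ U` and `R008.mertens1_le`. -/
theorem ct2 (n : ℕ) (C0 : ℝ) : ∃ C : ℝ, 0 < C ∧ ∀ (r : ℕ → ℝ) (u0 U Z E : ℝ), RM n r →
    Equi C0 r u0 → 3 ≤ u0 → u0 ≤ U → 0 < Z → U ≤ Real.log Z → 1 ≤ E →
    ∑ k ∈ (upto Z).filter (fun k => E < sm U k), r k ≤
      C * Z * kap r U * Real.exp (-(Real.log E / U)) := by
  obtain ⟨C, hC, h⟩ := ict_core (3 * n + 1) C0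
  obtain ⟨D, hD⟩ := ict_pm2 n
  refine ⟨C * Real.exp D, by positivity, fun r u0 U Z E hr hE h3 hu hZ hU hE1 => ?_⟩
  have hU3 : 3 ≤ U := h3.trans hu
  have hS := ict_subM2 hr hU3
  have h1 := h r _ u0 U Z D hS hE h3 hu hZ hU (hD r U _ hr hU3)
  have h2 : ∑ k ∈ (upto Z).filter (fun k => E < sm U k), r k ≤
      (∑ k ∈ upto Z, r k * (sm U k : ℝ) ^ (1 / U)) * Real.exp (-(Real.log E / U)) := by
    rw [Finset.sum_mul]
    refine le_trans (Finset.sum_le_sum fun k hk => ?_)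
      (Finset.sum_le_sum_of_subset_of_nonneg (Finset.filter_subset _ _) fun k _ _ =>
        mul_nonneg (hS.nonneg k) (Real.exp_pos _).le)
    have h4 := Real.rpow_le_rpow (by linarith) (Finset.mem_filter.1 hk).2.le
      (show 0 ≤ 1 / U by positivity)
    rw [Real.rpow_def_of_pos (by linarith), mul_one_div] at h4
    rw [mul_assoc]
    refine le_mul_of_one_le_right (hr.nonneg k) ?_
    rw [Real.exp_neg, ← div_eq_mul_inv]
    exact (one_le_div (Real.exp_pos _)).2 h4
  refine h2.trans ((mul_le_mul_of_nonneg_right h1 (Real.exp_pos _).le).trans (le_of_eq ?_))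
  ring

theorem ict_kc_eq (U : ℝ) (j : ℕ) (T : Finset ℕ) :
    kc U j T = #(T.filter fun p : ℕ => U / 2 ^ j < Real.log p ∧ Real.log p ≤ U) := by
  have e : (T >>= fun a : ℕ => (pure (a : ℝ) : Finset ℝ)) = T.image (fun a : ℕ => (a : ℝ)) := by
    ext x
    simp [Finset.bind_def, Finset.pure_def, eq_comm]
  have e2 : kc U j T = #((T >>= fun a : ℕ => (pure (a : ℝ) : Finset ℝ)).filter
    fun p => U / 2 ^ j < Real.log p ∧ Real.log p ≤ U) := rfl
  rw [e2, e, Finset.filter_image, Finset.card_image_of_injective _ Nat.cast_injective]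

theorem ict_subM3 {n : ℕ} {r : ℕ → ℝ} (hr : RM n r) (U : ℝ) (j : ℕ) :
    SubM (n + 1) fun k => r k * Real.exp (-((kc U j k.primeFactors : ℝ) / 100)) := by
  have h1 : ∀ k, r k * Real.exp (-((kc U j k.primeFactors : ℝ) / 100)) ≤ r k := fun k =>
    mul_le_of_le_one_right (hr.nonneg k) (Real.exp_le_one_iff.2 (neg_nonpos.2 (by positivity)))
  refine ⟨fun k => mul_nonneg (hr.nonneg k) (Real.exp_pos _).le, (h1 1).trans hr.subM.one,
    fun a b ha hb hab => ?_, fun p hp => (h1 p).trans (hr.subM.prime p hp),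
    fun p i hp hi => (h1 _).trans (hr.subM.pow p i hp hi)⟩
  have e : kc U j (a * b).primeFactors = kc U j a.primeFactors + kc U j b.primeFactors := by
    simp only [ict_kc_eq]
    rw [hab.primeFactors_mul, Finset.filter_union, Finset.card_union_of_disjoint
      (Finset.disjoint_filter_filter hab.disjoint_primeFactors)]
  rw [hr.mul a b ha hb hab, e, Nat.cast_add, add_div, neg_add, Real.exp_add]
  exact le_of_eq (by ring)

theorem ict_pm3 {n : ℕ} {r : ℕ → ℝ} (hr : RM n r) {U L : ℝ} (hU : 0 < U) (hL : U ≤ L) (j : ℕ) :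
    pm (fun k => r k * Real.exp (-((kc U j k.primeFactors : ℝ) / 100))) 0 L ≤
      pm r 0 L + -(0.0099 * pm r (U / 2 ^ j) U) := by
  have hz : Real.exp (-(1 / 100 : ℝ)) ≤ 1 - 0.0099 := by
    have h1 := Real.add_one_le_exp (1 / 100 : ℝ)
    rw [Real.exp_neg, inv_le_comm₀ (Real.exp_pos _) (by norm_num)]
    refine le_trans (by norm_num) h1
  have h1 : pm (fun k => r k * Real.exp (-((kc U j k.primeFactors : ℝ) / 100))) 0 L ≤
      ∑ p ∈ lp 0 L, (r p / p + -if U / 2 ^ j < Real.log p ∧ Real.log p ≤ U then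
        0.0099 * (r p / p) else 0) := by
    refine Finset.sum_le_sum fun p hp => ?_
    have hpp := (mem_lp.1 hp).1
    have h0 : 0 ≤ r p / p := div_nonneg (hr.nonneg p) (Nat.cast_nonneg p)
    simp only [ict_kc_eq]
    rw [hpp.primeFactors, Finset.filter_singleton, mul_div_right_comm]
    split_ifs with h
    · rw [Finset.card_singleton, Nat.cast_one]
      have := mul_le_mul_of_nonneg_left hz h0
      linarith
    · simp
  rw [Finset.sum_add_distrib, Finset.sum_neg_distrib, ← Finset.sum_filter, ← Finset.mul_sum] at h1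
  have e : (lp 0 L).filter (fun p : ℕ => U / 2 ^ j < Real.log p ∧ Real.log p ≤ U)
      = lp (U / 2 ^ j) U := by
    ext p
    rw [Finset.mem_filter, mem_lp, mem_lp]
    have : 0 < U / 2 ^ j := by positivity
    exact ⟨fun h => ⟨h.1.1, h.2⟩, fun h => ⟨⟨h.1, this.trans h.2.1, h.2.2.trans hL⟩, h.2⟩⟩
  rw [e] at h1
  exact h1

/-- Chernoff: for each `j ≤ J` apply `ht_bound` to `F k = r k * z^{kc U j k.primeFactors}`,
`z = 0.99`; `pm F 0 (log Z) = pm r 0 (log Z) - 0.01 pm r (U/2^j) U` and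
`pm r (U/2^j) U ≥ j log 2 - C0`.  Since `1/100 ≤ log (1/z) ≤ 1/99` and `0.68/99 < 0.01 log 2`
the sum over `j` is geometric. -/
theorem ct3 (n : ℕ) (C0 : ℝ) : ∃ C : ℝ, 0 < C ∧ ∀ (r : ℕ → ℝ) (u0 U Z κ : ℝ) (J : ℕ), RM n r →
    Equi C0 r u0 → 3 ≤ u0 → u0 ≤ U / 2 ^ J → 0 < Z → U ≤ Real.log Z → 0 ≤ κ →
    ∑ k ∈ (upto Z).filter (fun k => ¬ G2 U J 0.68 κ k.primeFactors), r k ≤
      C * Z * kap r U * Real.exp (-(κ / 100)) := by
  obtain ⟨C, hC, h⟩ := ict_core (n + 1) C0
  have hq0 : 0 ≤ Real.exp (-(0.00006 : ℝ)) := (Real.exp_pos _).le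
  have hq1 : Real.exp (-(0.00006 : ℝ)) < 1 := Real.exp_lt_one_iff.2 (by norm_num)
  have hq2 : 0 < (1 - Real.exp (-(0.00006 : ℝ)))⁻¹ := inv_pos.2 (by linarith)
  refine ⟨C * Real.exp |C0| * (1 - Real.exp (-(0.00006 : ℝ)))⁻¹, by positivity,
    fun r u0 U Z κ J hr hE h3 hu hZ hU hκ => ?_⟩
  have hU0 : 0 < U := by
    have : 0 < U / 2 ^ J := by linarith
    exact (div_pos_iff_of_pos_right (by positivity)).1 this
  have hdiv : ∀ j : ℕ, U / 2 ^ j ≤ U := fun j => div_le_self hU0.le (one_le_pow₀ one_le_two)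
  have hkap := ict_kap_pos r hU0
  have h1 : ∑ k ∈ (upto Z).filter (fun k => ¬ G2 U J 0.68 κ k.primeFactors), r k ≤
      ∑ j ∈ range (J + 1), (∑ k ∈ upto Z, r k * Real.exp (-((kc U j k.primeFactors : ℝ) / 100)))
        * Real.exp ((0.68 * j - κ) / 100) := by
    simp only [Finset.sum_mul]
    rw [Finset.sum_comm]
    have hnn : ∀ k j : ℕ, 0 ≤ r k * Real.exp (-((kc U j k.primeFactors : ℝ) / 100))
        * Real.exp ((0.68 * j - κ) / 100) := fun k j =>
      mul_nonneg (mul_nonneg (hr.nonneg k) (Real.exp_pos _).le) (Real.exp_pos _).le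
    refine le_trans (Finset.sum_le_sum fun k hk => ?_)
      (Finset.sum_le_sum_of_subset_of_nonneg (Finset.filter_subset _ _) fun k _ _ =>
        Finset.sum_nonneg fun j _ => hnn k j)
    have h2 := (Finset.mem_filter.1 hk).2
    unfold G2 at h2
    push Not at h2
    obtain ⟨j, hj, h4⟩ := h2
    refine le_trans ?_ (Finset.single_le_sum (fun j _ => hnn k j)
      (Finset.mem_range.2 (Nat.lt_succ_of_le hj)))
    rw [mul_assoc, ← Real.exp_add]
    exact le_mul_of_one_le_right (hr.nonneg k) (Real.one_le_exp (by linarith))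
  have h5 : ∀ j ∈ range (J + 1),
      (∑ k ∈ upto Z, r k * Real.exp (-((kc U j k.primeFactors : ℝ) / 100)))
        * Real.exp ((0.68 * j - κ) / 100) ≤
      C * Real.exp |C0| * Z * kap r U * Real.exp (-(κ / 100)) * Real.exp (-(0.00006 : ℝ)) ^ j := by
    intro j hj
    have hj' : j ≤ J := Nat.lt_succ_iff.1 (Finset.mem_range.1 hj)
    have hlow : u0 ≤ U / 2 ^ j := hu.trans
      (div_le_div_of_nonneg_left hU0.le (by positivity) (pow_le_pow_right₀ one_le_two hj'))
    have h6 := h r _ u0 U Z _ (ict_subM3 hr U j) hE h3 (hlow.trans (hdiv j)) hZ hU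
      (ict_pm3 hr hU0 hU j)
    have h7 := (abs_le.1 (hE.main _ U hlow (hdiv j))).1
    have h8 := ict_div_le C0 (α := U / 2 ^ j) (by linarith)
    have e : Real.log (U / (U / 2 ^ j)) = j * Real.log 2 := by
      rw [← Real.log_pow]
      congr 1
      field_simp
    rw [e] at h7
    have h9 : (j : ℝ) * 0.693 ≤ j * Real.log 2 :=
      mul_le_mul_of_nonneg_left (by linarith [Real.log_two_gt_d9]) (Nat.cast_nonneg j)
    have h10 : Real.exp (-(0.0099 * pm r (U / 2 ^ j) U)) * Real.exp ((0.68 * j - κ) / 100) ≤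
        Real.exp |C0| * Real.exp (-(κ / 100)) * Real.exp (-(0.00006 : ℝ)) ^ j := by
      rw [← Real.exp_nat_mul, ← Real.exp_add, ← Real.exp_add, ← Real.exp_add]
      refine Real.exp_le_exp.2 ?_
      have := abs_nonneg C0
      have := Nat.cast_nonneg (α := ℝ) j
      linarith
    have h11 := mul_le_mul_of_nonneg_left h10 (show 0 ≤ C * Z * kap r U by positivity)
    have h12 := mul_le_mul_of_nonneg_right h6 (Real.exp_pos ((0.68 * j - κ) / 100)).le
    linarith
  refine h1.trans ((Finset.sum_le_sum h5).trans ?_)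
  rw [← Finset.mul_sum]
  have h13 : ∑ j ∈ range (J + 1), Real.exp (-(0.00006 : ℝ)) ^ j
      ≤ (1 - Real.exp (-(0.00006 : ℝ)))⁻¹ := by
    rw [← tsum_geometric_of_lt_one hq0 hq1]
    exact (summable_geometric_of_lt_one hq0 hq1).sum_le_tsum _ fun j _ => pow_nonneg hq0 j
  refine (mul_le_mul_of_nonneg_left h13 (by positivity)).trans (le_of_eq ?_)
  ring

theorem ct_bad (n : ℕ) (C0 : ℝ) : ∃ C : ℝ, 0 < C ∧ ∀ (r : ℕ → ℝ) (u0 Z : ℝ) (π : Par), RM n r →
    Equi C0 r u0 → 3 ≤ u0 → π.Ok u0 → 0 < Z → π.U ≤ Real.log Z →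
    ∑ k ∈ (upto Z).filter (fun k => ¬ Gd π k), r k ≤
      C * Z * kap r π.U * (Real.exp (-(Real.log π.E / π.U)) + Real.exp (-(π.κ / 100))) := by
  obtain ⟨C, hC, h⟩ := ct2 n C0
  obtain ⟨C', hC', h'⟩ := ct3 n C0
  refine ⟨C + C', by positivity, fun r u0 Z π hr hE h3 hπ hZ hU => ?_⟩
  have hU0 : 0 < π.U := by
    have : 0 < π.U / 2 ^ π.J := by linarith [hπ.low]
    exact (div_pos_iff_of_pos_right (by positivity)).1 this
  have hu : u0 ≤ π.U := hπ.low.trans (div_le_self hU0.le (one_le_pow₀ one_le_two))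
  have h1 := h r u0 π.U Z π.E hr hE h3 hu hZ hU hπ.E1
  have h2 := h' r u0 π.U Z π.κ π.J hr hE h3 hπ.low hZ hU hπ.kap
  have h4 : ∑ k ∈ (upto Z).filter (fun k => ¬ Gd π k), r k ≤
      ∑ k ∈ (upto Z).filter (fun k => π.E < sm π.U k), r k +
        ∑ k ∈ (upto Z).filter (fun k => ¬ G2 π.U π.J 0.68 π.κ k.primeFactors), r k := by
    rw [Finset.sum_filter, Finset.sum_filter, Finset.sum_filter, ← Finset.sum_add_distrib]
    refine Finset.sum_le_sum fun k _ => ?_
    have := hr.nonneg k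
    unfold Gd
    by_cases ha : π.E < sm π.U k <;> by_cases hb : G2 π.U π.J 0.68 π.κ k.primeFactors <;>
      simp [ha, hb, this, not_lt.1, not_le.2]
  have hk := ict_kap_pos r hU0
  have h5 : 0 ≤ C' * Z * kap r π.U * Real.exp (-(Real.log π.E / π.U)) := by positivity
  have h6 : 0 ≤ C * Z * kap r π.U * Real.exp (-(π.κ / 100)) := by positivity
  linarith

/-- Dyadic decomposition with `ct1` for `k > e^U`; the terms `k ≤ e^U` contribute at most
`√Z ∑_{k ≤ e^U} r k ≤ C √Z e^U kap`. -/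
theorem ct6 (n : ℕ) (C0 : ℝ) : ∃ C : ℝ, 0 < C ∧ ∀ (r : ℕ → ℝ) (u0 U Z : ℝ), RM n r →
    Equi C0 r u0 → 3 ≤ u0 → u0 ≤ U → 0 < Z → 2 * U ≤ Real.log Z →
    ∑ k ∈ upto Z, r k * √(Z / k) ≤ C * Z * kap r U := by
  obtain ⟨C, hC, h⟩ := ct1 n C0
  refine ⟨5 * C, by positivity, fun r u0 U Z hr hE h3 hu hZ hU => ?_⟩
  have hU0 : 0 < U := by linarith
  have hk := ict_kap_pos r hU0
  set I := (range (⌊Z⌋₊ + 1)).filter fun i : ℕ => U ≤ Real.log (Z / 4 ^ i) with hI
  have hmem : ∀ {X : ℝ} {k : ℕ}, 0 ≤ X → (k ∈ upto X ↔ 1 ≤ k ∧ (k : ℝ) ≤ X) := fun hX => by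
    unfold upto
    rw [Finset.mem_Icc, Nat.le_floor_iff hX]
  have h1 : ∀ k ∈ upto Z, r k * √(Z / k) ≤ (if k ∈ upto (Real.exp U) then r k * √Z else 0) +
      ∑ i ∈ I, if k ∈ upto (Z / 4 ^ i) then r k * 2 ^ (i + 1) else 0 := by
    intro k hk
    obtain ⟨hk1, hkZ⟩ := (hmem hZ.le).1 hk
    have hk1' : (1 : ℝ) ≤ k := by exact_mod_cast hk1
    have hr0 := hr.nonneg k
    have hnn : ∀ i ∈ I, (0 : ℝ) ≤ if k ∈ upto (Z / 4 ^ i) then r k * 2 ^ (i + 1) else 0 :=
      fun i _ => by split_ifs <;> positivity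
    split_ifs with h2
    · exact le_add_of_le_of_nonneg (mul_le_mul_of_nonneg_left
        (Real.sqrt_le_sqrt (div_le_self hZ.le hk1')) hr0) (Finset.sum_nonneg hnn)
    · obtain ⟨i, hi1, hi2⟩ := exists_nat_pow_near (x := Z / k) (y := 4)
        ((one_le_div (by linarith)).2 hkZ) (by norm_num)
      have hki : (k : ℝ) ≤ Z / 4 ^ i := by
        rw [le_div_iff₀ (by linarith)] at hi1
        rw [le_div_iff₀ (by positivity)]
        linarith
      have hkU : Real.exp U ≤ k := by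
        by_contra hc
        exact h2 ((hmem (Real.exp_pos U).le).2 ⟨hk1, (not_le.1 hc).le⟩)
      have hiI : i ∈ I := by
        refine Finset.mem_filter.2 ⟨Finset.mem_range.2 (Nat.lt_succ_of_le
          ((Nat.le_floor_iff hZ.le).2 ?_)), ?_⟩
        · have h4 : (i : ℝ) ≤ 4 ^ i := by
            exact_mod_cast (Nat.lt_pow_self (by norm_num : 1 < 4)).le
          exact h4.trans (hi1.trans (div_le_self hZ.le hk1'))
        · exact (Real.le_log_iff_exp_le (by positivity)).2 (hkU.trans hki)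
      rw [zero_add]
      refine le_trans ?_ (Finset.single_le_sum hnn hiI)
      rw [if_pos ((hmem (by positivity)).2 ⟨hk1, hki⟩)]
      refine mul_le_mul_of_nonneg_left (Real.sqrt_le_iff.2 ⟨by positivity, hi2.le.trans ?_⟩) hr0
      rw [← pow_mul, mul_comm, pow_mul]
      norm_num
  have hsub : ∀ (X c : ℝ), 0 ≤ c → ∑ k ∈ upto Z, (if k ∈ upto X then r k * c else 0)
      ≤ (∑ k ∈ upto X, r k) * c := by
    intro X c hc
    rw [← Finset.sum_filter, Finset.sum_mul]
    exact Finset.sum_le_sum_of_subset_of_nonneg (fun k hk => (Finset.mem_filter.1 hk).2)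
      fun k _ _ => mul_nonneg (hr.nonneg k) hc
  refine (Finset.sum_le_sum h1).trans ?_
  rw [Finset.sum_add_distrib, Finset.sum_comm]
  have h5 : ∑ k ∈ upto Z, (if k ∈ upto (Real.exp U) then r k * √Z else 0) ≤ C * Z * kap r U := by
    refine (hsub _ _ (Real.sqrt_nonneg Z)).trans ?_
    have h6 := h r u0 U (Real.exp U) hr hE h3 hu (Real.exp_pos U) (Real.log_exp U).ge
    have h7 : Real.exp U ≤ √Z := by
      refine Real.le_sqrt_of_sq_le ?_
      rw [← Real.exp_nat_mul, Nat.cast_ofNat]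
      exact (Real.le_log_iff_exp_le hZ).1 hU
    have h8 : C * Real.exp U * kap r U * √Z ≤ C * √Z * kap r U * √Z := by gcongr
    have h9 := mul_le_mul_of_nonneg_right h6 (Real.sqrt_nonneg Z)
    have h10 : C * √Z * kap r U * √Z = C * Z * kap r U := by
      have := Real.mul_self_sqrt hZ.le
      linear_combination C * kap r U * this
    linarith
  have h11 : ∑ i ∈ I, ∑ k ∈ upto Z, (if k ∈ upto (Z / 4 ^ i) then r k * 2 ^ (i + 1) else 0)
      ≤ ∑ i ∈ I, 2 * C * Z * kap r U * (1 / 2) ^ i := by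
    refine Finset.sum_le_sum fun i hi => (hsub _ _ (by positivity)).trans ?_
    have h12 := h r u0 U (Z / 4 ^ i) hr hE h3 hu (by positivity) (Finset.mem_filter.1 hi).2
    refine (mul_le_mul_of_nonneg_right h12 (by positivity)).trans (le_of_eq ?_)
    rw [show (4 : ℝ) ^ i = 2 ^ i * 2 ^ i by rw [← mul_pow]; norm_num, one_div, inv_pow]
    field_simp
    ring
  rw [← Finset.mul_sum] at h11
  have h13 : ∑ i ∈ I, (1 / 2 : ℝ) ^ i ≤ 2 := by
    exact (summable_geometric_two.sum_le_tsum _ fun i _ => by positivity).trans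
      tsum_geometric_two.le
  have h14 := mul_le_mul_of_nonneg_left h13 (show 0 ≤ 2 * C * Z * kap r U by positivity)
  linarith

end Crest.Agent.R014

end
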