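import Crest.Agent.R014.ABad2
import Crest.Agent.R014.AUnf
import Crest.Agent.R014.ASB
import Crest.Agent.R014.ICT
import Crest.Agent.R014.AEq
import Crest.Agent.R014.APar

/-! # Row 14: counting bad lattices -/

set_option autoImplicit false

noncomputable section

open MeasureTheory Filter Topology Set
open scoped ENNReal NumberField Classical
open Crest.NumberTheoryR.Packets

namespace Crest.Agent.R014

universe u

variable {d : ℕ} {K : Type u} [Field K] [NumberField K]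

theorem Dat.isTotallyReal (E : Dat d K) : NumberField.IsTotallyReal K := by
  have hsurj : ∀ φ : K →+* ℂ, ∃ i, φ = Complex.ofRealHom.comp (E.σ i) := by
    let g : Fin (d + 1) → (K →+* ℂ) := fun i => Complex.ofRealHom.comp (E.σ i)
    have hg : Function.Injective g := by
      intro i j hij
      apply E.σ.injective
      ext x
      have := congrArg (fun φ : K →+* ℂ => φ x) hij
      simpa [g] using this
    have hb : Function.Bijective g := by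
      rw [Fintype.bijective_iff_injective_and_card]
      refine ⟨hg, ?_⟩
      rw [NumberField.Embeddings.card, E.deg, Fintype.card_fin]
    intro φ
    obtain ⟨i, hi⟩ := hb.2 φ
    exact ⟨i, hi.symm⟩
  refine ⟨fun w => ?_⟩
  obtain ⟨i, hi⟩ := hsurj w.embedding
  rw [← NumberField.InfinitePlace.mk_embedding w, NumberField.InfinitePlace.isReal_mk_iff, hi,
    NumberField.ComplexEmbedding.isReal_iff]
  ext x
  simp [NumberField.ComplexEmbedding.conjugate_coe_eq]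

/-- Good `P` have small covolume (`exists_isSB`, `IsSB.cv_le`). -/
theorem good_cv (d : ℕ) : ∃ c : ℝ, 0 < c ∧ ∀ (K : Type u) [Field K] [NumberField K] (E : Dat d K)
    (N P : Submodule ℤ K) (l : ℝ), IsLat N → P ∈ PS N → Prim P → c⁻¹ ≤ l → GoodB E l P →
    c * l ^ d ≤ (E.cv P)⁻¹ := by
  obtain ⟨C, hC, h1⟩ := exists_isSB.{u} d
  obtain ⟨C', hC', h2⟩ := IsSB.cv_le.{u} d
  refine ⟨min C⁻¹ (C' * C ^ d)⁻¹, lt_min (inv_pos.2 hC) (by positivity), ?_⟩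
  intro K _ _ E N P l hN hP hprim hl hgood
  have hc0 : 0 < min C⁻¹ (C' * C ^ d)⁻¹ := lt_min (inv_pos.2 hC) (by positivity)
  have hCl : C ≤ l := by
    refine le_trans ?_ hl
    rw [le_inv_comm₀ hC hc0]
    exact min_le_left _ _
  have hl0 : 0 < l := hC.trans_le hCl
  have hPl : IsLat P := hP.1.1.1
  have hone : (1 : K) ∈ dual P := by
    rw [mem_dual]
    intro y hy
    have := mem_dual.1 (hP.1.2 hy) 1 (one_mem_mult N)
    simpa using this
  obtain ⟨ν0, b, hb⟩ := h1 K E P l hl0 hPl hone hprim hgood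
  have h3 := h2 K E P (C / l) ν0 b hPl (by positivity) ((div_le_one hl0).2 hCl) hb
  have hcv := E.cv_pos hPl
  rw [le_inv_comm₀ (by positivity) hcv]
  refine h3.trans ?_
  have h4 : min C⁻¹ (C' * C ^ d)⁻¹ * l ^ d ≤ (C' * (C / l) ^ d)⁻¹ := by
    calc min C⁻¹ (C' * C ^ d)⁻¹ * l ^ d ≤ (C' * C ^ d)⁻¹ * l ^ d :=
          mul_le_mul_of_nonneg_right (min_le_right _ _) (by positivity)
      _ = (C' * (C / l) ^ d)⁻¹ := by
          rw [div_pow]; field_simp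
  rwa [le_inv_comm₀ (by positivity) (by positivity)] at h4

theorem amn_ct4 (n : ℕ) : ∃ C : ℝ, 0 < C ∧ ∀ (r : ℕ → ℝ) (Z W : ℝ), RM n r → 0 ≤ Z → Z ≤ W →
    1 ≤ W → ∑ k ∈ upto Z, r k * √(Z / k) ≤ C * Z * (1 + Real.log W) ^ n := by
  obtain ⟨C, hC, h⟩ := ct4 n
  refine ⟨C, hC, fun r Z W hr hZ hZW hW => ?_⟩
  have hlW : 0 ≤ Real.log W := Real.log_nonneg hW
  rcases le_or_gt 1 Z with h1 | h1
  · refine (h r Z hr h1).trans ?_
    have h2 : Real.log Z ≤ Real.log W := Real.log_le_log (by linarith) hZW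
    have h3 : 0 ≤ Real.log Z := Real.log_nonneg h1
    gcongr
  · have : upto Z = ∅ := by
      ext k
      simp only [Finset.notMem_empty, iff_false]
      intro hk
      obtain ⟨h0, h2⟩ := (iht_mem_upto hZ).1 hk
      have : (1 : ℝ) ≤ k := by exact_mod_cast Nat.one_le_iff_ne_zero.2 h0
      linarith
    rw [this, Finset.sum_empty]
    positivity

theorem amn_core (d : ℕ) (hd : 2 ≤ d) (C0 : ℝ) : ∃ C : ℝ, 0 < C ∧ ∀ (K : Type u) [Field K]
    [NumberField K] (E : Dat d K) (M : Submodule ℤ K) (P : Pkt E M) (𝒯 : Finset (Submodule ℤ K))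
    (Y u0 U A B : ℝ) (F : Submodule ℤ K → ℕ → ℝ), IsPrimitiveField K → IsLat M →
    Equi C0 (rG K (ff M)) u0 → 1 ≤ u0 → u0 ≤ U → 0 ≤ Y → 0 ≤ A → 0 ≤ B →
    (∀ Q ∈ 𝒯, Q ∈ QS (dual M) ∧ Prim Q ∧ E.cv Q ≤ Y) → (∀ P' k, 0 ≤ F P' k) →
    (∀ P' ∈ PS (dual M), Prim P' → GoodB E ((ff M : ℝ) ^ eta1 d) P' →
      ∑ k ∈ upto (Y * (E.cv P')⁻¹), rG K (ff M) k * F P' k ≤
        A * kap (rG K (ff M)) U * (E.cv P')⁻¹) →
    (∀ P' ∈ PS (dual M), ¬ GoodB E ((ff M : ℝ) ^ eta1 d) P' →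
      ∑ k ∈ upto (Y * (E.cv P')⁻¹), rG K (ff M) k * F P' k ≤ B * (E.cv P')⁻¹) →
    ∑ Q ∈ 𝒯, F (PP (ff M) Q) (Ideal.absNorm (aa (ff M) Q)) ≤
      C * (A + B * (U * (ff M : ℝ) ^ (-eta1 d))) * P.V := by
  obtain ⟨Cb, hCb, hb⟩ := bad_sum.{u} d hd C0
  obtain ⟨Cv, hCv, hv⟩ := vb.{u} d C0
  refine ⟨Cb + Cv, by positivity, ?_⟩
  intro K _ _ E M P 𝒯 Y u0 U A B F hK hM hE hu0 hU hY hA hB h𝒯 hF hgood hbad
  have hN : IsLat (dual M) := hM.dual
  have hff : ff (dual M) = ff M := hM.ff_dual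
  have hU0 : 0 < U := by linarith
  have hV := Pkt.V_pos hM P
  have hPS : ∀ Q ∈ 𝒯, PP (ff M) Q ∈ PS (dual M) := fun Q hQ => by
    have := QS.PP_mem E hN (h𝒯 Q hQ).1
    rwa [hff] at this
  have hsum := QS.sum_le E hN 𝒯 (fun Q hQ => (h𝒯 Q hQ).1) F hF
    (fun P' => upto (Y * (E.cv P')⁻¹)) (by
      intro Q hQ
      obtain ⟨h1, -, h3⟩ := h𝒯 Q hQ
      have hQl : IsLat Q := h1.1.1
      have hPl : IsLat (PP (ff (dual M)) Q) := (QS.PP_mem E hN h1).1.1.1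
      have hcv := E.cv_pos hPl
      rw [iht_mem_upto (by positivity)]
      refine ⟨?_, ?_⟩
      · have := (hQl.cop_aa (hN.ff_ne_zero E)).1
        rwa [Ne, Ideal.absNorm_eq_zero_iff]
      · rw [QS.cv_eq E hN h1] at h3
        rw [← div_eq_mul_inv, le_div_iff₀ hcv]
        exact h3)
  rw [hff] at hsum
  refine hsum.trans ?_
  set S := 𝒯.image (PP (ff M)) with hS
  have hSP : ∀ P' ∈ S, P' ∈ PS (dual M) ∧ Prim P' := by
    intro P' hP'
    obtain ⟨Q, hQ, rfl⟩ := Finset.mem_image.1 hP'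
    refine ⟨hPS Q hQ, ?_⟩
    obtain ⟨ν, hν, hν1⟩ := (h𝒯 Q hQ).2.1
    have := QS.le_PP E hN (h𝒯 Q hQ).1 hν
    rw [hff] at this
    exact ⟨ν, this, hν1⟩
  rw [← Finset.sum_filter_add_sum_filter_not S (fun P' => GoodB E ((ff M : ℝ) ^ eta1 d) P')]
  have hk := kap_ge (a := rG K (ff M)) (rm_rG E.deg (ff M)).nonneg hU0
  have h1 : ∑ P' ∈ S.filter (fun P' => GoodB E ((ff M : ℝ) ^ eta1 d) P'),
      ∑ k ∈ upto (Y * (E.cv P')⁻¹), rG K (ff M) k * F P' k ≤ A * (Cv * P.V) := by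
    have h2 := hv K E M P (S.filter (fun P' => GoodB E ((ff M : ℝ) ^ eta1 d) P')) 1 u0 U hM
      one_pos hE hu0 hU (fun P' hP' => (hSP P' (Finset.mem_filter.1 hP').1).1)
      (fun L hL => ⟨L, hL.1, by rw [one_mul], fun x hx _ _ => hx⟩)
    rw [div_one] at h2
    calc _ ≤ ∑ P' ∈ S.filter (fun P' => GoodB E ((ff M : ℝ) ^ eta1 d) P'),
          A * kap (rG K (ff M)) U * (E.cv P')⁻¹ := by
          refine Finset.sum_le_sum fun P' hP' => ?_
          obtain ⟨h3, h4⟩ := Finset.mem_filter.1 hP'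
          exact hgood P' (hSP P' h3).1 (hSP P' h3).2 h4
      _ = A * (kap (rG K (ff M)) U * ∑ P' ∈ S.filter
            (fun P' => GoodB E ((ff M : ℝ) ^ eta1 d) P'), (E.cv P')⁻¹) := by
          rw [← Finset.mul_sum, mul_assoc]
      _ ≤ A * (Cv * P.V) := mul_le_mul_of_nonneg_left h2 hA
  have h2 : ∑ P' ∈ S.filter (fun P' => ¬ GoodB E ((ff M : ℝ) ^ eta1 d) P'),
      ∑ k ∈ upto (Y * (E.cv P')⁻¹), rG K (ff M) k * F P' k ≤
        B * (U * (Cb * (ff M : ℝ) ^ (-eta1 d) * P.V)) := by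
    have h2 := hb K E M P (S.filter (fun P' => ¬ GoodB E ((ff M : ℝ) ^ eta1 d) P')) u0 U hK hM
      hE hu0 hU (fun P' hP' => ⟨(hSP P' (Finset.mem_filter.1 hP').1).1, (Finset.mem_filter.1 hP').2⟩)
    have hs0 : 0 ≤ ∑ P' ∈ S.filter (fun P' => ¬ GoodB E ((ff M : ℝ) ^ eta1 d) P'),
        (E.cv P')⁻¹ := Finset.sum_nonneg fun P' hP' =>
          (inv_pos.2 (E.cv_pos (hSP P' (Finset.mem_filter.1 hP').1).1.1.1.1)).le
    calc _ ≤ ∑ P' ∈ S.filter (fun P' => ¬ GoodB E ((ff M : ℝ) ^ eta1 d) P'), B * (E.cv P')⁻¹ := by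
          refine Finset.sum_le_sum fun P' hP' => ?_
          obtain ⟨h3, h4⟩ := Finset.mem_filter.1 hP'
          exact hbad P' (hSP P' h3).1 h4
      _ = B * ∑ P' ∈ S.filter (fun P' => ¬ GoodB E ((ff M : ℝ) ^ eta1 d) P'), (E.cv P')⁻¹ := by
          rw [← Finset.mul_sum]
      _ ≤ B * (U * (Cb * (ff M : ℝ) ^ (-eta1 d) * P.V)) := by
          refine mul_le_mul_of_nonneg_left ?_ hB
          rw [← inv_mul_le_iff₀ hU0]
          exact (mul_le_mul_of_nonneg_right hk hs0).trans h2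
  have hX : 0 ≤ U * (ff M : ℝ) ^ (-eta1 d) := by positivity
  refine (add_le_add h1 h2).trans ?_
  have e1 : B * (U * (Cb * (ff M : ℝ) ^ (-eta1 d) * P.V)) =
      Cb * (B * (U * (ff M : ℝ) ^ (-eta1 d))) * P.V := by ring
  rw [e1]
  have hBX : 0 ≤ B * (U * (ff M : ℝ) ^ (-eta1 d)) := mul_nonneg hB hX
  generalize B * (U * (ff M : ℝ) ^ (-eta1 d)) = X at hBX ⊢
  have := mul_nonneg (mul_nonneg hCb.le hA) hV.le
  have := mul_nonneg (mul_nonneg hCv.le hBX) hV.le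
  nlinarith

theorem amn_ev (d : ℕ) (hd : 2 ≤ d) : ∃ C0 : ℝ, ∀ κ y c ε : ℝ, 0 ≤ κ → 0 < y → 1 ≤ c → 0 < ε →
    ∃ f0 : ℕ, ∀ (K : Type u) [Field K] [NumberField K] (E : Dat d K) (M : Submodule ℤ K),
    IsLat M → f0 ≤ ff M → Equi C0 (rG K (ff M)) (uu (ff M)) ∧ 3 ≤ uu (ff M) ∧
      (par d (ff M) κ).Ok (uu (ff M)) ∧ uu (ff M) ≤ (par d (ff M) κ).U ∧ 2 ≤ ff M ∧
      (par d (ff M) κ).U * (1 + Real.log (c * ff M)) ^ (d + 1) * (ff M : ℝ) ^ (-eta1 d) ≤ ε ∧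
      ∀ P' ∈ PS (dual M), Prim P' → GoodB E ((ff M : ℝ) ^ eta1 d) P' →
        2 * (par d (ff M) κ).U ≤ Real.log (y * (E.cv P')⁻¹) := by
  obtain ⟨C0, f1, hE⟩ := equi_rG.{u} (d + 1)
  obtain ⟨c0, hc0, hg⟩ := good_cv.{u} d
  refine ⟨C0, fun κ y c ε hκ hy hc hε => ?_⟩
  have e1 := tendsto_uu.eventually_ge_atTop 3
  have e2 := par_ok d hκ
  have e3 := par_loss d hκ hc hε
  have e4 := par_U_le d (by omega) hκ (mul_pos hy hc0)
  have e5 : ∀ᶠ f : ℕ in atTop, c0⁻¹ ≤ (f : ℝ) ^ eta1 d :=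
    ((tendsto_rpow_atTop (eta1_pos d)).comp tendsto_natCast_atTop_atTop).eventually_ge_atTop _
  obtain ⟨f0, hf0⟩ := Filter.eventually_atTop.1 (e1.and (e2.and (e3.and (e4.and (e5.and
    ((eventually_ge_atTop f1).and (eventually_ge_atTop 2)))))))
  refine ⟨f0, ?_⟩
  intro K _ _ E M hM hf
  obtain ⟨h1, h2, h3, h4, h5, h6, h7⟩ := hf0 _ hf
  haveI := E.isTotallyReal
  refine ⟨hE K E.deg _ h6 (hM.discr_le E), h1, h2, ?_, h7, h3, ?_⟩
  · have h8 := h2.low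
    have h9 : (1 : ℝ) ≤ 2 ^ (par d (ff M) κ).J := one_le_pow₀ one_le_two
    have h10 : 0 ≤ (par d (ff M) κ).U := by
      by_contra h
      have : (par d (ff M) κ).U / 2 ^ (par d (ff M) κ).J < 0 :=
        div_neg_of_neg_of_pos (not_le.1 h) (by positivity)
      linarith
    exact h8.trans (div_le_self h10 h9)
  · intro P' hP' hprim hgood
    have h8 := hg K E (dual M) P' _ hM.dual hP' hprim h5 hgood
    have hf0 : (0 : ℝ) < ff M := by exact_mod_cast (by omega : 0 < ff M)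
    refine h4.trans (Real.log_le_log (by positivity) ?_)
    rw [mul_assoc]
    exact mul_le_mul_of_nonneg_left h8 hy.le

/-- `QS.sum_le`, `QS.cv_eq`: the norm of `aa f Q` is at most `Z = Y / cv (PP f Q)`.  For bad `P` use
`ct4` (if `Z ≥ 1`; `Z ≤ Y f` by `QS.cv_ge`), `kap_ge`, `bad_sum`, `par_loss`.  For good `P` use
`ct_bad` (`good_cv`, `par_U_le`, `par_E`) and `vb` with `I = 1`, `L' = L`. -/
theorem card_bad (d : ℕ) (hd : 2 ≤ d) {Y : ℝ} (hY : 1 ≤ Y) : ∃ C : ℝ, 0 < C ∧ ∀ κ : ℝ, 0 ≤ κ →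
    ∃ f0 : ℕ, ∀ (K : Type u) [Field K] [NumberField K] (E : Dat d K) (M : Submodule ℤ K)
    (P : Pkt E M) (𝒯 : Finset (Submodule ℤ K)), IsPrimitiveField K → IsLat M → f0 ≤ ff M →
    (∀ Q ∈ 𝒯, Q ∈ QS (dual M) ∧ Prim Q ∧ ¬ GoodQ E (ff M) κ Q ∧ E.cv Q ≤ Y) →
    (𝒯.card : ℝ) ≤ C * Real.exp (-(κ / 100)) * P.V := by
  obtain ⟨C0, hev⟩ := amn_ev.{u} d hd
  obtain ⟨C, hC, hcore⟩ := amn_core.{u} d hd C0
  obtain ⟨C4, hC4, h4⟩ := amn_ct4 (d + 1)
  obtain ⟨Cb, hCb, hb⟩ := ct_bad (d + 1) C0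
  have hY0 : 0 < Y := by linarith
  refine ⟨C * (2 * Cb * Y + C4 * Y), by positivity, fun κ hκ => ?_⟩
  obtain ⟨f0, hf0⟩ := hev κ Y Y (Real.exp (-(κ / 100))) hκ hY0 hY (Real.exp_pos _)
  refine ⟨f0, ?_⟩
  intro K _ _ E M P 𝒯 hK hM hf h𝒯
  obtain ⟨hE, h3, hok, hU, hf2, hloss, hgU⟩ := hf0 K E M hM hf
  have hr := rm_rG E.deg (ff M)
  have hf1 : (1 : ℝ) ≤ ff M := by exact_mod_cast (by omega : 1 ≤ ff M)
  have hYf : 1 ≤ Y * ff M := one_le_mul_of_one_le_of_one_le hY hf1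
  have hlog : 0 ≤ Real.log (Y * ff M) := Real.log_nonneg hYf
  have hU0 : 0 < (par d (ff M) κ).U := by linarith
  have hmain := hcore K E M P 𝒯 Y (uu (ff M)) (par d (ff M) κ).U
    (2 * Cb * Y * Real.exp (-(κ / 100))) (C4 * Y * (1 + Real.log (Y * ff M)) ^ (d + 1))
    (fun P' k => if GoodB E ((ff M : ℝ) ^ eta1 d) P' ∧ Gd (par d (ff M) κ) k then 0 else 1)
    hK hM hE (by linarith) hU hY0.le (by positivity) (by positivity)
    (fun Q hQ => ⟨(h𝒯 Q hQ).1, (h𝒯 Q hQ).2.1, (h𝒯 Q hQ).2.2.2⟩)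
    (fun P' k => by split_ifs <;> norm_num) (by
      intro P' hP' hprim hgood
      have hcv := E.cv_pos hP'.1.1.1
      have h5 := hb (rG K (ff M)) (uu (ff M)) (Y * (E.cv P')⁻¹) (par d (ff M) κ) hr hE h3 hok
        (by positivity) (by linarith [hgU P' hP' hprim hgood])
      rw [par_E d hκ hf2] at h5
      have h6 : Real.exp (-(3 + κ)) ≤ Real.exp (-(κ / 100)) := Real.exp_le_exp.2 (by linarith)
      have h7 : (par d (ff M) κ).κ = κ := rfl
      rw [h7] at h5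
      have hk := ict_kap_pos (rG K (ff M)) hU0
      calc _ = ∑ k ∈ (upto (Y * (E.cv P')⁻¹)).filter (fun k => ¬ Gd (par d (ff M) κ) k),
            rG K (ff M) k := by
            rw [Finset.sum_filter]
            refine Finset.sum_congr rfl fun k _ => ?_
            by_cases hk : Gd (par d (ff M) κ) k <;> simp [hk, hgood]
        _ ≤ _ := h5
        _ ≤ Cb * (Y * (E.cv P')⁻¹) * kap (rG K (ff M)) (par d (ff M) κ).U *
            (Real.exp (-(κ / 100)) + Real.exp (-(κ / 100))) := by gcongr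
        _ = _ := by ring) (by
      intro P' hP' hbad
      have hcv := E.cv_pos hP'.1.1.1
      have hZ : 0 ≤ Y * (E.cv P')⁻¹ := by positivity
      have h6 := QS.cv_ge E hM.dual hP'.1
      rw [hM.ff_dual] at h6
      have h5 := h4 (rG K (ff M)) (Y * (E.cv P')⁻¹) (Y * ff M) hr hZ
        (mul_le_mul_of_nonneg_left h6 hY0.le) hYf
      calc _ ≤ ∑ k ∈ upto (Y * (E.cv P')⁻¹), rG K (ff M) k * √(Y * (E.cv P')⁻¹ / k) := by
            refine Finset.sum_le_sum fun k hk => mul_le_mul_of_nonneg_left ?_ (hr.nonneg k)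
            obtain ⟨h0, h1⟩ := (iht_mem_upto hZ).1 hk
            have hk0 : (0 : ℝ) < k := by exact_mod_cast Nat.pos_of_ne_zero h0
            simp only [hbad, false_and, if_false]
            exact Real.one_le_sqrt.2 ((one_le_div hk0).2 h1)
        _ ≤ _ := h5
        _ = _ := by ring)
  have hcard : (𝒯.card : ℝ) = ∑ Q ∈ 𝒯, (if GoodB E ((ff M : ℝ) ^ eta1 d) (PP (ff M) Q) ∧
      Gd (par d (ff M) κ) (Ideal.absNorm (aa (ff M) Q)) then (0 : ℝ) else 1) := by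
    rw [Finset.card_eq_sum_ones]
    push_cast
    refine Finset.sum_congr rfl fun Q hQ => ?_
    exact (if_neg (h𝒯 Q hQ).2.2.1).symm
  rw [hcard]
  refine hmain.trans ?_
  have hV := Pkt.V_pos hM P
  refine mul_le_mul_of_nonneg_right ?_ hV.le
  rw [mul_assoc C]
  refine mul_le_mul_of_nonneg_left ?_ hC.le
  have h8 := mul_le_mul_of_nonneg_left hloss (by positivity : 0 ≤ C4 * Y)
  nlinarith

/-- As `card_bad` (take `κ = 0`), with `ct6` for good `P` and `ct4` for bad `P`. -/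
theorem sum_short (d : ℕ) (hd : 2 ≤ d) : ∃ C : ℝ, 0 < C ∧ ∀ Y : ℝ, 0 < Y → Y ≤ 1 →
    ∃ f0 : ℕ, ∀ (K : Type u) [Field K] [NumberField K] (E : Dat d K) (M : Submodule ℤ K)
    (P : Pkt E M) (𝒯 : Finset (Submodule ℤ K)), IsPrimitiveField K → IsLat M → f0 ≤ ff M →
    (∀ Q ∈ 𝒯, Q ∈ QS (dual M) ∧ Prim Q ∧ E.cv Q ≤ Y) →
    ∑ Q ∈ 𝒯, √(Y / E.cv Q) ≤ C * Y * P.V := by
  obtain ⟨C0, hev⟩ := amn_ev.{u} d hd
  obtain ⟨C, hC, hcore⟩ := amn_core.{u} d hd C0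
  obtain ⟨C4, hC4, h4⟩ := amn_ct4 (d + 1)
  obtain ⟨C6, hC6, h6⟩ := ct6 (d + 1) C0
  refine ⟨C * (C6 + C4), by positivity, fun Y hY0 hY => ?_⟩
  obtain ⟨f0, hf0⟩ := hev 0 Y 1 1 le_rfl hY0 le_rfl one_pos
  refine ⟨f0, ?_⟩
  intro K _ _ E M P 𝒯 hK hM hf h𝒯
  obtain ⟨hE, h3, hok, hU, hf2, hloss, hgU⟩ := hf0 K E M hM hf
  rw [one_mul] at hloss
  have hr := rm_rG E.deg (ff M)
  have hf1 : (1 : ℝ) ≤ ff M := by exact_mod_cast (by omega : 1 ≤ ff M)
  have hlog : 0 ≤ Real.log (ff M) := Real.log_nonneg hf1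
  have hU0 : 0 < (par d (ff M) 0).U := by linarith
  have hmain := hcore K E M P 𝒯 Y (uu (ff M)) (par d (ff M) 0).U
    (C6 * Y) (C4 * Y * (1 + Real.log (ff M)) ^ (d + 1))
    (fun P' k => √(Y * (E.cv P')⁻¹ / k))
    hK hM hE (by linarith) hU hY0.le (by positivity) (by positivity) h𝒯
    (fun P' k => Real.sqrt_nonneg _) (by
      intro P' hP' hprim hgood
      have hcv := E.cv_pos hP'.1.1.1
      have h5 := h6 (rG K (ff M)) (uu (ff M)) (par d (ff M) 0).U (Y * (E.cv P')⁻¹) hr hE h3 hU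
        (by positivity) (hgU P' hP' hprim hgood)
      calc _ ≤ _ := h5
        _ = _ := by ring) (by
      intro P' hP' _
      have hcv := E.cv_pos hP'.1.1.1
      have hZ : 0 ≤ Y * (E.cv P')⁻¹ := by positivity
      have h7 := QS.cv_ge E hM.dual hP'.1
      rw [hM.ff_dual] at h7
      have h5 := h4 (rG K (ff M)) (Y * (E.cv P')⁻¹) (ff M) hr hZ
        ((mul_le_of_le_one_left (inv_pos.2 hcv).le hY).trans h7) hf1
      calc _ ≤ _ := h5
        _ = _ := by ring)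
  have hsum : ∑ Q ∈ 𝒯, √(Y / E.cv Q) = ∑ Q ∈ 𝒯, √(Y * (E.cv (PP (ff M) Q))⁻¹ /
      (Ideal.absNorm (aa (ff M) Q) : ℕ)) := by
    refine Finset.sum_congr rfl fun Q hQ => ?_
    have := QS.cv_eq E hM.dual (h𝒯 Q hQ).1
    rw [hM.ff_dual] at this
    rw [this]
    congr 1
    rw [div_eq_mul_inv, div_eq_mul_inv, mul_inv]
    ring
  rw [hsum]
  refine hmain.trans ?_
  have hV := Pkt.V_pos hM P
  refine mul_le_mul_of_nonneg_right ?_ hV.le
  rw [mul_assoc C]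
  refine mul_le_mul_of_nonneg_left ?_ hC.le
  have h8 := mul_le_mul_of_nonneg_left hloss (by positivity : 0 ≤ C4 * Y)
  nlinarith

end Crest.Agent.R014

end
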