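import Crest.Agent.R014.AId

/-! # Row 14: good divisors in a window -/

set_option autoImplicit false

noncomputable section

open MeasureTheory Filter Topology Set
open scoped ENNReal NumberField Classical
open Crest.NumberTheoryR.Packets

namespace Crest.Agent.R014

universe u

variable {d : ℕ} {K : Type u} [Field K] [NumberField K]

/-- Summation along the fibres of a map. -/
theorem apc_fib {α β : Type*} [DecidableEq β] (T : Finset α) (g : α → β) (w : β → ℝ) (hw : ∀ b, 0 ≤ w b) (c : ℝ)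
    (h : ∀ b ∈ T.image g, ((T.filter fun a => g a = b).card : ℝ) ≤ c) :
    ∑ a ∈ T, w (g a) ≤ c * ∑ b ∈ T.image g, w b := by
  rw [← Finset.sum_fiberwise_of_maps_to (s := T) (t := T.image g) (g := g)
    (fun a ha => Finset.mem_image_of_mem g ha), Finset.mul_sum]
  refine Finset.sum_le_sum fun b hb => ?_
  rw [Finset.sum_congr rfl (g := fun _ => w b) (fun a ha => by rw [(Finset.mem_filter.1 ha).2]),
    Finset.sum_const, nsmul_eq_mul]
  exact mul_le_mul_of_nonneg_right (h b hb) (hw b)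

theorem apc_fib_card {α β : Type*} [DecidableEq β] (T : Finset α) (g : α → β) (c : ℝ)
    (h : ∀ b ∈ T.image g, ((T.filter fun a => g a = b).card : ℝ) ≤ c) :
    (T.card : ℝ) ≤ ((T.image g).card : ℝ) * c := by
  have := apc_fib T g (fun _ => 1) (fun _ => zero_le_one) c h
  simpa [mul_comm] using this

theorem apc_kc_eq (U : ℝ) (j : ℕ) (T : Finset ℕ) :
    kc U j T = (T.filter fun p : ℕ => U / 2 ^ j < Real.log p ∧ Real.log p ≤ U).card := by
  have e : (T >>= fun a : ℕ => (pure (a : ℝ) : Finset ℝ)) = T.image (fun a : ℕ => (a : ℝ)) := by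
    ext x
    simp [Finset.bind_def, Finset.pure_def, eq_comm]
  have e2 : kc U j T = ((T >>= fun a : ℕ => (pure (a : ℝ) : Finset ℝ)).filter
    fun p => U / 2 ^ j < Real.log p ∧ Real.log p ≤ U).card := rfl
  rw [e2, e, Finset.filter_image, Finset.card_image_of_injective _ Nat.cast_injective]

theorem apc_mem_npart {pr : ℕ → Prop} {k p : ℕ} :
    p ∈ (npart pr k).primeFactors ↔ p ∈ k.primeFactors ∧ pr p := by
  rw [primeFactors_npart, Finset.mem_filter]

theorem apc_norm_ne {I : Ideal (𝓞 K)} (hI : I ≠ ⊥) : Ideal.absNorm I ≠ 0 := fun h =>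
  hI (Ideal.absNorm_eq_zero_iff.1 h)

omit [NumberField K] in
theorem apc_ne_left {A A' I : Ideal (𝓞 K)} (hI : I ≠ ⊥) (h : A * A' = I) : A ≠ ⊥ := by
  rintro rfl
  exact hI (by rw [← h, Ideal.bot_mul])

omit [NumberField K] in
theorem apc_ne_right {A A' I : Ideal (𝓞 K)} (hI : I ≠ ⊥) (h : A * A' = I) : A' ≠ ⊥ :=
  apc_ne_left hI ((mul_comm _ _).trans h)

theorem apc_ipart_ne (pr : ℕ → Prop) {I : Ideal (𝓞 K)} (hI : I ≠ ⊥) : ipart pr I ≠ ⊥ :=
  apc_ne_left hI (absNorm_ipart pr hI).2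

theorem apc_ipart_dvd (pr : ℕ → Prop) {A A' I : Ideal (𝓞 K)} (hI : I ≠ ⊥) (h : A * A' = I) :
    ipart pr A ∣ ipart pr I :=
  ⟨ipart pr A', by rw [← h, ipart_mul pr (apc_ne_left hI h) (apc_ne_right hI h)]⟩

theorem apc_log_norm (pr : ℕ → Prop) {A : Ideal (𝓞 K)} (hA : A ≠ ⊥) :
    Real.log (Ideal.absNorm A) = Real.log (Ideal.absNorm (ipart pr A)) +
      Real.log (Ideal.absNorm (ipart (fun p => ¬ pr p) A)) := by
  rw [← Real.log_mul (by exact_mod_cast apc_norm_ne (apc_ipart_ne _ hA))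
    (by exact_mod_cast apc_norm_ne (apc_ipart_ne _ hA)), ← Nat.cast_mul, ← map_mul,
    (absNorm_ipart pr hA).2]

theorem apc_ell {k : ℕ} (hk : Squarefree k) : ell k.primeFactors = Real.log k := by
  unfold ell
  conv_rhs => rw [← Nat.prod_primeFactors_of_squarefree hk]
  push_cast
  rw [Real.log_prod fun p hp => by exact_mod_cast (Nat.prime_of_mem_primeFactors hp).ne_zero]

theorem apc_Wt_nonneg (π : Par) {W : ℝ} (hW : 0 ≤ W) (I : Ideal (𝓞 K)) : 0 ≤ Wt π W I := by
  unfold Wt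
  split_ifs <;> positivity

/-- The medium primes of the two factors are distinct. -/
theorem apc_G2 (π : Par) (hU : 0 < π.U) {a b : ℕ} (ha : a ≠ 0) (hb : b ≠ 0)
    (hsq : Squarefree (π.k1 (a * b))) (h1 : G2 π.U π.J 0.68 π.κ a.primeFactors)
    (h2 : G2 π.U π.J 0.68 π.κ b.primeFactors) :
    G2 π.U π.J 1.36 (2 * π.κ) (π.k1 (a * b)).primeFactors := by
  intro j hj
  have hle : π.U / 2 ^ π.J ≤ π.U / 2 ^ j := by
    refine div_le_div_of_nonneg_left hU.le (by positivity) ?_
    exact pow_le_pow_right₀ one_le_two hj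
  have hsum : kc π.U j a.primeFactors + kc π.U j b.primeFactors ≤
      kc π.U j (π.k1 (a * b)).primeFactors := by
    simp only [apc_kc_eq]
    rw [← Finset.card_union_of_disjoint]
    · refine Finset.card_le_card fun p hp => ?_
      rw [Finset.mem_filter, Par.k1, apc_mem_npart, Nat.primeFactors_mul ha hb]
      simp only [Finset.mem_union, Finset.mem_filter] at hp ⊢
      rcases hp with ⟨h3, h4, h5⟩ | ⟨h3, h4, h5⟩
      · exact ⟨⟨Or.inl h3, by linarith⟩, h4, h5⟩
      · exact ⟨⟨Or.inr h3, by linarith⟩, h4, h5⟩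
    · rw [Finset.disjoint_left]
      intro p hp1 hp2
      rw [Finset.mem_filter] at hp1 hp2
      have h3 := hsq.natFactorization_le_one p
      have h4 : ¬ Real.log p ≤ π.U / 2 ^ π.J := by linarith [hp1.2.1]
      rw [Par.k1, ibas_fact, if_pos h4, Nat.factorization_mul ha hb, Finsupp.add_apply] at h3
      have h5 : a.factorization p ≠ 0 := Finsupp.mem_support_iff.1 hp1.1
      have h6 : b.factorization p ≠ 0 := Finsupp.mem_support_iff.1 hp2.1
      omega
  have hsum' : (kc π.U j a.primeFactors : ℝ) + kc π.U j b.primeFactors ≤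
      kc π.U j (π.k1 (a * b)).primeFactors := by exact_mod_cast hsum
  have := h1 j hj
  have := h2 j hj
  linarith

theorem apc_Gd_sm {π : Par} {k : ℕ} (h : Gd π k) : Gd π (sm π.U k) := by
  refine ⟨?_, fun j hj => ?_⟩
  · have : sm π.U (sm π.U k) = sm π.U k := by
      refine npart_eq_self (npart_ne_zero _ _) fun p hp => ?_
      exact (apc_mem_npart.1 hp).2
    rw [this]
    exact h.1
  · refine (h.2 j hj).trans (le_of_eq ?_)
    simp only [apc_kc_eq]
    congr 2
    ext p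
    rw [Finset.mem_filter, Finset.mem_filter, sm, apc_mem_npart]
    tauto

/-- Smooth case.  Split `I = I0 I1` (small and medium primes).  A good divisor `A` is determined by
`ipart A ∣ I0` and by the set of primes dividing the norm of its medium part when `N I1` is
squarefree (`eq_of_dvd_squarefree`), and the logarithm of that norm lies in a window
(`window_le`); the sets of medium primes of `A` and `A'` are disjoint, so `kc` adds up. -/
theorem card_gdiv_smooth (π : Par) {W : ℝ} (hW : 0 ≤ W) (hU : 0 < π.U) (x : ℝ) {I : Ideal (𝓞 K)}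
    (hI : I ≠ ⊥) (hs : ∀ p ∈ (Ideal.absNorm I).primeFactors, Real.log p ≤ π.U)
    (T : Finset (Ideal (𝓞 K))) (hT : ∀ A ∈ T, GDiv π x W I A) : (T.card : ℝ) ≤ Wt π W I := by
  have hk : Ideal.absNorm I ≠ 0 := apc_norm_ne hI
  by_cases hsq : Squarefree (π.k1 (Ideal.absNorm I))
  swap
  · rw [Wt, if_neg hsq]
    exact_mod_cast card_le_tauI hI T fun A hA => by
      obtain ⟨A', h, -⟩ := hT A hA
      exact ⟨A', h.symm⟩
  rcases T.eq_empty_or_nonempty with rfl | ⟨A₀, hA₀⟩
  · simpa using apc_Wt_nonneg π hW I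
  have hG : G2 π.U π.J 1.36 (2 * π.κ) (π.k1 (Ideal.absNorm I)).primeFactors := by
    obtain ⟨A', h, h1, h2, -⟩ := hT A₀ hA₀
    have e : Ideal.absNorm I = Ideal.absNorm A₀ * Ideal.absNorm A' := by rw [← h, map_mul]
    rw [e] at hsq ⊢
    exact apc_G2 π hU (apc_norm_ne (apc_ne_left hI h)) (apc_norm_ne (apc_ne_right hI h)) hsq
      h1.2 h2.2
  rw [Wt, if_pos hsq, if_pos hG]
  set pr : ℕ → Prop := fun p => Real.log p ≤ π.U / 2 ^ π.J with hpr
  have hN1 : Ideal.absNorm (ipart (fun p => ¬ pr p) I) = π.k1 (Ideal.absNorm I) :=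
    (absNorm_ipart _ hI).1
  refine (apc_fib_card T (ipart pr) ((2 * W + 1) * Dl (π.k1 (Ideal.absNorm I)).primeFactors)
    fun J _ => ?_).trans ?_
  · refine le_trans ?_ (window_le (π.k1 (Ideal.absNorm I)).primeFactors
      (x - Real.log (Ideal.absNorm J)) hW)
    have hdv : ∀ A ∈ T, Ideal.absNorm (ipart (fun p => ¬ pr p) A) ∣ π.k1 (Ideal.absNorm I) := by
      intro A hA
      obtain ⟨A', h, -⟩ := hT A hA
      rw [← hN1]
      exact map_dvd _ (apc_ipart_dvd _ hI h)
    have hsqA : ∀ A ∈ T, Squarefree (Ideal.absNorm (ipart (fun p => ¬ pr p) A)) :=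
      fun A hA => hsq.squarefree_of_dvd (hdv A hA)
    norm_cast
    refine Finset.card_le_card_of_injOn
      (fun A => (Ideal.absNorm (ipart (fun p => ¬ pr p) A)).primeFactors) ?_ ?_
    · intro A hA
      rw [Finset.mem_coe, Finset.mem_filter] at hA
      obtain ⟨hA, hJ⟩ := hA
      rw [Finset.mem_coe, Finset.mem_filter, Finset.mem_powerset]
      refine ⟨Nat.primeFactors_mono (hdv A hA) hsq.ne_zero, ?_⟩
      obtain ⟨A', h, -, -, hw⟩ := hT A hA
      rw [apc_ell (hsqA A hA), ← hJ]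
      rw [apc_log_norm pr (apc_ne_left hI h)] at hw
      convert hw using 2
      ring
    · intro A hA B hB hAB
      rw [Finset.mem_coe, Finset.mem_filter] at hA hB
      obtain ⟨A', h, -⟩ := hT A hA.1
      obtain ⟨B', h', -⟩ := hT B hB.1
      have hn : Ideal.absNorm (ipart (fun p => ¬ pr p) A) =
          Ideal.absNorm (ipart (fun p => ¬ pr p) B) := by
        rw [← Nat.prod_primeFactors_of_squarefree (hsqA A hA.1),
          ← Nat.prod_primeFactors_of_squarefree (hsqA B hB.1)]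
        exact congrArg (fun S : Finset ℕ => ∏ p ∈ S, p) hAB
      have he := eq_of_dvd_squarefree (hN1 ▸ hsq) (apc_ipart_dvd _ hI h) (apc_ipart_dvd _ hI h') hn
      rw [← (absNorm_ipart pr (apc_ne_left hI h)).2, ← (absNorm_ipart pr (apc_ne_left hI h')).2,
        hA.2, hB.2, he]
  · refine mul_le_mul_of_nonneg_right ?_ (by positivity)
    exact_mod_cast card_le_tauI (apc_ipart_ne pr hI) _ fun J hJ => by
      obtain ⟨A, hA, rfl⟩ := Finset.mem_image.1 hJ
      obtain ⟨A', h, -⟩ := hT A hA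
      exact apc_ipart_dvd pr hI h

/-- The smooth part of a good divisor is a good divisor of the smooth part. -/
theorem GDiv.smooth {π : Par} {x W : ℝ} {I A : Ideal (𝓞 K)} (hI : I ≠ ⊥) (h : GDiv π x W I A) :
    GDiv π (x - Real.log (Ideal.absNorm (ipart (fun p => ¬ Real.log p ≤ π.U) A))) W
      (ipart (fun p => Real.log p ≤ π.U) I) (ipart (fun p => Real.log p ≤ π.U) A) ∧
    (sm π.U (Ideal.absNorm I) : ℝ) ≤ π.E ^ 2 := by
  obtain ⟨A', h, h1, h2, hw⟩ := h
  have hA := apc_ne_left hI h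
  have hA' := apc_ne_right hI h
  refine ⟨⟨ipart (fun p => Real.log p ≤ π.U) A', ?_, ?_, ?_, ?_⟩, ?_⟩
  · rw [← h, ipart_mul _ hA hA']
  · rw [(absNorm_ipart _ hA).1]
    exact apc_Gd_sm h1
  · rw [(absNorm_ipart _ hA').1]
    exact apc_Gd_sm h2
  · rw [apc_log_norm (fun p => Real.log p ≤ π.U) hA] at hw
    convert hw using 2
    ring
  · rw [← h, map_mul, sm, npart_mul _ (apc_norm_ne hA) (apc_norm_ne hA'), Nat.cast_mul, sq]
    exact mul_le_mul h1.1 h2.1 (Nat.cast_nonneg _) ((Nat.cast_nonneg _).trans h1.1)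

/-- Group by the rough part (`tauI_rough`). -/
theorem card_gdiv (π : Par) {W : ℝ} (hW : 0 ≤ W) (hU : 0 < π.U) (x : ℝ) {I : Ideal (𝓞 K)}
    (hI : I ≠ ⊥) {A0 : ℝ} (hA : Real.log (Ideal.absNorm I) ≤ A0 * π.U)
    (T : Finset (Ideal (𝓞 K))) (hT : ∀ A ∈ T, GDiv π x W I A) :
    (T.card : ℝ) ≤ (2 : ℝ) ^ A0 * Wt π W (ipart (fun p => Real.log p ≤ π.U) I) := by
  set pr : ℕ → Prop := fun p => Real.log p ≤ π.U with hpr
  have hIs := apc_ipart_ne pr hI
  have hIr := apc_ipart_ne (fun p => ¬ pr p) hI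
  refine (apc_fib_card T (ipart fun p => ¬ pr p) (Wt π W (ipart pr I)) fun R _ => ?_).trans ?_
  · have hinj : Set.InjOn (ipart pr)
        ((T.filter fun A => ipart (fun p => ¬ pr p) A = R : Finset _) : Set (Ideal (𝓞 K))) := by
      intro A hA B hB hAB
      rw [Finset.mem_coe, Finset.mem_filter] at hA hB
      obtain ⟨A', h, -⟩ := hT A hA.1
      obtain ⟨B', h', -⟩ := hT B hB.1
      rw [← (absNorm_ipart pr (apc_ne_left hI h)).2, ← (absNorm_ipart pr (apc_ne_left hI h')).2,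
        hA.2, hB.2, hAB]
    rw [← Finset.card_image_of_injOn hinj]
    refine card_gdiv_smooth π hW hU (x - Real.log (Ideal.absNorm R)) hIs ?_ _ ?_
    · intro p hp
      rw [(absNorm_ipart pr hI).1, apc_mem_npart] at hp
      exact hp.2
    · intro B hB
      obtain ⟨A, hA, rfl⟩ := Finset.mem_image.1 hB
      rw [Finset.mem_filter] at hA
      rw [← hA.2]
      exact ((hT A hA.1).smooth hI).1
  · refine mul_le_mul_of_nonneg_right ?_ (apc_Wt_nonneg π hW _)
    have h1 : ((T.image (ipart fun p => ¬ pr p)).card : ℝ) ≤ tauI (ipart (fun p => ¬ pr p) I) := by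
      exact_mod_cast card_le_tauI hIr _ fun J hJ => by
        obtain ⟨A, hA, rfl⟩ := Finset.mem_image.1 hJ
        obtain ⟨A', h, -⟩ := hT A hA
        exact apc_ipart_dvd _ hI h
    have h2 := tauI_rough hIr hU fun p hp => by
      rw [(absNorm_ipart _ hI).1, apc_mem_npart] at hp
      exact not_le.1 hp.2
    refine h1.trans (h2.trans (Real.rpow_le_rpow_of_exponent_le one_le_two ?_))
    rw [div_le_iff₀ hU]
    refine le_trans ?_ hA
    rw [apc_log_norm pr hI]
    have := Real.log_natCast_nonneg (Ideal.absNorm (ipart pr I))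
    linarith

theorem Wt_nonneg (π : Par) {W : ℝ} (hW : 0 ≤ W) (I : Ideal (𝓞 K)) : 0 ≤ Wt π W I := by
  exact apc_Wt_nonneg π hW I

/-- `I ↦ (I0, I1)` is injective; `sum_tauI_le`, `card_le_rI`. -/
theorem sum_Wt_le (π : Par) {W : ℝ} (hW : 0 ≤ W) (f : ℕ) {k : ℕ} (hk : k ≠ 0) (hf : k.Coprime f)
    (T : Finset (Ideal (𝓞 K))) (hT : ∀ I ∈ T, Ideal.absNorm I = k) :
    ∑ I ∈ T, Wt π W I ≤ Fw (rG K f) π W k := by
  have hne : ∀ I ∈ T, I ≠ ⊥ := fun I hI h => hk (by rw [← hT I hI, h, Ideal.absNorm_bot])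
  by_cases hsq : Squarefree (π.k1 k)
  swap
  · rw [Fw, if_neg hsq]
    refine le_trans (le_of_eq (Finset.sum_congr rfl fun I hI => ?_)) (sum_tauI_le f hk hf T hT)
    rw [Wt, hT I hI, if_neg hsq]
  by_cases hG : G2 π.U π.J 1.36 (2 * π.κ) (π.k1 k).primeFactors
  swap
  · rw [Fw, if_pos hsq, if_neg hG]
    refine le_of_eq (Finset.sum_eq_zero fun I hI => ?_)
    rw [Wt, hT I hI, if_pos hsq, if_neg hG]
  rw [Fw, if_pos hsq, if_pos hG]
  set pr : ℕ → Prop := fun p => Real.log p ≤ π.U / 2 ^ π.J with hpr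
  have e : ∑ I ∈ T, Wt π W I =
      (∑ I ∈ T, (tauI (ipart pr I) : ℝ)) * ((2 * W + 1) * Dl (π.k1 k).primeFactors) := by
    rw [Finset.sum_mul]
    refine Finset.sum_congr rfl fun I hI => ?_
    rw [Wt, hT I hI, if_pos hsq, if_pos hG]
  rw [e]
  refine mul_le_mul_of_nonneg_right ?_ (by positivity)
  have hkk : π.k0 k * π.k1 k = k := npart_mul_npart pr hk
  have hf0 : (π.k0 k).Coprime f := Nat.Coprime.coprime_dvd_left ⟨_, hkk.symm⟩ hf
  have hf1 : (π.k1 k).Coprime f :=
    Nat.Coprime.coprime_dvd_left ⟨_, hkk.symm.trans (mul_comm _ _)⟩ hf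
  refine (apc_fib T (ipart pr) (fun J => (tauI J : ℝ)) (fun _ => Nat.cast_nonneg _)
    (rI K (π.k1 k)) fun J _ => ?_).trans ?_
  · have hinj : Set.InjOn (ipart fun p => ¬ pr p)
        ((T.filter fun A => ipart pr A = J : Finset _) : Set (Ideal (𝓞 K))) := by
      intro A hA B hB hAB
      rw [Finset.mem_coe, Finset.mem_filter] at hA hB
      rw [← (absNorm_ipart pr (hne A hA.1)).2, ← (absNorm_ipart pr (hne B hB.1)).2,
        hA.2, hB.2, hAB]
    rw [← Finset.card_image_of_injOn hinj]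
    exact_mod_cast card_le_rI _ _ fun B hB => by
      obtain ⟨A, hA, rfl⟩ := Finset.mem_image.1 hB
      rw [Finset.mem_filter] at hA
      rw [(absNorm_ipart _ (hne A hA.1)).1, hT A hA.1]
      rfl
  · rw [mul_comm, rG, if_pos hf1]
    refine mul_le_mul_of_nonneg_right ?_ (Nat.cast_nonneg _)
    refine sum_tauI_le f (npart_ne_zero _ _) hf0 _ fun J hJ => ?_
    obtain ⟨A, hA, rfl⟩ := Finset.mem_image.1 hJ
    rw [(absNorm_ipart _ (hne A hA)).1, hT A hA]

end Crest.Agent.R014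

end
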