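import Crest.Agent.R014.IDefs

/-! # Row 14: mean values of submultiplicative functions -/

set_option autoImplicit false

noncomputable section

open Finset Filter Topology
open scoped Classical

namespace Crest.Agent.R014

theorem iht_pow (A : ℕ) : ∃ B : ℝ, 0 < B ∧ ∀ F : ℕ → ℝ, SubM A F → ∀ p : ℕ, p.Prime →
    ∀ J : Finset ℕ, (∀ j ∈ J, 2 ≤ j) →
      ∑ j ∈ J, (j : ℝ) * (F (p ^ j) / (p ^ j : ℕ)) ≤ B * (p : ℝ) ^ (-(4 / 3 : ℝ)) := by
  set r : ℝ := 2 ^ (-(2 / 3 : ℝ)) with hr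
  have hr0 : 0 < r := by positivity
  have hr1 : r < 1 := Real.rpow_lt_one_of_one_lt_of_neg (by norm_num) (by norm_num)
  have hs : Summable fun j : ℕ => 4 * A * (((j + 1 : ℕ) : ℝ) ^ (A + 1) * r ^ (j + 1)) :=
    ((summable_nat_add_iff 1).2 (summable_pow_mul_geometric_of_norm_lt_one (A + 1)
      (r := r) (by rw [Real.norm_of_nonneg hr0.le]; exact hr1))).mul_left _
  have hn : ∀ j : ℕ, 0 ≤ 4 * A * (((j + 1 : ℕ) : ℝ) ^ (A + 1) * r ^ (j + 1)) := fun j => by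
    positivity
  refine ⟨∑' j : ℕ, 4 * A * (((j + 1 : ℕ) : ℝ) ^ (A + 1) * r ^ (j + 1)) + 1,
    add_pos_of_nonneg_of_pos (tsum_nonneg hn) one_pos, fun F hF p hp J hJ => ?_⟩
  have hp2 : (2 : ℝ) ≤ p := by exact_mod_cast hp.two_le
  have hp0 : (0 : ℝ) < p := by linarith
  have hP : 0 < (p : ℝ) ^ (-(4 / 3 : ℝ)) := by positivity
  have h1 : ∀ j ∈ J, (j : ℝ) * (F (p ^ j) / (p ^ j : ℕ)) ≤
      4 * A * (((j + 1 : ℕ) : ℝ) ^ (A + 1) * r ^ (j + 1)) * (p : ℝ) ^ (-(4 / 3 : ℝ)) := by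
    intro j hj
    have hj2 : (2 : ℝ) ≤ j := by exact_mod_cast hJ j hj
    have a1 := hF.pow p j hp (hJ j hj)
    have a2 : (p : ℝ) ^ ((j : ℝ) / 3) / (p ^ j : ℕ) =
        (p : ℝ) ^ (-((2 * j - 4) / 3 : ℝ)) * (p : ℝ) ^ (-(4 / 3 : ℝ)) := by
      rw [Nat.cast_pow, ← Real.rpow_natCast, ← Real.rpow_sub hp0, ← Real.rpow_add hp0]
      congr 1
      ring
    have a3 : (p : ℝ) ^ (-((2 * j - 4) / 3 : ℝ)) ≤ 4 * r ^ (j + 1) := by
      refine (Real.rpow_le_rpow_of_nonpos (by norm_num) hp2 (by linarith)).trans (le_of_eq ?_)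
      have : (4 : ℝ) = 2 ^ (2 : ℝ) := by norm_num
      rw [hr, ← Real.rpow_natCast, ← Real.rpow_mul (by norm_num)]
      conv_rhs => rw [this, ← Real.rpow_add (by norm_num)]
      congr 1
      push_cast
      ring
    have hpj : (0 : ℝ) < (p ^ j : ℕ) := by exact_mod_cast pow_pos hp.pos j
    calc (j : ℝ) * (F (p ^ j) / (p ^ j : ℕ))
        ≤ ((j : ℝ) + 1) * (A * ((j : ℝ) + 1) ^ A * (p : ℝ) ^ ((j : ℝ) / 3) / (p ^ j : ℕ)) := by
          have := hF.nonneg (p ^ j)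
          gcongr
          linarith
      _ = A * ((j : ℝ) + 1) ^ (A + 1) * ((p : ℝ) ^ ((j : ℝ) / 3) / (p ^ j : ℕ)) := by ring
      _ ≤ A * ((j : ℝ) + 1) ^ (A + 1) * (4 * r ^ (j + 1) * (p : ℝ) ^ (-(4 / 3 : ℝ))) := by
          rw [a2]
          gcongr
      _ = _ := by push_cast; ring
  refine (sum_le_sum h1).trans ?_
  rw [← sum_mul]
  refine mul_le_mul_of_nonneg_right ?_ hP.le
  have := hs.sum_le_tsum J fun j _ => hn j
  linarith

/-- splitting off the power of `p` -/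
theorem iht_split {A : ℕ} {F : ℕ → ℝ} (hF : SubM A F) {p : ℕ} (hp : p.Prime) (w : ℕ → ℝ)
    (hw : ∀ j, 0 ≤ w j) (𝒦 : Finset ℕ) (h𝒦 : ∀ k ∈ 𝒦, k ≠ 0) :
    ∑ k ∈ 𝒦, w (k.factorization p) * (F k / k) ≤
      (∑ j ∈ 𝒦.image (fun k => k.factorization p), w j * (F (p ^ j) / (p ^ j : ℕ))) *
        ∑ m ∈ 𝒦.image (fun k => ordCompl[p] k), F m / m := by
  rw [sum_mul_sum, ← sum_product']
  have hinj : Set.InjOn (fun k : ℕ => (k.factorization p, ordCompl[p] k)) 𝒦 := by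
    intro k _ k' _ h
    simp only [Prod.mk.injEq] at h
    rw [← Nat.ordProj_mul_ordCompl_eq_self k p, ← Nat.ordProj_mul_ordCompl_eq_self k' p, h.2, h.1]
  calc ∑ k ∈ 𝒦, w (k.factorization p) * (F k / k)
      ≤ ∑ k ∈ 𝒦, w (k.factorization p) * (F (p ^ k.factorization p) / (p ^ k.factorization p : ℕ)) *
          (F (ordCompl[p] k) / (ordCompl[p] k : ℕ)) := by
        refine sum_le_sum fun k hk => ?_
        rw [mul_assoc]
        refine mul_le_mul_of_nonneg_left ?_ (hw _)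
        have h0 := h𝒦 k hk
        have h1 := hF.mul _ _ (Nat.ordProj_pos k p).ne' (Nat.ordCompl_pos p h0).ne'
          ((Nat.coprime_ordCompl hp h0).pow_left _)
        rw [div_mul_div_comm, ← Nat.cast_mul]
        rw [Nat.ordProj_mul_ordCompl_eq_self] at h1 ⊢
        exact div_le_div_of_nonneg_right h1 (Nat.cast_nonneg _)
    _ = ∑ x ∈ 𝒦.image (fun k : ℕ => (k.factorization p, ordCompl[p] k)),
          w x.1 * (F (p ^ x.1) / (p ^ x.1 : ℕ)) * (F x.2 / x.2) := by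
        rw [sum_image hinj]
    _ ≤ _ := by
        refine sum_le_sum_of_subset_of_nonneg ?_ fun x _ _ => ?_
        · intro x hx
          obtain ⟨k, hk, rfl⟩ := mem_image.1 hx
          exact mem_product.2 ⟨mem_image_of_mem _ hk, mem_image_of_mem _ hk⟩
        · have := hw x.1
          have := hF.nonneg (p ^ x.1)
          have := hF.nonneg x.2
          positivity

theorem iht_local {A : ℕ} {F : ℕ → ℝ} (hF : SubM A F) {p : ℕ} {b : ℝ}
    (hb : ∀ J : Finset ℕ, (∀ j ∈ J, 2 ≤ j) → ∑ j ∈ J, (j : ℝ) * (F (p ^ j) / (p ^ j : ℕ)) ≤ b)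
    (J : Finset ℕ) : ∑ j ∈ J, F (p ^ j) / (p ^ j : ℕ) ≤ Real.exp (F p / p + b) := by
  have hn : ∀ j, 0 ≤ F (p ^ j) / (p ^ j : ℕ) := fun j =>
    div_nonneg (hF.nonneg _) (Nat.cast_nonneg _)
  rw [← sum_filter_add_sum_filter_not J (fun j => 2 ≤ j)]
  have h1 : ∑ j ∈ J.filter (fun j => 2 ≤ j), F (p ^ j) / (p ^ j : ℕ) ≤ b := by
    refine le_trans (sum_le_sum fun j hj => ?_) (hb _ fun j hj => (mem_filter.1 hj).2)
    have : (2 : ℝ) ≤ j := by exact_mod_cast (mem_filter.1 hj).2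
    exact le_mul_of_one_le_left (hn j) (by linarith)
  have h2 : ∑ j ∈ J.filter (fun j => ¬ 2 ≤ j), F (p ^ j) / (p ^ j : ℕ) ≤
      ∑ j ∈ range 2, F (p ^ j) / (p ^ j : ℕ) :=
    sum_le_sum_of_subset_of_nonneg (fun j hj => mem_range.2 (not_le.1 (mem_filter.1 hj).2))
      fun j _ _ => hn j
  simp only [sum_range_succ, range_zero, sum_empty, pow_zero, pow_one, Nat.cast_one, div_one,
    zero_add] at h2
  have h3 := hF.one
  have h4 := Real.add_one_le_exp (F p / p + b)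
  linarith

theorem iht_euler {A : ℕ} {F : ℕ → ℝ} (hF : SubM A F) (b : ℕ → ℝ)
    (hb : ∀ p : ℕ, p.Prime → ∀ J : Finset ℕ, (∀ j ∈ J, 2 ≤ j) →
      ∑ j ∈ J, (j : ℝ) * (F (p ^ j) / (p ^ j : ℕ)) ≤ b p) (S : Finset ℕ) :
    (∀ p ∈ S, p.Prime) → ∀ 𝒦 : Finset ℕ, (∀ k ∈ 𝒦, k ≠ 0 ∧ k.primeFactors ⊆ S) →
      ∑ k ∈ 𝒦, F k / k ≤ Real.exp (∑ p ∈ S, (F p / p + b p)) := by
  induction S using Finset.induction_on with
  | empty =>
    intro _ 𝒦 h
    have h1 : 𝒦 ⊆ {1} := fun k hk => by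
      have := h k hk
      simp only [subset_empty, Nat.primeFactors_eq_empty] at this
      simp [this.2.resolve_left this.1]
    refine (sum_le_sum_of_subset_of_nonneg h1 fun k _ _ =>
      div_nonneg (hF.nonneg _) (Nat.cast_nonneg _)).trans ?_
    simpa using hF.one
  | insert p S hpS ih =>
    intro hS 𝒦 h
    have hp := hS p (mem_insert_self _ _)
    have h1 := iht_split hF hp (fun _ => 1) (fun _ => zero_le_one) 𝒦 fun k hk => (h k hk).1
    simp only [one_mul] at h1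
    refine h1.trans ?_
    rw [sum_insert hpS, Real.exp_add]
    refine mul_le_mul (iht_local hF (hb p hp) _)
      (ih (fun q hq => hS q (mem_insert_of_mem hq)) _ fun m hm => ?_)
      (sum_nonneg fun k _ => div_nonneg (hF.nonneg _) (Nat.cast_nonneg _)) (Real.exp_pos _).le
    obtain ⟨k, hk, rfl⟩ := mem_image.1 hm
    have h0 := (h k hk).1
    refine ⟨(Nat.ordCompl_pos p h0).ne', fun q hq => ?_⟩
    have h2 := (h k hk).2 (Nat.primeFactors_mono (Nat.ordCompl_dvd k p) h0 hq)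
    refine (mem_insert.1 h2).resolve_left ?_
    rintro rfl
    exact Nat.not_dvd_ordCompl hp h0 (Nat.dvd_of_mem_primeFactors hq)

/-- Euler product bound: `∑ F(k)/k ≤ ∏_{p ∈ S} (1 + ∑_j F(p^j)/p^j) ≤ exp (∑ F(p)/p + O(1))`, since
`∑_p ∑_{j ≥ 2} A (j+1)^A p^{-2j/3}` converges.  (Induction on `S`, splitting off the power of `p`.) -/
theorem euler_bound (A : ℕ) : ∃ C : ℝ, 0 < C ∧ ∀ F : ℕ → ℝ, SubM A F → ∀ S 𝒦 : Finset ℕ,
    (∀ p ∈ S, p.Prime) → (∀ k ∈ 𝒦, k ≠ 0 ∧ k.primeFactors ⊆ S) →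
    ∑ k ∈ 𝒦, F k / k ≤ C * Real.exp (∑ p ∈ S, F p / p) := by
  obtain ⟨B, hB, h⟩ := iht_pow A
  have hs : Summable fun n : ℕ => B * (n : ℝ) ^ (-(4 / 3 : ℝ)) :=
    (Real.summable_nat_rpow.2 (by norm_num)).mul_left _
  refine ⟨Real.exp (∑' n : ℕ, B * (n : ℝ) ^ (-(4 / 3 : ℝ))), Real.exp_pos _,
    fun F hF S 𝒦 hS h𝒦 => ?_⟩
  refine (iht_euler hF (fun n => B * (n : ℝ) ^ (-(4 / 3 : ℝ))) (h F hF) S hS 𝒦 h𝒦).trans ?_
  rw [← Real.exp_add, sum_add_distrib, add_comm, Real.exp_le_exp]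
  have := hs.sum_le_tsum S fun n _ => by positivity
  linarith

theorem iht_step {x : ℝ} (hx : 0 < x) :
    (x + 1) ^ (-(4 / 3 : ℝ)) ≤ 3 * (x ^ (-(1 / 3 : ℝ)) - (x + 1) ^ (-(1 / 3 : ℝ))) := by
  have hx1 : 0 < x + 1 := by linarith
  have h1 := rpow_one_add_le_one_add_mul_self (s := -(1 / (x + 1)))
    (by rw [neg_le_neg_iff, div_le_one hx1]; linarith) (p := 1 / 3) (by norm_num) (by norm_num)
  have h2 : 1 + -(1 / (x + 1)) = x / (x + 1) := by field_simp; ring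
  rw [h2, Real.div_rpow hx.le hx1.le] at h1
  have h3 : (x + 1) ^ (-(4 / 3 : ℝ)) = (x + 1) ^ (-(1 / 3 : ℝ)) * (1 / (x + 1)) := by
    rw [one_div (x + 1), ← Real.rpow_neg_one, ← Real.rpow_add hx1]
    norm_num
  rw [h3, Real.rpow_neg hx.le, Real.rpow_neg hx1.le]
  have ha : 0 < x ^ (1 / 3 : ℝ) := by positivity
  have hb : 0 < (x + 1) ^ (1 / 3 : ℝ) := by positivity
  have ht : 0 < 1 / (x + 1) := by positivity
  generalize x ^ (1 / 3 : ℝ) = a at *
  generalize (x + 1) ^ (1 / 3 : ℝ) = b at *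
  generalize 1 / (x + 1) = t at *
  rw [div_le_iff₀ hb] at h1
  have h4 : 3 * (a⁻¹ - b⁻¹) - b⁻¹ * t = (3 * b - 3 * a - a * t) / (a * b) := by
    field_simp
  have h5 : 0 ≤ (3 * b - 3 * a - a * t) / (a * b) := by
    refine div_nonneg ?_ (by positivity)
    have := mul_pos hb ht
    have h6 : a ≤ b := by nlinarith
    nlinarith
  linarith

theorem iht_tele {N : ℕ} (hN : 0 < N) (n : ℕ) :
    ∑ k ∈ Ioc N (N + n), (k : ℝ) ^ (-(4 / 3 : ℝ)) ≤
      3 * ((N : ℝ) ^ (-(1 / 3 : ℝ)) - ((N + n : ℕ) : ℝ) ^ (-(1 / 3 : ℝ))) := by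
  induction n with
  | zero => simp
  | succ n ih =>
    rw [← add_assoc, sum_Ioc_succ_top (Nat.le_add_right _ _)]
    have := iht_step (x := ((N + n : ℕ) : ℝ)) (by exact_mod_cast Nat.add_pos_left hN n)
    rw [Nat.cast_succ]
    linarith

theorem iht_tail_sum {y : ℝ} (hy : 1 ≤ y) (P : Finset ℕ) (hP : ∀ p ∈ P, y < p) :
    ∑ p ∈ P, (p : ℝ) ^ (-(4 / 3 : ℝ)) ≤ 6 * y ^ (-(1 / 3 : ℝ)) := by
  have hN : 0 < ⌊y⌋₊ := Nat.floor_pos.2 hy
  have h1 : P ⊆ Ioc ⌊y⌋₊ (⌊y⌋₊ + P.sup id) := fun p hp =>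
    mem_Ioc.2 ⟨(Nat.floor_lt (by linarith)).2 (hP p hp),
      (le_sup (f := id) hp).trans (Nat.le_add_left _ _)⟩
  refine (sum_le_sum_of_subset_of_nonneg h1 fun k _ _ => by positivity).trans
    ((iht_tele hN _).trans ?_)
  have h2 : 0 ≤ ((⌊y⌋₊ + P.sup id : ℕ) : ℝ) ^ (-(1 / 3 : ℝ)) := by positivity
  have h3 : y / 8 ≤ ⌊y⌋₊ := by
    have := Nat.lt_floor_add_one y
    have : (1 : ℝ) ≤ ⌊y⌋₊ := by exact_mod_cast hN
    linarith
  have h4 := Real.rpow_le_rpow_of_nonpos (by positivity) h3 (z := -(1 / 3 : ℝ)) (by norm_num)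
  have h5 : (8 : ℝ) ^ (-(1 / 3 : ℝ)) = 1 / 2 := by
    rw [show (8 : ℝ) = 2 ^ (3 : ℝ) by norm_num, ← Real.rpow_mul (by norm_num)]
    norm_num
  rw [Real.div_rpow (by linarith) (by norm_num), h5] at h4
  linarith

theorem iht_sum_le {ι : Type} (𝒦 : Finset ℕ) (P : Finset ι) (R : ι → ℕ → Prop)
    [∀ p, DecidablePred (R p)] (f : ℕ → ℝ) (hf : ∀ k, 0 ≤ f k)
    (h : ∀ k ∈ 𝒦, ∃ p ∈ P, R p k) :
    ∑ k ∈ 𝒦, f k ≤ ∑ p ∈ P, ∑ k ∈ 𝒦.filter (R p), f k := by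
  simp only [sum_filter]
  rw [sum_comm]
  refine sum_le_sum fun k hk => ?_
  obtain ⟨p, hp, hR⟩ := h k hk
  have := single_le_sum (f := fun p => if R p k then f k else 0)
    (fun p _ => by split_ifs; exacts [hf k, le_rfl]) hp
  simpa [hR] using this

/-- Write `k = p^j k'` with `p > y`, `j ≥ 2`, `p ∤ k'`; `∑_{p > y} ∑_{j ≥ 2} F(p^j)/p^j ≤ C y^{-1/3}`
and `euler_bound` for the sum over `k'`. -/
theorem euler_tail (A : ℕ) : ∃ C : ℝ, 0 < C ∧ ∀ F : ℕ → ℝ, SubM A F → ∀ (S 𝒦 : Finset ℕ) (y : ℝ),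
    1 ≤ y → (∀ p ∈ S, p.Prime) →
    (∀ k ∈ 𝒦, k ≠ 0 ∧ k.primeFactors ⊆ S ∧ ∃ p : ℕ, p.Prime ∧ y < p ∧ p ^ 2 ∣ k) →
    ∑ k ∈ 𝒦, F k / k ≤ C * y ^ (-(1 / 3 : ℝ)) * Real.exp (∑ p ∈ S, F p / p) := by
  obtain ⟨B, hB, h⟩ := iht_pow A
  obtain ⟨C, hC, hE⟩ := euler_bound A
  refine ⟨6 * B * C, by positivity, fun F hF S 𝒦 y hy hS h𝒦 => ?_⟩
  have hn : ∀ k, 0 ≤ F k / k := fun k => div_nonneg (hF.nonneg _) (Nat.cast_nonneg _)
  refine (iht_sum_le 𝒦 (S.filter fun p : ℕ => y < p) (fun p k => p ^ 2 ∣ k) _ hn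
    fun k hk => ?_).trans ?_
  · obtain ⟨h0, h1, p, hp, hyp, hpk⟩ := h𝒦 k hk
    exact ⟨p, mem_filter.2 ⟨h1 (Nat.mem_primeFactors.2
      ⟨hp, (dvd_pow_self p two_ne_zero).trans hpk, h0⟩), hyp⟩, hpk⟩
  have h1 : ∀ p ∈ S.filter fun p : ℕ => y < p, ∑ k ∈ 𝒦.filter (fun k => p ^ 2 ∣ k), F k / k ≤
      B * (p : ℝ) ^ (-(4 / 3 : ℝ)) * (C * Real.exp (∑ p ∈ S, F p / p)) := by
    intro p hp
    have hp' := hS p (mem_filter.1 hp).1
    have h2 : ∀ k ∈ 𝒦.filter (fun k => p ^ 2 ∣ k), 2 ≤ k.factorization p := fun k hk =>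
      (hp'.pow_dvd_iff_le_factorization (h𝒦 k (mem_filter.1 hk).1).1).1 (mem_filter.1 hk).2
    have h3 := iht_split hF hp' (fun j => (j : ℝ)) (fun j => Nat.cast_nonneg j)
      (𝒦.filter fun k => p ^ 2 ∣ k) fun k hk => (h𝒦 k (mem_filter.1 hk).1).1
    refine le_trans (sum_le_sum fun k hk => ?_) (h3.trans ?_)
    · have : (2 : ℝ) ≤ k.factorization p := by exact_mod_cast h2 k hk
      exact le_mul_of_one_le_left (hn k) (by linarith)
    · refine mul_le_mul (h F hF p hp' _ fun j hj => ?_) (hE F hF S _ hS fun m hm => ?_)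
        (sum_nonneg fun k _ => hn k) (by positivity)
      · obtain ⟨k, hk, rfl⟩ := mem_image.1 hj
        exact h2 k hk
      · obtain ⟨k, hk, rfl⟩ := mem_image.1 hm
        have h0 := h𝒦 k (mem_filter.1 hk).1
        exact ⟨(Nat.ordCompl_pos p h0.1).ne',
          (Nat.primeFactors_mono (Nat.ordCompl_dvd k p) h0.1).trans h0.2.1⟩
  refine (sum_le_sum h1).trans ?_
  rw [← sum_mul, ← mul_sum]
  have h4 := iht_tail_sum hy (S.filter fun p : ℕ => y < p) fun p hp => (mem_filter.1 hp).2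
  calc _ ≤ B * (6 * y ^ (-(1 / 3 : ℝ))) * (C * Real.exp (∑ p ∈ S, F p / p)) := by gcongr
    _ = _ := by ring

theorem iht_mem_upto {Z : ℝ} (hZ : 0 ≤ Z) {k : ℕ} : k ∈ upto Z ↔ k ≠ 0 ∧ (k : ℝ) ≤ Z := by
  rw [upto, mem_Icc, Nat.le_floor_iff hZ, Nat.one_le_iff_ne_zero]

theorem iht_log_sum : ∃ D : ℝ, 0 < D ∧ ∀ P : Finset ℕ,
    ∑ p ∈ P, Real.log p * (p : ℝ) ^ (-(4 / 3 : ℝ)) ≤ D := by
  have hs : Summable fun n : ℕ => 6 * (n : ℝ) ^ (-(7 / 6 : ℝ)) :=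
    (Real.summable_nat_rpow.2 (by norm_num)).mul_left _
  have hn : ∀ n : ℕ, 0 ≤ 6 * (n : ℝ) ^ (-(7 / 6 : ℝ)) := fun n => by positivity
  refine ⟨∑' n : ℕ, 6 * (n : ℝ) ^ (-(7 / 6 : ℝ)) + 1, add_pos_of_nonneg_of_pos (tsum_nonneg hn) one_pos,
    fun P => ?_⟩
  have h1 := hs.sum_le_tsum P fun n _ => hn n
  refine le_trans (sum_le_sum fun p _ => ?_) (h1.trans (by linarith))
  rcases Nat.eq_zero_or_pos p with rfl | hp
  · simp
  have hp0 : (0 : ℝ) < p := by exact_mod_cast hp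
  have h2 := Real.log_le_rpow_div hp0.le (ε := 1 / 6) (by norm_num)
  calc _ ≤ (p : ℝ) ^ (1 / 6 : ℝ) / (1 / 6) * (p : ℝ) ^ (-(4 / 3 : ℝ)) := by gcongr
    _ = 6 * ((p : ℝ) ^ (1 / 6 : ℝ) * (p : ℝ) ^ (-(4 / 3 : ℝ))) := by ring
    _ = _ := by rw [← Real.rpow_add hp0]; norm_num

theorem iht_one {A : ℕ} {F : ℕ → ℝ} (hF : SubM A F) {Z : ℝ} (hZ : 0 ≤ Z) {p : ℕ} (hp : p.Prime) :
    ∑ k ∈ (upto Z).filter (fun k => k.factorization p = 1), F k ≤
      ∑ m ∈ (upto Z).filter (fun m : ℕ => (p : ℝ) ≤ Z / m), A * F m := by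
  have hk : ∀ k : ℕ, k.factorization p = 1 → p * ordCompl[p] k = k := fun k h => by
    have := Nat.ordProj_mul_ordCompl_eq_self k p
    rw [h, pow_one] at this
    rw [h, pow_one]
    exact this
  have hinj : Set.InjOn (fun k : ℕ => ordCompl[p] k)
      ((upto Z).filter (fun k => k.factorization p = 1)) := by
    intro k h1 k' h2 h
    rw [← hk k (mem_filter.1 h1).2, ← hk k' (mem_filter.1 h2).2]
    exact congrArg _ h
  calc _ ≤ ∑ k ∈ (upto Z).filter (fun k => k.factorization p = 1), A * F (ordCompl[p] k) := by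
        refine sum_le_sum fun k h => ?_
        have h0 := ((iht_mem_upto hZ).1 (mem_filter.1 h).1).1
        have h1 := hF.mul _ _ hp.ne_zero (Nat.ordCompl_pos p h0).ne' (Nat.coprime_ordCompl hp h0)
        rw [hk k (mem_filter.1 h).2] at h1
        exact h1.trans (mul_le_mul_of_nonneg_right (hF.prime p hp) (hF.nonneg _))
    _ = ∑ m ∈ ((upto Z).filter (fun k => k.factorization p = 1)).image
          (fun k : ℕ => ordCompl[p] k), A * F m := by rw [sum_image hinj]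
    _ ≤ _ := by
        refine sum_le_sum_of_subset_of_nonneg (fun m hm => ?_) fun m _ _ =>
          mul_nonneg (Nat.cast_nonneg _) (hF.nonneg _)
        obtain ⟨k, h, rfl⟩ := mem_image.1 hm
        obtain ⟨h0, h1⟩ := (iht_mem_upto hZ).1 (mem_filter.1 h).1
        have h2 := Nat.ordCompl_pos p h0
        refine mem_filter.2 ⟨(iht_mem_upto hZ).2 ⟨h2.ne', le_trans ?_ h1⟩, ?_⟩
        · exact_mod_cast Nat.ordCompl_le k p
        · rw [le_div_iff₀ (by exact_mod_cast h2), ← Nat.cast_mul, hk k (mem_filter.1 h).2]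
          exact h1

theorem iht_one_sum {A : ℕ} {F : ℕ → ℝ} (hF : SubM A F) {Z : ℝ} (hZ : 0 ≤ Z) (S : Finset ℕ)
    (hS : ∀ p ∈ S, p.Prime) :
    ∑ p ∈ S, Real.log p * ∑ k ∈ (upto Z).filter (fun k => k.factorization p = 1), F k ≤
      A * Real.log 4 * Z * ∑ m ∈ upto Z, F m / m := by
  calc _ ≤ ∑ p ∈ S, Real.log p * ∑ m ∈ (upto Z).filter (fun m : ℕ => (p : ℝ) ≤ Z / m), A * F m :=
        sum_le_sum fun p hp =>
          mul_le_mul_of_nonneg_left (iht_one hF hZ (hS p hp)) (Real.log_natCast_nonneg p)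
    _ = ∑ m ∈ upto Z, A * F m * ∑ p ∈ S.filter (fun p : ℕ => (p : ℝ) ≤ Z / m), Real.log p := by
        simp only [sum_filter, mul_sum]
        rw [sum_comm]
        refine sum_congr rfl fun m _ => sum_congr rfl fun p _ => ?_
        split_ifs <;> ring
    _ ≤ ∑ m ∈ upto Z, A * F m * (Real.log 4 * (Z / m)) := by
        refine sum_le_sum fun m _ => mul_le_mul_of_nonneg_left ?_
          (mul_nonneg (Nat.cast_nonneg _) (hF.nonneg _))
        have h0 : 0 ≤ Z / m := div_nonneg hZ (Nat.cast_nonneg _)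
        refine le_trans ?_ (Chebyshev.theta_le_log4_mul_x h0)
        refine sum_le_sum_of_subset_of_nonneg (fun p hp => ?_) fun p _ _ =>
          Real.log_natCast_nonneg p
        have hp' := hS p (mem_filter.1 hp).1
        exact mem_filter.2 ⟨mem_Ioc.2 ⟨hp'.pos, (Nat.le_floor_iff h0).2 (mem_filter.1 hp).2⟩, hp'⟩
    _ = _ := by
        rw [mul_sum]
        exact sum_congr rfl fun m _ => by ring

theorem iht_two {A : ℕ} {F : ℕ → ℝ} (hF : SubM A F) {Z : ℝ} (hZ : 0 ≤ Z) {p : ℕ} (hp : p.Prime)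
    {b : ℝ} (hb0 : 0 ≤ b)
    (hb : ∀ J : Finset ℕ, (∀ j ∈ J, 2 ≤ j) → ∑ j ∈ J, (j : ℝ) * (F (p ^ j) / (p ^ j : ℕ)) ≤ b) :
    ∑ k ∈ (upto Z).filter (fun k => 2 ≤ k.factorization p), (k.factorization p : ℝ) * F k ≤
      Z * (b * ∑ m ∈ upto Z, F m / m) := by
  have hn : ∀ k, 0 ≤ F k / k := fun k => div_nonneg (hF.nonneg _) (Nat.cast_nonneg _)
  have h3 := iht_split hF hp (fun j => (j : ℝ)) (fun j => Nat.cast_nonneg j)
    ((upto Z).filter fun k => 2 ≤ k.factorization p)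
    fun k hk => ((iht_mem_upto hZ).1 (mem_filter.1 hk).1).1
  calc _ ≤ ∑ k ∈ (upto Z).filter (fun k => 2 ≤ k.factorization p),
          Z * ((k.factorization p : ℝ) * (F k / k)) := by
        refine sum_le_sum fun k hk => ?_
        obtain ⟨h0, h1⟩ := (iht_mem_upto hZ).1 (mem_filter.1 hk).1
        have h2 : (0 : ℝ) < k := by exact_mod_cast Nat.pos_of_ne_zero h0
        rw [mul_left_comm]
        refine mul_le_mul_of_nonneg_left ?_ (Nat.cast_nonneg _)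
        rw [← mul_div_assoc, le_div_iff₀ h2, mul_comm]
        exact mul_le_mul_of_nonneg_right h1 (hF.nonneg _)
    _ ≤ _ := by
        rw [← mul_sum]
        refine mul_le_mul_of_nonneg_left (h3.trans (mul_le_mul (hb _ fun j hj => ?_) ?_
          (sum_nonneg fun k _ => hn k) hb0)) hZ
        · obtain ⟨k, hk, rfl⟩ := mem_image.1 hj
          exact (mem_filter.1 hk).2
        · refine sum_le_sum_of_subset_of_nonneg (fun m hm => ?_) fun m _ _ => hn m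
          obtain ⟨k, h, rfl⟩ := mem_image.1 hm
          obtain ⟨h0, h1⟩ := (iht_mem_upto hZ).1 (mem_filter.1 h).1
          refine (iht_mem_upto hZ).2 ⟨(Nat.ordCompl_pos p h0).ne', le_trans ?_ h1⟩
          exact_mod_cast Nat.ordCompl_le k p

theorem iht_log_eq {k : ℕ} {S : Finset ℕ} (hS : k.primeFactors ⊆ S) :
    Real.log k = ∑ p ∈ S, (k.factorization p : ℝ) * Real.log p := by
  rw [Real.log_nat_eq_sum_factorization, Finsupp.sum]
  refine sum_subset hS fun p _ hp => ?_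
  rw [Finsupp.notMem_support_iff.1 hp]
  simp

/-- Hall–Tenenbaum.  `∑_{k ≤ Z} F(k) log (Z/k) ≤ Z ∑ F(k)/k`, and
`∑_{k ≤ Z} F(k) log k = ∑_k F(k) ∑_{p^j ∥ k} j log p ≤ ∑_m F(m) ∑_{p^j ≤ Z/m} F(p^j) j log p`
`≤ C ∑_m F(m) Z/m` (Chebyshev `Chebyshev.theta_le_log4_mul_x` for `j = 1`, and
`1 ≤ (Z/m)/p^j` with a convergent double series for `j ≥ 2`).  Then `euler_bound`. -/
theorem ht_bound (A : ℕ) : ∃ C : ℝ, 0 < C ∧ ∀ F : ℕ → ℝ, SubM A F → ∀ Z : ℝ, 2 ≤ Z →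
    ∑ k ∈ upto Z, F k ≤ C * (Z / Real.log Z) * Real.exp (pm F 0 (Real.log Z)) := by
  obtain ⟨B, hB, h⟩ := iht_pow A
  obtain ⟨C, hC, hE⟩ := euler_bound A
  obtain ⟨D, hD, hL⟩ := iht_log_sum
  have hl4 : 0 ≤ Real.log 4 := Real.log_nonneg (by norm_num)
  refine ⟨(1 + A * Real.log 4 + B * D) * C, by positivity, fun F hF Z hZ => ?_⟩
  have hZ0 : 0 ≤ Z := by linarith
  have hlog : 0 < Real.log Z := Real.log_pos (by linarith)
  set S := lp 0 (Real.log Z) with hSdef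
  have hS : ∀ p ∈ S, p.Prime := fun p hp => (mem_lp.1 hp).1
  have hK : ∀ k ∈ upto Z, k ≠ 0 ∧ k.primeFactors ⊆ S := fun k hk => by
    obtain ⟨h0, h1⟩ := (iht_mem_upto hZ0).1 hk
    refine ⟨h0, fun p hp => ?_⟩
    have hp' := Nat.prime_of_mem_primeFactors hp
    have h2 : (1 : ℝ) < p := by exact_mod_cast hp'.one_lt
    refine mem_lp.2 ⟨hp', Real.log_pos h2, Real.log_le_log (by linarith) (le_trans ?_ h1)⟩
    exact_mod_cast Nat.le_of_mem_primeFactors hp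
  have hEb := hE F hF S _ hS hK
  set E := ∑ k ∈ upto Z, F k / k with hEdef
  have hE0 : 0 ≤ E := sum_nonneg fun k _ => div_nonneg (hF.nonneg _) (Nat.cast_nonneg _)
  have h1 : ∑ k ∈ upto Z, F k * (Real.log Z - Real.log k) ≤ Z * E := by
    rw [hEdef, mul_sum]
    refine sum_le_sum fun k hk => ?_
    have h2 : (0 : ℝ) < k := by exact_mod_cast Nat.pos_of_ne_zero (hK k hk).1
    rw [← Real.log_div (by linarith) h2.ne', mul_div_left_comm]
    refine mul_le_mul_of_nonneg_left ?_ (hF.nonneg _)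
    have := Real.log_le_sub_one_of_pos (div_pos (by linarith : 0 < Z) h2)
    linarith
  have h2 : ∑ k ∈ upto Z, F k * Real.log k =
      ∑ p ∈ S, Real.log p * ∑ k ∈ (upto Z).filter (fun k => k.factorization p = 1), F k +
      ∑ p ∈ S, Real.log p * ∑ k ∈ (upto Z).filter (fun k => 2 ≤ k.factorization p),
        (k.factorization p : ℝ) * F k := by
    rw [← sum_add_distrib]
    simp only [sum_filter, mul_sum, ← sum_add_distrib]
    rw [sum_comm]
    refine sum_congr rfl fun k hk => ?_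
    rw [iht_log_eq (hK k hk).2, mul_sum]
    refine sum_congr rfl fun p _ => ?_
    generalize k.factorization p = j
    rcases j with _ | _ | j
    · simp
    · simp [mul_comm]
    · rw [if_neg (by omega), if_pos (by omega)]
      ring
  have h3 := iht_one_sum hF hZ0 S hS
  rw [← hEdef] at h3
  have h4 : ∑ p ∈ S, Real.log p * ∑ k ∈ (upto Z).filter (fun k => 2 ≤ k.factorization p),
      (k.factorization p : ℝ) * F k ≤ B * D * Z * E := by
    calc _ ≤ ∑ p ∈ S, Real.log p * (Z * (B * (p : ℝ) ^ (-(4 / 3 : ℝ)) * E)) :=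
          sum_le_sum fun p hp => mul_le_mul_of_nonneg_left
            (iht_two hF hZ0 (hS p hp) (by positivity) (h F hF p (hS p hp)))
            (Real.log_natCast_nonneg p)
      _ = B * (∑ p ∈ S, Real.log p * (p : ℝ) ^ (-(4 / 3 : ℝ))) * Z * E := by
          rw [mul_sum S, sum_mul, sum_mul]
          exact sum_congr rfl fun p _ => by ring
      _ ≤ _ := by gcongr; exact hL S
  have h5 : (∑ k ∈ upto Z, F k) * Real.log Z ≤ (1 + A * Real.log 4 + B * D) * Z * E := by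
    have : (∑ k ∈ upto Z, F k) * Real.log Z =
        ∑ k ∈ upto Z, F k * (Real.log Z - Real.log k) + ∑ k ∈ upto Z, F k * Real.log k := by
      rw [← sum_add_distrib, sum_mul]
      exact sum_congr rfl fun k _ => by ring
    rw [this, h2]
    linarith
  have h6 : (1 + A * Real.log 4 + B * D) * Z * E ≤
      (1 + A * Real.log 4 + B * D) * Z * (C * Real.exp (pm F 0 (Real.log Z))) :=
    mul_le_mul_of_nonneg_left hEb (by positivity)
  rw [← le_div_iff₀ hlog] at h5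
  refine h5.trans ((div_le_div_of_nonneg_right h6 hlog.le).trans (le_of_eq ?_))
  ring

end Crest.Agent.R014

end
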