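import Crest.Agent.R014.IDelG
import Crest.Agent.R014.IHT

/-! # Row 14: the total weight of smooth parts -/

set_option autoImplicit false

noncomputable section

open Finset Filter Topology
open scoped Classical

namespace Crest.Agent.R014

theorem ifw_ge_eq (n k : ℕ) : ge n k = Real.exp (∑ p ∈ k.primeFactors, (n : ℝ) / p) := by
  rw [ge, Real.exp_sum]

theorem ifw_ge_pos (n k : ℕ) : 0 < ge n k := by
  rw [ifw_ge_eq]; exact Real.exp_pos _

theorem ifw_inv_sq {S : Finset ℕ} (hS : ∀ p ∈ S, p.Prime) : ∑ p ∈ S, (1 : ℝ) / (p : ℝ) ^ 2 ≤ 2 := by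
  have := R008.sum_inv_sq_le 1 le_rfl S fun p hp => by exact_mod_cast (hS p hp).one_le
  rwa [div_one] at this

theorem ifw_exp_le {n p : ℕ} (hp : p.Prime) : Real.exp ((n : ℝ) / p) ≤ Real.exp n :=
  Real.exp_le_exp.2 (div_le_self (Nat.cast_nonneg n) (by exact_mod_cast hp.one_le))

theorem ifw_r2_le {n : ℕ} {r : ℕ → ℝ} (h : RM n r) {k : ℕ} (hk : k ≠ 0) :
    r2 r k ≤ (#k.divisors : ℝ) ^ (2 * n + 1) := by
  have h1 : ∀ d, d ∣ k → r d ≤ (#k.divisors : ℝ) ^ n := fun d hd =>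
    (h.le_card_divisors (ne_zero_of_dvd_ne_zero hk hd)).trans (by gcongr)
  rw [r2, Nat.sum_divisorsAntidiagonal fun x y => r x * r y]
  refine (sum_le_sum (g := fun _ => (#k.divisors : ℝ) ^ n * (#k.divisors : ℝ) ^ n)
    fun d hd => ?_).trans (le_of_eq ?_)
  · have hd' := Nat.dvd_of_mem_divisors hd
    exact mul_le_mul (h1 d hd') (h1 _ (Nat.div_dvd_of_dvd hd')) (h.nonneg _) (by positivity)
  · rw [sum_const, nsmul_eq_mul]; ring

theorem ifw_r2_prod {n : ℕ} {r : ℕ → ℝ} (h : RM n r) {T : Finset ℕ} (hT : ∀ p ∈ T, p.Prime) :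
    r2 r (∏ p ∈ T, p) = 2 ^ #T * ∏ p ∈ T, r p := by
  induction T using Finset.induction_on with
  | empty => simp [h.r2_one]
  | insert q T hq ih =>
    have hqp := hT q (mem_insert_self _ _)
    have hT' : ∀ p ∈ T, p.Prime := fun p hp => hT p (mem_insert_of_mem hp)
    rw [prod_insert hq, prod_insert hq, card_insert_of_notMem hq, h.r2_mul hqp.ne_zero
      (prod_ne_zero_iff.2 fun p hp => (hT' p hp).ne_zero)
      (Nat.Coprime.prod_right fun p hp => (Nat.coprime_primes hqp (hT' p hp)).2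
        fun e => hq (e ▸ hp)), h.r2_prime hqp, ih hT']
    ring

theorem ifw_k0_k1 (π : Par) {k : ℕ} (hk : k ≠ 0) : π.k0 k * π.k1 k = k := npart_mul_npart _ hk

theorem ifw_coprime (π : Par) (k : ℕ) : (π.k0 k).Coprime (π.k1 k) := npart_coprime _ k k

theorem ifw_sum_inj {ι α β : Type} (s : Finset ι) (A : Finset α) (B : Finset β) (e₁ : ι → α)
    (e₂ : ι → β) (h₁ : ∀ i ∈ s, e₁ i ∈ A) (h₂ : ∀ i ∈ s, e₂ i ∈ B)
    (hinj : ∀ i ∈ s, ∀ j ∈ s, e₁ i = e₁ j → e₂ i = e₂ j → i = j) {a : α → ℝ} {b : β → ℝ}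
    (ha : ∀ x, 0 ≤ a x) (hb : ∀ y, 0 ≤ b y) :
    ∑ i ∈ s, a (e₁ i) * b (e₂ i) ≤ (∑ x ∈ A, a x) * ∑ y ∈ B, b y := by
  rw [sum_mul_sum, ← sum_product', ← sum_image (s := s) (g := fun i => (e₁ i, e₂ i))
    (f := fun z : α × β => a z.1 * b z.2)
    fun i hi j hj e => hinj i hi j hj (congrArg Prod.fst e) (congrArg Prod.snd e)]
  refine sum_le_sum_of_subset_of_nonneg (fun z hz => ?_) fun z _ _ => mul_nonneg (ha _) (hb _)
  obtain ⟨i, hi, rfl⟩ := mem_image.1 hz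
  exact mem_product.2 ⟨h₁ i hi, h₂ i hi⟩

/-- The function `r2 r k * gg k * ge n k` is in `SubM`, and its value at `p` is
`2 r p exp (n/p) ≤ 2 r p + C/p`. -/
theorem subM_r2 (n : ℕ) : ∃ (A : ℕ) (C : ℝ), ∀ r : ℕ → ℝ, RM n r →
    SubM A (fun k => r2 r k * gg k * ge n k) ∧ ∀ S : Finset ℕ, (∀ p ∈ S, p.Prime) →
      ∑ p ∈ S, r2 r p * gg p * ge n p / p ≤ 2 * ∑ p ∈ S, r p / p + C := by
  obtain ⟨A, hA⟩ : ∃ A : ℕ, (2 * n + 1) * Real.exp n ≤ A := ⟨_, Nat.le_ceil _⟩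
  have hn : (0 : ℝ) ≤ n := Nat.cast_nonneg n
  have he : 1 ≤ Real.exp n := Real.one_le_exp hn
  have hA1 : Real.exp n ≤ A := by nlinarith
  have hA2 : 2 * n + 1 ≤ A := by
    have : (2 * n + 1 : ℝ) ≤ A := by nlinarith
    exact_mod_cast this
  refine ⟨A, 4 * n ^ 2 * Real.exp n, fun r h => ?_⟩
  have hp : ∀ p : ℕ, p.Prime → r2 r p * gg p * ge n p = 2 * r p * Real.exp ((n : ℝ) / p) :=
    fun p hp => by
      rw [h.r2_prime hp, gg_squarefree hp.squarefree, mul_one, ge, hp.primeFactors, prod_singleton]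
  refine ⟨⟨fun k => mul_nonneg (mul_nonneg (r2_nonneg h.nonneg k) (zero_le_one.trans (one_le_gg k)))
    (ifw_ge_pos n k).le, ?_, fun a b ha hb hab => le_of_eq ?_, fun p hpp => ?_,
    fun p j hpp hj => ?_⟩, fun S hS => ?_⟩
  · simp [h.r2_one, gg, ge]
  · rw [h.r2_mul ha hb hab, gg_mul ha hb hab, ge_mul n ha hb hab]; ring
  · rw [hp p hpp]
    calc 2 * r p * Real.exp ((n : ℝ) / p) ≤ 2 * n * Real.exp n := by
          have := h.prime p hpp
          have := ifw_exp_le (n := n) hpp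
          gcongr
      _ ≤ _ := by nlinarith
  · have hj0 : j ≠ 0 := by omega
    have e1 : gg (p ^ j) = (p : ℝ) ^ ((j : ℝ) / 3) := by
      rw [gg, Nat.primeFactors_prime_pow hj0 hpp, prod_singleton, hpp.factorization_pow,
        Finsupp.single_eq_same, if_neg (by omega)]
    have e2 : ge n (p ^ j) = Real.exp ((n : ℝ) / p) := by
      rw [ge, Nat.primeFactors_prime_pow hj0 hpp, prod_singleton]
    have h1 : r2 r (p ^ j) ≤ ((j : ℝ) + 1) ^ A := (h.r2_pow hpp j).trans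
      (pow_le_pow_right₀ (le_add_of_nonneg_left (Nat.cast_nonneg j)) hA2)
    have h2 := (ifw_exp_le (n := n) hpp).trans hA1
    simp only [e1, e2]
    calc r2 r (p ^ j) * (p : ℝ) ^ ((j : ℝ) / 3) * Real.exp ((n : ℝ) / p)
        ≤ ((j : ℝ) + 1) ^ A * (p : ℝ) ^ ((j : ℝ) / 3) * A := by gcongr
      _ = _ := by ring
  · have h1 : ∀ p ∈ S, r2 r p * gg p * ge n p / p ≤
        2 * (r p / p) + 2 * n ^ 2 * Real.exp n * (1 / (p : ℝ) ^ 2) := fun p hpS => by
      have hpp := hS p hpS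
      have hp0 : (0 : ℝ) < p := by exact_mod_cast hpp.pos
      have a1 : Real.exp ((n : ℝ) / p) ≤ 1 + n / p * Real.exp n := by
        have b1 := Real.add_one_le_exp (-((n : ℝ) / p))
        have b2 : Real.exp ((n : ℝ) / p) * Real.exp (-((n : ℝ) / p)) = 1 := by
          rw [← Real.exp_add, add_neg_cancel, Real.exp_zero]
        have b3 := mul_le_mul_of_nonneg_left b1 (Real.exp_pos ((n : ℝ) / p)).le
        have b4 := mul_le_mul_of_nonneg_left (ifw_exp_le (n := n) hpp) (div_nonneg hn hp0.le)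
        linarith
      have a2 := h.prime p hpp
      have a3 := h.nonneg p
      rw [hp p hpp]
      calc 2 * r p * Real.exp ((n : ℝ) / p) / p ≤ 2 * r p * (1 + n / p * Real.exp n) / p := by
            gcongr
        _ = 2 * (r p / p) + 2 * (r p * n) * Real.exp n * (1 / (p : ℝ) ^ 2) := by field_simp
        _ ≤ 2 * (r p / p) + 2 * (n * n) * Real.exp n * (1 / (p : ℝ) ^ 2) := by gcongr
        _ = _ := by ring
    refine (sum_le_sum h1).trans ?_
    rw [sum_add_distrib, ← mul_sum, ← mul_sum]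
    have := mul_le_mul_of_nonneg_left (ifw_inv_sq hS) (show 0 ≤ 2 * n ^ 2 * Real.exp n by positivity)
    linarith

/-- If `k1` is squarefree, `k ↦ (k0, primeFactors k1)` is injective, `gg k = gg k0`,
`ge n k1 ≤ exp (2 n)` (`ω(k1) ≤ log k / u0 ≤ 2 e^{u0}`, `p ≥ e^{u0}`), `r k1 / k1 = ∏ r p / p`; use
`euler_bound` for `k0` and `delta_bound`.  Otherwise `euler_tail` with `y = exp (U/2^J)`,
`y^{1/3} ≥ U`. -/
theorem fw_sum (n : ℕ) (C0 : ℝ) : ∃ C u1 : ℝ, 0 < C ∧ ∀ (r : ℕ → ℝ) (π : Par) (u0 W : ℝ)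
    (𝒦 : Finset ℕ), RM n r → Equi C0 r u0 → u1 ≤ u0 → π.Ok u0 → 0 ≤ W →
    (∀ k ∈ 𝒦, k ≠ 0 ∧ (k : ℝ) ≤ π.E ^ 2 ∧ k.primeFactors ⊆ lp 0 π.U) →
    ∑ k ∈ 𝒦, Fw r π W k * gg k * ge n k / k ≤
      C * (2 * W + 1) * (4 : ℝ) ^ π.κ * π.U * kap r π.U ^ 2 := by
  obtain ⟨A, C₁, hsub⟩ := subM_r2 n
  obtain ⟨Ce, hCe, heb⟩ := euler_bound A
  obtain ⟨Ct, hCt, het⟩ := euler_tail A
  obtain ⟨Cd, u1, hCd, hdel⟩ := delta_bound C0
  refine ⟨Real.exp (2 * n) * Ce * Real.exp C₁ * Cd + Ct * Real.exp C₁, max u1 1, by positivity,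
    fun r π u0 W 𝒦 h hE hu hπ hW h𝒦 => ?_⟩
  obtain ⟨hF, hS⟩ := hsub r h
  have hu1 : 1 ≤ u0 := (le_max_right _ _).trans hu
  have hU1 : 1 ≤ π.U := (one_le_pow₀ hu1).trans hπ.big
  have hU0 : 0 < π.U := by linarith
  obtain ⟨u, hu'⟩ : ∃ u : ℝ, u = π.U / 2 ^ π.J := ⟨_, rfl⟩
  have hlow : u0 ≤ u := hu' ▸ hπ.low
  have huU : u ≤ π.U := hu' ▸ div_le_self hU0.le (one_le_pow₀ one_le_two)
  have hkap : π.U * kap r π.U ^ 2 = Real.exp (2 * pm r 0 π.U) / π.U := by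
    rw [kap, div_pow, ← Real.exp_nat_mul, Nat.cast_ofNat]; field_simp
  have h4 : 1 ≤ (4 : ℝ) ^ π.κ := Real.one_le_rpow (by norm_num) hπ.kap
  have hexp : ∀ β : ℝ, Real.exp (∑ p ∈ lp 0 β, r2 r p * gg p * ge n p / p) ≤
      Real.exp C₁ * Real.exp (2 * pm r 0 β) := fun β => by
    rw [← Real.exp_add, add_comm]
    exact Real.exp_le_exp.2 (hS _ fun p hp => (mem_lp.1 hp).1)
  have hpf1 : ∀ k p, p ∈ (π.k1 k).primeFactors ↔ p ∈ k.primeFactors ∧ u < Real.log p := by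
    intro k p
    rw [Par.k1, primeFactors_npart]
    simp only [mem_filter, not_le, hu']
  have hpf0 : ∀ k p, p ∈ (π.k0 k).primeFactors ↔ p ∈ k.primeFactors ∧ Real.log p ≤ u := by
    intro k p
    rw [Par.k0, primeFactors_npart]
    simp only [mem_filter, hu']
  -- the non squarefree part
  have part2 : ∑ k ∈ 𝒦.filter fun k => ¬ Squarefree (π.k1 k), Fw r π W k * gg k * ge n k / k ≤
      Ct * Real.exp C₁ * (Real.exp (2 * pm r 0 π.U) / π.U) := by
    have h1 := het _ hF (lp 0 π.U) (𝒦.filter fun k => ¬ Squarefree (π.k1 k)) (Real.exp u)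
      (Real.one_le_exp (by linarith)) (fun p hp => (mem_lp.1 hp).1) fun k hk => by
        obtain ⟨hk, hsq⟩ := mem_filter.1 hk
        obtain ⟨hk0, -, hkp⟩ := h𝒦 k hk
        refine ⟨hk0, hkp, ?_⟩
        rw [Nat.squarefree_iff_prime_squarefree] at hsq
        push Not at hsq
        obtain ⟨p, hp, hd⟩ := hsq
        have hp0 : (0 : ℝ) < p := by exact_mod_cast hp.pos
        refine ⟨p, hp, ?_, ?_⟩
        · rw [← Real.lt_log_iff_exp_lt hp0]
          exact ((hpf1 k p).1 (Nat.mem_primeFactors.2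
            ⟨hp, (dvd_mul_right p p).trans hd, npart_ne_zero _ _⟩)).2
        · rw [sq]
          exact hd.trans (Dvd.intro_left _ (ifw_k0_k1 π hk0))
    have h2 : Real.exp u ^ (-(1 / 3 : ℝ)) ≤ π.U⁻¹ := by
      rw [← Real.exp_mul, mul_neg, Real.exp_neg]
      refine inv_anti₀ hU0 (le_of_pow_le_pow_left₀ (n := 3) (by norm_num) (Real.exp_pos _).le ?_)
      rw [← Real.exp_nat_mul]
      exact hπ.small.trans (Real.exp_le_exp.2 (by push_cast; linarith))
    refine le_trans (le_of_eq (sum_congr rfl fun k hk => ?_)) (h1.trans ?_)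
    · rw [Fw, if_neg (mem_filter.1 hk).2]
    · calc _ ≤ Ct * π.U⁻¹ * (Real.exp C₁ * Real.exp (2 * pm r 0 π.U)) := by
            have := hexp π.U
            gcongr
        _ = _ := by ring
  -- the squarefree part
  have part1 : ∑ k ∈ 𝒦.filter fun k => Squarefree (π.k1 k), Fw r π W k * gg k * ge n k / k ≤
      (2 * W + 1) * Real.exp (2 * n) * ((Ce * (Real.exp C₁ * Real.exp (2 * pm r 0 u))) *
        (Cd * (4 : ℝ) ^ π.κ * Real.exp (2 * pm r u π.U) / π.U)) := by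
    obtain ⟨𝒦', h𝒦'⟩ : ∃ 𝒦' : Finset ℕ, 𝒦' = (𝒦.filter fun k => Squarefree (π.k1 k)).filter
      fun k => G2 π.U π.J 1.36 (2 * π.κ) (π.k1 k).primeFactors := ⟨_, rfl⟩
    have hmem : ∀ k ∈ 𝒦', k ∈ 𝒦 ∧ Squarefree (π.k1 k) ∧
        G2 π.U π.J 1.36 (2 * π.κ) (π.k1 k).primeFactors := fun k hk => by
      rw [h𝒦', mem_filter, mem_filter] at hk
      exact ⟨hk.1.1, hk.1.2, hk.2⟩
    have e0 : ∑ k ∈ 𝒦.filter fun k => Squarefree (π.k1 k), Fw r π W k * gg k * ge n k / k =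
        ∑ k ∈ 𝒦', Fw r π W k * gg k * ge n k / k := by
      rw [h𝒦']
      refine (sum_filter_of_ne fun k hk hne => ?_).symm
      by_contra hG
      rw [Fw, if_pos (mem_filter.1 hk).2, if_neg hG] at hne
      simp at hne
    have hterm : ∀ k ∈ 𝒦', Fw r π W k * gg k * ge n k / k ≤ (2 * W + 1) * Real.exp (2 * n) *
        ((r2 r (π.k0 k) * gg (π.k0 k) * ge n (π.k0 k) / (π.k0 k : ℕ)) *
          ((∏ p ∈ (π.k1 k).primeFactors, r p / p) * Dl (π.k1 k).primeFactors)) := fun k hk => by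
      obtain ⟨hk, hsq, hG⟩ := hmem k hk
      obtain ⟨hk0, hkE, -⟩ := h𝒦 k hk
      have z0 : π.k0 k ≠ 0 := npart_ne_zero _ _
      have z1 : π.k1 k ≠ 0 := npart_ne_zero _ _
      have hprod := Nat.prod_primeFactors_of_squarefree hsq
      have hprod' : ∏ p ∈ (π.k1 k).primeFactors, (p : ℝ) = (π.k1 k : ℕ) := by
        rw [← Nat.cast_prod, hprod]
      have a1 : gg k = gg (π.k0 k) := by
        conv_lhs => rw [← ifw_k0_k1 π hk0]
        rw [gg_mul z0 z1 (ifw_coprime π k), gg_squarefree hsq, mul_one]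
      have a2 : ge n k = ge n (π.k0 k) * ge n (π.k1 k) := by
        conv_lhs => rw [← ifw_k0_k1 π hk0]
        exact ge_mul n z0 z1 (ifw_coprime π k)
      have a3 : ∏ p ∈ (π.k1 k).primeFactors, r p / p = r (π.k1 k) / (π.k1 k : ℕ) := by
        rw [prod_div_distrib, hprod', ← h.prod_primes fun p hp => Nat.prime_of_mem_primeFactors hp,
          hprod]
      have a4 : (k : ℝ) = (π.k0 k : ℕ) * (π.k1 k : ℕ) := by
        rw [← Nat.cast_mul, ifw_k0_k1 π hk0]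
      have a5 : ge n (π.k1 k) ≤ Real.exp (2 * n) := by
        rw [ifw_ge_eq]
        refine Real.exp_le_exp.2 ?_
        have b1 : ∑ p ∈ (π.k1 k).primeFactors, Real.log p ≤ 2 * Real.exp u0 := by
          rw [← Real.log_prod fun p hp => by
            exact_mod_cast (Nat.prime_of_mem_primeFactors hp).ne_zero, hprod']
          have c1 : ((π.k1 k : ℕ) : ℝ) ≤ k := by
            exact_mod_cast Nat.le_of_dvd (Nat.pos_of_ne_zero hk0)
              (Dvd.intro_left _ (ifw_k0_k1 π hk0))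
          have c2 := Real.log_le_log (by exact_mod_cast Nat.pos_of_ne_zero z1) (c1.trans hkE)
          rw [Real.log_pow] at c2
          have := hπ.E2
          push_cast at c2
          linarith
        calc ∑ p ∈ (π.k1 k).primeFactors, (n : ℝ) / p
            ≤ ∑ p ∈ (π.k1 k).primeFactors, n / Real.exp u0 * Real.log p := by
              refine sum_le_sum fun p hp => ?_
              have hp0 : (0 : ℝ) < p := by exact_mod_cast (Nat.prime_of_mem_primeFactors hp).pos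
              have c1 : u0 < Real.log p := hlow.trans_lt ((hpf1 k p).1 hp).2
              have c2 : Real.exp u0 ≤ p := ((Real.lt_log_iff_exp_lt hp0).1 c1).le
              calc (n : ℝ) / p ≤ n / Real.exp u0 := by gcongr
                _ ≤ _ := le_mul_of_one_le_right (by positivity) (by linarith)
          _ ≤ n / Real.exp u0 * (2 * Real.exp u0) := by
              rw [← mul_sum]; gcongr
          _ = 2 * n := by field_simp
      have p0 := r2_nonneg h.nonneg (π.k0 k)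
      have p1 := h.nonneg (π.k1 k)
      have p2 := zero_le_one.trans (one_le_gg (π.k0 k))
      have p3 := (ifw_ge_pos n (π.k0 k)).le
      rw [Fw, if_pos hsq, if_pos hG, a1, a2, a3, a4]
      calc _ ≤ r2 r (π.k0 k) * r (π.k1 k) * ((2 * W + 1) * Dl (π.k1 k).primeFactors) *
            gg (π.k0 k) * (ge n (π.k0 k) * Real.exp (2 * n)) /
            (((π.k0 k : ℕ) : ℝ) * (π.k1 k : ℕ)) := by gcongr
        _ = _ := by ring
    have hinj := ifw_sum_inj 𝒦' (𝒦'.image π.k0) ((lp (π.U / 2 ^ π.J) π.U).powerset.filter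
      fun T => G2 π.U π.J 1.36 (2 * π.κ) T) π.k0 (fun k => (π.k1 k).primeFactors)
      (fun k hk => mem_image_of_mem _ hk)
      (fun k hk => by
        obtain ⟨hk, -, hG⟩ := hmem k hk
        refine mem_filter.2 ⟨mem_powerset.2 fun p hp => ?_, hG⟩
        obtain ⟨h1, h2⟩ := (hpf1 k p).1 hp
        have h3 := mem_lp.1 ((h𝒦 k hk).2.2 h1)
        exact mem_lp.2 ⟨h3.1, hu' ▸ h2, h3.2.2⟩)
      (fun k hk k' hk' e0 e1 => by
        obtain ⟨hk, hsq, -⟩ := hmem k hk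
        obtain ⟨hk', hsq', -⟩ := hmem k' hk'
        rw [← ifw_k0_k1 π (h𝒦 k hk).1, ← ifw_k0_k1 π (h𝒦 k' hk').1, e0,
          ← Nat.prod_primeFactors_of_squarefree hsq, ← Nat.prod_primeFactors_of_squarefree hsq', e1])
      (a := fun x => r2 r x * gg x * ge n x / x)
      (b := fun T => (∏ p ∈ T, r p / p) * Dl T)
      (fun x => div_nonneg (hF.nonneg x) (Nat.cast_nonneg x))
      (fun T => mul_nonneg (prod_nonneg fun p _ => div_nonneg (h.nonneg p) (Nat.cast_nonneg p))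
        (Nat.cast_nonneg _))
    have hA := (heb _ hF (lp 0 u) (𝒦'.image π.k0) (fun p hp => (mem_lp.1 hp).1) fun x hx => by
      obtain ⟨k, hk, rfl⟩ := mem_image.1 hx
      refine ⟨npart_ne_zero _ _, fun p hp => ?_⟩
      obtain ⟨h1, h2⟩ := (hpf0 k p).1 hp
      have h3 := mem_lp.1 ((h𝒦 k (hmem k hk).1).2.2 h1)
      exact mem_lp.2 ⟨h3.1, h3.2.1, h2⟩).trans (mul_le_mul_of_nonneg_left (hexp u) hCe.le)
    have hB := hdel r π u0 h.nonneg hE ((le_max_left _ _).trans hu) hπ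
    rw [e0]
    refine (sum_le_sum hterm).trans ?_
    rw [← mul_sum]
    refine mul_le_mul_of_nonneg_left (hinj.trans ?_) (by positivity)
    rw [hu'] at hA ⊢
    exact mul_le_mul hA hB (sum_nonneg fun T _ => mul_nonneg
      (prod_nonneg fun p _ => div_nonneg (h.nonneg p) (Nat.cast_nonneg p)) (Nat.cast_nonneg _))
      (by positivity)
  have hpm : Real.exp (2 * pm r 0 π.U) = Real.exp (2 * pm r 0 u) * Real.exp (2 * pm r u π.U) := by
    rw [pm_add r (show 0 ≤ u by linarith) huU, mul_add, Real.exp_add]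
  have hW1 : 1 ≤ (2 * W + 1) * (4 : ℝ) ^ π.κ :=
    one_le_mul_of_one_le_of_one_le (by linarith) h4
  have hpos : 0 ≤ Ct * Real.exp C₁ * (Real.exp (2 * pm r 0 π.U) / π.U) := by positivity
  have part2' := part2.trans (le_mul_of_one_le_left hpos hW1)
  rw [← sum_filter_add_sum_filter_not 𝒦 fun k => Squarefree (π.k1 k), mul_assoc _ π.U, hkap]
  refine (add_le_add part1 part2').trans (le_of_eq ?_)
  rw [hpm]
  ring

/-- `r k1 * 2^{ω(k1)} = r2 r k1` for squarefree `k1`, `r2 r k ≤ τ(k)^{2n+1}`. -/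
theorem fw_le (n : ℕ) : ∃ C : ℝ, 0 < C ∧ ∀ (r : ℕ → ℝ) (π : Par) (W : ℝ) (k : ℕ), RM n r → 0 ≤ W →
    k ≠ 0 → 0 ≤ Fw r π W k ∧ Fw r π W k ≤ C * (2 * W + 1) * k := by
  obtain ⟨C, hC, hb⟩ := card_divisors_le (2 * n + 1) one_pos
  refine ⟨C, hC, fun r π W k h hW hk => ?_⟩
  have h1 : r2 r k ≤ C * k := by
    have := hb k hk
    rw [Real.rpow_one] at this
    exact (ifw_r2_le h hk).trans this
  have h0 := r2_nonneg h.nonneg k
  have h2 : (2 * W + 1) * r2 r k ≤ C * (2 * W + 1) * k := by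
    calc _ ≤ (2 * W + 1) * (C * k) := by gcongr
      _ = _ := by ring
  unfold Fw
  split_ifs with hsq hG
  · have p0 := r2_nonneg h.nonneg (π.k0 k)
    have p1 := h.nonneg (π.k1 k)
    refine ⟨by positivity, le_trans ?_ h2⟩
    have hT : ∀ p ∈ (π.k1 k).primeFactors, p.Prime := fun p hp => Nat.prime_of_mem_primeFactors hp
    have e1 := ifw_r2_prod h hT
    rw [← h.prod_primes hT, Nat.prod_primeFactors_of_squarefree hsq] at e1
    have e2 : r2 r k = r2 r (π.k0 k) * r2 r (π.k1 k) := by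
      conv_lhs => rw [← ifw_k0_k1 π hk]
      exact h.r2_mul (npart_ne_zero _ _) (npart_ne_zero _ _) (ifw_coprime π k)
    have e3 : (Dl (π.k1 k).primeFactors : ℝ) ≤ 2 ^ #(π.k1 k).primeFactors := by
      exact_mod_cast Dl_le _
    rw [e2, e1]
    calc _ ≤ r2 r (π.k0 k) * r (π.k1 k) * ((2 * W + 1) * 2 ^ #(π.k1 k).primeFactors) := by gcongr
      _ = _ := by ring
  · exact ⟨le_rfl, by positivity⟩
  · exact ⟨h0, (le_mul_of_one_le_left h0 (by linarith)).trans h2⟩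

/-- `1 - x ≤ exp (-x)`; the missing primes are `p ≤ 2 n`, those with `r p = 0`, and `p ∣ k`. -/
theorem sieve_prod_le (n : ℕ) : ∃ C : ℝ, 0 < C ∧ ∀ (r g : ℕ → ℝ) (U : ℝ) (k : ℕ) (𝒮 : Finset ℕ),
    RM n r → 0 < U → k ≠ 0 → (∀ p ∈ 𝒮, p.Prime ∧ r p / p - (n : ℝ) ^ 2 / (p : ℝ) ^ 2 ≤ g p ∧ g p ≤ 1) →
    (∀ p ∈ lp 0 U, p ∈ 𝒮 ∨ p ≤ 2 * n ∨ r p = 0 ∨ p ∣ k) → 𝒮 ⊆ lp 0 U →
    ∏ p ∈ 𝒮, (1 - g p) ≤ C * ge n k / (U * kap r U) := by
  refine ⟨Real.exp (2 * n ^ 2 + (2 * n + 1) * n), Real.exp_pos _,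
    fun r g U k 𝒮 h hU hk hg hcov hsub => ?_⟩
  have hn : (0 : ℝ) ≤ n := Nat.cast_nonneg n
  have e1 : U * kap r U = Real.exp (pm r 0 U) := by rw [kap]; field_simp
  rw [e1, ifw_ge_eq, ← Real.exp_add, ← Real.exp_sub]
  have h1 : ∏ p ∈ 𝒮, (1 - g p) ≤ Real.exp (∑ p ∈ 𝒮, -g p) := by
    rw [Real.exp_sum]
    refine prod_le_prod (fun p hp => sub_nonneg.2 (hg p hp).2.2) fun p _ => ?_
    have := Real.add_one_le_exp (-g p)
    linarith
  refine h1.trans (Real.exp_le_exp.2 ?_)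
  have h2 : ∑ p ∈ 𝒮, -g p ≤ 2 * n ^ 2 - ∑ p ∈ 𝒮, r p / p := by
    have a1 : ∑ p ∈ 𝒮, -g p ≤ ∑ p ∈ 𝒮, ((n : ℝ) ^ 2 * (1 / (p : ℝ) ^ 2) - r p / p) :=
      sum_le_sum fun p hp => by
        have := (hg p hp).2.1
        rw [mul_one_div]; linarith
    rw [sum_sub_distrib, ← mul_sum] at a1
    have := mul_le_mul_of_nonneg_left (ifw_inv_sq fun p hp => (hg p hp).1) (sq_nonneg (n : ℝ))
    linarith
  have h3 : ∑ p ∈ lp 0 U \ 𝒮, r p / p ≤ (2 * n + 1) * n + ∑ p ∈ k.primeFactors, (n : ℝ) / p := by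
    have a1 : ∀ p ∈ lp 0 U \ 𝒮, r p / p ≤ (if p ∈ range (2 * n + 1) then (n : ℝ) else 0) +
        if p ∈ k.primeFactors then (n : ℝ) / p else 0 := fun p hp => by
      obtain ⟨hp, hp'⟩ := mem_sdiff.1 hp
      have hpp := (mem_lp.1 hp).1
      have b1 : r p / p ≤ (n : ℝ) / p := div_le_div_of_nonneg_right (h.prime p hpp) (Nat.cast_nonneg p)
      have b2 : (n : ℝ) / p ≤ n := div_le_self hn (by exact_mod_cast hpp.one_le)
      have b3 : 0 ≤ (if p ∈ range (2 * n + 1) then (n : ℝ) else 0) := by split_ifs <;> positivity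
      have b4 : 0 ≤ (if p ∈ k.primeFactors then (n : ℝ) / p else 0) := by split_ifs <;> positivity
      rcases (hcov p hp).resolve_left hp' with h1 | h1 | h1
      · rw [if_pos (mem_range.2 (by omega))]; linarith
      · rw [h1, zero_div]; linarith
      · rw [if_pos (Nat.mem_primeFactors.2 ⟨hpp, h1, hk⟩)]; linarith
    refine (sum_le_sum a1).trans ?_
    rw [sum_add_distrib, ← sum_filter, ← sum_filter]
    refine add_le_add ?_ (sum_le_sum_of_subset_of_nonneg (fun p hp => (mem_filter.1 hp).2)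
      fun p _ _ => by positivity)
    refine (sum_le_sum_of_subset_of_nonneg (t := range (2 * n + 1))
      (fun p hp => (mem_filter.1 hp).2) fun p _ _ => hn).trans (le_of_eq ?_)
    rw [sum_const, card_range, nsmul_eq_mul]
    push_cast
    ring
  have h4 : pm r 0 U = ∑ p ∈ lp 0 U \ 𝒮, r p / p + ∑ p ∈ 𝒮, r p / p := (sum_sdiff hsub).symm
  linarith

end Crest.Agent.R014

end
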