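import Crest.Agent.R014.ISv
import Crest.Agent.R026.SieveAux

/-! # Row 14: the upper bound sieve in a cube -/

set_option autoImplicit false

noncomputable section

open Finset Filter Topology
open scoped Classical

namespace Crest.Agent.R014

open Crest.Agent.R008 Crest.Agent.R026 in
theorem isv2_exists (n : ℕ) : ∃ K : ℝ, 0 < K ∧ ∀ (g : ℕ → ℝ) (J : ℕ) (z : ℝ) (P : Finset ℕ), 1 ≤ z →
    z < 2 ^ (2 ^ J) →
    (∀ p ∈ P, p.Prime ∧ (p : ℝ) ≤ z ∧ 0 ≤ g p ∧ g p ≤ 1 / 2 ∧ g p ≤ n / (p : ℝ)) → ∀ b : ℕ,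
    ∃ l e : Finset ℕ → ℝ, SvW P g (z ^ (4 * b + 6)) (Real.exp (4 * (K / 2 ^ b))) l e := by
  obtain ⟨c, hc⟩ := sv_mass
  refine ⟨Real.exp (4 * (n * c)), Real.exp_pos _, fun g J => ?_⟩
  induction J with
  | zero =>
    intro z P hz hz2 hP b
    have he : P = ∅ := by
      refine eq_empty_of_forall_notMem fun p hp => ?_
      obtain ⟨h1, h3, -⟩ := hP p hp
      have : (2 : ℝ) ≤ p := by exact_mod_cast h1.two_le
      norm_num at hz2
      linarith
    rw [he]
    refine ⟨fun _ => 1, fun _ => 0, fun S => by simp, fun S hS _ => ?_, fun w _ => ?_,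
      fun w _ => ?_, ?_⟩
    · rw [subset_empty.1 hS]
      simpa [pr] using one_le_pow₀ hz
    · simp [svV, svEv]
    · simp [svV, svEv]
    · simp only [svV, svEv, prod_empty, zero_mul, sum_const_zero, mul_zero, zero_add, mul_one]
      exact Real.one_le_exp (by positivity)
  | succ J ih =>
    intro z P hz hz2 hP b
    have hs : 1 ≤ √z := Real.one_le_sqrt.2 hz
    have hsz : √z * √z = z := Real.mul_self_sqrt (by linarith)
    have hs2 : √z < 2 ^ (2 ^ J) := by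
      rw [Real.sqrt_lt' (by positivity), ← pow_mul, ← pow_succ]
      exact hz2
    obtain ⟨l, e, h⟩ := ih (√z) (P.filter (fun p : ℕ => (p : ℝ) ≤ √z)) hs hs2 (fun p hp => by
      obtain ⟨h1, h2⟩ := mem_filter.1 hp
      exact ⟨(hP p h1).1, h2, (hP p h1).2.2⟩) (b + 1)
    have hB := sv_block (P.filter (fun p : ℕ => ¬ (p : ℝ) ≤ √z)) g
      (fun p hp => ⟨(hP p (mem_filter.1 hp).1).2.2.1, (hP p (mem_filter.1 hp).1).2.2.2.1⟩)
      z (n * c) hz (fun p hp => (hP p (mem_filter.1 hp).1).2.1) (by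
        refine le_trans (sum_le_sum fun p hp => (hP p (mem_filter.1 hp).1).2.2.2.2) ?_
        have h1 := hc z hz
        have h2 : ∑ p ∈ P.filter (fun p : ℕ => ¬ (p : ℝ) ≤ √z), (n : ℝ) / p ≤
            ∑ p ∈ primesIoc (√z) z, (n : ℝ) / p := by
          refine sum_le_sum_of_subset_of_nonneg (fun p hp => ?_) (fun p _ _ => by positivity)
          obtain ⟨h1, h2⟩ := mem_filter.1 hp
          exact (mem_primesIoc (by linarith) (by linarith)).2
            ⟨(hP p h1).1, not_le.1 h2, (hP p h1).2.1⟩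
        rw [show ∑ p ∈ primesIoc (√z) z, (n : ℝ) / p = n * ∑ p ∈ primesIoc (√z) z, (1 : ℝ) / p by
          rw [mul_sum]; exact sum_congr rfl fun p _ => by ring] at h2
        exact h2.trans (mul_le_mul_of_nonneg_left h1 (Nat.cast_nonneg n))) b
    have hun := filter_union_filter_not_eq (fun p : ℕ => (p : ℝ) ≤ √z) P
    have hg1 : ∀ p ∈ P, 0 ≤ g p ∧ g p ≤ 1 := fun p hp =>
      ⟨(hP p hp).2.2.1, by linarith [(hP p hp).2.2.2.1]⟩
    have hcomp := h.comp (disjoint_filter_filter_not P P _) hB (by rw [hun]; exact hg1)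
    rw [hun] at hcomp
    refine ⟨_, _, hcomp.mono hg1 (le_of_eq ?_) (le_of_eq ?_)⟩
    · have : √z ^ (4 * (b + 1) + 6) = z ^ (2 * b + 5) := by
        rw [show 4 * (b + 1) + 6 = 2 * (2 * b + 5) by ring, pow_mul, sq, hsz]
      rw [this, ← pow_add]
      congr 1; ring
    · rw [← Real.exp_add]
      congr 1
      rw [pow_succ]
      field_simp
      ring

theorem isv2_per {d q q' : ℕ} {A B : Set (Fin d → ℤ)} (hA : Per q A) (hB : Per q' B) :
    Per (q * q') (A ∩ B) := fun m h =>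
  and_congr (hA.mul q' m h) (by rw [mul_comm]; exact hB.mul q m h)

open Crest.Agent.R026 in
theorem isv2_inter {d k : ℕ} {A : Set (Fin d → ℤ)} (hk : 0 < k) (hA : Per k A)
    (B : ℕ → Set (Fin d → ℤ)) (S : Finset ℕ) (hS : ∀ p ∈ S, p.Prime ∧ ¬ p ∣ k ∧ Per p (B p)) :
    Per (k * pr S) {m | m ∈ A ∧ ∀ p ∈ S, m ∈ B p} ∧
      dens (k * pr S) {m | m ∈ A ∧ ∀ p ∈ S, m ∈ B p} = dens k A * ∏ p ∈ S, dens p (B p) := by
  induction S using Finset.induction_on with
  | empty => simpa [pr] using hA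
  | insert q S hq ih =>
    have h1 : ∀ p ∈ S, p.Prime ∧ ¬ p ∣ k ∧ Per p (B p) := fun p hp => hS p (mem_insert_of_mem hp)
    obtain ⟨a1, a2, a3⟩ := hS q (mem_insert_self _ _)
    obtain ⟨b1, b2⟩ := ih h1
    have h2 : k * pr (insert q S) = k * pr S * q := by
      rw [show pr (insert q S) = q * pr S from prod_insert hq]; ring
    have hc : Nat.Coprime (k * pr S) q := by
      refine Nat.Coprime.mul_left ((Nat.Prime.coprime_iff_not_dvd a1).2 a2).symm
        (Nat.Coprime.prod_left fun p hp => ?_)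
      exact (Nat.coprime_primes (h1 p hp).1 a1).2 fun h => hq (h ▸ hp)
    have h3 : {m | m ∈ A ∧ ∀ p ∈ insert q S, m ∈ B p} = {m | m ∈ A ∧ ∀ p ∈ S, m ∈ B p} ∩ B q := by
      ext m
      simp only [forall_mem_insert, Set.mem_inter_iff, Set.mem_ofPred_eq]
      tauto
    rw [h2, h3, prod_insert hq]
    refine ⟨isv2_per b1 a3, ?_⟩
    rw [dens_inter (Nat.mul_pos hk (pr_pos fun p hp => (h1 p hp).1)) a1.pos hc b1 a3, b2]
    ring

open Crest.Agent.R026 in
theorem isv2_prod_ind {α : Type*} (S : Finset α) (P : α → Prop) :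
    ∏ p ∈ S, ind (P p) = ind (∀ p ∈ S, P p) := by
  by_cases h : ∀ p ∈ S, P p
  · rw [ind_pos h]
    exact prod_eq_one fun p hp => ind_pos (h p hp)
  · rw [ind_neg h]
    push Not at h
    obtain ⟨p, hp, h⟩ := h
    exact prod_eq_zero hp (ind_neg h)

open Crest.Agent.R026 in
/-- Brun–Hooley upper bound sieve of dimension `n`.  Copy `R020.svAuxA_exists` (file
`R020/SvAuxA.lean`, import it) with `3` replaced by `n`, take `b = 0` (level `z^6`), apply
`SvW.low` to the indicator `w p = 1[m ∈ B p]`, sum over `m ∈ A` in the cube with `card_cube`,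
`dens_inter`; then `SvW.upp`, `SvW.err` for `g p = dens p (B p)`.  At most `z^6` subsets `S` have
product `≤ z^6`. -/
theorem sieve_cube (n : ℕ) : ∃ C : ℝ, 0 < C ∧ ∀ (d Q k : ℕ) (m0 : Fin d → ℤ) (A : Set (Fin d → ℤ))
    (z : ℝ) (𝒮 : Finset ℕ) (B : ℕ → Set (Fin d → ℤ)), 0 < k → Per k A → 1 ≤ z →
    (∀ p ∈ 𝒮, p.Prime ∧ (p : ℝ) ≤ z ∧ ¬ p ∣ k ∧ Per p (B p) ∧ dens p (B p) ≤ 1 / 2 ∧
      dens p (B p) ≤ n / (p : ℝ)) →
    (#((cube m0 Q).filter fun m => m ∈ A ∧ ∀ p ∈ 𝒮, m ∉ B p) : ℝ) ≤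
      C * dens k A * (Q : ℝ) ^ d * ∏ p ∈ 𝒮, (1 - dens p (B p)) +
        d * k * z ^ 12 * (Q : ℝ) ^ (d - 1) := by
  obtain ⟨K, hK, hex⟩ := isv2_exists n
  refine ⟨Real.exp (4 * K), Real.exp_pos _, ?_⟩
  intro d Q k m0 A z P B hk hA hz hP
  obtain ⟨J, hJ⟩ : ∃ J : ℕ, z < 2 ^ (2 ^ J) := by
    obtain ⟨J, hJ⟩ := pow_unbounded_of_one_lt z (show (1 : ℝ) < 2 by norm_num)
    exact ⟨J, hJ.trans_le (pow_le_pow_right₀ (by norm_num) Nat.lt_two_pow_self.le)⟩
  obtain ⟨l, e, h⟩ := hex (fun p => dens p (B p)) J z P hz hJ (fun p hp =>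
    ⟨(hP p hp).1, (hP p hp).2.1, dens_nonneg _ _, (hP p hp).2.2.2.2⟩) 0
  simp only [mul_zero, zero_add, pow_zero, div_one] at h
  set T := (cube m0 Q).filter (· ∈ A) with hT
  set X : ℝ := dens k A * (Q : ℝ) ^ d with hX
  have hX0 : 0 ≤ X := mul_nonneg (dens_nonneg _ _) (by positivity)
  set Y : ℝ := d * k * (Q : ℝ) ^ (d - 1) with hY
  have hY0 : 0 ≤ Y := by positivity
  have hw : ∀ m : Fin d → ℤ, ∀ p ∈ P, 0 ≤ ind (m ∈ B p) ∧ ind (m ∈ B p) ≤ 1 := fun m p _ =>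
    ⟨ind_nonneg _, ind_le_one _⟩
  have hg1 : ∀ p ∈ P, 0 ≤ dens p (B p) ∧ dens p (B p) ≤ 1 := fun p hp =>
    ⟨dens_nonneg _ _, by linarith [(hP p hp).2.2.2.2.1]⟩
  have h1 : (#((cube m0 Q).filter fun m => m ∈ A ∧ ∀ p ∈ P, m ∉ B p) : ℝ) ≤
      ∑ m ∈ T, svEv P l (fun p => ind (m ∈ B p)) := by
    calc _ = ∑ m ∈ (cube m0 Q).filter fun m => m ∈ A ∧ ∀ p ∈ P, m ∉ B p,
          svV P (fun p => ind (m ∈ B p)) := by
          rw [card_eq_sum_ones]
          push_cast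
          refine sum_congr rfl fun m hm => (prod_eq_one fun p hp => ?_).symm
          beta_reduce
          rw [ind_neg ((mem_filter.1 hm).2.2 p hp), sub_zero]
      _ ≤ ∑ m ∈ T, svV P (fun p => ind (m ∈ B p)) :=
          sum_le_sum_of_subset_of_nonneg
            (fun m hm => mem_filter.2 ⟨(mem_filter.1 hm).1, (mem_filter.1 hm).2.1⟩)
            fun m _ _ => sv_V_nonneg P (hw m)
      _ ≤ _ := sum_le_sum fun m _ => h.low _ (hw m)
  have hcount : ∀ S ⊆ P, |∑ m ∈ T, ∏ p ∈ S, ind (m ∈ B p) - X * ∏ p ∈ S, dens p (B p)| ≤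
      Y * (pr S : ℕ) := by
    intro S hS
    obtain ⟨b1, b2⟩ := isv2_inter hk hA B S fun p hp =>
      ⟨(hP p (hS hp)).1, (hP p (hS hp)).2.2.1, (hP p (hS hp)).2.2.2.1⟩
    have h2 := card_cube (Nat.mul_pos hk (pr_pos fun p hp => (hP p (hS hp)).1)) b1 m0 Q
    simp only [isv2_prod_ind]
    rw [sum_ind, hT, filter_filter]
    rw [b2] at h2
    refine le_of_eq_of_le ?_ (h2.trans (le_of_eq ?_))
    · congr 2
      · congr 2
        ext m
        simp only [mem_filter, Set.mem_ofPred_eq]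
      · rw [hX]; ring
    · rw [hY]; push_cast; ring
  have h2 : ∑ m ∈ T, svEv P l (fun p => ind (m ∈ B p)) - X * svEv P l (fun p => dens p (B p)) =
      ∑ S ∈ P.powerset, l S * (∑ m ∈ T, ∏ p ∈ S, ind (m ∈ B p) - X * ∏ p ∈ S, dens p (B p)) := by
    unfold svEv
    rw [sum_comm, mul_sum, ← sum_sub_distrib]
    refine sum_congr rfl fun S _ => ?_
    rw [mul_sub, mul_sum]
    ring
  have hz6 : (0 : ℝ) ≤ z ^ 6 := by positivity
  have hcard : (((P.powerset.filter (fun S => ((pr S : ℕ) : ℝ) ≤ z ^ 6)).card : ℕ) : ℝ) ≤ z ^ 6 := by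
    refine le_trans ?_ (Nat.floor_le hz6)
    have : (P.powerset.filter (fun S => ((pr S : ℕ) : ℝ) ≤ z ^ 6)).card ≤
        (Icc 1 ⌊z ^ 6⌋₊).card := by
      refine card_le_card_of_injOn pr (fun S hS => ?_) (fun S hS T hT hST => ?_)
      · obtain ⟨h1, h2⟩ := mem_filter.1 (mem_coe.1 hS)
        exact mem_coe.2 (mem_Icc.2 ⟨pr_pos fun p hp => (hP p (mem_powerset.1 h1 hp)).1,
          Nat.le_floor h2⟩)
      · exact pr_inj (fun p hp => (hP p (mem_powerset.1 (mem_filter.1 (mem_coe.1 hS)).1 hp)).1)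
          (fun p hp => (hP p (mem_powerset.1 (mem_filter.1 (mem_coe.1 hT)).1 hp)).1) hST
    rw [Nat.card_Icc, add_tsub_cancel_right] at this
    exact_mod_cast this
  have h3 : ∑ S ∈ P.powerset, l S * (∑ m ∈ T, ∏ p ∈ S, ind (m ∈ B p) -
      X * ∏ p ∈ S, dens p (B p)) ≤ Y * z ^ 12 := by
    calc _ ≤ ∑ S ∈ P.powerset, if ((pr S : ℕ) : ℝ) ≤ z ^ 6 then Y * z ^ 6 else 0 := by
          refine sum_le_sum fun S hS => ?_
          have hS' := mem_powerset.1 hS
          split_ifs with hle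
          · refine (le_abs_self _).trans ?_
            rw [abs_mul]
            have hl : |l S| ≤ 1 := by linarith [h.bdd S, abs_nonneg (e S)]
            exact (mul_le_of_le_one_left (abs_nonneg _) hl).trans
              ((hcount S hS').trans (mul_le_mul_of_nonneg_left hle hY0))
          · have : l S = 0 := by
              by_contra hne
              exact hle (h.supp S hS' (Or.inl hne))
            rw [this, zero_mul]
      _ = (((P.powerset.filter (fun S => ((pr S : ℕ) : ℝ) ≤ z ^ 6)).card : ℕ) : ℝ) *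
            (Y * z ^ 6) := by
          rw [← sum_filter, sum_const, nsmul_eq_mul]
      _ ≤ z ^ 6 * (Y * z ^ 6) := by gcongr
      _ = Y * z ^ 12 := by ring
  have h4 : svEv P l (fun p => dens p (B p)) ≤
      Real.exp (4 * K) * ∏ p ∈ P, (1 - dens p (B p)) := by
    have a1 := h.low _ hg1
    have a2 := h.upp _ hg1
    have a3 := h.err
    change _ ≤ Real.exp (4 * K) * svV P fun p => dens p (B p)
    linarith
  have h5 := mul_le_mul_of_nonneg_left h4 hX0
  calc _ ≤ X * (Real.exp (4 * K) * ∏ p ∈ P, (1 - dens p (B p))) + Y * z ^ 12 := by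
        linarith only [h1, h2, h3, h5]
    _ = _ := by rw [hX, hY]; ring

end Crest.Agent.R014

end
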