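import Crest.Agent.R014.ADens
import Crest.Agent.R014.APC
import Crest.Agent.R014.ISv2
import Crest.Agent.R014.IFw

/-! # Row 14: the sieve in one cube -/

set_option autoImplicit false

noncomputable section

open MeasureTheory Filter Topology Set
open scoped ENNReal NumberField Classical
open Crest.NumberTheoryR.Packets

namespace Crest.Agent.R014

universe u

variable {d : ℕ} {K : Type u} [Field K] [NumberField K]

theorem apc2_cop_ipart {f : ℕ} (pr : ℕ → Prop) {J : Ideal (𝓞 K)} (hJ : Cop f J) :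
    Cop f (ipart pr J) := by
  have h := (absNorm_ipart pr hJ.1).1
  have h0 : Ideal.absNorm J ≠ 0 := by rw [Ne, Ideal.absNorm_eq_zero_iff]; exact hJ.1
  refine ⟨?_, ?_⟩
  · rw [Ne, ← Ideal.absNorm_eq_zero_iff, h]; exact npart_ne_zero _ _
  · rw [h]
    exact Nat.Coprime.coprime_dvd_left (Dvd.intro _ (npart_mul_npart pr h0)) hJ.2

theorem apc2_U_pos {π : Par} {u0 : ℝ} (h : π.Ok u0) (hu : 0 < u0) : 0 < π.U := by
  have h1 := h.low
  have h2 : (0 : ℝ) < 2 ^ π.J := by positivity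
  rw [le_div_iff₀ h2] at h1
  exact lt_of_lt_of_le (mul_pos hu h2) h1

theorem apc2_sum_cover {α β : Type*} (T : Finset α) (𝒞 : Finset β) (c : β → Finset α) (F : α → ℝ)
    (hF : ∀ a, 0 ≤ F a) (h : ∀ a ∈ T, ∃ x ∈ 𝒞, a ∈ c x) :
    ∑ a ∈ T, F a ≤ ∑ x ∈ 𝒞, ∑ a ∈ T.filter (· ∈ c x), F a := by
  simp_rw [Finset.sum_filter]
  rw [Finset.sum_comm]
  refine Finset.sum_le_sum fun a ha => ?_
  obtain ⟨x, hx, hax⟩ := h a ha
  calc F a = if a ∈ c x then F a else 0 := by rw [if_pos hax]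
    _ ≤ _ := Finset.single_le_sum (f := fun x => if a ∈ c x then F a else 0)
        (fun y _ => by split_ifs; exacts [hF a, le_rfl]) hx

/-- `sieve_cube` with `A = slc I`, `B = slcP`, `𝒮` the primes `2 n < p ≤ e^U` not dividing `f N(I)`;
`dens_slc` with `le_gg`, `dens_slcP`, `sieve_prod_le`.  If the smooth part of `nn ν` is `I` then
`I ∣ nn ν` and no ideal of norm `p ∈ 𝒮` divides `nn ν` (`PS.mem_cut_iff`, `absNorm_ipart`). -/
theorem cube_one (d : ℕ) (hd : 2 ≤ d) : ∃ C : ℝ, 0 < C ∧ ∀ (K : Type u) [Field K] [NumberField K]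
    (E : Dat d K) (N P : Submodule ℤ K) (r U : ℝ) (ν0 : K) (b : Fin d → K) (t : ℤ) (Q : ℕ)
    (m0 : Fin d → ℤ) (I : Ideal (𝓞 K)), IsLat N → P ∈ PS N → IsSB E P r ν0 b → 0 < U →
    Cop (ff N) I →
    (((cube m0 Q).filter fun m => pt ν0 b t m ≠ 0 ∧
        ipart (fun p => Real.log p ≤ U) (nn (ff N) (pt ν0 b t m)) = I).card : ℝ) ≤
      C * (gg (Ideal.absNorm I) * ge (d + 1) (Ideal.absNorm I) / Ideal.absNorm I) * (Q : ℝ) ^ d /
          (U * kap (rG K (ff N)) U) +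
        d * Ideal.absNorm I * Real.exp U ^ 12 * (Q : ℝ) ^ (d - 1) := by
  obtain ⟨C1, hC1, h1⟩ := sieve_cube (d + 1)
  obtain ⟨C2, hC2, h2⟩ := sieve_prod_le (d + 1)
  refine ⟨C1 * C2, mul_pos hC1 hC2, ?_⟩
  intro K _ _ E N P r U ν0 b t Q m0 I hN hP h hU hI
  set k := Ideal.absNorm I with hk
  have hk0 : k ≠ 0 := by rw [hk, Ne, Ideal.absNorm_eq_zero_iff]; exact hI.1
  have hkI : (k : 𝓞 K) ∈ I := Ideal.absNorm_mem I
  set 𝒮 : Finset ℕ := (lp 0 U).filter fun p => 2 * (d + 1) < p ∧ ¬ p ∣ ff N ∧ ¬ p ∣ k with h𝒮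
  have hmem : ∀ p ∈ 𝒮, p.Prime ∧ Real.log p ≤ U ∧ 2 * (d + 1) < p ∧ ¬ p ∣ ff N ∧ ¬ p ∣ k := by
    intro p hp
    rw [h𝒮, Finset.mem_filter, mem_lp] at hp
    exact ⟨hp.1.1, hp.1.2.2, hp.2⟩
  have hhalf : ∀ p ∈ 𝒮, ((d + 1 : ℕ) : ℝ) / p ≤ 1 / 2 := by
    intro p hp
    obtain ⟨hp1, -, hp3, -⟩ := hmem p hp
    have hp0 : (0 : ℝ) < p := by exact_mod_cast hp1.pos
    have : ((2 * (d + 1) : ℕ) : ℝ) ≤ p := by exact_mod_cast hp3.le
    rw [div_le_div_iff₀ hp0 two_pos]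
    push_cast at this ⊢
    linarith
  have hs := h1 d Q k m0 (slc (ff N) P ν0 b t I) (Real.exp U) 𝒮 (slcP (ff N) P ν0 b t)
    (Nat.pos_of_ne_zero hk0) (per_slc hN hP h t I hkI) (Real.one_le_exp hU.le) (by
      intro p hp
      obtain ⟨hp1, hp2, hp3, hp4, hp5⟩ := hmem p hp
      obtain ⟨a1, a2, -⟩ := dens_slcP hd hN hP h t hp1 hp4
      have hp0 : (0 : ℝ) < p := by exact_mod_cast hp1.pos
      exact ⟨hp1, (Real.log_le_iff_le_exp hp0).1 hp2, hp5, a1, a2.trans (hhalf p hp), a2⟩)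
  have hprod := h2 (rG K (ff N)) (fun p => dens p (slcP (ff N) P ν0 b t p)) U k 𝒮
    (rm_rG E.deg _) hU hk0 (by
      intro p hp
      obtain ⟨hp1, hp2, hp3, hp4, hp5⟩ := hmem p hp
      obtain ⟨a1, a2, a3⟩ := dens_slcP hd hN hP h t hp1 hp4
      exact ⟨hp1, a3, dens_le_one p hp1.pos _⟩) (by
      intro p hp
      by_cases a1 : 2 * (d + 1) < p
      · by_cases a2 : p ∣ ff N
        · right; right; left
          have hp1 := (mem_lp.1 hp).1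
          unfold rG
          rw [if_neg]
          exact fun hc => (Nat.Prime.coprime_iff_not_dvd hp1).1 hc a2
        · by_cases a3 : p ∣ k
          · exact Or.inr (Or.inr (Or.inr a3))
          · exact Or.inl (Finset.mem_filter.2 ⟨hp, a1, a2, a3⟩)
      · exact Or.inr (Or.inl (not_lt.1 a1))) (Finset.filter_subset _ _)
  obtain ⟨g, hg1, hg2, -⟩ := dens_slc hN hP h t hI (Nat.pos_of_ne_zero hk0) hkI
  have hg3 : (g : ℝ) ≤ gg k := le_gg (by omega) hk0 hg1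
  have hk1 : (0 : ℝ) < k := by exact_mod_cast Nat.pos_of_ne_zero hk0
  have hdens : dens k (slc (ff N) P ν0 b t I) ≤ gg k / k :=
    hg2.trans (div_le_div_of_nonneg_right hg3 hk1.le)
  have hsub : ((cube m0 Q).filter fun m => pt ν0 b t m ≠ 0 ∧
        ipart (fun p => Real.log p ≤ U) (nn (ff N) (pt ν0 b t m)) = I) ⊆
      (cube m0 Q).filter fun m => m ∈ slc (ff N) P ν0 b t I ∧
        ∀ p ∈ 𝒮, m ∉ slcP (ff N) P ν0 b t p := by
    intro m hm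
    rw [Finset.mem_filter] at hm ⊢
    obtain ⟨hm1, hm2, hm3⟩ := hm
    have hmP := h.mem t m
    obtain ⟨hcop, -⟩ := nn_norm E hN (hP.1.2 hmP) hm2
    refine ⟨hm1, ?_, ?_⟩
    · refine (PS.mem_cut_iff E hN hP hI hmP).2 ?_
      rw [← hm3]
      exact le_sup_left
    · rintro p hp ⟨J, hJ1, hJ2⟩
      obtain ⟨hp1, hp2, hp3, hp4, hp5⟩ := hmem p hp
      have hJ : Cop (ff N) J := by
        refine ⟨?_, ?_⟩
        · rw [Ne, ← Ideal.absNorm_eq_zero_iff, hJ1]; exact hp1.ne_zero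
        · rw [hJ1]; exact (Nat.Prime.coprime_iff_not_dvd hp1).2 hp4
      have hle := (PS.mem_cut_iff E hN hP hJ hmP).1 hJ2
      have hdvd := Ideal.absNorm_dvd_absNorm_of_le hle
      rw [hJ1] at hdvd
      have h0 : Ideal.absNorm (nn (ff N) (pt ν0 b t m)) ≠ 0 := by
        rw [Ne, Ideal.absNorm_eq_zero_iff]; exact hcop.1
      have hkk := (absNorm_ipart (fun p => Real.log p ≤ U) hcop.1).1
      rw [hm3, ← hk] at hkk
      apply hp5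
      apply Nat.dvd_of_mem_primeFactors
      rw [hkk, primeFactors_npart, Finset.mem_filter]
      exact ⟨Nat.mem_primeFactors.2 ⟨hp1, hdvd, h0⟩, hp2⟩
  have hc : (((cube m0 Q).filter fun m => pt ν0 b t m ≠ 0 ∧
        ipart (fun p => Real.log p ≤ U) (nn (ff N) (pt ν0 b t m)) = I).card : ℝ) ≤
      (((cube m0 Q).filter fun m => m ∈ slc (ff N) P ν0 b t I ∧
        ∀ p ∈ 𝒮, m ∉ slcP (ff N) P ν0 b t p).card : ℝ) := by
    exact_mod_cast Finset.card_le_card hsub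
  refine hc.trans (le_trans (le_of_eq_of_le (by congr) hs) ?_)
  have hgg : 0 ≤ gg k := zero_le_one.trans (one_le_gg k)
  have hP0 : 0 ≤ ∏ p ∈ 𝒮, (1 - dens p (slcP (ff N) P ν0 b t p)) :=
    Finset.prod_nonneg fun p hp => sub_nonneg.2 (dens_le_one p (hmem p hp).1.pos _)
  have : C1 * dens k (slc (ff N) P ν0 b t I) * (Q : ℝ) ^ d *
      ∏ p ∈ 𝒮, (1 - dens p (slcP (ff N) P ν0 b t p)) ≤
      C1 * (gg k / k) * (Q : ℝ) ^ d * (C2 * ge (d + 1) k / (U * kap (rG K (ff N)) U)) := by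
    gcongr
  refine add_le_add (this.trans (le_of_eq ?_)) le_rfl
  ring

/-- Group the points by the smooth part `I` of `nn ν`, then by its norm; `cube_one`, `sum_Wt_le`,
`fw_sum`, `fw_le`. -/
theorem cube_sum (d : ℕ) (hd : 2 ≤ d) (C0 : ℝ) : ∃ C u1 : ℝ, 0 < C ∧ ∀ (K : Type u) [Field K]
    [NumberField K] (E : Dat d K) (N P : Submodule ℤ K) (r u0 W : ℝ) (π : Par) (ν0 : K)
    (b : Fin d → K) (t : ℤ) (Q : ℕ) (m0 : Fin d → ℤ) (T : Finset (Fin d → ℤ)), IsLat N → P ∈ PS N →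
    IsSB E P r ν0 b → Equi C0 (rG K (ff N)) u0 → u1 ≤ u0 → π.Ok u0 → 0 ≤ W →
    (∀ m ∈ T, m ∈ cube m0 Q ∧ pt ν0 b t m ≠ 0 ∧
      (sm π.U (Ideal.absNorm (nn (ff N) (pt ν0 b t m))) : ℝ) ≤ π.E ^ 2) →
    ∑ m ∈ T, Wt π W (ipart (fun p => Real.log p ≤ π.U) (nn (ff N) (pt ν0 b t m))) ≤
      C * (2 * W + 1) * ((4 : ℝ) ^ π.κ * kap (rG K (ff N)) π.U * (Q : ℝ) ^ d +
        π.E ^ 6 * Real.exp π.U ^ 12 * (Q : ℝ) ^ (d - 1)) := by
  obtain ⟨C1, hC1, h1⟩ := cube_one.{u} d hd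
  obtain ⟨C2, u1, hC2, h2⟩ := fw_sum (d + 1) C0
  obtain ⟨C3, hC3, h3⟩ := fw_le (d + 1)
  refine ⟨C1 * C2 + d * C3, max u1 1, by positivity, ?_⟩
  intro K _ _ E N P r u0 W π ν0 b t Q m0 T hN hP h hE hu hπ hW hT
  have hU : 0 < π.U := apc2_U_pos hπ (lt_of_lt_of_le one_pos ((le_max_right _ _).trans hu))
  have hrm : RM (d + 1) (rG K (ff N)) := rm_rG E.deg _
  have hkap : 0 < kap (rG K (ff N)) π.U := lt_of_lt_of_le (inv_pos.2 hU) (kap_ge hrm.nonneg hU)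
  set ι : (Fin d → ℤ) → Ideal (𝓞 K) :=
    fun m => ipart (fun p => Real.log p ≤ π.U) (nn (ff N) (pt ν0 b t m)) with hι
  set B : ℕ → ℝ := fun k => C1 * (gg k * ge (d + 1) k / k) * (Q : ℝ) ^ d /
      (π.U * kap (rG K (ff N)) π.U) + d * k * Real.exp π.U ^ 12 * (Q : ℝ) ^ (d - 1) with hB
  have hB0 : ∀ k, 0 ≤ B k := by
    intro k
    have := zero_le_one.trans (one_le_gg k)
    have := ifw_ge_pos (d + 1) k
    simp only [hB]
    positivity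
  set 𝓘 := T.image ι with h𝓘
  have hI : ∀ I ∈ 𝓘, Cop (ff N) I ∧ (Ideal.absNorm I : ℝ) ≤ π.E ^ 2 ∧
      (Ideal.absNorm I).primeFactors ⊆ lp 0 π.U := by
    intro I hI
    obtain ⟨m, hm, rfl⟩ := Finset.mem_image.1 hI
    obtain ⟨-, hm2, hm3⟩ := hT m hm
    obtain ⟨hcop, -⟩ := nn_norm E hN (hP.1.2 (h.mem t m)) hm2
    have hkk := (absNorm_ipart (fun p => Real.log p ≤ π.U) hcop.1).1
    refine ⟨apc2_cop_ipart _ hcop, ?_, ?_⟩
    · simp only [hι]; rw [hkk]; exact hm3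
    · simp only [hι]; rw [hkk, primeFactors_npart]
      intro p hp
      rw [Finset.mem_filter] at hp
      have hp1 := Nat.prime_of_mem_primeFactors hp.1
      exact mem_lp.2 ⟨hp1, Real.log_pos (by exact_mod_cast hp1.one_lt), hp.2⟩
  set 𝒦 := 𝓘.image fun I => Ideal.absNorm I with h𝒦
  have hK : ∀ k ∈ 𝒦, k ≠ 0 ∧ k.Coprime (ff N) ∧ (k : ℝ) ≤ π.E ^ 2 ∧ k.primeFactors ⊆ lp 0 π.U := by
    intro k hk
    obtain ⟨I, hI', rfl⟩ := Finset.mem_image.1 hk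
    obtain ⟨a1, a2, a3⟩ := hI I hI'
    exact ⟨by rw [Ne, Ideal.absNorm_eq_zero_iff]; exact a1.1, a1.2, a2, a3⟩
  have s1 : ∑ m ∈ T, Wt π W (ι m) ≤ ∑ I ∈ 𝓘, Wt π W I * B (Ideal.absNorm I) := by
    rw [← Finset.sum_fiberwise_of_maps_to (s := T) (t := 𝓘) (g := ι)
      (fun m hm => Finset.mem_image_of_mem _ hm)]
    refine Finset.sum_le_sum fun I hI' => ?_
    rw [Finset.sum_congr rfl (g := fun _ => Wt π W I)
      (fun m hm => by rw [(Finset.mem_filter.1 hm).2]), Finset.sum_const, nsmul_eq_mul, mul_comm]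
    refine mul_le_mul_of_nonneg_left ?_ (Wt_nonneg π hW I)
    refine le_trans ?_ (h1 K E N P r π.U ν0 b t Q m0 I hN hP h hU (hI I hI').1)
    refine Nat.cast_le.2 (Finset.card_le_card fun m hm => ?_)
    rw [Finset.mem_filter] at hm ⊢
    exact ⟨(hT m hm.1).1, (hT m hm.1).2.1, hm.2⟩
  have s2 : ∑ I ∈ 𝓘, Wt π W I * B (Ideal.absNorm I) ≤ ∑ k ∈ 𝒦, Fw (rG K (ff N)) π W k * B k := by
    rw [← Finset.sum_fiberwise_of_maps_to (s := 𝓘) (t := 𝒦) (g := fun I => Ideal.absNorm I)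
      (fun m hm => Finset.mem_image_of_mem _ hm)]
    refine Finset.sum_le_sum fun k hk => ?_
    rw [Finset.sum_congr rfl (g := fun I => Wt π W I * B k)
      (fun m hm => by rw [(Finset.mem_filter.1 hm).2]), ← Finset.sum_mul]
    refine mul_le_mul_of_nonneg_right ?_ (hB0 k)
    exact sum_Wt_le π hW (ff N) (hK k hk).1 (hK k hk).2.1 _ fun I hI => (Finset.mem_filter.1 hI).2
  have s3 := h2 (rG K (ff N)) π u0 W 𝒦 hrm hE ((le_max_left _ _).trans hu) hπ hW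
    fun k hk => ⟨(hK k hk).1, (hK k hk).2.2⟩
  have hE0 : 0 ≤ π.E := zero_le_one.trans hπ.E1
  have hcard : (𝒦.card : ℝ) ≤ π.E ^ 2 := by
    have : 𝒦 ⊆ Finset.Icc 1 ⌊π.E ^ 2⌋₊ := fun k hk =>
      Finset.mem_Icc.2 ⟨Nat.pos_of_ne_zero (hK k hk).1, Nat.le_floor (hK k hk).2.2.1⟩
    have h' := Finset.card_le_card this
    rw [Nat.card_Icc, Nat.add_sub_cancel] at h'
    exact (Nat.cast_le.2 h').trans (Nat.floor_le (by positivity))
  have s4 : ∑ k ∈ 𝒦, Fw (rG K (ff N)) π W k * k ≤ C3 * (2 * W + 1) * π.E ^ 6 := by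
    have : ∀ k ∈ 𝒦, Fw (rG K (ff N)) π W k * k ≤ C3 * (2 * W + 1) * π.E ^ 4 := by
      intro k hk
      have a1 := (h3 (rG K (ff N)) π W k hrm hW (hK k hk).1).2
      have a2 := (hK k hk).2.2.1
      calc Fw (rG K (ff N)) π W k * k ≤ C3 * (2 * W + 1) * k * k := by gcongr
        _ ≤ C3 * (2 * W + 1) * π.E ^ 2 * π.E ^ 2 := by gcongr
        _ = _ := by ring
    calc _ ≤ 𝒦.card • (C3 * (2 * W + 1) * π.E ^ 4) := Finset.sum_le_card_nsmul _ _ _ this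
      _ = 𝒦.card * (C3 * (2 * W + 1) * π.E ^ 4) := nsmul_eq_mul _ _
      _ ≤ π.E ^ 2 * (C3 * (2 * W + 1) * π.E ^ 4) := by gcongr
      _ = _ := by ring
  have s5 : ∑ k ∈ 𝒦, Fw (rG K (ff N)) π W k * B k =
      C1 * (Q : ℝ) ^ d / (π.U * kap (rG K (ff N)) π.U) *
        (∑ k ∈ 𝒦, Fw (rG K (ff N)) π W k * gg k * ge (d + 1) k / k) +
      d * Real.exp π.U ^ 12 * (Q : ℝ) ^ (d - 1) * ∑ k ∈ 𝒦, Fw (rG K (ff N)) π W k * k := by
    rw [Finset.mul_sum, Finset.mul_sum, ← Finset.sum_add_distrib]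
    refine Finset.sum_congr rfl fun k _ => ?_
    simp only [hB]
    ring
  refine s1.trans (s2.trans ?_)
  rw [s5]
  have h4 : (0 : ℝ) < 4 ^ π.κ := Real.rpow_pos_of_pos (by norm_num) _
  have e1 : C1 * (Q : ℝ) ^ d / (π.U * kap (rG K (ff N)) π.U) *
      (C2 * (2 * W + 1) * (4 : ℝ) ^ π.κ * π.U * kap (rG K (ff N)) π.U ^ 2) =
      C1 * C2 * ((2 * W + 1) * ((4 : ℝ) ^ π.κ * kap (rG K (ff N)) π.U * (Q : ℝ) ^ d)) := by
    field_simp
  set X := (2 * W + 1) * ((4 : ℝ) ^ π.κ * kap (rG K (ff N)) π.U * (Q : ℝ) ^ d) with hX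
  set Y := (2 * W + 1) * (π.E ^ 6 * Real.exp π.U ^ 12 * (Q : ℝ) ^ (d - 1)) with hY
  have hX0 : 0 ≤ X := by positivity
  have hY0 : 0 ≤ Y := by positivity
  calc _ ≤ C1 * (Q : ℝ) ^ d / (π.U * kap (rG K (ff N)) π.U) *
      (C2 * (2 * W + 1) * (4 : ℝ) ^ π.κ * π.U * kap (rG K (ff N)) π.U ^ 2) +
      d * Real.exp π.U ^ 12 * (Q : ℝ) ^ (d - 1) * (C3 * (2 * W + 1) * π.E ^ 6) := by gcongr
    _ = C1 * C2 * X + d * C3 * Y := by rw [e1, hY]; ring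
    _ ≤ (C1 * C2 + d * C3) * (X + Y) := by
      have a1 : 0 ≤ C1 * C2 * Y := by positivity
      have a2 : 0 ≤ d * C3 * X := by positivity
      nlinarith
    _ = _ := by rw [hX, hY]; ring

/-- Group the pairs by the trace `t` of `ν` (`|t| ≤ n R`), by cubes (`pack_cubes`), by `ν`
(`card_gdiv`, `nn_norm`), and use `cube_sum`. -/
theorem pair_count (d : ℕ) (hd : 2 ≤ d) (C0 : ℝ) {R W : ℝ} (hR : 0 ≤ R) (hW : 0 ≤ W) :
    ∃ C u1 : ℝ, 0 < C ∧ ∀ (K : Type u) [Field K] [NumberField K] (E : Dat d K) (N P : Submodule ℤ K)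
    (r u0 x A0 θ δ : ℝ) (π : Par) (ν0 : K) (b : Fin d → K) (Q : ℕ) (S : Finset (Fin (d + 1)))
    (T : Finset (K × Ideal (𝓞 K))), IsLat N → P ∈ PS N → IsSB E P r ν0 b → 0 ≤ r →
    Equi C0 (rG K (ff N)) u0 → u1 ≤ u0 → π.Ok u0 → S.Nonempty → S ≠ Finset.univ → 0 < Q →
    Q * r ≤ δ → δ ≤ 1 → π.E ^ 6 * Real.exp π.U ^ 12 * π.U ≤ Q →
    Real.log (((ff N : ℝ) * R) ^ (d + 1)) ≤ A0 * π.U →
    (∀ z ∈ T, z.1 ∈ P ∧ z.1 ≠ 0 ∧ Reg E R S θ δ z.1 ∧ GDiv π x W (nn (ff N) z.1) z.2) →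
    (T.card : ℝ) ≤ C * (2 : ℝ) ^ A0 * (4 : ℝ) ^ π.κ * kap (rG K (ff N)) π.U * δ * (E.cv P)⁻¹ := by
  obtain ⟨C1, u1, hC1, h1⟩ := cube_sum.{u} d hd C0
  obtain ⟨C2, hC2, h2⟩ := pack_cubes.{u} d hR
  set 𝒯 : Finset ℤ := Finset.Icc (-⌈(d + 1) * R⌉) ⌈(d + 1) * R⌉ with h𝒯
  refine ⟨(𝒯.card + 1) * (4 * C1 * C2 * (2 * W + 1)), max u1 1, by positivity, ?_⟩
  intro K _ _ E N P r u0 x A0 θ δ π ν0 b Q S T hN hP h hr hE hu hπ hS1 hS2 hQ hQr hδ hEQ hA hT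
  have hU : 0 < π.U := apc2_U_pos hπ (lt_of_lt_of_le one_pos ((le_max_right _ _).trans hu))
  have hrm : RM (d + 1) (rG K (ff N)) := rm_rG E.deg _
  have hkap' := kap_ge hrm.nonneg hU
  have hkap : 0 < kap (rG K (ff N)) π.U := lt_of_lt_of_le (inv_pos.2 hU) hkap'
  have hPl : IsLat P := hP.1.1.1
  have hcv : 0 < E.cv P := E.cv_pos hPl
  have hδ0 : 0 ≤ δ := le_trans (by positivity) hQr
  have h4 : (1 : ℝ) ≤ 4 ^ π.κ := Real.one_le_rpow (by norm_num) hπ.kap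
  have h2A : (0 : ℝ) < 2 ^ A0 := Real.rpow_pos_of_pos (by norm_num) _
  set F : K → ℝ := fun ν => Wt π W (ipart (fun p => Real.log p ≤ π.U) (nn (ff N) ν)) with hF
  have hF0 : ∀ ν, 0 ≤ F ν := fun ν => Wt_nonneg π hW _
  set V := T.image Prod.fst with hV
  have hVm : ∀ ν ∈ V, ν ∈ P ∧ ν ≠ 0 ∧ Reg E R S θ δ ν ∧
      (sm π.U (Ideal.absNorm (nn (ff N) ν)) : ℝ) ≤ π.E ^ 2 := by
    intro ν hν
    obtain ⟨z, hz, rfl⟩ := Finset.mem_image.1 hν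
    obtain ⟨a1, a2, a3, a4⟩ := hT z hz
    exact ⟨a1, a2, a3, (a4.smooth (nn_norm E hN (hP.1.2 a1) a2).1.1).2⟩
  have s1 : (T.card : ℝ) ≤ 2 ^ A0 * ∑ ν ∈ V, F ν := by
    rw [Finset.card_eq_sum_card_image Prod.fst T, Finset.mul_sum]
    push_cast
    refine Finset.sum_le_sum fun ν hν => ?_
    obtain ⟨a1, a2, a3, -⟩ := hVm ν hν
    obtain ⟨hcop, hnorm⟩ := nn_norm E hN (hP.1.2 a1) a2
    have h0 : Ideal.absNorm (nn (ff N) ν) ≠ 0 := by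
      rw [Ne, Ideal.absNorm_eq_zero_iff]; exact hcop.1
    have hlog : Real.log (Ideal.absNorm (nn (ff N) ν)) ≤ A0 * π.U := by
      refine le_trans (Real.log_le_log (by exact_mod_cast Nat.pos_of_ne_zero h0) ?_) hA
      refine hnorm.trans ?_
      rw [mul_pow, Finset.abs_prod]
      gcongr
      calc ∏ j, |E.σ j ν| ≤ ∏ _j : Fin (d + 1), R :=
            Finset.prod_le_prod (fun j _ => abs_nonneg _) fun j _ => a3.1 j
        _ = R ^ (d + 1) := by simp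
    have hinj : Set.InjOn Prod.snd ((T.filter fun z => z.1 = ν : Finset _) : Set (K × Ideal (𝓞 K))) := by
      intro z hz z' hz' hzz
      have b1 := (Finset.mem_filter.1 (Finset.mem_coe.1 hz)).2
      have b2 := (Finset.mem_filter.1 (Finset.mem_coe.1 hz')).2
      exact Prod.ext (b1.trans b2.symm) hzz
    rw [← Finset.card_image_of_injOn hinj]
    refine card_gdiv π hW hU x hcop.1 hlog _ fun A hA' => ?_
    obtain ⟨z, hz, rfl⟩ := Finset.mem_image.1 hA'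
    rw [Finset.mem_filter] at hz
    rw [← hz.2]
    exact (hT z hz.1).2.2.2
  have hex : ∀ ν : K, ∃ t m, ν ∈ P → ν = pt ν0 b t m := by
    intro ν
    by_cases hν : ν ∈ P
    · obtain ⟨t, m, e⟩ := h.surj ν hν
      exact ⟨t, m, fun _ => e⟩
    · exact ⟨0, 0, fun h' => absurd h' hν⟩
  choose τ μ hτμ using hex
  have hτ : ∀ ν ∈ V, τ ν ∈ 𝒯 := by
    intro ν hν
    obtain ⟨a1, -, a3, -⟩ := hVm ν hν
    have e1 := h.tr_pt (τ ν) (μ ν)
    rw [← hτμ ν a1] at e1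
    have e2 := E.sum_σ ν
    rw [e1] at e2
    have e3 : |(τ ν : ℝ)| ≤ (d + 1) * R := by
      have : ((τ ν : ℚ) : ℝ) = (τ ν : ℝ) := by simp
      rw [← this, ← e2]
      calc _ ≤ ∑ j, |E.σ j ν| := Finset.abs_sum_le_sum_abs _ _
        _ ≤ ∑ _j : Fin (d + 1), R := Finset.sum_le_sum fun j _ => a3.1 j
        _ = _ := by simp
    have e4 : ((|τ ν| : ℤ) : ℝ) ≤ (⌈(d + 1) * R⌉ : ℤ) := by
      rw [Int.cast_abs]; exact e3.trans (Int.le_ceil _)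
    have e5 : |τ ν| ≤ ⌈(d + 1) * R⌉ := by exact_mod_cast e4
    exact Finset.mem_Icc.2 (abs_le.1 e5)
  set Z := 4 * C1 * C2 * (2 * W + 1) * ((4 : ℝ) ^ π.κ * kap (rG K (ff N)) π.U * δ * (E.cv P)⁻¹)
    with hZ
  have hZ0 : 0 ≤ Z := by positivity
  have hQ0 : (0 : ℝ) < Q := by exact_mod_cast hQ
  have herr : π.E ^ 6 * Real.exp π.U ^ 12 * (Q : ℝ) ^ (d - 1) ≤
      (4 : ℝ) ^ π.κ * kap (rG K (ff N)) π.U * (Q : ℝ) ^ d := by
    have a1 : π.E ^ 6 * Real.exp π.U ^ 12 ≤ π.U⁻¹ * Q := by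
      rw [← div_eq_inv_mul, le_div_iff₀ hU]; exact hEQ
    have a2 : (Q : ℝ) ^ d = Q * (Q : ℝ) ^ (d - 1) := by
      rw [← pow_succ']; congr 1; omega
    calc _ ≤ π.U⁻¹ * Q * (Q : ℝ) ^ (d - 1) := by gcongr
      _ ≤ kap (rG K (ff N)) π.U * Q * (Q : ℝ) ^ (d - 1) := by gcongr
      _ = 1 * kap (rG K (ff N)) π.U * (Q : ℝ) ^ d := by rw [a2]; ring
      _ ≤ _ := by gcongr
  have s2 : ∀ t ∈ 𝒯, ∑ ν ∈ V.filter (fun ν => τ ν = t), F ν ≤ Z := by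
    intro t _
    have hpt : ∀ ν ∈ V.filter (fun ν => τ ν = t), pt ν0 b t (μ ν) = ν := by
      intro ν hν
      rw [Finset.mem_filter] at hν
      rw [← hν.2]
      exact (hτμ ν (hVm ν hν.1).1).symm
    set M := (V.filter (fun ν => τ ν = t)).image μ with hM
    have hMV : ∀ m ∈ M, pt ν0 b t m ∈ V := by
      intro m hm
      obtain ⟨ν, hν, rfl⟩ := Finset.mem_image.1 hm
      rw [hpt ν hν]
      exact (Finset.mem_filter.1 hν).1
    have e1 : ∑ ν ∈ V.filter (fun ν => τ ν = t), F ν = ∑ m ∈ M, F (pt ν0 b t m) := by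
      rw [hM, Finset.sum_image]
      · exact Finset.sum_congr rfl fun ν hν => by rw [hpt ν hν]
      · intro ν hν ν' hν' e
        rw [← hpt ν hν, ← hpt ν' hν', e]
    obtain ⟨𝒞, hc1, hc2⟩ := h2 K E P r ν0 b S θ δ t Q M hPl hr hQ (hQr.trans hδ) hδ0 h hS1 hS2
      fun m hm => (hVm _ (hMV m hm)).2.2.1
    rw [e1]
    refine (apc2_sum_cover M 𝒞 (fun m0 => cube m0 Q) _ (fun m => hF0 _) hc1).trans ?_
    have e2 : ∀ m0 ∈ 𝒞, ∑ m ∈ M.filter (· ∈ cube m0 Q), F (pt ν0 b t m) ≤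
        C1 * (2 * W + 1) * (2 * ((4 : ℝ) ^ π.κ * kap (rG K (ff N)) π.U * (Q : ℝ) ^ d)) := by
      intro m0 _
      refine (h1 K E N P r u0 W π ν0 b t Q m0 (M.filter (· ∈ cube m0 Q)) hN hP h hE
        ((le_max_left _ _).trans hu) hπ hW ?_).trans ?_
      · intro m hm
        rw [Finset.mem_filter] at hm
        exact ⟨hm.2, (hVm _ (hMV m hm.1)).2.1, (hVm _ (hMV m hm.1)).2.2.2⟩
      · rw [two_mul ((4 : ℝ) ^ π.κ * _ * _)]
        gcongr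
    calc _ ≤ 𝒞.card • (C1 * (2 * W + 1) *
          (2 * ((4 : ℝ) ^ π.κ * kap (rG K (ff N)) π.U * (Q : ℝ) ^ d))) :=
          Finset.sum_le_card_nsmul _ _ _ fun m0 hm0 => le_of_eq_of_le (by congr) (e2 m0 hm0)
      _ = 2 * C1 * (2 * W + 1) * ((4 : ℝ) ^ π.κ * kap (rG K (ff N)) π.U) *
          ((𝒞.card : ℝ) * (Q : ℝ) ^ d) := by rw [nsmul_eq_mul]; ring
      _ ≤ 2 * C1 * (2 * W + 1) * ((4 : ℝ) ^ π.κ * kap (rG K (ff N)) π.U) *
          (C2 * (E.cv P)⁻¹ * (δ + δ)) := by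
          refine mul_le_mul_of_nonneg_left (hc2.trans ?_) (by positivity)
          gcongr
      _ = Z := by rw [hZ]; ring
  have s3 : ∑ ν ∈ V, F ν ≤ (𝒯.card + 1) * Z := by
    rw [← Finset.sum_fiberwise_of_maps_to hτ]
    calc _ ≤ 𝒯.card • Z := Finset.sum_le_card_nsmul _ _ _ s2
      _ = 𝒯.card * Z := nsmul_eq_mul _ _
      _ ≤ _ := by gcongr; linarith
  calc (T.card : ℝ) ≤ 2 ^ A0 * ((𝒯.card + 1) * Z) := s1.trans (by gcongr)
    _ = _ := by rw [hZ]; ring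

end Crest.Agent.R014

end
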