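import Crest.Agent.R014.AMain
import Crest.Agent.R014.APC2

/-! # Row 14: counting good lattices with a pair -/

set_option autoImplicit false

noncomputable section

open MeasureTheory Filter Topology Set
open scoped ENNReal NumberField Classical
open Crest.NumberTheoryR.Packets

namespace Crest.Agent.R014

universe u

variable {d : ℕ} {K : Type u} [Field K] [NumberField K]

/-- `Q ↦ (PP f Q, ν_Q, aa f Q)` is injective (`QS.eq_cut`).  For each good `P`: `exists_isSB`,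
`pair_count` with `x = log (cv P)⁻¹` (`QS.cv_eq`, `QS.aa_mul_aa`), `A0 = 80 n (3+κ)/η`
(`par_A0`, `par_Q`, `par_ok`, `equi_rG`); then `vb` with `I = 1`. -/
theorem card_good (d : ℕ) (hd : 2 ≤ d) : ∃ B : ℝ, 0 < B ∧ ∀ R W : ℝ, 1 ≤ R → 0 ≤ W → ∃ C : ℝ, 0 < C ∧
    ∀ κ δ : ℝ, 0 ≤ κ → 0 < δ → δ ≤ 1 →
    ∃ f0 : ℕ, ∀ (K : Type u) [Field K] [NumberField K] (E : Dat d K) (M : Submodule ℤ K)
    (P : Pkt E M) (S : Finset (Fin (d + 1))) (θ : ℝ) (𝒯 : Finset (Submodule ℤ K)), IsLat M →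
    f0 ≤ ff M → S.Nonempty → S ≠ Finset.univ →
    (∀ Q ∈ 𝒯, Q ∈ QS (dual M) ∧ Prim Q ∧ GoodQ E (ff M) κ Q ∧ |Real.log (E.cv Q)| ≤ W ∧
      ∃ ν ∈ Q, ν ≠ 0 ∧ Reg E R S θ δ ν ∧
        Gd (par d (ff M) κ) (Ideal.absNorm (aa (ff M) (sc ν (dual Q))))) →
    (𝒯.card : ℝ) ≤ C * Real.exp (B * κ) * δ * P.V := by
  obtain ⟨C0, f1, hEq⟩ := equi_rG.{u} (d + 1)
  obtain ⟨Cs, hCs, hSB⟩ := exists_isSB.{u} d
  obtain ⟨Cv, hCv, hvb⟩ := vb.{u} d C0
  have hη := eta1_pos d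
  obtain ⟨a, ha⟩ : ∃ a : ℝ, a = 80 * (d + 1) / eta1 d := ⟨_, rfl⟩
  have ha0 : 0 < a := by rw [ha]; positivity
  refine ⟨a + 2, by linarith, fun R W hR hW => ?_⟩
  obtain ⟨Cp, u1, hCp, hpc⟩ := pair_count.{u} d hd C0 (R := R) (W := W) (by linarith) hW
  refine ⟨Cp * Real.exp (3 * a) * Cv, by positivity, fun κ δ hκ hδ hδ1 => ?_⟩
  have hev := (par_ok d hκ).and ((par_Q d (c := Cs) hκ hδ).and ((par_A0 d hκ hR).and
    ((tendsto_uu.eventually_ge_atTop u1).and ((tendsto_uu.eventually_ge_atTop 1).and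
    ((eventually_ge_atTop f1).and (eventually_ge_atTop 1))))))
  obtain ⟨f0, hf0⟩ := eventually_atTop.1 hev
  refine ⟨f0, fun K _ _ E M P S θ 𝒯 hM hf hS hS' h𝒯 => ?_⟩
  obtain ⟨hok, ⟨Q0, hQ0, hQ1, hQ2⟩, hA0, hu1, hu2, hf1, hf2⟩ := hf0 _ hf
  have hN : IsLat (dual M) := hM.dual
  have hff : ff (dual M) = ff M := hM.ff_dual
  have := E.isTotallyReal
  have hE : Equi C0 (rG K (ff M)) (uu (ff M)) := hEq K E.deg _ hf1 (hM.discr_le E)
  have hl : 0 < (ff M : ℝ) ^ eta1 d := Real.rpow_pos_of_pos (by exact_mod_cast hf2) _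
  have hU : uu (ff M) ≤ (par d (ff M) κ).U := by
    have h1 := hok.low
    have h2 : (1 : ℝ) ≤ 2 ^ (par d (ff M) κ).J := one_le_pow₀ (by norm_num)
    have h3 : 0 ≤ (par d (ff M) κ).U := le_trans (by positivity) hok.big
    exact h1.trans (div_le_self h3 h2)
  choose! ν hν using fun Q hQ => (h𝒯 Q hQ).2.2.2.2
  have key : ∀ P' ∈ 𝒯.image (PP (ff M)), ((𝒯.filter fun Q => PP (ff M) Q = P').card : ℝ) ≤
      Cp * (2 : ℝ) ^ (a * (3 + κ)) * (4 : ℝ) ^ κ * kap (rG K (ff M)) (par d (ff M) κ).U * δ *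
        (E.cv P')⁻¹ := by
    intro P' hP'
    obtain ⟨Q1, hQ1m, rfl⟩ := Finset.mem_image.1 hP'
    obtain ⟨q1, q2, q3, -, -⟩ := h𝒯 Q1 hQ1m
    have hPS : PP (ff M) Q1 ∈ PS (dual M) := hff ▸ QS.PP_mem E hN q1
    have hlat : IsLat (PP (ff M) Q1) := hPS.1.1.1
    have h1 : (1 : K) ∈ dual (PP (ff M) Q1) := by
      rw [mem_dual]
      intro y hy
      have := mem_dual.1 (hPS.1.2 hy) 1 (one_mem_mult _)
      rwa [mul_comm] at this
    have hprim : Prim (PP (ff M) Q1) := by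
      obtain ⟨x, hx, hx1⟩ := q2
      exact ⟨x, (hff ▸ QS.le_PP E hN q1) hx, hx1⟩
    obtain ⟨ν0, b, hsb⟩ := hSB K E _ _ hl hlat h1 hprim q3.1
    have hinj : Set.InjOn (fun Q => (ν Q, aa (ff M) Q))
        (𝒯.filter fun Q => PP (ff M) Q = PP (ff M) Q1 : Finset _) := by
      intro Q hQ Q' hQ' h
      have hQ := Finset.mem_filter.1 hQ
      have hQ' := Finset.mem_filter.1 hQ'
      have e1 := QS.eq_cut E hN (h𝒯 Q hQ.1).1
      have e2 := QS.eq_cut E hN (h𝒯 Q' hQ'.1).1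
      rw [hff] at e1 e2
      have e3 : aa (ff M) Q = aa (ff M) Q' := (Prod.ext_iff.1 h).2
      rw [hQ.2, e3] at e1
      rw [hQ'.2] at e2
      exact e1.trans e2.symm
    rw [← Finset.card_image_of_injOn hinj]
    have := hpc K E (dual M) (PP (ff M) Q1) _ (uu (ff M)) (-Real.log (E.cv (PP (ff M) Q1)))
      (a * (3 + κ)) θ δ (par d (ff M) κ) ν0 b Q0 S
      ((𝒯.filter fun Q => PP (ff M) Q = PP (ff M) Q1).image fun Q => (ν Q, aa (ff M) Q)) hN hPS hsb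
      (by positivity) (hff ▸ hE) hu1 hok hS hS' hQ0 hQ1 hδ1 hQ2 (by rw [hff, ha]; exact hA0) ?_
    · rw [hff] at this
      exact this
    · intro z hz
      obtain ⟨Q, hQ, rfl⟩ := Finset.mem_image.1 hz
      obtain ⟨hQ, hQP⟩ := Finset.mem_filter.1 hQ
      obtain ⟨r1, -, r3, r4, -⟩ := h𝒯 Q hQ
      obtain ⟨s1, s2, s3, s4⟩ := hν Q hQ
      have e1 := QS.aa_mul_aa E hN r1 s1 s2
      have e2 := QS.cv_eq E hN r1
      have e3 := QS.le_PP E hN r1 s1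
      rw [hff] at e2 e3
      rw [hQP] at e2 e3
      refine ⟨e3, s2, s3, aa (ff M) (sc (ν Q) (dual Q)), by rw [← e1, hff], r3.2, s4, ?_⟩
      have p1 := E.cv_pos r1.1.1
      have p2 := E.cv_pos hlat
      have p3 : ((Ideal.absNorm (aa (ff M) Q) : ℕ) : ℝ) ≠ 0 := by
        intro h; rw [h, zero_mul] at e2; exact p1.ne' e2
      rw [e2, Real.log_mul p3 p2.ne'] at r4
      simpa using r4
  have hv := hvb K E M P (𝒯.image (PP (ff M))) 1 (uu (ff M)) (par d (ff M) κ).U hM one_pos hE hu2 hU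
    (fun P' hP' => by
      obtain ⟨Q1, hQ1m, rfl⟩ := Finset.mem_image.1 hP'
      exact hff ▸ QS.PP_mem E hN (h𝒯 Q1 hQ1m).1)
    (fun L hL => ⟨L, hL.1, by rw [one_mul], fun x hx _ _ => hx⟩)
  have hpow : (2 : ℝ) ^ (a * (3 + κ)) * (4 : ℝ) ^ κ ≤ Real.exp (3 * a) * Real.exp ((a + 2) * κ) := by
    have l2 : Real.log 2 ≤ 1 := by have := Real.log_two_lt_d9; linarith
    have l4 : Real.log 4 ≤ 2 := by
      rw [show (4 : ℝ) = 2 ^ 2 by norm_num, Real.log_pow]; push_cast; linarith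
    rw [Real.rpow_def_of_pos (by norm_num), Real.rpow_def_of_pos (by norm_num), ← Real.exp_add,
      ← Real.exp_add, Real.exp_le_exp]
    have m1 := mul_le_mul_of_nonneg_right l2 (show 0 ≤ a * (3 + κ) by positivity)
    have m2 := mul_le_mul_of_nonneg_right l4 hκ
    nlinarith
  have hV := (P.V_pos hM).le
  calc (𝒯.card : ℝ) = ∑ P' ∈ 𝒯.image (PP (ff M)),
        ((𝒯.filter fun Q => PP (ff M) Q = P').card : ℝ) := by
        rw [Finset.card_eq_sum_card_image (PP (ff M)) 𝒯]; push_cast; rfl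
    _ ≤ _ := Finset.sum_le_sum key
    _ = Cp * ((2 : ℝ) ^ (a * (3 + κ)) * (4 : ℝ) ^ κ) * δ * (kap (rG K (ff M)) (par d (ff M) κ).U *
          ∑ P' ∈ 𝒯.image (PP (ff M)), (E.cv P')⁻¹) := by
        rw [← Finset.mul_sum]; ring
    _ ≤ Cp * ((2 : ℝ) ^ (a * (3 + κ)) * (4 : ℝ) ^ κ) * δ * (Cv * P.V / 1) :=
        mul_le_mul_of_nonneg_left hv (by positivity)
    _ ≤ Cp * (Real.exp (3 * a) * Real.exp ((a + 2) * κ)) * δ * (Cv * P.V / 1) := by gcongr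
    _ = _ := by ring

/-- If `Λ = mulL (img L) v`, `L = Lof Λ v`, then `dualL Λ = mulL (img (dual L)) v⁻¹`, so
`w = σ(ν) v⁻¹` with `ν ∈ dual L`, `v w = σ(ν)` and `Lof (dualL Λ) w = ν⁻¹ dual L`. -/
theorem pair_elt (E : Dat d K) {M L0 : Submodule ℤ K} (hL : L0 ∈ gen M) {t v w : Fin (d + 1) → ℝ}
    (ht : E.cv L0 * |∏ j, t j| = 1) (hv : v ∈ mulL (E.img L0) t) (hv0 : v ≠ 0)
    (hw : w ∈ dualL (mulL (E.img L0) t)) (hw0 : w ≠ 0) :
    ∃ ν ∈ dual (E.Lof (mulL (E.img L0) t) v), ν ≠ 0 ∧ (∀ j, E.σ j ν = v j * w j) ∧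
      dual (E.Lof (dualL (mulL (E.img L0) t)) w) =
        sc ν (dual (dual (E.Lof (mulL (E.img L0) t) v))) := by
  obtain ⟨h1, -, h3, h4⟩ := E.Lof_spec hL ht hv hv0
  generalize mulL (E.img L0) t = Λ at *
  generalize E.Lof Λ v = L at *
  have hvj : ∀ j, v j ≠ 0 := fun j h => by
    rw [Finset.prod_eq_zero (Finset.mem_univ j) h] at h4; simp at h4
  have hd : dualL Λ = mulL (E.img (dual L)) v⁻¹ := by
    rw [h3, dualL_mulL _ hvj, E.dualL_img h1.1]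
  rw [hd] at hw ⊢
  obtain ⟨_, ⟨ν, hν, rfl⟩, rfl⟩ := mem_mulL.1 hw
  have h0 : ν ≠ 0 := by rintro rfl; simp at hw0
  refine ⟨ν, hν, h0, fun j => ?_, ?_⟩
  · have := hvj j
    simp only [Pi.mul_apply, Pi.inv_apply, Dat.e_apply]
    field_simp
  · rw [E.Lof_eq _ (fun j => by simpa using hvj j) h0, dual_sc _ (inv_ne_zero h0), inv_inv]

/-- Three pieces: `dual (Lof Λ v)` is bad (`mass_box`, `card_bad`); `dual (Lof (dualL Λ) w)` is bad
(the same for the dual packet `Pkt.exists_dual`, `IsLat.ff_dual`); both are good (`pair_elt`,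
`mass_box`, `card_good` with `R = ρ²`). -/
theorem mass_pair (d : ℕ) (hd : 2 ≤ d) : ∃ B : ℝ, 0 < B ∧ ∀ ρ : ℝ, 1 ≤ ρ → ∃ C : ℝ, 0 < C ∧
    ∀ κ δ : ℝ, 0 ≤ κ → 0 < δ → δ ≤ 1 →
    ∃ f0 : ℕ, ∀ (K : Type u) [Field K] [NumberField K] (E : Dat d K) (M : Submodule ℤ K)
    (P : Pkt E M) (S : Finset (Fin (d + 1))) (θ : ℝ), IsPrimitiveField K → IsLat M → f0 ≤ ff M →
    S.Nonempty → S ≠ Finset.univ →
    P.mass (lat '' pairSet ρ S θ δ) ≤
      ENNReal.ofReal (C * (Real.exp (-(κ / 100)) + Real.exp (B * κ) * δ) * P.V) := by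
  obtain ⟨B, hB, hg⟩ := card_good.{u} d hd
  refine ⟨B, hB, fun ρ hρ => ?_⟩
  have hW : 0 ≤ ((d : ℝ) + 1) * Real.log ρ := mul_nonneg (by positivity) (Real.log_nonneg hρ)
  obtain ⟨Cg, hCg, hg⟩ := hg (ρ ^ 2) (((d : ℝ) + 1) * Real.log ρ) (one_le_pow₀ hρ) hW
  obtain ⟨Cb, hCb, hb⟩ := card_bad.{u} d hd (Y := Real.exp (((d : ℝ) + 1) * Real.log ρ))
    (Real.one_le_exp hW)
  obtain ⟨Cm, hCm, hm⟩ := mass_box.{u} d hρ
  refine ⟨Cm * (2 * Cb + Cg), by positivity, fun κ δ hκ hδ hδ1 => ?_⟩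
  obtain ⟨f1, hg⟩ := hg κ δ hκ hδ hδ1
  obtain ⟨f2, hb⟩ := hb κ hκ
  refine ⟨max f1 f2, fun K _ _ E M P S θ hK hM hf hS hS' => ?_⟩
  have hbad : ∀ (M' : Submodule ℤ K) (P' : Pkt E M'), IsLat M' → ff M' = ff M →
      P'.mass {Λ | ∃ v, PrimIn Λ v ∧ InBox ρ v ∧
        dual (E.Lof Λ v) ∈ {Q | ¬ GoodQ E (ff M) κ Q}} ≤
        ENNReal.ofReal (Cm * (Cb * Real.exp (-(κ / 100)) * P'.V)) := by
    intro M' P' hM' hff
    refine hm K E M' P' _ _ hM' fun 𝒯 h𝒯 => hb K E M' P' 𝒯 hK hM'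
      (hff ▸ (le_max_right _ _).trans hf) fun Q hQ => ?_
    obtain ⟨q1, q2, q3, q4⟩ := h𝒯 Q hQ
    refine ⟨q1, q2, hff ▸ q3, ?_⟩
    rw [← Real.log_le_iff_le_exp (E.cv_pos q1.1.1)]
    exact (le_abs_self _).trans q4
  have m1 := hbad M P hM rfl
  obtain ⟨P', hV, hP'⟩ := P.exists_dual hM
  have m2 := hbad (dual M) P' hM.dual hM.ff_dual
  rw [← hP', hV] at m2
  have m3 := hm K E M P {Q | GoodQ E (ff M) κ Q ∧ ∃ ν ∈ Q, ν ≠ 0 ∧ Reg E (ρ ^ 2) S θ δ ν ∧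
      Gd (par d (ff M) κ) (Ideal.absNorm (aa (ff M) (sc ν (dual Q))))} _ hM fun 𝒯 h𝒯 =>
    hg K E M P S θ 𝒯 hM ((le_max_left _ _).trans hf) hS hS' fun Q hQ => by
      obtain ⟨q1, q2, q3, q4⟩ := h𝒯 Q hQ
      exact ⟨q1, q2, q3.1, q4, q3.2⟩
  have hV0 := (P.V_pos hM).le
  refine (P.mass_mono ?_).trans (((P.mass_union _ _).trans
    (add_le_add ((P.mass_union _ _).trans (add_le_add m1 m2)) m3)).trans ?_)
  · rintro L hL t ht ⟨x, ⟨v, w, hv, hw, bv, bw, hs⟩, hx⟩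
    rw [hx] at hv hw
    by_cases g1 : GoodQ E (ff M) κ (dual (E.Lof (mulL (E.img L) t) v))
    · by_cases g2 : GoodQ E (ff M) κ (dual (E.Lof (dualL (mulL (E.img L) t)) w))
      · obtain ⟨ν, n1, n2, n3, n4⟩ := pair_elt E hL ht hv.1 hv.2.1 hw.1 hw.2.1
        rw [n4] at g2
        refine Or.inr ⟨v, hv, bv, g1, ν, n1, n2, ⟨fun j => ?_, ?_⟩, g2.2⟩
        · rw [n3, abs_mul, sq]
          exact mul_le_mul (bv j).2.le (bw j).2.le (abs_nonneg _) (by linarith)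
        · simp only [n3]
          exact hs.le
      · exact Or.inl (Or.inr ⟨w, hw, bw, g2⟩)
    · exact Or.inl (Or.inl ⟨v, hv, bv, g1⟩)
  · rw [← ENNReal.ofReal_add (by positivity) (by positivity),
      ← ENNReal.ofReal_add (by positivity) (by positivity)]
    refine ENNReal.ofReal_le_ofReal ?_
    have a1 : 0 ≤ Cm * Cg * Real.exp (-(κ / 100)) * P.V := by positivity
    have a2 : 0 ≤ Cm * Cb * (Real.exp (B * κ) * δ) * P.V := by positivity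
    nlinarith

end Crest.Agent.R014

end
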