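import Crest.Agent.R014.ALat2

/-! # Row 14: orders and genera -/

set_option autoImplicit false

noncomputable section

open MeasureTheory Filter Topology Set
open scoped ENNReal NumberField Classical
open Crest.NumberTheoryR.Packets

namespace Crest.Agent.R014

universe u

variable {d : ℕ} {K : Type u} [Field K] [NumberField K]

theorem amul_ne_bot {M : Submodule ℤ K} (h : IsLat M) : M ≠ ⊥ := by
  rintro rfl
  have := h.2
  simp at this

theorem amul_int {M : Submodule ℤ K} (h : IsLat M) : mult M ≤ OK K := fun a ha =>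
  isIntegral_of_smul_mem_submodule M (amul_ne_bot h) h.1 a ha

theorem amul_cv_le (E : Dat d K) {L L' : Submodule ℤ K} (h : IsLat L) (h' : IsLat L')
    (hle : L ≤ L') : E.cv L' ≤ E.cv L := by
  obtain ⟨h0, h1⟩ := E.cv_index h h' hle
  rw [h1]
  exact le_mul_of_one_le_left (E.cv_pos h').le (by exact_mod_cast Nat.one_le_iff_ne_zero.2 h0)

theorem amul_local {L : Submodule ℤ K} {x : K}
    (h : ∀ ℓ : ℕ, ℓ.Prime → ∃ N : ℕ, ¬ ℓ ∣ N ∧ (N : K) * x ∈ L) : x ∈ L := by
  let I : Ideal ℤ := L.comap (LinearMap.toSpanSingleton ℤ K x)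
  have hI : ∀ e : ℤ, e ∈ I ↔ e • x ∈ L := fun e => Iff.rfl
  obtain ⟨g, hg⟩ := (IsPrincipalIdealRing.principal I).principal
  by_cases h1 : g.natAbs = 1
  · have : (1 : ℤ) ∈ I := by
      rw [hg]
      exact Ideal.mem_span_singleton.2 (Int.isUnit_iff_natAbs_eq.2 h1).dvd
    simpa using (hI 1).1 this
  · obtain ⟨ℓ, hℓ, hd⟩ := Nat.exists_prime_and_dvd h1
    obtain ⟨N, hN, hx⟩ := h ℓ hℓ
    have h2 : (N : ℤ) ∈ I := (hI N).2 (by simpa using hx)
    rw [hg] at h2
    exact absurd (hd.trans (Int.natAbs_dvd_natAbs.2 (Ideal.mem_span_singleton.1 h2))) hN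

theorem IsLat.mult {M : Submodule ℤ K} (h : IsLat M) : IsLat (mult M) := by
  obtain ⟨e, he, hm⟩ := h.exists_mul_le (L' := OK K * M) (isLat_OK.1.mul h.1)
  refine isLat_OK.of_mul_mem (amul_int h) he fun x hx y hy => ?_
  have := hm _ (Submodule.mul_mem_mul hx hy)
  rwa [← mul_assoc] at this

theorem one_mem_mult (M : Submodule ℤ K) : (1 : K) ∈ mult M := by
  exact mem_mult.2 fun x hx => by rwa [one_mul]

theorem mul_mem_mult {M : Submodule ℤ K} {a b : K} (ha : a ∈ mult M) (hb : b ∈ mult M) :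
    a * b ∈ mult M := by
  exact mem_mult.2 fun x hx => by rw [mul_assoc]; exact mem_mult.1 ha _ (mem_mult.1 hb _ hx)

/-- `isIntegral_of_smul_mem_submodule`. -/
theorem IsLat.mult_le_OK {M : Submodule ℤ K} (h : IsLat M) : R014.mult M ≤ OK K := by
  exact amul_int h

theorem OK_le_dual : OK K ≤ dual (OK K) := by
  intro x hx
  refine mem_dual.2 fun y hy => ?_
  have h1 : IsIntegral ℤ (Algebra.trace ℚ K (x * y)) :=
    Algebra.isIntegral_trace ((mem_OK.1 hx).mul (mem_OK.1 hy))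
  obtain ⟨k, hk⟩ := IsIntegrallyClosed.isIntegral_iff.1 h1
  exact ⟨k, hk.symm⟩

theorem IsLat.OK_le_dual_mult {M : Submodule ℤ K} (h : IsLat M) : OK K ≤ R014.dual (R014.mult M) := by
  exact OK_le_dual.trans (dual_anti h.mult_le_OK)

theorem IsLat.ff_ne_zero (E : Dat d K) {M : Submodule ℤ K} (h : IsLat M) : ff M ≠ 0 := by
  exact (E.cv_index h.mult h.mult.dual (h.mult_le_OK.trans h.OK_le_dual_mult)).1

theorem IsLat.ff_eq (E : Dat d K) {M : Submodule ℤ K} (h : IsLat M) :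
    (ff M : ℝ) = E.cv (R014.mult M) ^ 2 := by
  have h1 := (E.cv_index h.mult h.mult.dual (h.mult_le_OK.trans h.OK_le_dual_mult)).2
  have h2 := (E.cv_pos h.mult).ne'
  rw [E.cv_dual h.mult, eq_mul_inv_iff_mul_eq₀ h2] at h1
  rw [sq, h1, ff]

theorem ff_mul_mem {M : Submodule ℤ K} {x : K} (hx : x ∈ dual (mult M)) :
    (ff M : K) * x ∈ mult M := by
  exact relIndex_mul_mem hx

theorem Dat.latticeDisc_eq (E : Dat d K) (m : LatticeBasis (d + 1) K) :
    latticeDisc m = ff m.lattice := by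
  have h := isLat_lattice m
  rw [h.ff_eq E, (E.cv_index h.mult isLat_OK h.mult_le_OK).2, mul_pow, E.cv_OK_sq, mul_comm]
  rfl

theorem IsLat.discr_le (E : Dat d K) {M : Submodule ℤ K} (h : IsLat M) :
    |(NumberField.discr K : ℝ)| ≤ ff M := by
  rw [h.ff_eq E, ← E.cv_OK_sq]
  exact pow_le_pow_left₀ (E.cv_pos isLat_OK).le (amul_cv_le E h.mult isLat_OK h.mult_le_OK) 2

theorem amul_mult_le (M : Submodule ℤ K) : mult M ≤ mult (dual M) := fun a ha =>
  mem_mult.2 fun x hx => mem_dual.2 fun y hy => by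
    rw [mul_comm a, mul_assoc]
    exact mem_dual.1 hx _ (mem_mult.1 ha y hy)

theorem IsLat.mult_dual {M : Submodule ℤ K} (h : IsLat M) :
    R014.mult (R014.dual M) = R014.mult M := by
  refine le_antisymm ?_ (amul_mult_le M)
  simpa only [h.dual_dual] using amul_mult_le (R014.dual M)

theorem IsLat.ff_dual {M : Submodule ℤ K} (h : IsLat M) : ff (R014.dual M) = ff M := by
  rw [ff, ff, h.mult_dual]

theorem locallyHomothetic_iff {n : ℕ} (m m' : LatticeBasis n K) :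
    LocallyHomothetic m m' ↔ LH m.lattice m'.lattice := by
  rfl

theorem LH.refl (M : Submodule ℤ K) : LH M M := by
  exact fun ℓ hℓ => ⟨1, one_ne_zero, 1, hℓ.not_dvd_one, fun x hx => ⟨x, hx, by simp⟩,
    fun x hx => by simpa using hx⟩

theorem LH.symm {M L : Submodule ℤ K} (h : LH M L) : LH L M := by
  intro ℓ hℓ
  obtain ⟨c, hc, N, hN, h1, h2⟩ := h ℓ hℓ
  refine ⟨c⁻¹, inv_ne_zero hc, N, hN, fun x hx => ⟨_, h2 x hx, by field_simp⟩, fun x hx => ?_⟩
  obtain ⟨y, hy, e⟩ := h1 x hx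
  rwa [mul_left_comm, e, inv_mul_cancel_left₀ hc]

theorem LH.trans {M L L' : Submodule ℤ K} (h : LH M L) (h' : LH L L') : LH M L' := by
  intro ℓ hℓ
  obtain ⟨c, hc, N, hN, h1, h2⟩ := h ℓ hℓ
  obtain ⟨c', hc', N', hN', h1', h2'⟩ := h' ℓ hℓ
  refine ⟨c * c', mul_ne_zero hc hc', N * N', fun hd => (hℓ.dvd_mul.1 hd).elim hN hN',
    fun x hx => ?_, fun x hx => ?_⟩
  · obtain ⟨y, hy, e⟩ := h1' x hx
    obtain ⟨z, hz, e'⟩ := h1 y hy
    refine ⟨z, hz, ?_⟩
    push_cast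
    linear_combination (N : K) * e + c' * e'
  · convert h2' _ (h2 x hx) using 1
    push_cast
    ring

theorem sc_mem_gen {M L : Submodule ℤ K} (h : L ∈ gen M) {c : K} (hc : c ≠ 0) : sc c L ∈ gen M := by
  refine ⟨h.1.sc hc, h.2.trans fun ℓ hℓ => ⟨c, hc, 1, hℓ.not_dvd_one, fun x hx => ?_,
    fun x hx => mem_sc.2 ⟨x, hx, by simp⟩⟩⟩
  obtain ⟨y, hy, e⟩ := mem_sc.1 hx
  exact ⟨y, hy, by simp [e]⟩

theorem amul_mult_LH {M L : Submodule ℤ K} (h : LH M L) : mult M ≤ mult L := fun a ha =>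
  mem_mult.2 fun x hx => amul_local fun ℓ hℓ => by
    obtain ⟨c, -, N, hN, h1, h2⟩ := h ℓ hℓ
    obtain ⟨y, hy, e⟩ := h1 x hx
    refine ⟨N * N, fun hd => (hℓ.dvd_mul.1 hd).elim hN hN, ?_⟩
    convert h2 _ (mem_mult.1 ha y hy) using 1
    push_cast
    linear_combination (N : K) * a * e

/-- If `a M ⊆ M` and `x ∈ L`, the integers `e` with `e a x ∈ L` form an ideal not contained in any
`(ℓ)`. -/
theorem mult_of_mem_gen {M L : Submodule ℤ K} (hM : IsLat M) (h : L ∈ gen M) : mult L = mult M := by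
  exact le_antisymm (amul_mult_LH h.2.symm) (amul_mult_LH h.2)

theorem dual_mem_gen {M L : Submodule ℤ K} (hM : IsLat M) (h : L ∈ gen M) :
    dual L ∈ gen (dual M) := by
  refine ⟨h.1.dual, fun ℓ hℓ => ?_⟩
  obtain ⟨c, hc, N, hN, h1, h2⟩ := h.2 ℓ hℓ
  refine ⟨c⁻¹, inv_ne_zero hc, N, hN, fun x hx => ⟨c * (N * x), mem_dual.2 fun z hz => ?_,
    by field_simp⟩, fun x hx => mem_dual.2 fun z hz => ?_⟩
  · rw [show c * (N * x) * z = x * (N * (c * z)) by ring]
    exact mem_dual.1 hx _ (h2 z hz)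
  · obtain ⟨y, hy, e⟩ := h1 z hz
    rw [show N * (c⁻¹ * x) * z = x * (c⁻¹ * (N * z)) by ring, e, inv_mul_cancel_left₀ hc]
    exact mem_dual.1 hx _ hy

/-- `x ∈ dual (Q * dual Q)` iff `x Q ⊆ dual (dual Q) = Q`. -/
theorem IsLat.mul_dual {Q : Submodule ℤ K} (h : IsLat Q) :
    Q * R014.dual Q = R014.dual (R014.mult Q) := by
  have hL : IsLat (Q * R014.dual Q) := by
    obtain ⟨c, hc, hc0⟩ := Submodule.exists_mem_ne_zero_of_ne_bot (amul_ne_bot h)
    refine ⟨h.1.mul h.dual.1, top_le_iff.1 ((h.dual.sc hc0).2.ge.trans (Submodule.span_mono ?_))⟩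
    intro x hx
    obtain ⟨y, hy, rfl⟩ := mem_sc.1 hx
    exact Submodule.mul_mem_mul hc hy
  rw [← hL.dual_dual]
  congr 1
  ext x
  constructor
  · refine fun hx => mem_mult.2 fun a ha => ?_
    rw [← h.dual_dual]
    refine mem_dual.2 fun b hb => ?_
    rw [mul_assoc]
    exact mem_dual.1 hx _ (Submodule.mul_mem_mul ha hb)
  · refine fun hx => mem_dual.2 fun y hy => ?_
    refine Submodule.mul_induction_on hy (fun a ha b hb => ?_) fun y z ⟨k, hk⟩ ⟨l, hl⟩ => ?_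
    · rw [← mul_assoc, mul_comm]
      exact mem_dual.1 hb _ (mem_mult.1 hx a ha)
    · refine ⟨k + l, ?_⟩
      rw [Int.cast_add, ← hk, ← hl, mul_add]
      exact map_add _ _ _

theorem dual_mem_QS {M L : Submodule ℤ K} (hM : IsLat M) (h : L ∈ gen M) (h1 : (1 : K) ∈ L) :
    dual L ∈ QS (dual M) := by
  refine ⟨dual_mem_gen hM h, dual_anti fun a ha => ?_⟩
  rw [hM.mult_dual, ← mult_of_mem_gen hM h] at ha
  simpa using mem_mult.1 ha 1 h1

/-- Vandermonde: `ℤ[γ]` is a sublattice of the order, of covolume `∏_{i<j} |σ_i γ - σ_j γ|`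
(`γ` generates `K` since `K` is primitive; `Matrix.det_vandermonde`). -/
theorem IsLat.ff_le_pow (E : Dat d K) (hK : IsPrimitiveField K) {M : Submodule ℤ K} (h : IsLat M)
    {γ : K} (hγ : γ ∈ R014.mult M) (hq : ∀ q : ℚ, γ ≠ q) {R : ℝ}
    (hR : ∀ i j, |E.σ i γ - E.σ j γ| ≤ R) : (ff M : ℝ) ≤ R ^ ((d + 1) * d) := by
  have htop : IntermediateField.adjoin ℚ {γ} = ⊤ := by
    refine (hK _).resolve_left fun hb => ?_
    have := IntermediateField.mem_adjoin_simple_self ℚ γ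
    rw [hb, IntermediateField.mem_bot] at this
    obtain ⟨q, hq'⟩ := this
    exact hq q hq'.symm
  have hdeg : (minpoly ℚ γ).natDegree = d + 1 :=
    ((Field.primitive_element_iff_minpoly_natDegree_eq ℚ γ).1 htop).trans E.deg
  have hli : LinearIndependent ℚ fun i : Fin (d + 1) => γ ^ (i : ℕ) := by
    have := linearIndependent_pow (K := ℚ) γ
    rwa [hdeg] at this
  let m : LatticeBasis (d + 1) K := ⟨fun i => γ ^ (i : ℕ), hli.restrict_scalars' ℤ,
    hli.span_eq_top_of_card_eq_finrank' (by simp [E.deg])⟩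
  have hle : m.lattice ≤ R014.mult M := by
    refine Submodule.span_le.2 ?_
    rintro _ ⟨i, rfl⟩
    show γ ^ (i : ℕ) ∈ R014.mult M
    induction (i : ℕ) with
    | zero => simpa using one_mem_mult M
    | succ k ih => rw [pow_succ]; exact mul_mem_mult ih hγ
  have hV : embMatrix m E.σ = (Matrix.vandermonde fun j => E.σ j γ).transpose := by
    ext i j
    simp [embMatrix, m]
  rw [h.ff_eq E]
  refine (pow_le_pow_left₀ (E.cv_pos h.mult).le (amul_cv_le E (isLat_lattice m) h.mult hle) 2).trans ?_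
  rw [E.cv_lattice, hV, Matrix.det_transpose, Matrix.det_vandermonde]
  simp only [Finset.abs_prod, ← Finset.prod_pow]
  calc ∏ i, ∏ j ∈ Finset.Ioi i, |E.σ j γ - E.σ i γ| ^ 2
      = ∏ i, ∏ j ∈ Finset.Ioi i, |E.σ j γ - E.σ i γ| * |E.σ i γ - E.σ j γ| := by
        simp only [sq, abs_sub_comm]
    _ = ∏ i, ∏ j ∈ ({i}ᶜ : Finset (Fin (d + 1))), |E.σ j γ - E.σ i γ| :=
        Finset.prod_prod_Ioi_mul_eq_prod_prod_off_diag fun j i => |E.σ j γ - E.σ i γ|
    _ ≤ ∏ i : Fin (d + 1), ∏ _j ∈ ({i}ᶜ : Finset (Fin (d + 1))), R :=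
        Finset.prod_le_prod (fun i _ => Finset.prod_nonneg fun j _ => abs_nonneg _) fun i _ =>
          Finset.prod_le_prod (fun j _ => abs_nonneg _) fun j _ => hR j i
    _ = R ^ ((d + 1) * d) := by
        simp [Finset.card_compl, ← pow_mul, mul_comm]

end Crest.Agent.R014

end
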