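import Crest.Agent.R014.AMult

/-! # Row 14: packets as families of lattices -/

set_option autoImplicit false

noncomputable section

open MeasureTheory Filter Topology Set
open scoped ENNReal NumberField Classical
open Crest.NumberTheoryR.Packets

namespace Crest.Agent.R014

universe u

variable {d : ℕ} {K : Type u} [Field K] [NumberField K]

theorem apkt_act_diag {n : ℕ} (x : ModSpace n) (g : SLR n) {t : Fin n → ℝ}
    (hg : g.1 = Matrix.diagonal t) : lat (act x g) = mulL (lat x) t := by
  have h1 : ∀ v : Fin n → ℝ, Matrix.vecMul v g.1 = v * t := fun v => by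
    funext i
    rw [hg, Matrix.vecMul_diagonal, Pi.mul_apply]
  ext w
  rw [mem_mulL]
  constructor
  · intro hw
    have h2 := dlat_mul_inv g⁻¹
    rw [inv_inv] at h2
    have h3 := dlat_cancel h2 w
    refine ⟨Matrix.vecMul w (g⁻¹).1, (vecMul_mem_lat x g _).1 (by rwa [h3]), by rw [← h1, h3]⟩
  · rintro ⟨v, hv, rfl⟩
    rw [← h1]
    exact (vecMul_mem_lat x g v).2 hv

theorem apkt_lat_mkX {n : ℕ} (g : SLR n) :
    lat (mkX g) = Submodule.span ℤ (range fun i => g.1 i) := by
  ext v
  rw [mem_lat_mkX, Submodule.mem_span_range_iff_exists_fun]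
  refine exists_congr fun e => ?_
  have : Matrix.vecMul (fun i => (e i : ℝ)) g.1 = ∑ i, e i • g.1 i := by
    funext j
    simp [Matrix.vecMul, dotProduct]
  rw [this, eq_comm]

theorem apkt_mulL_span {n : ℕ} {ι : Type*} (f : ι → Fin n → ℝ) (t : Fin n → ℝ) :
    mulL (Submodule.span ℤ (range f)) t = Submodule.span ℤ (range fun i => f i * t) := by
  rw [mulL, Submodule.map_span, ← range_comp]
  rfl

theorem apkt_pow {a : ℝ} (ha : 0 < a) : (a ^ (-(1 : ℝ) / (d + 1 : ℕ))) ^ (d + 1) = a⁻¹ := by
  have : ((d + 1 : ℕ) : ℝ) ≠ 0 := by positivity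
  rw [← Real.rpow_natCast, ← Real.rpow_mul ha.le, div_mul_cancel₀ _ this, Real.rpow_neg_one]

theorem apkt_norm {A : Matrix (Fin (d + 1)) (Fin (d + 1)) ℝ} (hA : A.det ≠ 0) :
    (normalizeDet A).det = 1 ∧ Submodule.span ℤ (range fun i => normalizeDet A i) =
      mulL (Submodule.span ℤ (range fun i => A i))
        (fun _ => |A.det| ^ (-(1 : ℝ) / (d + 1 : ℕ))) := by
  set c : ℝ := |A.det| ^ (-(1 : ℝ) / (d + 1 : ℕ)) with hc
  constructor
  · have h1 : normalizeDet A =
        Matrix.diagonal (fun i : Fin (d + 1) => if A.det < 0 ∧ i.val = 0 then (-1 : ℝ) else 1) *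
          (c • A) := by
      ext i j
      rw [Matrix.diagonal_mul]
      simp only [normalizeDet, ← hc]
      split_ifs <;> simp
    rw [h1, Matrix.det_mul, Matrix.det_diagonal, Matrix.det_smul, Fintype.card_fin, hc,
      apkt_pow (abs_pos.2 hA), Fin.prod_univ_succ]
    by_cases h : A.det < 0
    · simp [h, abs_of_neg h, hA]
    · simp [h, abs_of_nonneg (not_lt.1 h), hA]
  · have h2 : ∀ i, normalizeDet A i = A i * (fun _ => c) ∨ normalizeDet A i = -(A i * fun _ => c) := by
      intro i
      by_cases h : A.det < 0 ∧ i.val = 0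
      · right
        funext j
        simp only [normalizeDet, ← hc, if_pos h]
        simp [mul_comm]
      · left
        funext j
        simp only [normalizeDet, ← hc, if_neg h]
        simp [mul_comm]
    rw [apkt_mulL_span]
    refine le_antisymm (Submodule.span_le.2 ?_) (Submodule.span_le.2 ?_)
    · rintro _ ⟨i, rfl⟩
      have : A i * (fun _ => c) ∈ Submodule.span ℤ (range fun i => A i * fun _ => c) :=
        Submodule.subset_span ⟨i, rfl⟩
      rcases h2 i with h | h
      · simpa only [h, SetLike.mem_coe] using this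
      · simpa only [h, SetLike.mem_coe] using Submodule.neg_mem _ this
    · rintro _ ⟨i, rfl⟩
      have : normalizeDet A i ∈ Submodule.span ℤ (range fun i => normalizeDet A i) :=
        Submodule.subset_span ⟨i, rfl⟩
      rcases h2 i with h | h
      · simpa only [← h, SetLike.mem_coe] using this
      · simpa only [← neg_eq_iff_eq_neg.2 h, SetLike.mem_coe] using Submodule.neg_mem _ this

theorem apkt_img (E : Dat d K) (m : LatticeBasis (d + 1) K) :
    E.img m.lattice = Submodule.span ℤ (range fun i => embMatrix m E.σ i) := by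
  rw [Dat.img, LatticeBasis.lattice, Submodule.map_span, ← range_comp]
  rfl

theorem lat_act_diagFlow (x : ModSpace (d + 1)) (u : Fin d → ℝ) :
    lat (orbitMap x u) = mulL (lat x) (fl u) := by
  refine apkt_act_diag x _ ?_
  change Matrix.diagonal _ = _
  congr 1
  funext i
  refine Fin.lastCases ?_ (fun k => ?_) i <;> simp [fl, lg]

theorem lat_act_sign (x : ModSpace (d + 1)) {w : SLR (d + 1)} (hw : IsSignMatrix w) :
    lat (act x w) = mulL (lat x) (fun i => w.1 i i) := by
  refine apkt_act_diag x _ ?_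
  ext i j
  by_cases h : i = j
  · rw [h, Matrix.diagonal_apply_eq]
  · rw [Matrix.diagonal_apply_ne _ h, hw.1 i j h]

theorem periods_eq (x : ModSpace (d + 1)) : periods x = per (lat x) := by
  ext u
  change orbitMap x u = x ↔ mulL (lat x) (fl u) = lat x
  rw [← lat_act_diagFlow]
  exact ⟨fun h => by rw [h], lat_inj⟩

theorem Dat.lat_latticePoint (E : Dat d K) (m : LatticeBasis (d + 1) K) :
    lat (latticePoint m E.σ) =
      mulL (E.img m.lattice) (fun _ => E.cv m.lattice ^ (-(1 : ℝ) / (d + 1 : ℕ))) := by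
  obtain ⟨h1, h2⟩ := apkt_norm (E.det_ne_zero m)
  rw [latticePoint, dif_pos h1, E.cv_lattice, apkt_img, ← h2]
  exact apkt_lat_mkX _

theorem prod_fl (u : Fin d → ℝ) : ∏ j, fl u j = 1 := by
  simp only [fl]
  rw [← Real.exp_sum, sum_lg, Real.exp_zero]

theorem exists_fl {t : Fin (d + 1) → ℝ} (ht : ∀ j, 0 < t j) (h1 : ∏ j, t j = 1) :
    ∃ u : Fin d → ℝ, fl u = t := by
  refine ⟨fun i => Real.log (t i.castSucc), funext fun i => ?_⟩
  refine Fin.lastCases ?_ (fun k => ?_) i
  · simp only [fl, lg, Fin.snoc_last]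
    rw [Fin.prod_univ_castSucc] at h1
    rw [Real.exp_neg, Real.exp_sum]
    simp only [Real.exp_log (ht _)]
    exact inv_eq_of_mul_eq_one_right h1
  · simp [fl, lg, Real.exp_log (ht _)]

theorem fl_injective : Function.Injective (fl : (Fin d → ℝ) → Fin (d + 1) → ℝ) := by
  intro u v h
  funext k
  simpa [fl, lg] using congrFun h k.castSucc

theorem continuous_orbitMap (x : ModSpace (d + 1)) : Continuous (orbitMap x) := by
  have h1 : Continuous (lg : (Fin d → ℝ) → Fin (d + 1) → ℝ) := by
    refine continuous_pi fun i => ?_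
    refine Fin.lastCases ?_ (fun k => ?_) i
    · simp only [lg, Fin.snoc_last]
      fun_prop
    · simp only [lg, Fin.snoc_castSucc]
      fun_prop
  have h2 : orbitMap x = fun u => act x (dA (lg u)) := funext fun u => by rw [orbitMap, diagFlow_eq]
  rw [h2]
  exact continuous_act.comp (continuous_const.prodMk (continuous_dA.comp h1))

theorem range_orbitMap_eq {x y : ModSpace (d + 1)} :
    range (orbitMap x) = range (orbitMap y) ↔ ∃ u, lat y = mulL (lat x) (fl u) := by
  constructor
  · intro h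
    have h1 : y ∈ range (orbitMap x) := h ▸ ⟨0, (periods y).zero_mem⟩
    obtain ⟨u, rfl⟩ := h1
    exact ⟨u, lat_act_diagFlow x u⟩
  · rintro ⟨u, hu⟩
    have h1 : orbitMap y = orbitMap x ∘ fun v => u + v := funext fun v => lat_inj (by
      rw [Function.comp_apply, lat_act_diagFlow, lat_act_diagFlow, hu, mulL_mul, fl_add])
    rw [h1, (add_left_surjective u).range_comp]

/-- The orbits of the packet in terms of lattices (`Dat.exists_sign`, `sc_mem_gen`). -/
theorem Dat.mem_packetOrbits (E : Dat d K) (m : LatticeBasis (d + 1) K) (x : ModSpace (d + 1)) :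
    range (orbitMap x) ∈ packetOrbits m E.σ ↔ ∃ L ∈ gen m.lattice, ∃ t : Fin (d + 1) → ℝ,
      E.cv L * |∏ j, t j| = 1 ∧ lat x = mulL (E.img L) t := by
  constructor
  · rintro ⟨m', hm', w, hw, h⟩
    obtain ⟨u, hu⟩ := range_orbitMap_eq.1 h.symm
    rw [lat_act_sign _ hw, E.lat_latticePoint, mulL_mul, mulL_mul] at hu
    refine ⟨m'.lattice, ⟨isLat_lattice m', (locallyHomothetic_iff m m').1 hm'⟩, _, ?_, hu⟩
    have hp := E.cv_pos (isLat_lattice m')
    have h1 : |∏ i, w.1 i i| = 1 := by
      rw [Finset.abs_prod]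
      exact Finset.prod_eq_one fun i _ => by rcases hw.2 i with h | h <;> simp [h]
    simp only [Pi.mul_apply, Finset.prod_mul_distrib, prod_fl, Finset.prod_const, Finset.card_univ,
      Fintype.card_fin, apkt_pow hp, abs_mul, h1, mul_one, abs_of_pos (inv_pos.2 hp)]
    exact mul_inv_cancel₀ hp.ne'
  · rintro ⟨L, hL, t, ht, hx⟩
    have ht0 : ∀ j, t j ≠ 0 := fun j h => by
      rw [Finset.prod_eq_zero (Finset.mem_univ j) h] at ht
      simp at ht
    obtain ⟨c, hc⟩ := E.exists_sign ht0
    have hc' : ∀ j, E.σ j c ≠ 0 := fun j => left_ne_zero_of_mul (hc j).ne'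
    have hc0 : c ≠ 0 := fun h => hc' 0 (by rw [h, map_zero])
    have hL' := sc_mem_gen hL hc0
    obtain ⟨m', hm'⟩ := IsLat.exists_basis E hL'.1
    have hp := E.cv_pos hL'.1
    set κ : ℝ := E.cv (sc c L) ^ (-(1 : ℝ) / (d + 1 : ℕ)) with hκ
    have hκ0 : 0 < κ := Real.rpow_pos_of_pos hp _
    have hs : ∀ j, 0 < t j / (E.σ j c * κ) := fun j => by
      rw [← div_div]
      exact div_pos (div_pos_iff.2 (by simpa only [and_comm] using mul_pos_iff.1 (hc j))) hκ0
    have hs1 : ∏ j, t j / (E.σ j c * κ) = 1 := by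
      have h1 : |∏ j, E.σ j c| ≠ 0 := abs_ne_zero.2 (Finset.prod_ne_zero_iff.2 fun j _ => hc' j)
      have h2 := (E.cv_pos hL.1).ne'
      rw [← abs_of_pos (Finset.prod_pos fun j _ => hs j), Finset.prod_div_distrib,
        Finset.prod_mul_distrib, Finset.prod_const, Finset.card_univ, Fintype.card_fin, hκ,
        apkt_pow hp, abs_div, abs_mul, abs_of_pos (inv_pos.2 hp), E.cv_sc hL.1 hc0, ← ht]
      field_simp
    obtain ⟨u, hu⟩ := exists_fl hs hs1
    refine ⟨m', (locallyHomothetic_iff m m').2 (hm' ▸ hL'.2), 1,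
      ⟨fun i j h => Matrix.one_apply_ne h, fun i => Or.inl (Matrix.one_apply_eq i)⟩,
      (range_orbitMap_eq.2 ⟨u, ?_⟩).symm⟩
    rw [act_one, E.lat_latticePoint, hm', E.img_sc, mulL_mul, mulL_mul, hx, hu]
    congr 1
    funext j
    have := hc' j
    simp only [Pi.mul_apply, Dat.e_apply, ← hκ]
    field_simp

theorem Dat.exists_point (E : Dat d K) {L : Submodule ℤ K} (hL : IsLat L) {t : Fin (d + 1) → ℝ}
    (ht : E.cv L * |∏ j, t j| = 1) : ∃ x : ModSpace (d + 1), lat x = mulL (E.img L) t := by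
  obtain ⟨m, rfl⟩ := IsLat.exists_basis E hL
  have h1 : |(embMatrix m E.σ * Matrix.diagonal t).det| = 1 := by
    rw [Matrix.det_mul, Matrix.det_diagonal, abs_mul, ← E.cv_lattice, ht]
  obtain ⟨h2, h3⟩ := apkt_norm (A := embMatrix m E.σ * Matrix.diagonal t)
    (fun h => by simp [h] at h1)
  refine ⟨mkX ⟨_, h2⟩, ?_⟩
  rw [apkt_lat_mkX, h3, h1, Real.one_rpow, apkt_img, apkt_mulL_span, apkt_mulL_span]
  congr 2
  funext i j
  simp [Matrix.mul_diagonal]

end Crest.Agent.R014

end
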