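import Crest.Agent.R014.APkt3

/-! # Row 14: packet measures -/

set_option autoImplicit false

noncomputable section

open MeasureTheory Filter Topology Set
open scoped ENNReal NumberField Classical
open Crest.NumberTheoryR.Packets

namespace Crest.Agent.R014

universe u

variable {d : ℕ} {K : Type u} [Field K] [NumberField K]

theorem apkt2_ne_zero {c : ℝ} {t : Fin (d + 1) → ℝ} (ht : c * |∏ j, t j| = 1) (j : Fin (d + 1)) :
    t j ≠ 0 := by
  intro h
  rw [Finset.prod_eq_zero (Finset.mem_univ j) h] at ht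
  simp at ht

theorem apkt2_fl_inv (u : Fin d → ℝ) : (fl u)⁻¹ = fl (-u) := by
  have h : fl u * fl (-u) = 1 := by rw [← fl_add, add_neg_cancel, fl_zero]
  funext i
  have := congrFun h i
  simp only [Pi.mul_apply, Pi.one_apply] at this
  exact (eq_inv_of_mul_eq_one_right this).symm

theorem apkt2_fl_ne (u : Fin d → ℝ) (j : Fin (d + 1)) : fl u j ≠ 0 := (Real.exp_pos _).ne'

theorem apkt2_dual_fl (Λ : Submodule ℤ (Fin (d + 1) → ℝ)) (u : Fin d → ℝ) :
    dualL (mulL Λ (fl u)) = mulL (dualL Λ) (fl (-u)) := by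
  rw [dualL_mulL Λ (apkt2_fl_ne u), apkt2_fl_inv]

theorem apkt2_sum {E : Dat d K} {M : Submodule ℤ K} (hM : IsLat M) (P : Pkt E M) :
    (∑ i, volume (P.D i)) ≠ 0 ∧ (∑ i, volume (P.D i)) ≠ ⊤ := by
  have hc := E.cv_pos hM
  obtain ⟨i, -, -⟩ := P.complete M ⟨hM, LH.refl M⟩ (Function.update 1 0 (E.cv M)⁻¹) (by
    rw [Finset.prod_update_of_mem (Finset.mem_univ _)]
    simp [abs_of_pos hc, hc.ne'])
  refine ⟨fun h => P.ne_zero i ((Finset.sum_eq_zero_iff.mp h) i (Finset.mem_univ _)), ?_⟩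
  exact ENNReal.sum_ne_top.mpr fun i _ => P.ne_top i

theorem Pkt.V_pos {E : Dat d K} {M : Submodule ℤ K} (hM : IsLat M) (P : Pkt E M) : 0 < P.V := by
  obtain ⟨h0, h1⟩ := apkt2_sum hM P
  exact ENNReal.toReal_pos h0 h1

theorem Pkt.mass_mono {E : Dat d K} {M : Submodule ℤ K} (P : Pkt E M)
    {𝒜 ℬ : Set (Submodule ℤ (Fin (d + 1) → ℝ))}
    (h : ∀ L ∈ gen M, ∀ t : Fin (d + 1) → ℝ, E.cv L * |∏ j, t j| = 1 → mulL (E.img L) t ∈ 𝒜 →
      mulL (E.img L) t ∈ ℬ) : P.mass 𝒜 ≤ P.mass ℬ := by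
  unfold Pkt.mass
  refine Finset.sum_le_sum fun i _ => measure_mono fun u hu => ⟨hu.1, ?_⟩
  obtain ⟨L, hL, t, ht, e⟩ := P.shape i
  have h2 := hu.2
  simp only [mem_ofPred_eq] at h2 ⊢
  rw [e, mulL_mul] at h2 ⊢
  refine h L hL _ ?_ h2
  simp only [Pi.mul_apply, Finset.prod_mul_distrib, prod_fl, mul_one]
  exact ht

theorem Pkt.mass_union {E : Dat d K} {M : Submodule ℤ K} (P : Pkt E M)
    (𝒜 ℬ : Set (Submodule ℤ (Fin (d + 1) → ℝ))) : P.mass (𝒜 ∪ ℬ) ≤ P.mass 𝒜 + P.mass ℬ := by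
  unfold Pkt.mass
  rw [← Finset.sum_add_distrib]
  refine Finset.sum_le_sum fun i _ => le_trans (measure_mono ?_) (measure_union_le _ _)
  rintro u ⟨h1, h2 | h2⟩
  · exact Or.inl ⟨h1, h2⟩
  · exact Or.inr ⟨h1, h2⟩

/-- The packet of lattices attached to the data of a packet measure. -/
def apkt2_mk (E : Dat d K) (m : LatticeBasis (d + 1) K) {k : ℕ} (x : Fin k → ModSpace (d + 1))
    (D : Fin k → Set (Fin d → ℝ)) (hinj : Function.Injective (fun i => Set.range (orbitMap (x i))))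
    (hall : ∀ O, O ∈ packetOrbits m E.σ ↔ ∃ i, O = Set.range (orbitMap (x i)))
    (hD : ∀ i, IsAddFundamentalDomain (periods (x i)) (D i) volume ∧ volume (D i) ≠ 0 ∧
      volume (D i) ≠ ⊤) : Pkt E m.lattice where
  k := k
  Λ i := lat (x i)
  D := D
  shape i := (E.mem_packetOrbits m (x i)).mp ((hall _).mpr ⟨i, rfl⟩)
  complete L hL t ht := by
    obtain ⟨y, hy⟩ := E.exists_point hL.1 ht
    obtain ⟨i, hi⟩ := (hall _).mp ((E.mem_packetOrbits m y).mpr ⟨L, hL, t, ht, hy⟩)
    obtain ⟨u, hu⟩ := range_orbitMap_eq.mp hi.symm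
    exact ⟨i, u, hy ▸ hu⟩
  distinct i j u h := hinj (range_orbitMap_eq.mpr ⟨u, h⟩)
  fund i := by
    rw [← periods_eq]
    exact (hD i).1
  ne_zero i := (hD i).2.1
  ne_top i := (hD i).2.2

theorem apkt2_apply {k : ℕ} (x : Fin k → ModSpace (d + 1)) (D : Fin k → Set (Fin d → ℝ))
    (c : ℝ≥0∞) {A : Set (ModSpace (d + 1))} (hA : MeasurableSet A) :
    (c • Measure.sum (fun i => Measure.map (orbitMap (x i)) (volume.restrict (D i)))) A =
      c * ∑ i, volume (orbitMap (x i) ⁻¹' A ∩ D i) := by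
  rw [Measure.smul_apply, Measure.sum_apply _ hA, tsum_fintype, smul_eq_mul]
  congr 1
  refine Finset.sum_congr rfl fun i _ => ?_
  have hm : Measurable (orbitMap (x i)) := (continuous_orbitMap _).measurable
  rw [Measure.map_apply hm hA, Measure.restrict_apply (hm hA)]

theorem exists_pkt (E : Dat d K) (m : LatticeBasis (d + 1) K) {μ : Measure (ModSpace (d + 1))}
    (h : IsPacketMeasure m E.σ μ) : ∃ P : Pkt E m.lattice,
      ∀ (A : Set (ModSpace (d + 1))) (B : ℝ), MeasurableSet A →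
        P.mass (lat '' A) ≤ ENNReal.ofReal (B * P.V) → μ A ≤ ENNReal.ofReal B := by
  obtain ⟨k, x, D, hinj, hall, hD, rfl⟩ := h
  refine ⟨apkt2_mk E m x D hinj hall hD, fun A B hA hB => ?_⟩
  obtain ⟨h0, h1⟩ := apkt2_sum (isLat_lattice m) (apkt2_mk E m x D hinj hall hD)
  change (∑ i, volume (D i)) ≠ 0 at h0
  change (∑ i, volume (D i)) ≠ ⊤ at h1
  change ∑ i, volume (D i ∩ {u | mulL (lat (x i)) (fl u) ∈ lat '' A}) ≤
    ENNReal.ofReal (B * (∑ i, volume (D i)).toReal) at hB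
  rw [ENNReal.ofReal_mul' ENNReal.toReal_nonneg, ENNReal.ofReal_toReal h1] at hB
  rw [apkt2_apply x D _ hA]
  have h2 : ∑ i, volume (orbitMap (x i) ⁻¹' A ∩ D i) ≤
      ∑ i, volume (D i ∩ {u | mulL (lat (x i)) (fl u) ∈ lat '' A}) :=
    Finset.sum_le_sum fun i _ => measure_mono fun u hu =>
      ⟨hu.2, ⟨_, hu.1, lat_act_diagFlow _ _⟩⟩
  calc _ ≤ (∑ i, volume (D i))⁻¹ * (ENNReal.ofReal B * ∑ i, volume (D i)) := by
        gcongr
        exact h2.trans hB
    _ = _ := by rw [mul_comm, mul_assoc, ENNReal.mul_inv_cancel h0 h1, mul_one]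

theorem IsPacketMeasure.isProb (E : Dat d K) (m : LatticeBasis (d + 1) K)
    {μ : Measure (ModSpace (d + 1))} (h : IsPacketMeasure m E.σ μ) : IsProbabilityMeasure μ := by
  obtain ⟨k, x, D, hinj, hall, hD, rfl⟩ := h
  obtain ⟨h0, h1⟩ := apkt2_sum (isLat_lattice m) (apkt2_mk E m x D hinj hall hD)
  change (∑ i, volume (D i)) ≠ 0 at h0
  change (∑ i, volume (D i)) ≠ ⊤ at h1
  constructor
  rw [apkt2_apply x D _ MeasurableSet.univ]
  simp only [preimage_univ, univ_inter]
  exact ENNReal.inv_mul_cancel h0 h1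

theorem apkt2_orbit_add (x : ModSpace (d + 1)) (u v : Fin d → ℝ) :
    act (orbitMap x u) (diagFlow v) = orbitMap x (u + v) := by
  unfold orbitMap
  rw [act_mul, diagFlow_eq, diagFlow_eq, diagFlow_eq, lg_add, dA_add]

theorem apkt2_shift (x : ModSpace (d + 1)) [Countable (periods x)] {D : Set (Fin d → ℝ)}
    (hD : IsAddFundamentalDomain (periods x) D volume) (v : Fin d → ℝ)
    {A : Set (ModSpace (d + 1))} (hA : MeasurableSet A) :
    volume (orbitMap x ⁻¹' ((fun y => act y (diagFlow v)) ⁻¹' A) ∩ D) =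
      volume (orbitMap x ⁻¹' A ∩ D) := by
  have hm : Measurable (orbitMap x) := (continuous_orbitMap _).measurable
  have hD' : IsAddFundamentalDomain (periods x) ((fun u => u + -v) ⁻¹' D) volume :=
    hD.preimage_of_equiv (measurePreserving_add_right volume (-v)).quasiMeasurePreserving
      Function.bijective_id fun g u => by
        change ((g : Fin d → ℝ) + u) + -v = (g : Fin d → ℝ) + (u + -v)
        rw [add_assoc]
  have hinv : ∀ g : periods x, (fun u => g +ᵥ u) ⁻¹' (orbitMap x ⁻¹' A) = orbitMap x ⁻¹' A := by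
    intro g
    ext u
    have hg : orbitMap x g = x := g.2
    change orbitMap x ((g : Fin d → ℝ) + u) ∈ A ↔ orbitMap x u ∈ A
    rw [← apkt2_orbit_add, hg]
    rfl
  rw [hD.measure_set_eq hD' (hm hA) hinv,
    ← measure_preimage_add_right volume v (orbitMap x ⁻¹' A ∩ (fun u => u + -v) ⁻¹' D)]
  congr 1
  ext u
  simp only [mem_inter_iff, mem_preimage, apkt2_orbit_add, add_neg_cancel_right]

/-- A translate of a fundamental domain is a fundamental domain, and the preimage of a set under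
the orbit map is invariant under the periods (`IsAddFundamentalDomain.measure_set_eq`; the period
group is countable because the fundamental domain has positive measure and its translates are a.e.
disjoint, or by `discrete_per`-type arguments: a period is determined by the images of a basis). -/
theorem IsPacketMeasure.aInv (E : Dat d K) (m : LatticeBasis (d + 1) K)
    {μ : Measure (ModSpace (d + 1))} (h : IsPacketMeasure m E.σ μ) : AInv μ := by
  obtain ⟨k, x, D, hinj, hall, hD, rfl⟩ := h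
  intro t
  obtain ⟨v, hv⟩ := exists_diagFlow t
  rw [← hv]
  ext A hA
  have hf := measurable_act_left (diagFlow v)
  rw [Measure.map_apply hf hA, apkt2_apply x D _ hA, apkt2_apply x D _ (hf hA)]
  congr 1
  refine Finset.sum_congr rfl fun i _ => ?_
  obtain ⟨L, hL, s, hs, e⟩ := (E.mem_packetOrbits m (x i)).mp ((hall _).mpr ⟨i, rfl⟩)
  have : Countable (periods (x i)) := by
    rw [periods_eq, e]
    exact E.countable_per hL.1 (apkt2_ne_zero hs)
  exact apkt2_shift (x i) (hD i).1 v hA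

theorem apkt2_dual_shape (E : Dat d K) {L : Submodule ℤ K} (hL : IsLat L)
    {t : Fin (d + 1) → ℝ} (ht : E.cv L * |∏ j, t j| = 1) :
    dualL (mulL (E.img L) t) = mulL (E.img (dual L)) t⁻¹ ∧
      E.cv (dual L) * |∏ j, t⁻¹ j| = 1 := by
  refine ⟨by rw [dualL_mulL _ (apkt2_ne_zero ht), E.dualL_img hL], ?_⟩
  simp only [Pi.inv_apply, Finset.prod_inv_distrib, abs_inv]
  rw [E.cv_dual hL, ← mul_inv, ht, inv_one]

theorem apkt2_dual_dual (E : Dat d K) {L : Submodule ℤ K} (hL : IsLat L)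
    {t : Fin (d + 1) → ℝ} (ht : E.cv L * |∏ j, t j| = 1) :
    dualL (dualL (mulL (E.img L) t)) = mulL (E.img L) t := by
  obtain ⟨h1, h2⟩ := apkt2_dual_shape E hL ht
  rw [h1, (apkt2_dual_shape E hL.dual h2).1, hL.dual_dual, inv_inv]

theorem apkt2_per_le (Λ : Submodule ℤ (Fin (d + 1) → ℝ)) : per Λ ≤ per (dualL Λ) := by
  intro u hu
  have h : mulL Λ (fl (-u)) = Λ := (per Λ).neg_mem hu
  change mulL (dualL Λ) (fl u) = dualL Λ
  conv_rhs => rw [← h, apkt2_dual_fl, neg_neg]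

/-- The dual packet: `Λ i ↦ dualL (Λ i)`, `D i ↦ - D i` (`dualL_mulL`, `Dat.dualL_img`,
`dual_mem_gen`, `IsLat.dual_dual`, `Dat.cv_dual`). -/
theorem Pkt.exists_dual {E : Dat d K} {M : Submodule ℤ K} (hM : IsLat M) (P : Pkt E M) :
    ∃ P' : Pkt E (dual M), P'.V = P.V ∧
      ∀ 𝒜 : Set (Submodule ℤ (Fin (d + 1) → ℝ)), P.mass {Λ | dualL Λ ∈ 𝒜} = P'.mass 𝒜 := by
  have hdd : ∀ i, dualL (dualL (P.Λ i)) = P.Λ i := by
    intro i
    obtain ⟨L, hL, t, ht, e⟩ := P.shape i
    rw [e]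
    exact apkt2_dual_dual E hL.1 ht
  have hneg : ∀ s : Set (Fin d → ℝ), volume ((fun u => -u) ⁻¹' s) = volume s := fun s =>
    Measure.measure_preimage_neg volume s
  refine ⟨
    { k := P.k
      Λ := fun i => dualL (P.Λ i)
      D := fun i => (fun u => -u) ⁻¹' P.D i
      shape := ?_
      complete := ?_
      distinct := ?_
      fund := ?_
      ne_zero := fun i => by rw [hneg]; exact P.ne_zero i
      ne_top := fun i => by rw [hneg]; exact P.ne_top i }, ?_, ?_⟩
  · intro i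
    obtain ⟨L, hL, t, ht, e⟩ := P.shape i
    obtain ⟨h1, h2⟩ := apkt2_dual_shape E hL.1 ht
    exact ⟨dual L, dual_mem_gen hM hL, t⁻¹, h2, by rw [e, h1]⟩
  · intro L hL t ht
    obtain ⟨h1, h2⟩ := apkt2_dual_shape E hL.1 ht
    have h3 := dual_mem_gen hM.dual hL
    rw [hM.dual_dual] at h3
    obtain ⟨i, u, hu⟩ := P.complete _ h3 _ h2
    refine ⟨i, -u, ?_⟩
    rw [← apkt2_dual_fl, ← hu, ← h1, apkt2_dual_dual E hL.1 ht]
  · intro i j u h
    refine P.distinct i j (-u) ?_
    rw [← hdd j, h, apkt2_dual_fl, hdd i]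
  · intro i
    have e : per (dualL (P.Λ i)) = per (P.Λ i) := by
      refine le_antisymm ?_ (apkt2_per_le _)
      conv_rhs => rw [← hdd i]
      exact apkt2_per_le _
    rw [e]
    exact (P.fund i).preimage_of_equiv (Measure.measurePreserving_neg volume).quasiMeasurePreserving
      (e := fun g => -g) neg_bijective fun g u => by
        change -(-(g : Fin d → ℝ) + u) = (g : Fin d → ℝ) + -u
        rw [neg_add, neg_neg]
  · simp only [Pkt.V, hneg]
  · intro 𝒜
    unfold Pkt.mass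
    refine Finset.sum_congr rfl fun i _ => ?_
    rw [← hneg]
    congr 1
    ext u
    simp only [mem_preimage, mem_inter_iff, mem_ofPred_eq, apkt2_dual_fl, neg_neg]

end Crest.Agent.R014

end
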