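import Crest.Agent.R014.APkt

/-! # Row 14: existence of the packet measure -/

set_option autoImplicit false

noncomputable section

open MeasureTheory Filter Topology Set
open scoped ENNReal NumberField Classical
open Crest.NumberTheoryR.Packets

namespace Crest.Agent.R014

universe u

variable {d : ℕ} {K : Type u} [Field K] [NumberField K]

theorem apkt3_mem (E : Dat d K) {L : Submodule ℤ K} {t v : Fin (d + 1) → ℝ} :
    v ∈ mulL (E.img L) t ↔ ∃ x ∈ L, E.e x * t = v := by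
  simp [mem_mulL, Dat.img]

theorem apkt3_σ_ne (E : Dat d K) {x : K} (hx : x ≠ 0) (j : Fin (d + 1)) : E.σ j x ≠ 0 :=
  (map_ne_zero (E.σ j)).2 hx

theorem apkt3_t_ne {c : ℝ} {t : Fin (d + 1) → ℝ} (ht : c * |∏ j, t j| = 1) (j : Fin (d + 1)) :
    t j ≠ 0 := by
  intro h
  rw [Finset.prod_eq_zero (Finset.mem_univ j) h] at ht
  simp at ht

theorem apkt3_cancel {a b t : Fin (d + 1) → ℝ} (ht : ∀ j, t j ≠ 0) (h : a * t = b * t) : a = b :=
  funext fun j => mul_right_cancel₀ (ht j) (congrFun h j)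

theorem apkt3_cont_fl (j : Fin (d + 1)) : Continuous fun u : Fin d → ℝ => fl u j := by
  refine Real.continuous_exp.comp ?_
  refine Fin.lastCases ?_ (fun k => ?_) j
  · simp only [lg, Fin.snoc_last]
    fun_prop
  · simp only [lg, Fin.snoc_castSucc]
    fun_prop

theorem Dat.ne_zero_of_mem (E : Dat d K) {L : Submodule ℤ K} {t v : Fin (d + 1) → ℝ}
    (ht : ∀ j, t j ≠ 0) (hv : v ∈ mulL (E.img L) t) (h0 : v ≠ 0) (j : Fin (d + 1)) : v j ≠ 0 := by
  obtain ⟨x, -, rfl⟩ := (apkt3_mem E).1 hv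
  have hx : x ≠ 0 := by
    rintro rfl
    simp at h0
  exact mul_ne_zero (apkt3_σ_ne E hx j) (ht j)

/-- If `v = σ(x) t` then `Lof Λ v = x⁻¹ L`. -/
theorem Dat.Lof_eq (E : Dat d K) (L : Submodule ℤ K) {t : Fin (d + 1) → ℝ} (ht : ∀ j, t j ≠ 0)
    {x : K} (hx : x ≠ 0) : E.Lof (mulL (E.img L) t) (E.e x * t) = sc x⁻¹ L := by
  ext β
  rw [E.mem_Lof, apkt3_mem, mem_sc]
  constructor
  · rintro ⟨y, hy, e⟩
    rw [← mul_assoc, ← E.e_mul] at e
    refine ⟨y, hy, ?_⟩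
    rw [E.e_injective (apkt3_cancel ht e), mul_comm β, inv_mul_cancel_left₀ hx]
  · rintro ⟨y, hy, rfl⟩
    refine ⟨y, hy, ?_⟩
    rw [← mul_assoc, ← E.e_mul, mul_right_comm, inv_mul_cancel₀ hx, one_mul]

theorem Dat.Lof_spec (E : Dat d K) {M L : Submodule ℤ K} (hL : L ∈ gen M) {t v : Fin (d + 1) → ℝ}
    (ht : E.cv L * |∏ j, t j| = 1) (hv : v ∈ mulL (E.img L) t) (h0 : v ≠ 0) :
    E.Lof (mulL (E.img L) t) v ∈ gen M ∧ (1 : K) ∈ E.Lof (mulL (E.img L) t) v ∧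
      mulL (E.img L) t = mulL (E.img (E.Lof (mulL (E.img L) t) v)) v ∧
      E.cv (E.Lof (mulL (E.img L) t) v) * |∏ j, v j| = 1 := by
  obtain ⟨x, hxL, rfl⟩ := (apkt3_mem E).1 hv
  have hx : x ≠ 0 := by
    rintro rfl
    simp at h0
  rw [E.Lof_eq L (apkt3_t_ne ht) hx]
  refine ⟨sc_mem_gen hL (inv_ne_zero hx), mem_sc.2 ⟨x, hxL, inv_mul_cancel₀ hx⟩, ?_, ?_⟩
  · rw [E.img_sc, mulL_mul, ← mul_assoc, ← E.e_mul, inv_mul_cancel₀ hx, E.e_one, one_mul]
  · have h1 : |∏ j, E.σ j x⁻¹| * |∏ j, E.σ j x| = 1 := by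
      rw [← abs_mul, ← Finset.prod_mul_distrib]
      simp only [← map_mul, inv_mul_cancel₀ hx, map_one, Finset.prod_const_one, abs_one]
    rw [E.cv_sc hL.1 (inv_ne_zero hx)]
    simp only [Pi.mul_apply, Dat.e_apply, Finset.prod_mul_distrib, abs_mul]
    linear_combination (E.cv L * |∏ j, t j|) * h1 + ht

/-- Minkowski (`exists_ne_zero_mem_lattice_of_measure_mul_two_pow_lt_measure`). -/
theorem exists_short (x : ModSpace (d + 1)) : ∃ v ∈ lat x, v ≠ 0 ∧ ‖v‖ ≤ 2 := by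
  set g : SLR (d + 1) := Quotient.out x with hg
  have hli : LinearIndependent ℝ (fun i => g.1 i) :=
    Matrix.linearIndependent_rows_iff_isUnit.2
      ((Matrix.isUnit_iff_isUnit_det _).2 (by rw [g.2]; exact isUnit_one))
  let b := basisOfLinearIndependentOfCardEqFinrank hli (by simp)
  have hb : ⇑b = fun i => g.1 i := coe_basisOfLinearIndependentOfCardEqFinrank _ _
  have h1 : lat x = Submodule.span ℤ (range b) := by rw [hb]; rfl
  have h2 : volume (ZSpan.fundamentalDomain b) = 1 := by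
    rw [ZSpan.volume_fundamentalDomain, hb]
    have : (Matrix.of fun i => g.1 i).det = 1 := g.2
    rw [this]
    simp
  have : Countable (Submodule.span ℤ (range b)).toAddSubgroup :=
    inferInstanceAs (Countable (Submodule.span ℤ (range b)))
  obtain ⟨v, hv0, hv⟩ := exists_ne_zero_mem_lattice_of_measure_mul_two_pow_lt_measure
    (ZSpan.isAddFundamentalDomain' b volume) (s := Metric.closedBall 0 2)
    (fun y hy => by simpa using hy) (convex_closedBall _ _) (by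
      rw [h2, one_mul, Real.volume_pi_closedBall _ (by norm_num), Module.finrank_fin_fun,
        Fintype.card_fin, ENNReal.ofReal_pow (by norm_num)]
      refine ENNReal.pow_lt_pow_left (Nat.succ_ne_zero d) ?_
      rw [← ENNReal.ofReal_ofNat 2]
      exact (ENNReal.ofReal_lt_ofReal_iff (by norm_num)).2 (by norm_num))
  refine ⟨v.1, by rw [h1]; exact v.2, fun h => hv0 (Subtype.ext h), by simpa using hv⟩

/-- Nonzero vectors `w` of `Λ` satisfy `|∏ w j| ≥ c > 0` (`Dat.exists_norm_ge`), so a small period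
fixes each vector of a basis. -/
theorem Dat.discrete_per (E : Dat d K) {L : Submodule ℤ K} (hL : IsLat L) {t : Fin (d + 1) → ℝ}
    (ht : ∀ j, t j ≠ 0) : ∃ ε : ℝ, 0 < ε ∧ ∀ u ∈ per (mulL (E.img L) t), ‖u‖ < ε → u = 0 := by
  obtain ⟨c, hc, hc'⟩ := E.exists_norm_ge hL
  obtain ⟨e, he, hx⟩ := hL.exists_mul_mem 1
  set x : K := (e : K) * 1 with hxdef
  have hx0 : x ≠ 0 := by simp [hxdef, he]
  have hcont : Continuous fun u : Fin d → ℝ => |∏ j, E.σ j x * (fl u j - 1)| :=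
    (continuous_finsetProd _ fun j _ =>
      continuous_const.mul ((apkt3_cont_fl j).sub continuous_const)).abs
  have h0 : ∀ᶠ u in 𝓝 (0 : Fin d → ℝ), |∏ j, E.σ j x * (fl u j - 1)| < c := by
    refine hcont.continuousAt.eventually_lt continuousAt_const ?_
    simpa [fl_zero] using hc
  obtain ⟨ε, hε, h1⟩ := Metric.eventually_nhds_iff.1 h0
  refine ⟨ε, hε, fun u hu hu' => ?_⟩
  have h2 : mulL (mulL (E.img L) t) (fl u) = mulL (E.img L) t := hu
  have h3 : E.e x * t * fl u ∈ mulL (E.img L) t := by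
    rw [← h2]
    exact mem_mulL.2 ⟨_, (apkt3_mem E).2 ⟨x, hx, rfl⟩, rfl⟩
  obtain ⟨y, hy, h4⟩ := (apkt3_mem E).1 h3
  rw [mul_right_comm] at h4
  have h5 : ∀ j, E.σ j (y - x) = E.σ j x * (fl u j - 1) := by
    intro j
    have := congrFun (apkt3_cancel ht h4) j
    simp only [Dat.e_apply, Pi.mul_apply] at this
    rw [map_sub, this]
    ring
  have h6 : y - x = 0 := by
    by_contra h7
    have h8 := hc' _ (sub_mem hy hx) h7
    simp only [h5] at h8
    exact absurd (h1 (by simpa using hu')) (not_lt.2 h8)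
  apply fl_injective
  rw [fl_zero]
  funext j
  have h9 := h5 j
  rw [h6, map_zero] at h9
  have := (mul_eq_zero.1 h9.symm).resolve_left (apkt3_σ_ne E hx0 j)
  simpa [sub_eq_zero] using this

theorem apkt3_discrete (E : Dat d K) {L : Submodule ℤ K} (hL : IsLat L) {t : Fin (d + 1) → ℝ}
    (ht : ∀ j, t j ≠ 0) : DiscreteTopology (per (mulL (E.img L) t)) := by
  obtain ⟨ε, hε, h⟩ := E.discrete_per hL ht
  rw [discreteTopology_iff_isOpen_singleton_zero]
  have e : ({0} : Set (per (mulL (E.img L) t))) = Metric.ball 0 ε := by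
    ext u
    rw [mem_singleton_iff, mem_ball_zero_iff]
    constructor
    · rintro rfl
      simpa using hε
    · intro hu
      exact Subtype.ext (h u.1 u.2 hu)
  rw [e]
  exact Metric.isOpen_ball

theorem Dat.countable_per (E : Dat d K) {L : Submodule ℤ K} (hL : IsLat L) {t : Fin (d + 1) → ℝ}
    (ht : ∀ j, t j ≠ 0) : Countable (per (mulL (E.img L) t)) := by
  have := apkt3_discrete E hL ht
  exact TopologicalSpace.separableSpace_iff_countable.1 inferInstance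

theorem apkt3_geo {v : Fin (d + 1) → ℝ} {a r : ℝ} (ha : 0 < a) (hr : 0 < r)
    (h1 : ∀ j, a ≤ |v j|) (h2 : ∀ j, |v j| ≤ 2) (h3 : r ^ (d + 1) = |∏ j, v j|) :
    ∃ s : Fin d → ℝ, ‖s‖ ≤ Real.log (2 / a) ∧ ∀ j, |v j| = r * fl s j := by
  rw [Finset.abs_prod] at h3
  have hr1 : a ≤ r := by
    refine (pow_le_pow_iff_left₀ ha.le hr.le (Nat.succ_ne_zero d)).1 ?_
    rw [h3]
    calc a ^ (d + 1) = ∏ _j : Fin (d + 1), a := by simp
      _ ≤ _ := Finset.prod_le_prod (fun _ _ => ha.le) fun j _ => h1 j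
  have hr2 : r ≤ 2 := by
    refine (pow_le_pow_iff_left₀ hr.le (by norm_num) (Nat.succ_ne_zero d)).1 ?_
    rw [h3]
    calc _ ≤ ∏ _j : Fin (d + 1), (2 : ℝ) :=
          Finset.prod_le_prod (fun _ _ => abs_nonneg _) fun j _ => h2 j
      _ = _ := by simp
  have hpos : ∀ j, 0 < |v j| / r := fun j => div_pos (ha.trans_le (h1 j)) hr
  obtain ⟨s, hs⟩ := exists_fl (t := fun j => |v j| / r) hpos (by
    rw [Finset.prod_div_distrib, ← h3]
    simp [hr.ne'])
  refine ⟨s, ?_, fun j => by rw [hs]; field_simp⟩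
  have h4 : 1 ≤ 2 / a := by
    rw [le_div_iff₀ ha]
    linarith
  refine (pi_norm_le_iff_of_nonneg (Real.log_nonneg h4)).2 fun i => ?_
  have h5 : Real.exp (s i) = |v i.castSucc| / r := by
    have := congrFun hs i.castSucc
    simpa only [fl, lg, Fin.snoc_castSucc] using this
  have h6 : s i = Real.log (|v i.castSucc| / r) := by rw [← h5, Real.log_exp]
  rw [Real.norm_eq_abs, abs_le, h6, ← Real.log_inv, inv_div]
  constructor
  · exact Real.log_le_log (by positivity) (div_le_div₀ (abs_nonneg _) (h1 _) hr hr2)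
  · exact Real.log_le_log (hpos _) (div_le_div₀ (by norm_num) (h2 _) ha hr1)

theorem apkt3_lower {v : Fin (d + 1) → ℝ} {c : ℝ} (h2 : ∀ j, |v j| ≤ 2) (h : c ≤ |∏ j, v j|)
    (j : Fin (d + 1)) : c / 2 ^ d ≤ |v j| := by
  rw [div_le_iff₀ (by positivity)]
  refine h.trans ?_
  rw [Finset.abs_prod, Fin.prod_univ_succAbove _ j]
  refine mul_le_mul_of_nonneg_left ?_ (abs_nonneg _)
  calc _ ≤ ∏ _i : Fin d, (2 : ℝ) := Finset.prod_le_prod (fun _ _ => abs_nonneg _) fun i _ => h2 _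
    _ = _ := by simp

/-- By `exists_short`, every unimodular `mulL (img L) t` is `mulL (img L') v` with `‖v‖ ≤ 2`,
`mult M ≤ L'`, `cv L' ≥ 2^{-n}` (finitely many `L'` by `Dat.finite_over`), `|∏ v j| ≥ 1 / cv (mult M)`;
write `v = ε · fl s · (cv L')^{-1/n}` with a sign vector `ε` and `s` bounded. -/
theorem Dat.exists_finite_bases (E : Dat d K) {M : Submodule ℤ K} (hM : IsLat M) :
    ∃ (𝓕 : Finset (Submodule ℤ (Fin (d + 1) → ℝ))) (R : ℝ), ∀ L ∈ gen M, ∀ t : Fin (d + 1) → ℝ,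
      E.cv L * |∏ j, t j| = 1 → ∃ Λ ∈ 𝓕, ∃ s : Fin d → ℝ, ‖s‖ ≤ R ∧
        mulL (E.img L) t = mulL Λ (fl s) := by
  have hc : (0 : ℝ) < (2 ^ (d + 1))⁻¹ := by positivity
  have hfin := E.finite_over hM.mult hc
  have hC := E.cv_pos hM.mult
  set r : Submodule ℤ K → ℝ := fun L' => E.cv L' ^ (-(1 : ℝ) / (d + 1 : ℕ)) with hr
  refine ⟨(hfin.toFinset ×ˢ Fintype.piFinset fun _ : Fin (d + 1) => ({1, -1} : Finset ℝ)).image
    fun q => mulL (E.img q.1) fun j => q.2 j * r q.1,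
    Real.log (2 / ((E.cv (mult M))⁻¹ / 2 ^ d)), fun L hL t ht => ?_⟩
  obtain ⟨x, hx⟩ := E.exists_point hL.1 ht
  obtain ⟨v, hv, hv0, hv2⟩ := exists_short x
  rw [hx] at hv
  obtain ⟨h1, h2, h3, h4⟩ := E.Lof_spec hL ht hv hv0
  set L' := E.Lof (mulL (E.img L) t) v with hL'
  have h5 : ∀ j, |v j| ≤ 2 := fun j => (norm_le_pi_norm v j).trans hv2
  have h6 : mult M ≤ L' := by
    intro a ha
    rw [← mult_of_mem_gen hM h1] at ha
    simpa using mem_mult.1 ha 1 h2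
  have h7 := E.cv_pos h1.1
  have h8 : |∏ j, v j| = (E.cv L')⁻¹ := eq_inv_of_mul_eq_one_right h4
  have h9 : (2 ^ (d + 1))⁻¹ ≤ E.cv L' := by
    rw [inv_le_comm₀ (by positivity) h7, ← h8, Finset.abs_prod]
    calc _ ≤ ∏ _j : Fin (d + 1), (2 : ℝ) :=
          Finset.prod_le_prod (fun _ _ => abs_nonneg _) fun j _ => h5 j
      _ = _ := by simp
  have h10 : (E.cv (mult M))⁻¹ ≤ |∏ j, v j| := by
    obtain ⟨a1, a2⟩ := E.cv_index hM.mult h1.1 h6
    have a3 : (1 : ℝ) ≤ ((mult M).toAddSubgroup.relIndex L'.toAddSubgroup : ℝ) := by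
      exact_mod_cast Nat.one_le_iff_ne_zero.2 a1
    rw [h8]
    exact inv_anti₀ h7 (by rw [a2]; exact le_mul_of_one_le_left h7.le a3)
  have h11 : r L' ^ (d + 1) = |∏ j, v j| := by
    rw [h8, hr]
    simp only
    rw [← Real.rpow_natCast, ← Real.rpow_mul h7.le, div_mul_cancel₀ _ (by positivity),
      Real.rpow_neg_one]
  obtain ⟨s, hs1, hs2⟩ := apkt3_geo (by positivity) (Real.rpow_pos_of_pos h7 _)
    (apkt3_lower h5 h10) h5 h11
  refine ⟨_, Finset.mem_image.2 ⟨(L', fun j => if 0 ≤ v j then 1 else -1), ?_, rfl⟩, s, hs1, ?_⟩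
  · rw [Finset.mem_product, Set.Finite.mem_toFinset, Fintype.mem_piFinset]
    refine ⟨⟨h1.1, h6, h9⟩, fun j => ?_⟩
    simp only
    split_ifs <;> simp
  · rw [mulL_mul]
    refine h3.trans ?_
    congr 1
    funext j
    have := hs2 j
    simp only [Pi.mul_apply]
    split_ifs with h
    · rw [abs_of_nonneg h] at this
      rw [this, one_mul]
    · rw [abs_of_neg (not_le.1 h)] at this
      linarith

theorem apkt3_shift {Λ Λ' : Submodule ℤ (Fin (d + 1) → ℝ)} {u s : Fin d → ℝ}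
    (h : mulL Λ (fl u) = mulL Λ' (fl s)) : mulL Λ (fl (u - s)) = Λ' := by
  rw [sub_eq_add_neg, fl_add, ← mulL_mul, h, mulL_mul, ← fl_add, add_neg_cancel, fl_zero, mulL_one]

theorem apkt3_bdd (E : Dat d K) {L : Submodule ℤ K} (hL : IsLat L) {t : Fin (d + 1) → ℝ}
    (ht : E.cv L * |∏ j, t j| = 1) :
    ∃ R : ℝ, ∀ u, ∃ p ∈ per (mulL (E.img L) t), ‖u - p‖ ≤ R := by
  obtain ⟨𝓕, R, h⟩ := E.exists_finite_bases hL
  set Λ := mulL (E.img L) t with hΛ
  have h1 : ∀ u, ∃ Λ' ∈ 𝓕, ∃ s : Fin d → ℝ, ‖s‖ ≤ R ∧ mulL Λ (fl (u - s)) = Λ' := by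
    intro u
    obtain ⟨Λ', h2, s, h3, h4⟩ := h L ⟨hL, LH.refl L⟩ (t * fl u) (by
      simp only [Pi.mul_apply, Finset.prod_mul_distrib, prod_fl, mul_one]
      exact ht)
    exact ⟨Λ', h2, s, h3, apkt3_shift (by rw [hΛ, mulL_mul, h4])⟩
  have h2 : ∀ Λ', ∃ w : Fin d → ℝ, (∃ w', mulL Λ (fl w') = Λ') → mulL Λ (fl w) = Λ' := by
    intro Λ'
    by_cases h3 : ∃ w', mulL Λ (fl w') = Λ'
    · obtain ⟨w, hw⟩ := h3
      exact ⟨w, fun _ => hw⟩
    · exact ⟨0, fun h4 => absurd h4 h3⟩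
  choose w hw using h2
  refine ⟨R + ∑ Λ' ∈ 𝓕, ‖w Λ'‖, fun u => ?_⟩
  obtain ⟨Λ', h3, s, h4, h5⟩ := h1 u
  refine ⟨u - s - w Λ', apkt3_shift (h5.trans (hw Λ' ⟨_, h5⟩).symm), ?_⟩
  rw [show u - (u - s - w Λ') = s + w Λ' by abel]
  refine (norm_add_le _ _).trans (add_le_add h4 ?_)
  exact Finset.single_le_sum (f := fun Λ' => ‖w Λ'‖) (fun _ _ => norm_nonneg _) h3

theorem apkt3_span {H : AddSubgroup (Fin d → ℝ)} {R : ℝ} (h : ∀ u, ∃ p ∈ H, ‖u - p‖ ≤ R) :
    Submodule.span ℝ (H : Set (Fin d → ℝ)) = ⊤ := by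
  by_contra hne
  obtain ⟨f, hf0, hf⟩ := Submodule.exists_le_ker_of_lt_top _ (lt_top_iff_ne_top.2 hne)
  set g := LinearMap.toContinuousLinearMap f with hg
  have h1 : ∀ u, |f u| ≤ ‖g‖ * R := by
    intro u
    obtain ⟨p, hp, hp'⟩ := h u
    have h2 : f p = 0 := hf (Submodule.subset_span hp)
    have h3 : f u = g (u - p) := by simp [hg, h2]
    rw [h3, ← Real.norm_eq_abs]
    exact (g.le_opNorm _).trans (mul_le_mul_of_nonneg_left hp' (norm_nonneg _))
  obtain ⟨u, hu⟩ : ∃ u, f u ≠ 0 := by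
    by_contra h2
    push Not at h2
    exact hf0 (LinearMap.ext h2)
  have h4 := h1 (((‖g‖ * R + 1) / f u) • u)
  rw [map_smul, smul_eq_mul, div_mul_cancel₀ _ hu] at h4
  linarith [le_abs_self (‖g‖ * R + 1)]

/-- The period group is discrete and `ℝ^d = per + bounded`, so it spans; take
`ZSpan.fundamentalDomain` of a basis. -/
theorem Dat.exists_fund (E : Dat d K) {L : Submodule ℤ K} (hL : IsLat L) {t : Fin (d + 1) → ℝ}
    (ht : E.cv L * |∏ j, t j| = 1) : ∃ D : Set (Fin d → ℝ),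
      IsAddFundamentalDomain (per (mulL (E.img L) t)) D volume ∧ volume D ≠ 0 ∧ volume D ≠ ⊤ := by
  obtain ⟨R, hR⟩ := apkt3_bdd E hL ht
  set H := (per (mulL (E.img L) t)).toIntSubmodule with hH
  have : DiscreteTopology H := apkt3_discrete E hL (apkt3_t_ne ht)
  have : IsZLattice ℝ H := ⟨apkt3_span hR⟩
  let b := Module.Free.chooseBasis ℤ H
  exact ⟨ZSpan.fundamentalDomain (b.ofZLatticeBasis ℝ), ZLattice.isAddFundamentalDomain b volume,
    ZSpan.measure_fundamentalDomain_ne_zero _,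
    (ZSpan.fundamentalDomain_isBounded _).measure_lt_top.ne⟩

theorem exists_isPacketMeasure (E : Dat d K) (m : LatticeBasis (d + 1) K) :
    ∃ μ : Measure (ModSpace (d + 1)), IsPacketMeasure m E.σ μ := by
  obtain ⟨𝓕, R, h⟩ := E.exists_finite_bases (isLat_lattice m)
  have h0 : ∀ O ∈ packetOrbits m E.σ, ∃ x, O = range (orbitMap x) := by
    rintro O ⟨m', -, w, -, rfl⟩
    exact ⟨_, rfl⟩
  have hfin : (packetOrbits m E.σ).Finite := by
    refine ((𝓕.finite_toSet).image fun Λ => {y | ∃ u, lat y = mulL Λ (fl u)}).subset ?_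
    intro O hO
    obtain ⟨x, rfl⟩ := h0 O hO
    obtain ⟨L, hL, t, ht, hx⟩ := (E.mem_packetOrbits m x).1 hO
    obtain ⟨Λ, hΛ, s, -, hs⟩ := h L hL t ht
    refine ⟨Λ, hΛ, ?_⟩
    ext y
    constructor
    · rintro ⟨u, hu⟩
      refine ⟨u - s, lat_inj ?_⟩
      rw [lat_act_diagFlow, hx, hs, hu, mulL_mul, ← fl_add, add_sub_cancel]
    · rintro ⟨u, rfl⟩
      exact ⟨s + u, by rw [lat_act_diagFlow, hx, hs, mulL_mul, fl_add]⟩
  set e := hfin.toFinset.equivFin.symm with he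
  have h1 : ∀ i, (e i).1 ∈ packetOrbits m E.σ := fun i => hfin.mem_toFinset.1 (e i).2
  choose x hx using fun i => h0 _ (h1 i)
  have h2 : ∀ i, ∃ D : Set (Fin d → ℝ),
      IsAddFundamentalDomain (periods (x i)) D volume ∧ volume D ≠ 0 ∧ volume D ≠ ⊤ := by
    intro i
    obtain ⟨L, hL, t, ht, hx'⟩ := (E.mem_packetOrbits m (x i)).1 (hx i ▸ h1 i)
    rw [periods_eq, hx']
    exact E.exists_fund hL.1 ht
  choose D hD using h2
  refine ⟨_, _, x, D, fun i j hij => ?_, fun O => ⟨fun hO => ?_, ?_⟩, hD, rfl⟩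
  · exact e.injective (Subtype.ext ((hx i).trans (hij.trans (hx j).symm)))
  · refine ⟨e.symm ⟨O, hfin.mem_toFinset.2 hO⟩, ?_⟩
    rw [← hx, Equiv.apply_symm_apply]
  · rintro ⟨i, rfl⟩
    exact hx i ▸ h1 i

end Crest.Agent.R014

end
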