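import Crest.Agent.R014.IHT
import Crest.Agent.R014.IBas

/-! # Row 14: lossy upper bound and lower bound -/

set_option autoImplicit false

noncomputable section

open Finset Filter Topology
open scoped Classical

namespace Crest.Agent.R014

theorem ict2_mertens : ∃ C : ℝ, ∀ Z : ℝ, 1 ≤ Z →
    ∑ p ∈ R008.primesIoc 0 Z, (1 : ℝ) / p ≤ Real.log (1 + Real.log Z) + C := by
  obtain ⟨C, hC0, hC⟩ := R008.mertens2
  refine ⟨1 / 2 + |Real.log (Real.log 2)| + C, fun Z hZ => ?_⟩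
  have hlZ : 0 ≤ Real.log Z := Real.log_nonneg hZ
  have h0 : 0 ≤ Real.log (1 + Real.log Z) := Real.log_nonneg (by linarith)
  have ha := abs_nonneg (Real.log (Real.log 2))
  rcases lt_or_ge Z 2 with h2 | h2
  · have : R008.primesIoc 0 Z = ∅ := by
      refine Finset.eq_empty_of_forall_notMem fun p hp => ?_
      rw [R008.mem_primesIoc le_rfl (by linarith)] at hp
      have : (2 : ℝ) ≤ p := by exact_mod_cast hp.1.two_le
      linarith [hp.2.2]
    rw [this, Finset.sum_empty]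
    linarith
  · have hsub : R008.primesIoc 0 Z ⊆ insert 2 (R008.primesIoc 2 Z) := by
      intro p hp
      rw [R008.mem_primesIoc le_rfl (by linarith)] at hp
      rw [Finset.mem_insert, R008.mem_primesIoc (by norm_num) (by linarith)]
      rcases hp.1.two_le.eq_or_lt with h | h
      · exact Or.inl h.symm
      · exact Or.inr ⟨hp.1, by exact_mod_cast h, hp.2.2⟩
    have h1 := Finset.sum_le_sum_of_subset_of_nonneg (f := fun p : ℕ => (1 : ℝ) / p) hsub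
      fun _ _ _ => by positivity
    have h3 : (2 : ℕ) ∉ R008.primesIoc 2 Z := by
      rw [R008.mem_primesIoc (by norm_num) (by linarith)]
      simp
    rw [Finset.sum_insert h3] at h1
    have h4 := (abs_le.1 (hC 2 Z le_rfl h2)).2
    have h5 : Real.log (Real.log Z) ≤ Real.log (1 + Real.log Z) :=
      Real.log_le_log (Real.log_pos (by linarith)) (by linarith)
    have h6 := neg_abs_le (Real.log (Real.log 2))
    push_cast at h1
    linarith

/-- `√(Z/k) ≤ Z/k`, `euler_bound` and `R008.mertens2`. -/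
theorem ct4 (n : ℕ) : ∃ C : ℝ, 0 < C ∧ ∀ (r : ℕ → ℝ) (Z : ℝ), RM n r → 1 ≤ Z →
    ∑ k ∈ upto Z, r k * √(Z / k) ≤ C * Z * (1 + Real.log Z) ^ n := by
  obtain ⟨C1, hC1, hE⟩ := euler_bound (n + 1)
  obtain ⟨C2, hM⟩ := ict2_mertens
  refine ⟨C1 * Real.exp (n * C2), by positivity, fun r Z hr hZ => ?_⟩
  have hZ0 : 0 < Z := by linarith
  have hlZ : 0 ≤ Real.log Z := Real.log_nonneg hZ
  have hmem : ∀ k ∈ upto Z, 0 < k ∧ (k : ℝ) ≤ Z := fun k hk => by
    rw [upto, Finset.mem_Icc, Nat.le_floor_iff hZ0.le] at hk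
    exact ⟨hk.1, hk.2⟩
  have h1 : ∑ k ∈ upto Z, r k * √(Z / k) ≤ Z * ∑ k ∈ upto Z, r k / k := by
    rw [Finset.mul_sum]
    refine Finset.sum_le_sum fun k hk => ?_
    obtain ⟨hk0, hkZ⟩ := hmem k hk
    have hk0' : (0 : ℝ) < k := by exact_mod_cast hk0
    have h2 : 1 ≤ Z / k := (one_le_div hk0').2 hkZ
    have h3 : √(Z / k) ≤ Z / k := by
      rw [Real.sqrt_le_left (by linarith)]
      nlinarith
    calc r k * √(Z / k) ≤ r k * (Z / k) := mul_le_mul_of_nonneg_left h3 (hr.nonneg k)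
      _ = Z * (r k / k) := by ring
  have h2 := hE r hr.subM (R008.primesIoc 0 Z) (upto Z)
    (fun p hp => ((R008.mem_primesIoc le_rfl hZ0.le).1 hp).1) (fun k hk => by
      obtain ⟨hk0, hkZ⟩ := hmem k hk
      refine ⟨hk0.ne', fun p hp => ?_⟩
      have hp' := Nat.prime_of_mem_primeFactors hp
      rw [R008.mem_primesIoc le_rfl hZ0.le]
      refine ⟨hp', by exact_mod_cast hp'.pos, le_trans ?_ hkZ⟩
      exact_mod_cast Nat.le_of_mem_primeFactors hp)
  have h3 : ∑ p ∈ R008.primesIoc 0 Z, r p / p ≤ n * (Real.log (1 + Real.log Z) + C2) := by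
    refine le_trans ?_ (mul_le_mul_of_nonneg_left (hM Z hZ) (Nat.cast_nonneg n))
    rw [Finset.mul_sum]
    refine Finset.sum_le_sum fun p hp => ?_
    rw [mul_one_div]
    exact div_le_div_of_nonneg_right (hr.prime p ((R008.mem_primesIoc le_rfl hZ0.le).1 hp).1)
      (Nat.cast_nonneg p)
  have h4 : Real.exp (n * (Real.log (1 + Real.log Z) + C2)) =
      (1 + Real.log Z) ^ n * Real.exp (n * C2) := by
    rw [mul_add, Real.exp_add, Real.exp_nat_mul, Real.exp_log (by linarith)]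
  have h5 := Real.exp_le_exp.2 h3
  rw [h4] at h5
  calc _ ≤ Z * ∑ k ∈ upto Z, r k / k := h1
    _ ≤ Z * (C1 * ((1 + Real.log Z) ^ n * Real.exp (n * C2))) :=
        mul_le_mul_of_nonneg_left (h2.trans (mul_le_mul_of_nonneg_left h5 hC1.le)) hZ0.le
    _ = _ := by ring

theorem ict2_exp_le {x : ℝ} (hx : 0 ≤ x) : Real.exp (x - x ^ 2) ≤ 1 + x := by
  have h0 : 0 < 1 + x := by linarith
  rw [← Real.le_log_iff_exp_le h0]
  refine le_trans ?_ (Real.one_sub_inv_le_log_of_pos h0)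
  have : 1 - (1 + x)⁻¹ = x / (1 + x) := by field_simp; ring
  rw [this, le_div_iff₀ h0]
  nlinarith [pow_nonneg hx 3]

theorem ict2_prod_le {n : ℕ} {r : ℕ → ℝ} (hr : RM n r) (s : ℝ) {P : Finset ℕ}
    (hP : ∀ p ∈ P, p.Prime) :
    ∏ p ∈ P, (1 + r p * (p : ℝ) ^ (-s)) ≤
      ∑ k ∈ Icc 1 (∏ p ∈ P, p), r k * (k : ℝ) ^ (-s) := by
  rw [Finset.prod_one_add]
  have hinj : Set.InjOn (fun D : Finset ℕ => ∏ p ∈ D, p) (P.powerset : Set (Finset ℕ)) := by
    intro D hD D' hD' h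
    have h1 := Nat.primeFactors_prod
      (fun p hp => hP p (Finset.mem_powerset.1 (Finset.mem_coe.1 hD) hp))
    have h2 := Nat.primeFactors_prod
      (fun p hp => hP p (Finset.mem_powerset.1 (Finset.mem_coe.1 hD') hp))
    rw [← h1, ← h2]
    exact congrArg Nat.primeFactors h
  have e : ∑ D ∈ P.powerset, ∏ p ∈ D, r p * (p : ℝ) ^ (-s) =
      ∑ k ∈ P.powerset.image (fun D : Finset ℕ => ∏ p ∈ D, p), r k * (k : ℝ) ^ (-s) := by
    rw [Finset.sum_image hinj]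
    refine Finset.sum_congr rfl fun D hD => ?_
    rw [hr.prod_primes fun p hp => hP p (Finset.mem_powerset.1 hD hp), Finset.prod_mul_distrib,
      Nat.cast_prod, Real.finsetProd_rpow _ _ fun p _ => Nat.cast_nonneg p]
  rw [e]
  refine Finset.sum_le_sum_of_subset_of_nonneg ?_ fun k _ _ =>
    mul_nonneg (hr.nonneg k) (Real.rpow_nonneg (Nat.cast_nonneg k) _)
  intro k hk
  obtain ⟨D, hD, rfl⟩ := Finset.mem_image.1 hk
  have hD' := Finset.mem_powerset.1 hD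
  rw [Finset.mem_Icc]
  exact ⟨Finset.one_le_prod' fun p hp => (hP p (hD' hp)).one_le,
    Finset.prod_le_prod_of_subset_of_one_le' hD' fun p hp _ => (hP p hp).one_le⟩

/-- With `T = 1/(s-1) ≥ U`, keep only the squarefree `k` composed of primes in `lp 0 T`:
`∏ (1 + r p p^{-s}) ≥ exp (∑ r p p^{-s} - ∑ n²/p²)`, `p^{-s} ≥ (1 - log p / T)/p`,
`R008.mertens1_le`, and `pm r 0 T ≥ pm r 0 U + log (T/U) - C0`. -/
theorem ct5 (n : ℕ) (C0 : ℝ) : ∃ c : ℝ, 0 < c ∧ ∀ (r : ℕ → ℝ) (u0 U : ℝ), RM n r →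
    Equi C0 r u0 → 1 ≤ u0 → u0 ≤ U → ∀ᶠ s : ℝ in 𝓝[>] 1, ∃ N : ℕ,
      c * kap r U ≤ (s - 1) * ∑ k ∈ Icc 1 N, r k * (k : ℝ) ^ (-s) := by
  obtain ⟨C1, hC1, hM⟩ := R008.mertens1_le
  refine ⟨Real.exp (-(|C0| + n * (1 + C1) + 2 * n ^ 2)), Real.exp_pos _,
    fun r u0 U hr hE hu0 hU => ?_⟩
  have hU1 : 1 ≤ U := hu0.trans hU
  have hU0 : 0 < U := by linarith
  have hev : ∀ᶠ s : ℝ in 𝓝[>] 1, s ∈ Set.Ioo (1 : ℝ) (1 + U⁻¹) :=
    Ioo_mem_nhdsGT (by linarith [inv_pos.2 hU0])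
  filter_upwards [hev] with s hs
  have hs0 : 0 < s - 1 := by linarith [hs.1]
  set T := (s - 1)⁻¹ with hT
  have hT0 : 0 < T := inv_pos.2 hs0
  have hUT : U ≤ T := by
    rw [hT, le_inv_comm₀ hU0 hs0]; linarith [hs.2]
  have hT1 : 1 ≤ T := hU1.trans hUT
  have hsT : (s - 1) * T = 1 := mul_inv_cancel₀ hs0.ne'
  have hP : ∀ p ∈ lp 0 T, p.Prime := fun p hp => (mem_lp.1 hp).1
  refine ⟨∏ p ∈ lp 0 T, p, ?_⟩
  have h1 := ict2_prod_le hr s hP
  have hx0 : ∀ p : ℕ, 0 ≤ r p * (p : ℝ) ^ (-s) := fun p =>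
    mul_nonneg (hr.nonneg p) (Real.rpow_nonneg (Nat.cast_nonneg p) _)
  have h2 : Real.exp (∑ p ∈ lp 0 T, (r p * (p : ℝ) ^ (-s) - (r p * (p : ℝ) ^ (-s)) ^ 2)) ≤
      ∏ p ∈ lp 0 T, (1 + r p * (p : ℝ) ^ (-s)) := by
    rw [Real.exp_sum]
    exact Finset.prod_le_prod (fun p _ => (Real.exp_pos _).le) fun p _ => ict2_exp_le (hx0 p)
  have h3 : ∑ p ∈ lp 0 T, (r p * (p : ℝ) ^ (-s)) ^ 2 ≤ 2 * n ^ 2 := by
    have h := R008.sum_inv_sq_le 1 le_rfl (lp 0 T) fun p hp => by exact_mod_cast (hP p hp).one_le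
    calc _ ≤ ∑ p ∈ lp 0 T, (n : ℝ) ^ 2 * (1 / (p : ℝ) ^ 2) := by
          refine Finset.sum_le_sum fun p hp => ?_
          have hp1 : (1 : ℝ) ≤ p := by exact_mod_cast (hP p hp).one_le
          have a1 : (p : ℝ) ^ (-s) ≤ (p : ℝ)⁻¹ := by
            rw [← Real.rpow_neg_one]
            exact Real.rpow_le_rpow_of_exponent_le hp1 (by linarith [hs.1])
          have a2 : r p * (p : ℝ) ^ (-s) ≤ n * (p : ℝ)⁻¹ :=
            mul_le_mul (hr.prime p (hP p hp)) a1 (Real.rpow_nonneg (Nat.cast_nonneg p) _)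
              (Nat.cast_nonneg n)
          calc _ ≤ (n * (p : ℝ)⁻¹) ^ 2 := pow_le_pow_left₀ (hx0 p) a2 2
            _ = _ := by rw [mul_pow, inv_pow, one_div]
      _ = (n : ℝ) ^ 2 * ∑ p ∈ lp 0 T, 1 / (p : ℝ) ^ 2 := by rw [Finset.mul_sum]
      _ ≤ (n : ℝ) ^ 2 * (2 / 1) := mul_le_mul_of_nonneg_left h (sq_nonneg _)
      _ = _ := by ring
  have h4 : ∑ p ∈ lp 0 T, Real.log p / p ≤ T + C1 := by
    have h := hM (Real.exp T) (Real.one_le_exp hT0.le)
    rw [Real.log_exp] at h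
    refine le_trans (Finset.sum_le_sum_of_subset_of_nonneg ?_ fun p _ _ =>
      div_nonneg (Real.log_natCast_nonneg p) (Nat.cast_nonneg p)) h
    intro p hp
    have hp' := mem_lp.1 hp
    have hp0 : (0 : ℝ) < p := by exact_mod_cast hp'.1.pos
    rw [R008.mem_primesIoc le_rfl (Real.exp_pos _).le]
    exact ⟨hp'.1, hp0, (Real.log_le_iff_le_exp hp0).1 hp'.2.2⟩
  have h5 : pm r 0 T - n * (1 + C1) ≤ ∑ p ∈ lp 0 T, r p * (p : ℝ) ^ (-s) := by
    have a1 : ∑ p ∈ lp 0 T, (r p / p - n * (s - 1) * (Real.log p / p)) ≤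
        ∑ p ∈ lp 0 T, r p * (p : ℝ) ^ (-s) := by
      refine Finset.sum_le_sum fun p hp => ?_
      have hp0 : (0 : ℝ) < p := by exact_mod_cast (hP p hp).pos
      have hl := Real.log_natCast_nonneg p
      have b1 : (p : ℝ) ^ (-s) = (p : ℝ)⁻¹ * Real.exp (-((s - 1) * Real.log p)) := by
        rw [show -s = -1 + -(s - 1) by ring, Real.rpow_add hp0, Real.rpow_neg_one,
          Real.rpow_def_of_pos hp0]
        congr 2; ring
      have b2 := Real.add_one_le_exp (-((s - 1) * Real.log p))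
      have b3 : r p / p * (-((s - 1) * Real.log p) + 1) ≤
          r p / p * Real.exp (-((s - 1) * Real.log p)) :=
        mul_le_mul_of_nonneg_left b2 (div_nonneg (hr.nonneg p) hp0.le)
      have b4 : r p * ((s - 1) * (Real.log p / p)) ≤ n * ((s - 1) * (Real.log p / p)) :=
        mul_le_mul_of_nonneg_right (hr.prime p (hP p hp)) (by positivity)
      rw [b1]
      calc r p / p - n * (s - 1) * (Real.log p / p)
          ≤ r p / p - r p * ((s - 1) * (Real.log p / p)) := by linarith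
        _ = r p / p * (-((s - 1) * Real.log p) + 1) := by ring
        _ ≤ _ := b3
        _ = _ := by ring
    rw [Finset.sum_sub_distrib, ← Finset.mul_sum] at a1
    have a2 : n * (s - 1) * ∑ p ∈ lp 0 T, Real.log p / p ≤ n * (s - 1) * (T + C1) :=
      mul_le_mul_of_nonneg_left h4 (by positivity)
    have a3 : (s - 1) * (T + C1) ≤ 1 + C1 := by
      have : s - 1 ≤ 1 := by nlinarith
      nlinarith
    have a4 : n * ((s - 1) * (T + C1)) ≤ n * (1 + C1) :=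
      mul_le_mul_of_nonneg_left a3 (Nat.cast_nonneg n)
    unfold pm
    linarith
  have h6 : pm r 0 U + Real.log (T / U) - |C0| ≤ pm r 0 T := by
    rw [pm_add r hU0.le hUT]
    have a1 := (abs_le.1 (hE.main U T hU hUT)).1
    have a2 : C0 / U ≤ |C0| := by
      rw [div_le_iff₀ hU0]
      nlinarith [le_abs_self C0, abs_nonneg C0]
    linarith
  have h7 : -(|C0| + n * (1 + C1) + 2 * n ^ 2) + pm r 0 U + Real.log (T / U) ≤
      ∑ p ∈ lp 0 T, (r p * (p : ℝ) ^ (-s) - (r p * (p : ℝ) ^ (-s)) ^ 2) := by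
    rw [Finset.sum_sub_distrib]
    linarith
  have h8 := ((Real.exp_le_exp.2 h7).trans h2).trans h1
  rw [Real.exp_add, Real.exp_add, Real.exp_log (div_pos hT0 hU0)] at h8
  refine le_trans (le_of_eq ?_) (mul_le_mul_of_nonneg_left h8 hs0.le)
  unfold kap
  calc _ = Real.exp (-(|C0| + n * (1 + C1) + 2 * n ^ 2)) * Real.exp (pm r 0 U) *
        ((s - 1) * T) / U := by rw [hsT]; ring
    _ = _ := by ring

theorem ict2_two_rpow {x : ℝ} (h0 : 0 ≤ x) (h1 : x ≤ 1) : (2 : ℝ) ^ (-x) ≤ 1 - x / 2 := by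
  have h := Real.geom_mean_le_arith_mean2_weighted (w₁ := 1 - x) (w₂ := x) (p₁ := 1)
    (p₂ := 2⁻¹) (by linarith) h0 zero_le_one (by norm_num) (by ring)
  rw [Real.one_rpow, one_mul, Real.inv_rpow (by norm_num), ← Real.rpow_neg (by norm_num)] at h
  linarith

theorem ict2_dyadic {ι : Type*} (I : Finset ι) (X : ι → ℝ) (hX : ∀ i ∈ I, 0 < X i) (r : ℕ → ℝ)
    (hr : ∀ k, 0 ≤ r k) {B Y : ℝ} (hY : 1 ≤ Y) (hB0 : 0 ≤ B)
    (hB : ∀ Y' : ℝ, Y ≤ Y' → ∑ i ∈ I, ∑ k ∈ upto (Y' * X i), r k ≤ B * Y') {s : ℝ} (hs : 1 ≤ s)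
    (J : ℕ) : ∑ i ∈ I, ∑ k ∈ upto (Y * 2 ^ J * X i), r k * (X i / k) ^ s ≤
      ∑ i ∈ I, ∑ k ∈ upto (Y * X i), r k * (X i / k) ^ s +
        2 * B * ∑ j ∈ range J, ((2 : ℝ) ^ (-(s - 1))) ^ j := by
  induction J with
  | zero => simp
  | succ J ih =>
    have hY0 : 0 < Y := by linarith
    have h2J : (1 : ℝ) ≤ 2 ^ J := one_le_pow₀ (by norm_num)
    have hW : 0 < Y * 2 ^ J := by positivity
    have hstep : ∀ i ∈ I, ∑ k ∈ upto (Y * 2 ^ (J + 1) * X i), r k * (X i / k) ^ s ≤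
        ∑ k ∈ upto (Y * 2 ^ J * X i), r k * (X i / k) ^ s +
          (Y * 2 ^ J) ^ (-s) * ∑ k ∈ upto (Y * 2 ^ (J + 1) * X i), r k := by
      intro i hi
      have hXi := hX i hi
      have hsub : upto (Y * 2 ^ J * X i) ⊆ upto (Y * 2 ^ (J + 1) * X i) := by
        refine Finset.Icc_subset_Icc_right (Nat.floor_le_floor ?_)
        rw [pow_succ]
        nlinarith [mul_pos hW hXi]
      rw [← Finset.sum_sdiff hsub, add_comm]
      refine add_le_add le_rfl ?_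
      rw [Finset.mul_sum]
      refine le_trans (Finset.sum_le_sum (g := fun k => (Y * 2 ^ J) ^ (-s) * r k) fun k hk => ?_)
        (Finset.sum_le_sum_of_subset_of_nonneg Finset.sdiff_subset fun k _ _ =>
          mul_nonneg (Real.rpow_nonneg hW.le _) (hr k))
      rw [Finset.mem_sdiff, upto, upto, Finset.mem_Icc, Finset.mem_Icc] at hk
      have hk1 : ¬ k ≤ ⌊Y * 2 ^ J * X i⌋₊ := fun h => hk.2 ⟨hk.1.1, h⟩
      rw [Nat.le_floor_iff (by positivity), not_le] at hk1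
      have hk0 : (0 : ℝ) < k := lt_trans (by positivity) hk1
      have hle : X i / k ≤ (Y * 2 ^ J)⁻¹ := by
        rw [div_le_iff₀ hk0, inv_mul_eq_div, le_div_iff₀ hW]
        linarith
      rw [mul_comm, Real.rpow_neg hW.le, ← Real.inv_rpow hW.le]
      exact mul_le_mul_of_nonneg_right
        (Real.rpow_le_rpow (by positivity) hle (by linarith)) (hr k)
    have h1 := Finset.sum_le_sum hstep
    rw [Finset.sum_add_distrib, ← Finset.mul_sum] at h1
    have h2 := hB (Y * 2 ^ (J + 1)) (by rw [pow_succ]; nlinarith)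
    have h3 : (Y * 2 ^ J) ^ (-s) * (Y * 2 ^ J) ≤ ((2 : ℝ) ^ (-(s - 1))) ^ J := by
      rw [← Real.rpow_add_one hW.ne', ← Real.rpow_natCast ((2 : ℝ) ^ (-(s - 1))),
        ← Real.rpow_mul (by norm_num), mul_comm (-(s - 1)), Real.rpow_mul (by norm_num),
        Real.rpow_natCast, show -(s - 1) = -s + 1 by ring]
      exact Real.rpow_le_rpow_of_nonpos (by positivity) (by nlinarith) (by linarith)
    have h4 : (Y * 2 ^ J) ^ (-s) * ∑ i ∈ I, ∑ k ∈ upto (Y * 2 ^ (J + 1) * X i), r k ≤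
        2 * B * ((2 : ℝ) ^ (-(s - 1))) ^ J := by
      calc _ ≤ (Y * 2 ^ J) ^ (-s) * (B * (Y * 2 ^ (J + 1))) :=
            mul_le_mul_of_nonneg_left h2 (Real.rpow_nonneg hW.le _)
        _ = 2 * B * ((Y * 2 ^ J) ^ (-s) * (Y * 2 ^ J)) := by ring
        _ ≤ _ := mul_le_mul_of_nonneg_left h3 (by positivity)
    rw [Finset.sum_range_succ]
    linarith

/-- An Abelian argument.  `∑_i X_i^s ∑_k r k k^{-s} = ∑_i ∑_k r k (k / X_i)^{-s}`; with
`Y1 = max Y0 1` the terms `k ≤ Y1 X_i` are bounded for `s ∈ [1,2]`, the terms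
`Y1 2^j < k / X_i ≤ Y1 2^{j+1}` contribute `≤ 2 B 2^{-j(s-1)}`, and `1 - 2^{-x} ≥ x/2` on `[0,1]`.
Let `s → 1⁺`. -/
theorem abel_bound {ι : Type*} (I : Finset ι) (X : ι → ℝ) (hX : ∀ i ∈ I, 0 < X i) (r : ℕ → ℝ)
    (hr : ∀ k, 0 ≤ r k) {B c Y0 : ℝ}
    (hB : ∀ Y : ℝ, Y0 ≤ Y → ∑ i ∈ I, ∑ k ∈ upto (Y * X i), r k ≤ B * Y)
    (hc : ∀ᶠ s : ℝ in 𝓝[>] 1, ∃ N : ℕ, c ≤ (s - 1) * ∑ k ∈ Icc 1 N, r k * (k : ℝ) ^ (-s)) :
    c * ∑ i ∈ I, X i ≤ 4 * B := by
  set Y := max Y0 1 with hYdef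
  have hY : 1 ≤ Y := le_max_right _ _
  have hB' : ∀ Y' : ℝ, Y ≤ Y' → ∑ i ∈ I, ∑ k ∈ upto (Y' * X i), r k ≤ B * Y' :=
    fun Y' h => hB Y' ((le_max_left _ _).trans h)
  have hB0 : 0 ≤ B := by
    have h1 := hB' Y le_rfl
    have h2 : 0 ≤ ∑ i ∈ I, ∑ k ∈ upto (Y * X i), r k :=
      Finset.sum_nonneg fun i _ => Finset.sum_nonneg fun k _ => hr k
    exact nonneg_of_mul_nonneg_left (h2.trans h1) (by linarith)
  set H := ∑ i ∈ I, ∑ k ∈ upto (Y * X i), r k * (max (X i) 1) ^ (2 : ℝ) with hH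
  have hev : ∀ᶠ s : ℝ in 𝓝[>] 1, s ∈ Set.Ioo (1 : ℝ) 2 := Ioo_mem_nhdsGT (by norm_num)
  have key : ∀ᶠ s : ℝ in 𝓝[>] 1, c * ∑ i ∈ I, X i ^ s ≤ (s - 1) * H + 4 * B := by
    filter_upwards [hev, hc] with s hs hcs
    obtain ⟨N, hN⟩ := hcs
    have hs0 : 0 < s - 1 := by linarith [hs.1]
    have hJ : ∀ᶠ J : ℕ in atTop, ∀ i ∈ I, (N : ℝ) ≤ Y * 2 ^ J * X i := by
      refine (Finset.eventually_all I).2 fun i hi => ?_
      have h1 : Tendsto (fun J : ℕ => Y * 2 ^ J * X i) atTop atTop :=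
        ((tendsto_pow_atTop_atTop_of_one_lt one_lt_two).const_mul_atTop
          (by linarith)).atTop_mul_const (hX i hi)
      exact h1.eventually_ge_atTop _
    obtain ⟨J, hJ⟩ := hJ.exists
    have h1 := ict2_dyadic I X hX r hr hY hB0 hB' hs.1.le J
    have h2 : ∑ i ∈ I, ∑ k ∈ upto (Y * X i), r k * (X i / k) ^ s ≤ H := by
      refine Finset.sum_le_sum fun i hi => Finset.sum_le_sum fun k hk => ?_
      refine mul_le_mul_of_nonneg_left ?_ (hr k)
      have hk1 : (1 : ℝ) ≤ k := by exact_mod_cast (Finset.mem_Icc.1 hk).1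
      have hXi := hX i hi
      have a1 : X i / k ≤ max (X i) 1 := (div_le_self hXi.le hk1).trans (le_max_left _ _)
      exact (Real.rpow_le_rpow (by positivity) a1 (by linarith)).trans
        (Real.rpow_le_rpow_of_exponent_le (le_max_right _ _) hs.2.le)
    have h3 : (s - 1) * ∑ j ∈ range J, ((2 : ℝ) ^ (-(s - 1))) ^ j ≤ 2 := by
      have a1 := ict2_two_rpow hs0.le (by linarith [hs.2])
      have a2 := mul_neg_geom_sum ((2 : ℝ) ^ (-(s - 1))) J
      have a3 : 0 ≤ ((2 : ℝ) ^ (-(s - 1))) ^ J := by positivity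
      have a4 : 0 ≤ ∑ j ∈ range J, ((2 : ℝ) ^ (-(s - 1))) ^ j :=
        Finset.sum_nonneg fun j _ => by positivity
      nlinarith
    have h4 : (∑ i ∈ I, X i ^ s) * ∑ k ∈ Icc 1 N, r k * (k : ℝ) ^ (-s) ≤
        ∑ i ∈ I, ∑ k ∈ upto (Y * 2 ^ J * X i), r k * (X i / k) ^ s := by
      rw [Finset.sum_mul]
      refine Finset.sum_le_sum fun i hi => ?_
      have hXi := hX i hi
      rw [Finset.mul_sum]
      refine le_trans (le_of_eq (Finset.sum_congr rfl fun k _ => ?_))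
        (Finset.sum_le_sum_of_subset_of_nonneg (s := Icc 1 N)
          (Finset.Icc_subset_Icc_right (Nat.le_floor (hJ i hi))) fun k _ _ =>
          mul_nonneg (hr k) (Real.rpow_nonneg (by positivity) _))
      rw [Real.div_rpow hXi.le (Nat.cast_nonneg k), Real.rpow_neg (Nat.cast_nonneg k)]
      ring
    have h5 : 0 ≤ ∑ i ∈ I, X i ^ s :=
      Finset.sum_nonneg fun i hi => Real.rpow_nonneg (hX i hi).le _
    have h6 := mul_le_mul_of_nonneg_right hN h5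
    have h7 := mul_le_mul_of_nonneg_left ((h4.trans h1).trans (add_le_add h2 le_rfl)) hs0.le
    have h8 := mul_le_mul_of_nonneg_left h3 hB0
    nlinarith
  have t1 : Tendsto (fun s : ℝ => c * ∑ i ∈ I, X i ^ s) (𝓝[>] 1) (𝓝 (c * ∑ i ∈ I, X i)) := by
    refine (tendsto_finsetSum _ fun i hi => ?_).const_mul c
    have h : ContinuousAt (fun s : ℝ => X i ^ s) 1 :=
      (Real.continuous_const_rpow (hX i hi).ne').continuousAt
    have h' := h.tendsto.mono_left (nhdsWithin_le_nhds (s := Set.Ioi 1))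
    rwa [Real.rpow_one] at h'
  have t2 : Tendsto (fun s : ℝ => (s - 1) * H + 4 * B) (𝓝[>] 1) (𝓝 (4 * B)) := by
    have h : ContinuousAt (fun s : ℝ => (s - 1) * H + 4 * B) 1 := by fun_prop
    have h' := h.tendsto.mono_left (nhdsWithin_le_nhds (s := Set.Ioi 1))
    simpa using h'
  exact le_of_tendsto_of_tendsto t1 t2 key

end Crest.Agent.R014

end
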