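import Crest.Agent.R014.AGeo
import Crest.Agent.R014.APkt2
import Crest.Agent.R014.ALoc2
import Crest.Agent.R014.ICT2

/-! # Row 14: the volume bound -/

set_option autoImplicit false

noncomputable section

open MeasureTheory Filter Topology Set
open scoped ENNReal NumberField Classical
open Crest.NumberTheoryR.Packets

namespace Crest.Agent.R014

universe u

variable {d : ℕ} {K : Type u} [Field K] [NumberField K]

theorem avb_count {α ι : Type*} [MeasurableSpace α] (μ : Measure α) (A : ι → Set α)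
    (hA : ∀ p, MeasurableSet (A p)) {B : ℝ}
    (h : ∀ (u : α) (F : Finset ι), (∀ p ∈ F, u ∈ A p) → (F.card : ℝ) ≤ B) :
    ∑' p, μ (A p) ≤ ENNReal.ofReal B * μ univ := by
  refine ENNReal.summable.tsum_le_of_sum_le fun F => ?_
  have e : ∑ p ∈ F, μ (A p) = ∫⁻ u, ∑ p ∈ F, (A p).indicator (1 : α → ℝ≥0∞) u ∂μ := by
    rw [lintegral_finsetSum _ fun p _ => measurable_one.indicator (hA p)]
    exact Finset.sum_congr rfl fun p _ => (lintegral_indicator_one (hA p)).symm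
  rw [e, ← lintegral_const]
  refine lintegral_mono fun u => ?_
  have e2 : ∑ p ∈ F, (A p).indicator (1 : α → ℝ≥0∞) u = ((F.filter fun p => u ∈ A p).card : ℝ≥0∞) := by
    rw [Finset.card_filter]
    push_cast
    exact Finset.sum_congr rfl fun p _ => by simp [indicator_apply]
  simp only [e2]
  rw [← ENNReal.ofReal_natCast]
  exact ENNReal.ofReal_le_ofReal (h u _ fun p hp => (Finset.mem_filter.1 hp).2)

theorem avb_fl_le {s : Fin d → ℝ} (hs : s ∈ Icc (0 : Fin d → ℝ) 1) (j : Fin (d + 1)) :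
    fl s j ≤ Real.exp 1 := by
  refine Real.exp_le_exp.2 ?_
  refine Fin.lastCases ?_ (fun k => ?_) j
  · have : 0 ≤ ∑ i, s i := Finset.sum_nonneg fun i _ => hs.1 i
    simp only [lg, Fin.snoc_last]
    linarith
  · simpa [lg] using hs.2 k

theorem avb_ne_zero {c : ℝ} {t : Fin (d + 1) → ℝ} (ht : c * |∏ j, t j| = 1) (j : Fin (d + 1)) :
    t j ≠ 0 := fun h => by
  rw [Finset.prod_eq_zero (Finset.mem_univ j) h] at ht
  simp at ht

open scoped Pointwise in
/-- Unfolding from below.  Let `S = [0,1]^d`-type box: for `L ∈ 𝒯` put `t_L = (cv L)^{-1/n}` and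
`mulL (img L) t_L = mulL (Λ i) (fl u_L)`.  With `S = {s | ∀ i, 0 ≤ s i ≤ 1}` (volume one) we have
`1 = ∑_{π ∈ per} vol (D i ∩ (π + u_L + S))`, so `#𝒯 = ∑_i ∫_{D i} #{(L, π) | u ∈ π + u_L + S} du`.  A
pair `(L, π)` gives the vector `v = t_L fl (u - π - u_L)` of `mulL (Λ i) (fl u)` with `Lof = L`, of
norm `≤ e · t_L ≤ T`, and `v` determines the pair. -/
theorem Pkt.card_le {E : Dat d K} {M : Submodule ℤ K} (P : Pkt E M) (𝒯 : Finset (Submodule ℤ K))
    {T B : ℝ} (hT : 0 < T)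
    (h𝒯 : ∀ L ∈ 𝒯, L ∈ gen M ∧ (1 : K) ∈ L ∧ (Real.exp 1 / T) ^ (d + 1) ≤ E.cv L)
    (hB : ∀ i u (𝒱 : Finset (Fin (d + 1) → ℝ)), (∀ v ∈ 𝒱, v ∈ mulL (P.Λ i) (fl u) ∧ v ≠ 0 ∧ ‖v‖ ≤ T ∧
      E.Lof (mulL (P.Λ i) (fl u)) v ∈ 𝒯) → (𝒱.card : ℝ) ≤ B) : (𝒯.card : ℝ) ≤ B * P.V := by
  rcases isEmpty_or_nonempty (Fin P.k) with hk | ⟨⟨i0⟩⟩
  · have : 𝒯 = ∅ := by
      refine Finset.eq_empty_of_forall_notMem fun L hL => ?_
      have hc := E.cv_pos (h𝒯 L hL).1.1
      obtain ⟨i, -⟩ := P.complete L (h𝒯 L hL).1 (fun j => if j = 0 then (E.cv L)⁻¹ else 1) (by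
        rw [Finset.prod_ite_eq', if_pos (Finset.mem_univ _), abs_of_pos (inv_pos.2 hc),
          mul_inv_cancel₀ hc.ne'])
      exact hk.elim i
    simp [this, Pkt.V]
  have hB0 : 0 ≤ B := by simpa using hB i0 0 ∅ (by simp)
  let τ : 𝒯 → ℝ := fun L => (E.cv L)⁻¹ ^ ((d + 1 : ℕ) : ℝ)⁻¹
  have hcv : ∀ L : 𝒯, 0 < E.cv L := fun L => E.cv_pos (h𝒯 L L.2).1.1
  have hτ0 : ∀ L, 0 < τ L := fun L => Real.rpow_pos_of_pos (inv_pos.2 (hcv L)) _
  have hτn : ∀ L, τ L ^ (d + 1) = (E.cv L)⁻¹ := fun L =>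
    Real.rpow_inv_natCast_pow (inv_pos.2 (hcv L)).le (Nat.succ_ne_zero d)
  have hτ1 : ∀ L : 𝒯, E.cv L * |∏ _j : Fin (d + 1), τ L| = 1 := fun L => by
    rw [Finset.prod_const, Finset.card_univ, Fintype.card_fin, hτn,
      abs_of_pos (inv_pos.2 (hcv L)), mul_inv_cancel₀ (hcv L).ne']
  have hτT : ∀ L, τ L * Real.exp 1 ≤ T := fun L => by
    rw [← le_div_iff₀ (Real.exp_pos 1)]
    refine le_of_pow_le_pow_left₀ (Nat.succ_ne_zero d) (by positivity) ?_
    rw [hτn, ← inv_div, inv_pow]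
    exact inv_anti₀ (by positivity) (h𝒯 L L.2).2.2
  choose ι w hw using fun L : 𝒯 => P.complete L (h𝒯 L L.2).1 (fun _ => τ L) (hτ1 L)
  have key : ∀ i, ∑ L : 𝒯, (if ι L = i then (1 : ℝ≥0∞) else 0) ≤
      ENNReal.ofReal B * volume (P.D i) := by
    intro i
    obtain ⟨L0, hL0, t0, ht0, hΛ⟩ := P.shape i
    have : Countable (per (P.Λ i)) := by
      rw [hΛ]; exact E.countable_per hL0.1 (avb_ne_zero ht0)
    let A : 𝒯 × per (P.Λ i) → Set (Fin d → ℝ) := fun p =>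
      if ι p.1 = i then p.2 +ᵥ (w p.1 +ᵥ Icc (0 : Fin d → ℝ) 1) else ∅
    have hA : ∀ p, MeasurableSet (A p) := fun p => by
      simp only [A]
      split_ifs
      · exact (measurableSet_Icc.const_vadd _).const_vadd _
      · exact MeasurableSet.empty
    have h1 := avb_count (volume.restrict (P.D i)) A hA (B := B) ?_
    · rw [Measure.restrict_apply_univ, ENNReal.tsum_prod', tsum_fintype] at h1
      refine le_trans (le_of_eq (Finset.sum_congr rfl fun L _ => ?_)) h1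
      simp only [Measure.restrict_apply (hA _)]
      simp only [A]
      split_ifs with h
      · rw [← (P.fund i).measure_eq_tsum, measure_vadd, Real.volume_Icc_pi]
        simp
      · simp
    · intro u F hF
      have hp : ∀ p ∈ F, ι p.1 = i ∧ u - p.2 - w p.1 ∈ Icc (0 : Fin d → ℝ) 1 := fun p hp => by
        have := hF p hp
        simp only [A] at this
        split_ifs at this with h
        · obtain ⟨_, ⟨s, hs, rfl⟩, rfl⟩ := this
          refine ⟨h, ?_⟩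
          simpa [AddSubgroup.vadd_def] using hs
        · exact this.elim
      let v : 𝒯 × per (P.Λ i) → Fin (d + 1) → ℝ := fun p =>
        (fun _ => τ p.1) * fl (u - p.2.1 - w p.1)
      have hv0 : ∀ p j, 0 < v p j := fun p j => mul_pos (hτ0 _) (Real.exp_pos _)
      have hm : ∀ p ∈ F, mulL (P.Λ i) (fl u) = mulL (E.img p.1) (v p) := fun p hp' => by
        have e1 : u = p.2 + (w p.1 + (u - p.2 - w p.1)) := by abel
        have e2 : mulL (P.Λ i) (fl p.2) = P.Λ i := p.2.2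
        have e3 := hw p.1
        rw [(hp p hp').1] at e3
        conv_lhs => rw [e1, fl_add, ← mulL_mul, e2, fl_add, ← mulL_mul, ← e3, mulL_mul]
      have hLof : ∀ p ∈ F, E.Lof (mulL (P.Λ i) (fl u)) (v p) = p.1 := fun p hp' => by
        have := E.Lof_eq p.1 (t := v p) (fun j => (hv0 p j).ne') (one_ne_zero (α := K))
        rw [E.e_one, one_mul, inv_one, sc_one] at this
        rw [hm p hp', this]
      have hinj : InjOn v F := by
        rintro ⟨L, π⟩ h1 ⟨L', π'⟩ h2 h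
        have e1 : L = L' := Subtype.ext (by
          have a1 := hLof _ h1
          have a2 := hLof _ h2
          rw [h] at a1
          exact a1.symm.trans a2)
        subst e1
        have e2 : fl (u - π.1 - w L) = fl (u - π'.1 - w L) := by
          funext j
          exact mul_left_cancel₀ (hτ0 L).ne' (congrFun h j)
        have e3 := fl_injective e2
        rw [sub_left_inj, sub_right_inj] at e3
        rw [Subtype.ext e3]
      rw [← Finset.card_image_of_injOn hinj]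
      refine hB i u _ fun x hx => ?_
      obtain ⟨p, hp', rfl⟩ := Finset.mem_image.1 hx
      refine ⟨?_, fun h => (hv0 p 0).ne' (congrFun h 0), ?_, ?_⟩
      · rw [hm p hp', mem_mulL]
        exact ⟨E.e 1, Submodule.mem_map_of_mem (h𝒯 _ p.1.2).2.1, by rw [E.e_one, one_mul]⟩
      · refine (pi_norm_le_iff_of_nonneg hT.le).2 fun j => ?_
        rw [Real.norm_of_nonneg (hv0 p j).le]
        exact (mul_le_mul_of_nonneg_left (avb_fl_le (hp p hp').2 j) (hτ0 _).le).trans (hτT _)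
      · rw [hLof p hp']; exact p.1.2
  have h2 := Finset.sum_le_sum fun i (_ : i ∈ Finset.univ) => key i
  rw [Finset.sum_comm, ← Finset.mul_sum] at h2
  simp only [Finset.sum_ite_eq, Finset.mem_univ, if_true, Finset.sum_const, Finset.card_univ,
    Fintype.card_coe, nsmul_eq_mul, mul_one] at h2
  have h3 := ENNReal.toReal_mono (ENNReal.mul_ne_top ENNReal.ofReal_ne_top
    (ENNReal.sum_ne_top.2 fun i _ => P.ne_top i)) h2
  rwa [ENNReal.toReal_mul, ENNReal.toReal_ofReal hB0, ENNReal.toReal_natCast] at h3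

/-- `Pkt.card_le` for the lattices `dual (cut f P' I)`, `P' ∈ 𝒬`, `N I ≤ Y / cv P'`, with
`T^n = e^n Y`; the vectors lie in the image of the sublattice, `Dat.card_orbit_le`, `Dat.Lof_eq`,
`exists_finset_cop`. -/
theorem vb_count (d : ℕ) : ∃ C : ℝ, 0 < C ∧ ∀ (K : Type u) [Field K] [NumberField K] (E : Dat d K)
    (M : Submodule ℤ K) (P : Pkt E M) (𝒬 : Finset (Submodule ℤ K)) (I : ℝ), IsLat M → 0 < I →
    (∀ P' ∈ 𝒬, P' ∈ PS (dual M)) →
    (∀ L ∈ gen M, ∃ L', IsLat L' ∧ I * E.cv L ≤ E.cv L' ∧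
      ∀ x ∈ L, x ≠ 0 → PP (ff M) (sc x (dual L)) ∈ 𝒬 → x ∈ L') →
    ∃ Y0 : ℝ, ∀ Y : ℝ, Y0 ≤ Y →
      ∑ P' ∈ 𝒬, ∑ k ∈ upto (Y * (E.cv P')⁻¹), rG K (ff M) k ≤ C * P.V / I * Y := by
  refine ⟨(4 * Real.exp 1) ^ (d + 1), by positivity, ?_⟩
  intro K _ _ E M P 𝒬 I hM hI h𝒬 hsub
  have hN := hM.dual
  have hf := hM.ff_dual
  choose L hL t ht hΛ using P.shape
  choose L' hL' hcv hmem using fun i => hsub (L i) (hL i)
  choose T0 hT0 using fun i => E.card_orbit_le (hL' i) (avb_ne_zero (ht i))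
  have hS : 0 ≤ ∑ i, |T0 i| := Finset.sum_nonneg fun i _ => abs_nonneg _
  refine ⟨(∑ i, |T0 i| + 1) ^ (d + 1), fun Y hY => ?_⟩
  have hY0 : 0 < Y := lt_of_lt_of_le (by positivity) hY
  obtain ⟨y, hy0, hy⟩ : ∃ y : ℝ, 0 < y ∧ y ^ (d + 1) = Y :=
    ⟨Y ^ ((d + 1 : ℕ) : ℝ)⁻¹, Real.rpow_pos_of_pos hY0 _,
      Real.rpow_inv_natCast_pow hY0.le (Nat.succ_ne_zero d)⟩
  have hy1 : ∑ i, |T0 i| + 1 ≤ y :=
    le_of_pow_le_pow_left₀ (Nat.succ_ne_zero d) hy0.le (hY.trans hy.ge)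
  have hT : ∀ i, T0 i ≤ Real.exp 1 * y := fun i => by
    have a1 := Finset.single_le_sum (f := fun i => |T0 i|) (fun i _ => abs_nonneg _)
      (Finset.mem_univ i)
    have a2 := le_abs_self (T0 i)
    have a3 : y ≤ Real.exp 1 * y := le_mul_of_one_le_left hy0.le (Real.one_le_exp zero_le_one)
    linarith
  choose J hJ hJc using fun P' : Submodule ℤ K => exists_finset_cop (K := K) (ff M) (Y * (E.cv P')⁻¹)
  let φ : (Σ _ : Submodule ℤ K, Ideal (𝓞 K)) → Submodule ℤ K := fun p => dual (cut (ff M) p.1 p.2)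
  have hp : ∀ p ∈ 𝒬.sigma J, IsLat (cut (ff M) p.1 p.2) ∧ PP (ff M) (cut (ff M) p.1 p.2) = p.1 ∧
      aa (ff M) (cut (ff M) p.1 p.2) = p.2 ∧ cut (ff M) p.1 p.2 ∈ QS (dual M) ∧
      E.cv (cut (ff M) p.1 p.2) ≤ Y := fun p hp => by
    obtain ⟨h1, h2⟩ := Finset.mem_sigma.1 hp
    have a1 := h𝒬 _ h1
    have a2 : Cop (ff (dual M)) p.2 := by rw [hf]; exact (hJ _ _ h2).1
    have a3 := PS.index_cut E hN a1 a2
    have a4 := PS.PP_cut E hN a1 a2
    have a5 := PS.cut_mem E hN a1 a2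
    rw [hf] at a3 a4 a5
    refine ⟨a3.1, a4.1, a4.2, a5, ?_⟩
    rw [a3.2.2, ← le_div_iff₀ (E.cv_pos a1.1.1.1), div_eq_mul_inv]
    exact (hJ _ _ h2).2
  have hinj : InjOn φ (𝒬.sigma J) := by
    intro p h1 q h2 h
    have e : cut (ff M) p.1 p.2 = cut (ff M) q.1 q.2 := by
      rw [← (hp p h1).1.dual_dual, ← (hp q h2).1.dual_dual]
      exact congrArg dual h
    have e1 : p.1 = q.1 := by rw [← (hp p h1).2.1, ← (hp q h2).2.1, e]
    have e2 : p.2 = q.2 := by rw [← (hp p h1).2.2.1, ← (hp q h2).2.2.1, e]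
    exact Sigma.ext e1 (heq_of_eq e2)
  have main := P.card_le ((𝒬.sigma J).image φ) (T := Real.exp 1 * y)
    (B := (4 * Real.exp 1) ^ (d + 1) * Y / I) (by positivity) ?_ ?_
  · rw [Finset.card_image_of_injOn hinj, Finset.card_sigma] at main
    push_cast at main
    simp only [hJc] at main
    refine main.trans (le_of_eq ?_)
    ring
  · intro Q hQ
    obtain ⟨p, hp', rfl⟩ := Finset.mem_image.1 hQ
    obtain ⟨a1, -, -, a4, a5⟩ := hp p hp'
    refine ⟨?_, ?_, ?_⟩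
    · have := dual_mem_gen hN a4.1
      rwa [hM.dual_dual] at this
    · refine dual_anti a4.2 ?_
      rw [hN.mult.dual_dual]
      exact one_mem_mult _
    · simp only [φ]
      rw [E.cv_dual a1, div_mul_cancel_left₀ (Real.exp_pos 1).ne', inv_pow, hy]
      exact inv_anti₀ (E.cv_pos a1) a5
  · intro i u 𝒱 h𝒱
    have ht' : ∀ j, (t i * fl u) j ≠ 0 := fun j =>
      mul_ne_zero (avb_ne_zero (ht i) j) (Real.exp_pos _).ne'
    have h1 := hT0 i _ (hT i) u 𝒱 fun v hv => ⟨?_, (h𝒱 v hv).2.2.1⟩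
    · have a1 : I ≤ E.cv (L' i) * |∏ j, t i j| := by
        have := mul_le_mul_of_nonneg_right (hcv i) (abs_nonneg (∏ j, t i j))
        rwa [mul_assoc, ht i, mul_one] at this
      rw [le_div_iff₀ hI]
      refine (mul_le_mul_of_nonneg_left a1 (Nat.cast_nonneg _)).trans (h1.trans (le_of_eq ?_))
      rw [← hy, ← mul_pow, mul_assoc]
    · obtain ⟨b1, b2, -, b4⟩ := h𝒱 v hv
      rw [hΛ i, mulL_mul] at b1 b4
      obtain ⟨_, ⟨x, hx, rfl⟩, rfl⟩ := mem_mulL.1 b1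
      have hx0 : x ≠ 0 := by
        rintro rfl
        simp at b2
      rw [E.Lof_eq _ ht' hx0] at b4
      obtain ⟨p, hp', e⟩ := Finset.mem_image.1 b4
      have e2 : sc x (dual (L i)) = cut (ff M) p.1 p.2 := by
        have := congrArg dual e
        simp only [φ] at this
        rw [(hp p hp').1.dual_dual, dual_sc _ (inv_ne_zero hx0), inv_inv] at this
        exact this.symm
      have := hmem i x hx hx0 (by rw [e2, (hp p hp').2.1]; exact (Finset.mem_sigma.1 hp').1)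
      exact mem_mulL.2 ⟨E.e x, Submodule.mem_map_of_mem this, rfl⟩

/-- `vb_count`, `ct5`, `abel_bound`. -/
theorem vb (d : ℕ) (C0 : ℝ) : ∃ C : ℝ, 0 < C ∧ ∀ (K : Type u) [Field K] [NumberField K]
    (E : Dat d K) (M : Submodule ℤ K) (P : Pkt E M) (𝒬 : Finset (Submodule ℤ K)) (I u0 U : ℝ),
    IsLat M → 0 < I → Equi C0 (rG K (ff M)) u0 → 1 ≤ u0 → u0 ≤ U →
    (∀ P' ∈ 𝒬, P' ∈ PS (dual M)) →
    (∀ L ∈ gen M, ∃ L', IsLat L' ∧ I * E.cv L ≤ E.cv L' ∧
      ∀ x ∈ L, x ≠ 0 → PP (ff M) (sc x (dual L)) ∈ 𝒬 → x ∈ L') →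
    kap (rG K (ff M)) U * ∑ P' ∈ 𝒬, (E.cv P')⁻¹ ≤ C * P.V / I := by
  obtain ⟨C, hC, h1⟩ := vb_count.{u} d
  obtain ⟨c, hc, h2⟩ := ct5 (d + 1) C0
  refine ⟨4 * C / c, by positivity, ?_⟩
  intro K _ _ E M P 𝒬 I u0 U hM hI hE hu0 hU h𝒬 hsub
  obtain ⟨Y0, hY⟩ := h1 K E M P 𝒬 I hM hI h𝒬 hsub
  have hr := rm_rG E.deg (ff M)
  have := abel_bound 𝒬 (fun P' => (E.cv P')⁻¹)
    (fun P' hP' => inv_pos.2 (E.cv_pos (h𝒬 P' hP').1.1.1)) _ hr.nonneg hY
    (h2 _ u0 U hr hE hu0 hU)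
  refine le_of_mul_le_mul_left ?_ hc
  rw [← mul_assoc]
  refine this.trans (le_of_eq ?_)
  field_simp

end Crest.Agent.R014

end
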