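import Crest.Agent.R014.DDefs

/-! # Row 14: the projective affine action on measures on the line -/

set_option autoImplicit false

noncomputable section

open MeasureTheory ProbabilityTheory Filter Topology Set
open scoped ENNReal Matrix NumberField
open Crest.NumberTheoryR.Packets

namespace Crest.Agent.R014

theorem cau_pos (s : ℝ) : 0 < cau s := by
  unfold cau; positivity

theorem continuous_cau : Continuous cau := by
  unfold cau
  exact Continuous.inv₀ (by fun_prop) fun s => by positivity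

instance instProbCauM : IsProbabilityMeasure cauM := by
  have hi : Integrable cau := by
    have := integrable_inv_one_add_sq.const_mul Real.pi⁻¹
    refine this.congr (Eventually.of_forall fun s => ?_)
    simp only [cau, mul_inv]
  have he : ∫ s, cau s = 1 := by
    simp only [cau, mul_inv]
    rw [integral_const_mul, integral_univ_inv_one_add_sq, inv_mul_cancel₀ Real.pi_ne_zero]
  refine ⟨?_⟩
  rw [cauM, withDensity_apply _ MeasurableSet.univ, Measure.restrict_univ,
    ← ofReal_integral_eq_lintegral_ofReal hi (Eventually.of_forall fun s => (cau_pos s).le), he,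
    ENNReal.ofReal_one]

theorem cauM_ac : cauM ≪ volume := withDensity_absolutelyContinuous _ _

theorem ac_cauM : (volume : Measure ℝ) ≪ cauM := withDensity_absolutelyContinuous' continuous_cau.measurable.ennreal_ofReal.aemeasurable
    (Eventually.of_forall fun s => (ENNReal.ofReal_pos.2 (cau_pos s)).ne')

/-- The ratio is bounded, locally uniformly in `t`. -/
theorem cau_ratio_le {c : ℝ} (hc : 0 < c) (T : ℝ) :
    ∃ B : ℝ, ∀ t, |t| ≤ T → ∀ s, cau (c * s + t) / cau s ≤ B := by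
  refine ⟨1 + 2 / c ^ 2 + 2 * T ^ 2 / c ^ 2, fun t ht s => ?_⟩
  have hc2 : 0 < c ^ 2 := by positivity
  have e : cau (c * s + t) / cau s = (1 + s ^ 2) / (1 + (c * s + t) ^ 2) := by
    unfold cau
    have := Real.pi_pos
    field_simp
  have ht2 : t ^ 2 ≤ T ^ 2 := by
    rw [← sq_abs t]
    exact pow_le_pow_left₀ (abs_nonneg t) ht 2
  have h1 : s ^ 2 ≤ 2 / c ^ 2 * (c * s + t) ^ 2 + 2 * T ^ 2 / c ^ 2 := by
    rw [div_mul_eq_mul_div, ← add_div, le_div_iff₀ hc2]
    nlinarith [sq_nonneg (c * s + 2 * t)]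
  rw [e, div_le_iff₀ (by positivity)]
  have h2 : 0 ≤ 2 / c ^ 2 := by positivity
  have h3 : 0 ≤ 2 * T ^ 2 / c ^ 2 := by positivity
  nlinarith [sq_nonneg (c * s + t), mul_nonneg h3 (sq_nonneg (c * s + t))]

theorem daff_meas (c t : ℝ) : Measurable fun s => ENNReal.ofReal (cau (c * s + t) / cau s) :=
  ((continuous_cau.measurable.comp (by fun_prop)).div continuous_cau.measurable).ennreal_ofReal

theorem daff_ne (c t s : ℝ) : ENNReal.ofReal (cau (c * s + t) / cau s) ≠ 0 :=
  (ENNReal.ofReal_pos.2 (div_pos (cau_pos _) (cau_pos _))).ne'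

theorem daff_m1 (c t : ℝ) {f : ℝ → ℝ≥0∞} (hf : Measurable f) : Measurable fun s => f (c * s + t) :=
  hf.comp (by fun_prop)

theorem daff_m2 (c t : ℝ) {f : ℝ → ℝ≥0∞} (hf : Measurable f) :
    Measurable fun s => ENNReal.ofReal (cau (c * s + t) / cau s) * f (c * s + t) :=
  (daff_meas c t).mul (daff_m1 c t hf)

theorem daff_lint (c t : ℝ) (ρ : Measure ℝ) {f : ℝ → ℝ≥0∞} (hf : Measurable f) :
    ∫⁻ s, f s ∂affU c t ρ =
      ∫⁻ s, ENNReal.ofReal (cau (c * s + t) / cau s) * f (c * s + t) ∂ρ := by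
  rw [affU, lintegral_map hf (by fun_prop),
    lintegral_withDensity_eq_lintegral_mul _ (daff_meas c t) (daff_m1 c t hf)]
  rfl

theorem daff_smul (c t : ℝ) (a : ℝ≥0∞) (ρ : Measure ℝ) : affU c t (a • ρ) = a • affU c t ρ := by
  rw [affU, withDensity_smul_measure, Measure.map_smul, affU]

theorem daff_norm {a : ℝ≥0∞} (h0 : a ≠ 0) (h1 : a ≠ ∞) (ν : Measure ℝ) :
    ((a • ν) univ)⁻¹ • a • ν = (ν univ)⁻¹ • ν := by
  rw [smul_smul, Measure.smul_apply, smul_eq_mul, ENNReal.mul_inv (Or.inl h0) (Or.inl h1),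
    mul_right_comm, ENNReal.inv_mul_cancel h0 h1, one_mul]

theorem daff_of_eq {c t : ℝ} {ρ ν : Measure ℝ} [IsProbabilityMeasure ν] {a : ℝ≥0∞} (h0 : a ≠ 0)
    (h1 : a ≠ ∞) (h : affU c t ρ = a • ν) : aff c t ρ = ν := by
  rw [aff, h, daff_norm h0 h1, measure_univ, inv_one, one_smul]

theorem daff_comp (c c' t t' : ℝ) (ρ : Measure ℝ) :
    affU c t (affU c' t' ρ) = affU (c * c') (c * t' + t) ρ := by
  refine Measure.ext_of_lintegral _ fun f hf => ?_
  rw [daff_lint _ _ _ hf, daff_lint _ _ _ hf,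
    daff_lint _ _ _ (daff_m2 c t hf)]
  refine lintegral_congr fun s => ?_
  have e : c * (c' * s + t') + t = c * c' * s + (c * t' + t) := by ring
  have h1 := cau_pos (c' * s + t')
  have h2 := cau_pos s
  rw [← mul_assoc, ← ENNReal.ofReal_mul (div_pos h1 h2).le, e]
  congr 2
  field_simp

theorem affU_univ_ne {c : ℝ} (hc : 0 < c) (t : ℝ) (ρ : Measure ℝ) [IsProbabilityMeasure ρ] :
    affU c t ρ univ ≠ 0 ∧ affU c t ρ univ ≠ ∞ := by
  have e : affU c t ρ univ = ∫⁻ s, ENNReal.ofReal (cau (c * s + t) / cau s) ∂ρ := by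
    rw [← lintegral_one, daff_lint _ _ _ measurable_const]
    simp only [mul_one]
  rw [e]
  constructor
  · intro h
    rw [lintegral_eq_zero_iff (daff_meas c t)] at h
    obtain ⟨s, hs⟩ := h.exists
    exact daff_ne c t s hs
  · obtain ⟨B, hB⟩ := cau_ratio_le hc |t|
    refine ne_top_of_le_ne_top (b := ∫⁻ _, ENNReal.ofReal B ∂ρ) (by simp)
      (lintegral_mono fun s => ENNReal.ofReal_le_ofReal (hB t le_rfl s))

theorem isProb_aff {c : ℝ} (hc : 0 < c) (t : ℝ) (ρ : Measure ℝ) [IsProbabilityMeasure ρ] :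
    IsProbabilityMeasure (aff c t ρ) := by
  obtain ⟨h0, h1⟩ := affU_univ_ne hc t ρ
  refine ⟨?_⟩
  rw [aff, Measure.smul_apply, smul_eq_mul, ENNReal.inv_mul_cancel h0 h1]

theorem aff_one_zero (ρ : Measure ℝ) [IsProbabilityMeasure ρ] : aff 1 0 ρ = ρ := by
  refine daff_of_eq one_ne_zero ENNReal.one_ne_top ?_
  refine Measure.ext_of_lintegral _ fun f hf => ?_
  rw [daff_lint _ _ _ hf, one_smul]
  refine lintegral_congr fun s => ?_
  rw [one_mul, add_zero, div_self (cau_pos s).ne', ENNReal.ofReal_one, one_mul]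

theorem aff_aff {c c' : ℝ} (hc : 0 < c) (hc' : 0 < c') (t t' : ℝ) (ρ : Measure ℝ)
    [IsProbabilityMeasure ρ] : aff c t (aff c' t' ρ) = aff (c * c') (c * t' + t) ρ := by
  obtain ⟨h0, h1⟩ := affU_univ_ne hc' t' ρ
  rw [aff, aff, daff_smul, daff_norm (ENNReal.inv_ne_zero.2 h1) (ENNReal.inv_ne_top.2 h0), daff_comp,
    aff]

theorem aff_cauM {c : ℝ} (hc : 0 < c) (t : ℝ) : aff c t cauM = cauM := by
  refine daff_of_eq (a := ENNReal.ofReal |c⁻¹|)
    (ENNReal.ofReal_pos.2 (abs_pos.2 (inv_pos.2 hc).ne')).ne' ENNReal.ofReal_ne_top ?_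
  refine Measure.ext_of_lintegral _ fun f hf => ?_
  have hm := continuous_cau.measurable.ennreal_ofReal
  have hg : Measurable fun s => ENNReal.ofReal (cau s) * f s := hm.mul hf
  rw [daff_lint _ _ _ hf, lintegral_smul_measure, cauM,
    lintegral_withDensity_eq_lintegral_mul _ hm (daff_m2 c t hf),
    lintegral_withDensity_eq_lintegral_mul _ hm hf]
  have e : ∀ s, ENNReal.ofReal (cau s) * (ENNReal.ofReal (cau (c * s + t) / cau s) * f (c * s + t)) =
      ENNReal.ofReal (cau (c * s + t)) * f (c * s + t) := fun s => by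
    rw [← mul_assoc, ← ENNReal.ofReal_mul (cau_pos s).le, mul_div_cancel₀ _ (cau_pos s).ne']
  have e2 := lintegral_map (μ := (volume : Measure ℝ)) (g := fun s => c * s)
    (f := fun s => ENNReal.ofReal (cau (s + t)) * f (s + t)) (hg.comp (by fun_prop)) (by fun_prop)
  rw [Real.map_volume_mul_left hc.ne', lintegral_smul_measure,
    lintegral_add_right_eq_self (fun s => ENNReal.ofReal (cau s) * f s) t] at e2
  simp only [Pi.mul_apply, Function.comp_apply, e]
  exact e2.symm

theorem aff_dirac {c : ℝ} (hc : 0 < c) (t s : ℝ) :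
    aff c t (Measure.dirac s) = Measure.dirac (c * s + t) := by
  refine daff_of_eq (daff_ne c t s) ENNReal.ofReal_ne_top ?_
  refine Measure.ext_of_lintegral _ fun f hf => ?_
  rw [daff_lint _ _ _ hf, lintegral_smul_measure, lintegral_dirac, lintegral_dirac, smul_eq_mul]

theorem aff_null_iff {c : ℝ} (hc : 0 < c) (t : ℝ) (ρ : Measure ℝ) [IsProbabilityMeasure ρ]
    {N : Set ℝ} (hN : MeasurableSet N) :
    aff c t ρ N = 0 ↔ ρ ((fun s => c * s + t) ⁻¹' N) = 0 := by
  obtain ⟨h0, h1⟩ := affU_univ_ne hc t ρ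
  rw [aff, Measure.smul_apply, smul_eq_mul, mul_eq_zero, ENNReal.inv_eq_zero, or_iff_right h1, affU,
    Measure.map_apply (by fun_prop) hN]
  exact ⟨fun h => withDensity_absolutelyContinuous' (daff_meas c t).aemeasurable
    (Eventually.of_forall (daff_ne c t)) h, fun h => withDensity_absolutelyContinuous _ _ h⟩

theorem aff_eq_dirac_iff {c : ℝ} (hc : 0 < c) (ρ : Measure ℝ) [IsProbabilityMeasure ρ] :
    aff c 0 ρ = Measure.dirac 0 ↔ ρ = Measure.dirac 0 := by
  constructor
  · intro h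
    have h1 := aff_aff (inv_pos.2 hc) hc 0 0 ρ
    rw [h, aff_dirac (inv_pos.2 hc), inv_mul_cancel₀ hc.ne', mul_zero, add_zero, aff_one_zero] at h1
    exact h1.symm
  · rintro rfl
    rw [aff_dirac hc, mul_zero, add_zero]

end Crest.Agent.R014

end
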