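import Crest.Agent.R014.DAff

/-! # Row 14: measurability of the affine action -/

set_option autoImplicit false

noncomputable section

open MeasureTheory ProbabilityTheory Filter Topology Set
open scoped ENNReal Matrix NumberField
open Crest.NumberTheoryR.Packets

namespace Crest.Agent.R014

theorem daff2_affU_apply (c t : ℝ) (ρ : Measure ℝ) {A : Set ℝ} (hA : MeasurableSet A) :
    affU c t ρ A = ∫⁻ s, A.indicator 1 (c * s + t) *
      ENNReal.ofReal (cau (c * s + t) / cau s) ∂ρ := by
  have hm : Measurable fun s : ℝ => c * s + t := by fun_prop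
  unfold affU
  rw [Measure.map_apply hm hA, withDensity_apply _ (hm hA), ← lintegral_indicator (hm hA)]
  refine lintegral_congr fun s => ?_
  by_cases h : c * s + t ∈ A
  · simp [h]
  · simp [h]

theorem daff2_measurable_affU {Y : Type*} [MeasurableSpace Y] (c : ℝ) {t : Y → ℝ}
    (ht : Measurable t) (κ : Kernel Y ℝ) [IsMarkovKernel κ] {A : Set ℝ} (hA : MeasurableSet A) :
    Measurable fun y => affU c (t y) (κ y) A := by
  simp_rw [daff2_affU_apply _ _ _ hA]
  have hm : Measurable fun p : Y × ℝ => c * p.2 + t p.1 := by fun_prop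
  have hc := continuous_cau.measurable
  refine Measurable.lintegral_kernel_prod_right (κ := κ)
    (f := fun y s => A.indicator 1 (c * s + t y) * ENNReal.ofReal (cau (c * s + t y) / cau s)) ?_
  refine Measurable.mul ?_ ?_
  · exact (measurable_one.indicator hA).comp hm
  · exact ((hc.comp hm).div (hc.comp measurable_snd)).ennreal_ofReal

theorem measurable_aff {Y : Type*} [MeasurableSpace Y] {c : ℝ} (hc : 0 < c) {t : Y → ℝ}
    (ht : Measurable t) (κ : Kernel Y ℝ) [IsMarkovKernel κ] :
    Measurable fun y => aff c (t y) (κ y) := by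
  have _ := hc
  refine Measure.measurable_of_measurable_coe _ fun A hA => ?_
  simp only [aff, Measure.smul_apply, smul_eq_mul]
  exact (daff2_measurable_affU c ht κ MeasurableSet.univ).inv.mul
    (daff2_measurable_affU c ht κ hA)

/-- Two probability measures on `ℝ` agree iff they agree on the intervals `Iic q`, `q ∈ ℚ`. -/
theorem measurableSet_meas_eq {Y : Type*} [MeasurableSpace Y] {κ κ' : Y → Measure ℝ}
    (hκ : Measurable κ) (hκ' : Measurable κ') (h : ∀ y, IsProbabilityMeasure (κ y))
    (h' : ∀ y, IsProbabilityMeasure (κ' y)) : MeasurableSet {y | κ y = κ' y} := by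
  have : {y | κ y = κ' y} = ⋂ q : ℚ, {y | κ y (Iic (q : ℝ)) = κ' y (Iic (q : ℝ))} := by
    ext y
    simp only [mem_ofPred_eq, mem_iInter]
    refine ⟨fun e q => by rw [e], fun e => ?_⟩
    have := h y
    have := h' y
    refine ext_of_generate_finite (⋃ q : ℚ, {Iic (q : ℝ)}) ?_ Real.isPiSystem_Iic_rat ?_ (by simp)
    · rw [← Real.borel_eq_generateFrom_Iic_rat]; exact BorelSpace.measurable_eq
    · intro s hs
      simp only [mem_iUnion, mem_singleton_iff] at hs
      obtain ⟨q, rfl⟩ := hs
      exact e q
  rw [this]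
  refine MeasurableSet.iInter fun q => ?_
  exact measurableSet_eq_fun ((Measure.measurable_coe measurableSet_Iic).comp hκ)
    ((Measure.measurable_coe measurableSet_Iic).comp hκ')

theorem daff2_integral_affU (r : ℝ) (ρ : Measure ℝ) {φ : ℝ → ℝ} (hφ : Continuous φ) :
    ∫ s, φ s ∂(affU 1 r ρ) = ∫ s, (cau (1 * s + r) / cau s) * φ (1 * s + r) ∂ρ := by
  have hm : Measurable fun s : ℝ => 1 * s + r := by fun_prop
  have hc := continuous_cau.measurable
  have hf : Measurable fun s : ℝ => ENNReal.ofReal (cau (1 * s + r) / cau s) :=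
    ((hc.comp hm).div hc).ennreal_ofReal
  unfold affU
  rw [integral_map hm.aemeasurable hφ.aestronglyMeasurable,
    integral_withDensity_eq_integral_toReal_smul hf (by simp)]
  refine integral_congr_ae (Eventually.of_forall fun s => ?_)
  simp only [smul_eq_mul]
  rw [ENNReal.toReal_ofReal (div_pos (cau_pos _) (cau_pos _)).le]

theorem daff2_cont (ρ : Measure ℝ) [IsProbabilityMeasure ρ] (φ : BoundedContinuousFunction ℝ ℝ) :
    Continuous fun r : ℝ => ∫ s, (cau (1 * s + r) / cau s) * φ (1 * s + r) ∂ρ := by
  refine continuous_iff_continuousAt.2 fun r0 => ?_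
  obtain ⟨B, hB⟩ := cau_ratio_le one_pos (|r0| + 1)
  have hc := continuous_cau
  refine continuousAt_of_dominated (bound := fun _ => B * ‖φ‖) ?_ ?_ (integrable_const _) ?_
  · refine Eventually.of_forall fun r => Continuous.aestronglyMeasurable ?_
    refine Continuous.mul (Continuous.div (hc.comp (by fun_prop)) hc fun s => (cau_pos s).ne') ?_
    exact φ.continuous.comp (by fun_prop)
  · have : ∀ᶠ r in 𝓝 r0, |r| ≤ |r0| + 1 :=
      (continuous_abs.tendsto r0).eventually (eventually_le_nhds (by linarith))
    filter_upwards [this] with r hr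
    refine Eventually.of_forall fun s => ?_
    have h0 := (div_pos (cau_pos (1 * s + r)) (cau_pos s)).le
    rw [norm_mul, Real.norm_of_nonneg h0]
    exact mul_le_mul (hB r hr s) (φ.norm_coe_le_norm _) (norm_nonneg _) (h0.trans (hB r hr s))
  · refine Eventually.of_forall fun s => Continuous.continuousAt ?_
    refine Continuous.mul (Continuous.div_const (hc.comp (by fun_prop)) _) ?_
    exact φ.continuous.comp (by fun_prop)

/-- The stabiliser is closed: `aff 1 r ρ = ρ` means `∫ φ (s + r) cau (s + r) / cau s dρ =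
(∫ cau (s + r) / cau s dρ) ∫ φ dρ` for all bounded continuous `φ`, and both sides are continuous
in `r` (dominated convergence). -/
theorem isClosed_stab (ρ : Measure ℝ) [IsProbabilityMeasure ρ] :
    IsClosed {r : ℝ | aff 1 r ρ = ρ} := by
  have key : {r : ℝ | aff 1 r ρ = ρ} = ⋂ φ : BoundedContinuousFunction ℝ ℝ,
      {r : ℝ | ∫ s, (cau (1 * s + r) / cau s) * φ (1 * s + r) ∂ρ =
        (∫ s, (cau (1 * s + r) / cau s) * (1 : BoundedContinuousFunction ℝ ℝ) (1 * s + r) ∂ρ) *
          ∫ s, φ s ∂ρ} := by
    ext r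
    simp only [mem_ofPred_eq, mem_iInter]
    obtain ⟨h0, h1⟩ := affU_univ_ne one_pos r ρ
    have hpos : 0 < (affU 1 r ρ univ).toReal := ENNReal.toReal_pos h0 h1
    have hone : ∫ s, (cau (1 * s + r) / cau s) *
        (1 : BoundedContinuousFunction ℝ ℝ) (1 * s + r) ∂ρ = (affU 1 r ρ univ).toReal := by
      rw [← daff2_integral_affU r ρ (1 : BoundedContinuousFunction ℝ ℝ).continuous]
      simp [Measure.real]
    have haff : ∀ φ : BoundedContinuousFunction ℝ ℝ, ∫ s, φ s ∂(aff 1 r ρ) =
        ((affU 1 r ρ univ).toReal)⁻¹ * ∫ s, (cau (1 * s + r) / cau s) * φ (1 * s + r) ∂ρ := by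
      intro φ
      rw [← daff2_integral_affU r ρ φ.continuous, aff, integral_smul_measure, ENNReal.toReal_inv,
        smul_eq_mul]
    have := isProb_aff one_pos r ρ
    constructor
    · intro e φ
      have h2 := haff φ
      rw [e] at h2
      rw [hone, h2]
      field_simp
    · intro e
      refine ext_of_forall_integral_eq_of_IsFiniteMeasure fun φ => ?_
      rw [haff, e φ, hone]
      field_simp
  rw [key]
  refine isClosed_iInter fun φ => isClosed_eq (daff2_cont ρ φ) ?_
  exact (daff2_cont ρ 1).mul continuous_const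

end Crest.Agent.R014

end
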