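import Crest.Agent.R014.DTop

/-! # Row 14: diagonal and root elements -/

set_option autoImplicit false

noncomputable section

open MeasureTheory ProbabilityTheory Filter Topology Set
open scoped ENNReal Matrix NumberField
open Crest.NumberTheoryR.Packets

namespace Crest.Agent.R014

variable {n : ℕ}

theorem dalg_coe (t : Fin n → ℝ) :
    (dA t).1 = Matrix.diagonal (fun i => Real.exp (t i - (∑ j, t j) / n)) := rfl

theorem dalg_rt_coe {i j : Fin n} (h : i ≠ j) (s : ℝ) :
    (rt h s).1 = (1 : Matrix (Fin n) (Fin n) ℝ) + Matrix.single i j s := rfl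

theorem dA_zero : dA (0 : Fin n → ℝ) = 1 := by
  apply Subtype.ext
  simp [dA]

theorem dA_add (t t' : Fin n → ℝ) : dA (t + t') = dA t * dA t' := by
  apply Subtype.ext
  rw [Matrix.SpecialLinearGroup.coe_mul, dalg_coe, dalg_coe, dalg_coe,
    Matrix.diagonal_mul_diagonal]
  congr 1
  funext i
  rw [← Real.exp_add]
  congr 1
  simp only [Pi.add_apply, Finset.sum_add_distrib]
  ring

theorem dA_neg (t : Fin n → ℝ) : dA (-t) = (dA t)⁻¹ := by
  refine eq_inv_of_mul_eq_one_left ?_
  rw [← dA_add, neg_add_cancel, dA_zero]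

theorem dA_pow (t : Fin n → ℝ) (k : ℕ) : dA t ^ k = dA ((k : ℝ) • t) := by
  induction k with
  | zero => rw [pow_zero, Nat.cast_zero, zero_smul, dA_zero]
  | succ k ih => rw [pow_succ, ih, ← dA_add, Nat.cast_succ, add_smul, one_smul]

theorem continuous_dA : Continuous (dA : (Fin n → ℝ) → SLR n) := by
  refine Continuous.subtype_mk (Continuous.matrix_diagonal ?_) _
  fun_prop

theorem conj_dA_entry (t : Fin n → ℝ) (h : SLR n) (i j : Fin n) :
    ((dA t)⁻¹ * h * dA t).1 i j = h.1 i j * Real.exp (t j - t i) := by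
  rw [← dA_neg, Matrix.SpecialLinearGroup.coe_mul, Matrix.SpecialLinearGroup.coe_mul, dalg_coe,
    dalg_coe, Matrix.mul_diagonal, Matrix.diagonal_mul, mul_comm (Real.exp _), mul_assoc,
    ← Real.exp_add]
  congr 2
  simp only [Pi.neg_apply, Finset.sum_neg_distrib]
  ring

theorem cj_dA_entry (t : Fin n → ℝ) (k : ℕ) (h : SLR n) (i j : Fin n) :
    (cj (dA t) k h).1 i j = h.1 i j * Real.exp (k * (t j - t i)) := by
  rw [cj, dA_pow, conj_dA_entry]
  simp only [Pi.smul_apply, smul_eq_mul, mul_sub]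

theorem vecMul_dA (t : Fin n → ℝ) (v : Fin n → ℝ) (i : Fin n) :
    (v ᵥ* (dA t).1) i = v i * Real.exp (t i - (∑ j, t j) / n) := by
  rw [dalg_coe, Matrix.vecMul_diagonal]

theorem sum_lg {d : ℕ} (u : Fin d → ℝ) : ∑ i, lg u i = 0 := by
  rw [Fin.sum_univ_castSucc]
  simp [lg]

theorem diagFlow_eq {d : ℕ} (u : Fin d → ℝ) : diagFlow u = dA (lg u) := by
  apply Subtype.ext
  rw [dalg_coe, sum_lg]
  change Matrix.diagonal _ = _
  congr 1
  funext i
  refine Fin.lastCases ?_ (fun k => ?_) i
  · simp [lg]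
  · simp [lg]

theorem exists_diagFlow {d : ℕ} (t : Fin (d + 1) → ℝ) : ∃ u : Fin d → ℝ, diagFlow u = dA t := by
  refine ⟨fun i => t i.castSucc - (∑ j, t j) / ((d + 1 : ℕ) : ℝ), ?_⟩
  rw [diagFlow_eq]
  apply Subtype.ext
  rw [dalg_coe, dalg_coe, sum_lg]
  congr 1
  funext i
  congr 1
  have hd : ((d + 1 : ℕ) : ℝ) ≠ 0 := by positivity
  refine Fin.lastCases ?_ (fun k => ?_) i
  · simp only [lg, Fin.snoc_last, Finset.sum_sub_distrib, Finset.sum_const, Finset.card_univ,
      Fintype.card_fin, nsmul_eq_mul, zero_div, sub_zero]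
    have h1 : ∑ j, t j = ∑ j : Fin d, t j.castSucc + t (Fin.last d) := Fin.sum_univ_castSucc t
    rw [h1]
    field_simp
    push_cast
    ring
  · simp only [lg, Fin.snoc_castSucc, zero_div, sub_zero]

theorem rt_entry {i j : Fin n} (h : i ≠ j) (s : ℝ) (k l : Fin n) :
    (rt h s).1 k l = (1 : Matrix (Fin n) (Fin n) ℝ) k l + if k = i ∧ l = j then s else 0 := by
  rw [dalg_rt_coe, Matrix.add_apply, Matrix.single_apply]
  simp only [eq_comm]

theorem rt_zero {i j : Fin n} (h : i ≠ j) : rt h 0 = 1 := by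
  exact Matrix.SpecialLinearGroup.transvection_coeff_zero h

theorem rt_add {i j : Fin n} (h : i ≠ j) (s t : ℝ) : rt h (s + t) = rt h s * rt h t := by
  exact Matrix.SpecialLinearGroup.transvection_add h s t

theorem continuous_rt {i j : Fin n} (h : i ≠ j) : Continuous (rt h) := by
  refine Continuous.subtype_mk (f := fun s : ℝ => (rt h s).1) ?_ _
  refine continuous_matrix fun k l => ?_
  simp only [rt_entry]
  split_ifs <;> fun_prop

theorem rt_mul_dA {i j : Fin n} (h : i ≠ j) (s : ℝ) (t : Fin n → ℝ) :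
    rt h s * dA t = dA t * rt h (Real.exp (t j - t i) * s) := by
  apply Subtype.ext
  rw [Matrix.SpecialLinearGroup.coe_mul, Matrix.SpecialLinearGroup.coe_mul, dalg_coe]
  ext k l
  rw [Matrix.mul_diagonal, Matrix.diagonal_mul, rt_entry, rt_entry]
  by_cases hk : k = i ∧ l = j
  · obtain ⟨rfl, rfl⟩ := hk
    rw [Matrix.one_apply_ne h, if_pos ⟨rfl, rfl⟩, if_pos ⟨rfl, rfl⟩, zero_add, zero_add,
      ← mul_assoc, ← Real.exp_add, mul_comm]
    congr 2
    ring
  · rw [if_neg hk, if_neg hk, add_zero]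
    by_cases hkl : k = l
    · subst hkl
      rw [mul_comm]
    · rw [Matrix.one_apply_ne hkl, zero_mul, mul_zero]

theorem rt_comm {i j k : Fin n} (hij : i ≠ j) (hjk : j ≠ k) (hik : i ≠ k) (s t : ℝ) :
    rt hij s * rt hjk t = rt hjk t * rt hij s * rt hik (s * t) := by
  apply Subtype.ext
  simp only [Matrix.SpecialLinearGroup.coe_mul, dalg_rt_coe, mul_add, add_mul, one_mul, mul_one,
    Matrix.single_mul_single_same, Matrix.single_mul_single_of_ne _ _ _ _ hik.symm,
    Matrix.single_mul_single_of_ne _ _ _ _ hij.symm, add_zero]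
  abel

theorem isFlow_rtF {i j : Fin n} (h : i ≠ j) : IsFlow (rtF h) := by
  refine ⟨?_, fun x => ?_, fun x s t => ?_⟩
  · exact (continuous_act.comp (continuous_fst.prodMk
      ((continuous_rt h).comp continuous_snd))).measurable
  · rw [rtF, rt_zero, act_one]
  · rw [rtF, rtF, rtF, act_mul, rt_add]

/-- Right uniform continuity of a compactly supported continuous function. -/
theorem cc_asym {φ : ModSpace n → ℝ} (hφ : Continuous φ) (hc : HasCompactSupport φ)
    (z : ℕ → ModSpace n) {g : ℕ → SLR n} (hg : Tendsto g atTop (𝓝 1)) :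
    Tendsto (fun k => φ (z k) - φ (act (z k) (g k))) atTop (𝓝 0) := by
  rw [Metric.tendsto_nhds]
  intro ε hε
  have hF : Continuous fun p : SLR n × ModSpace n => φ p.2 - φ (act p.2 p.1) :=
    (hφ.comp continuous_snd).sub
      (hφ.comp (continuous_act.comp (continuous_snd.prodMk continuous_fst)))
  have key : ∀ᶠ a in 𝓝 (1 : SLR n), ∀ x ∈ tsupport φ, dist (φ x - φ (act x a)) 0 < ε := by
    refine IsCompact.eventually_forall_of_forall_eventually hc fun x _ => ?_
    have := hF.tendsto (1, x)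
    simp only [act_one, sub_self] at this
    exact Metric.tendsto_nhds.1 this ε hε
  have hg' : Tendsto (fun k => (g k)⁻¹) atTop (𝓝 1) := by
    simpa only [inv_one] using hg.inv
  filter_upwards [hg.eventually key, hg'.eventually key] with k h1 h2
  by_cases hz : z k ∈ tsupport φ
  · exact h1 _ hz
  by_cases hz' : act (z k) (g k) ∈ tsupport φ
  · have := h2 _ hz'
    rw [act_mul, mul_inv_cancel, act_one, dist_zero_right, norm_sub_rev] at this
    rwa [dist_zero_right]
  · rw [image_eq_zero_of_notMem_tsupport hz, image_eq_zero_of_notMem_tsupport hz', sub_self,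
      dist_self]
    exact hε

theorem dalg_diag {i j : Fin n} (h : i ≠ j) (c : ℝ) (hc : c ≠ 0) :
    Matrix.SpecialLinearGroup.diag2n h c hc =
      rt h.symm (c⁻¹ - 1) * rt h 1 * rt h.symm (c - 1) * rt h (-c⁻¹) := by
  apply Subtype.ext
  simp only [Matrix.SpecialLinearGroup.coe_mul, dalg_rt_coe, mul_add, add_mul, one_mul, mul_one,
    Matrix.single_mul_single_same, Matrix.single_mul_single_of_ne _ _ _ _ h.symm,
    Matrix.single_mul_single_of_ne _ _ _ _ h, add_zero, Matrix.SpecialLinearGroup.diag2n_coe]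
  ext k l
  simp only [Matrix.add_apply, Matrix.single_apply, Matrix.one_apply, Matrix.diagonal_apply]
  have h' := h.symm
  by_cases hki : k = i <;> by_cases hkj : k = j <;> by_cases hli : l = i <;>
    by_cases hlj : l = j <;> simp_all [eq_comm] <;> field_simp <;> ring

/-- The root elements generate `SL_n(ℝ)`
(`Matrix.SpecialLinearGroup.diagonal_transvection_induction'`, `diag2n` is a product of six
transvections as in `diag2_decompose`). -/
theorem rt_induction (hn : 2 ≤ n) (P : SLR n → Prop)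
    (h1 : ∀ (i j : Fin n) (h : i ≠ j) (s : ℝ), P (rt h s))
    (hmul : ∀ g h, P g → P h → P (g * h)) (g : SLR n) : P g := by
  have : Nontrivial (Fin n) := Fin.nontrivial_iff_two_le.2 hn
  refine Matrix.SpecialLinearGroup.diagonal_transvection_induction' P g
    (fun i j hij c hc => ?_) h1 hmul
  rw [dalg_diag hij c hc]
  exact hmul _ _ (hmul _ _ (hmul _ _ (h1 _ _ _ _) (h1 _ _ _ _)) (h1 _ _ _ _)) (h1 _ _ _ _)

end Crest.Agent.R014

end
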