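import Crest.Agent.R014.DDefs

/-! # Row 14: from null couplings to a conull set without bad pairs -/

set_option autoImplicit false

noncomputable section

open MeasureTheory ProbabilityTheory Filter Topology Set
open scoped ENNReal Matrix NumberField
open Crest.NumberTheoryR.Packets

namespace Crest.Agent.R014

/-- Let `π` be a finite measure equivalent to a left Haar measure of `V` (`Measure.toFinite`),
`ρ = (μ ⊗ π).map ((x, v) ↦ (r x v, v))`, `m = ρ.fst`, `κ = ρ.condKernel`.  Apply `hν` to the image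
of `m ⊗ (κ ×ₖ κ)` under `(y, v, v') ↦ (r y v⁻¹, v v'⁻¹)` (both marginals are multiples of `μ`): for
`ρ`-a.e. `(y, v)`, `κ y {v' | v v'⁻¹ ∉ Q} = 0`.  Put
`Y = {x | ∀ᵐ v ∂π, κ (r x v) {v' | v v'⁻¹ ∉ Q} = 0}`.  If `x`, `r x h ∈ Y`, there are `v`, `v'`
with `v v'⁻¹ ∈ Q` and `h v v'⁻¹ ∈ Q`. -/
theorem exists_conull_coset {X V : Type*} [MeasurableSpace X] [Group V] [TopologicalSpace V]
    [IsTopologicalGroup V] [PolishSpace V] [LocallyCompactSpace V] [MeasurableSpace V]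
    [BorelSpace V] (r : X → V → X) (hm : Measurable fun p : X × V => r p.1 p.2)
    (h1 : ∀ x, r x 1 = x) (hmul : ∀ x g h, r (r x g) h = r x (g * h)) (μ : Measure X)
    [IsFiniteMeasure μ] (Q : Subgroup V) (hQ : MeasurableSet (Q : Set V))
    (hν : ∀ ν : Measure (X × V), IsFiniteMeasure ν → ν.map Prod.fst ≪ μ →
      ν.map (fun p => r p.1 p.2) ≪ μ → ∀ᵐ p ∂ν, p.2 ∈ Q) :
    ∃ Y : Set X, MeasurableSet Y ∧ μ Yᶜ = 0 ∧ ∀ x ∈ Y, ∀ h, r x h ∈ Y → h ∈ Q := by
  classical
  set π : Measure V := (Measure.haar : Measure V).toFinite with hπ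
  have hπ1 : π ≪ (Measure.haar : Measure V) := toFinite_absolutelyContinuous _
  have hπ2 : (Measure.haar : Measure V) ≪ π := absolutelyContinuous_toFinite _
  have hF : Measurable fun p : X × V => (r p.1 p.2, p.2) := hm.prodMk measurable_snd
  set ρ : Measure (X × V) := (μ.prod π).map fun p => (r p.1 p.2, p.2) with hρ
  have : IsFiniteMeasure ρ := Measure.isFiniteMeasure_map _ _
  set κ : Kernel X V := ρ.condKernel with hκ
  have hdis : ρ.fst ⊗ₘ κ = ρ := ρ.disintegrate _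
  set κ' : Kernel (X × V) V := Kernel.prodMkRight V κ with hκ'
  have hb : Measurable fun p : X × V => r p.1 p.2⁻¹ :=
    hm.comp (measurable_fst.prodMk measurable_snd.inv)
  -- the back map sends `ρ` to a multiple of `μ`
  have hback : ∀ s : Set X, MeasurableSet s → μ s = 0 →
      ρ ((fun p : X × V => r p.1 p.2⁻¹) ⁻¹' s) = 0 := by
    intro s hs h0
    rw [hρ, Measure.map_apply hF (hb hs)]
    have : (fun p : X × V => (r p.1 p.2, p.2)) ⁻¹' ((fun p : X × V => r p.1 p.2⁻¹) ⁻¹' s)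
        = s ×ˢ univ := by
      ext p
      simp [hmul, h1]
    rw [this, Measure.prod_prod, h0, zero_mul]
  have hG : Measurable fun q : (X × V) × V => (r q.1.1 q.1.2⁻¹, q.1.2 * q.2⁻¹) :=
    (hb.comp measurable_fst).prodMk (measurable_fst.snd.mul measurable_snd.inv)
  have hνQ := hν ((ρ ⊗ₘ κ').map fun q => (r q.1.1 q.1.2⁻¹, q.1.2 * q.2⁻¹))
    (Measure.isFiniteMeasure_map _ _) ?_ ?_
  rotate_left
  · refine Measure.AbsolutelyContinuous.mk fun s hs h0 => ?_
    rw [Measure.map_apply measurable_fst hs, Measure.map_apply hG (measurable_fst hs)]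
    have : (fun q : (X × V) × V => (r q.1.1 q.1.2⁻¹, q.1.2 * q.2⁻¹)) ⁻¹' (Prod.fst ⁻¹' s)
        = ((fun p : X × V => r p.1 p.2⁻¹) ⁻¹' s) ×ˢ univ := by
      ext p
      simp
    rw [this, Measure.compProd_apply_prod (hb hs) MeasurableSet.univ]
    exact setLIntegral_measure_zero _ _ (hback s hs h0)
  · refine Measure.AbsolutelyContinuous.mk fun s hs h0 => ?_
    rw [Measure.map_apply hm hs, Measure.map_apply hG (hm hs),
      Measure.compProd_apply (hG (hm hs))]
    have h2 : ∀ p : X × V, κ' p (Prod.mk p ⁻¹' ((fun q : (X × V) × V =>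
        (r q.1.1 q.1.2⁻¹, q.1.2 * q.2⁻¹)) ⁻¹' ((fun p : X × V => r p.1 p.2) ⁻¹' s)))
        = κ p.1 (Prod.mk p.1 ⁻¹' ((fun p : X × V => r p.1 p.2⁻¹) ⁻¹' s)) := by
      intro p
      rw [hκ', Kernel.prodMkRight_apply]
      congr 1
      ext v
      simp [hmul]
    simp only [h2]
    have h3 := hback s hs h0
    rw [← hdis, Measure.compProd_apply (hb hs), Measure.fst,
      lintegral_map (Kernel.measurable_kernel_prodMk_left (hb hs)) measurable_fst] at h3
    exact h3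
  have hT : MeasurableSet {q : (X × V) × V | q.1.2 * q.2⁻¹ ∉ Q} :=
    (measurable_fst.snd.mul measurable_snd.inv) hQ.compl
  have hf : Measurable fun p : X × V => κ' p (Prod.mk p ⁻¹' {q : (X × V) × V | q.1.2 * q.2⁻¹ ∉ Q}) :=
    Kernel.measurable_kernel_prodMk_left hT
  set f : X × V → ℝ≥0∞ :=
    fun p => κ' p (Prod.mk p ⁻¹' {q : (X × V) × V | q.1.2 * q.2⁻¹ ∉ Q}) with hfdef
  have h4 : ∀ᵐ p ∂ρ, f p = 0 := by
    have h5 : (ρ ⊗ₘ κ') {q : (X × V) × V | q.1.2 * q.2⁻¹ ∉ Q} = 0 :=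
      ae_of_ae_map hG.aemeasurable hνQ
    rw [Measure.compProd_apply hT, lintegral_eq_zero_iff hf] at h5
    exact h5
  have h6 : ∀ᵐ x ∂μ, ∀ᵐ v ∂π, f (r x v, v) = 0 :=
    Measure.ae_ae_of_ae_prod (ae_of_ae_map hF.aemeasurable h4)
  have hS : MeasurableSet {p : X × V | f (r p.1 p.2, p.2) ≠ 0} :=
    (hf.comp hF) (measurableSet_singleton 0).compl
  refine ⟨{x | ∀ᵐ v ∂π, f (r x v, v) = 0}, ?_, h6, fun x hx h hxh => ?_⟩
  · exact (measurable_measure_prodMk_left (ν := π) hS) (measurableSet_singleton 0)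
  · have hx' : ∀ᵐ v ∂(Measure.haar : Measure V), f (r x v, v) = 0 := hπ2.ae_le hx
    have hq := (measurePreserving_mul_left (Measure.haar : Measure V) h).quasiMeasurePreserving
    have hx'' : ∀ᵐ w ∂(Measure.haar : Measure V), f (r x (h * w), h * w) = 0 :=
      hq.ae (p := fun v => f (r x v, v) = 0) hx'
    have hxh' : ∀ᵐ w ∂(Measure.haar : Measure V), f (r (r x h) w, w) = 0 := hπ2.ae_le hxh
    obtain ⟨w, hw1, hw2⟩ := (hx''.and hxh').exists
    rw [hmul] at hw2
    have e1 : ∀ᵐ v' ∂κ (r x (h * w)), h * w * v'⁻¹ ∈ Q := hw1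
    have e2 : ∀ᵐ v' ∂κ (r x (h * w)), w * v'⁻¹ ∈ Q := hw2
    obtain ⟨v', hv1, hv2⟩ := (e1.and e2).exists
    have := Q.mul_mem hv1 (Q.inv_mem hv2)
    simpa [mul_assoc] using this

end Crest.Agent.R014

end
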