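import Crest.Agent.R014.DRoot3

/-! # Row 14: the covering argument, combinatorial part -/

set_option autoImplicit false

noncomputable section

open MeasureTheory ProbabilityTheory Filter Topology Set
open scoped ENNReal Matrix NumberField
open Crest.NumberTheoryR.Packets

namespace Crest.Agent.R014

variable {n : ℕ}

theorem dca_entry (t : Fin n → ℝ) (k l : ℕ) (h : SLR n) (i j : Fin n) :
    |(cj (dA t) k h).1 i j| =
      |(cj (dA t) l h).1 i j| * Real.exp (((k : ℝ) - l) * (t j - t i)) := by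
  rw [cj_dA_entry, cj_dA_entry, abs_mul, abs_mul, abs_of_pos (Real.exp_pos _),
    abs_of_pos (Real.exp_pos _), mul_assoc, ← Real.exp_add]
  congr 2
  ring

theorem dca_diag (t : Fin n → ℝ) (k l : ℕ) (h : SLR n) (i : Fin n) :
    (cj (dA t) k h).1 i i = (cj (dA t) l h).1 i i := by
  rw [cj_dA_entry, cj_dA_entry, sub_self, mul_zero, mul_zero]

theorem dca_off {r : ℝ} {h : SLR n} (H : Near r h) {i j : Fin n} (hij : i ≠ j) : |h.1 i j| ≤ r := by
  have := H i j
  rwa [Matrix.one_apply_ne hij, sub_zero] at this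

theorem dca_t_le (S : Finset (Fin n)) {L : ℝ} (hL : 2 ≤ L) (i j : Fin n) :
    tS S L i - tS S L j ≤ L + 1 := by
  have h1 := tg_mem i
  have h2 := tg_mem j
  unfold tS
  split_ifs <;> linarith [h1.1, h1.2, h2.1, h2.2]

theorem dca_t_le_one (S : Finset (Fin n)) {L : ℝ} (hL : 2 ≤ L) {i j : Fin n}
    (h : ¬ (i ∈ S ∧ j ∉ S)) : tS S L i - tS S L j ≤ 1 := by
  have h1 := tg_mem i
  have h2 := tg_mem j
  unfold tS
  split_ifs with a b b
  · linarith [h1.1, h1.2, h2.1, h2.2]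
  · exact absurd ⟨a, b⟩ h
  · linarith [h1.1, h1.2, h2.1, h2.2]
  · linarith [h1.1, h1.2, h2.1, h2.2]

theorem dca_t_cross (S : Finset (Fin n)) (L : ℝ) {i j : Fin n} (hi : i ∈ S) (hj : j ∉ S) :
    tS S L j - tS S L i ≤ -(L - 1) := by
  have h1 := tg_mem i
  have h2 := tg_mem j
  unfold tS
  rw [if_pos hi, if_neg hj]
  linarith [h1.1, h1.2, h2.1, h2.2]

theorem dca_t_lt (S : Finset (Fin n)) {L : ℝ} (hL : 2 ≤ L) {i j : Fin n}
    (h : tS S 2 i < tS S 2 j) : tS S L i < tS S L j := by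
  have h1 := tg_mem i
  have h2 := tg_mem j
  unfold tS at h ⊢
  split_ifs at h ⊢ <;> linarith [h1.1, h1.2, h2.1, h2.2]

theorem dca_zero {x c r : ℝ} (hc : 0 < c) (H : ∀ k : ℕ, |x * Real.exp (k * c)| ≤ r) : x = 0 := by
  by_contra hx
  have hx' : 0 < |x| := abs_pos.2 hx
  obtain ⟨k, hk⟩ := exists_nat_gt (r / (|x| * c))
  have h1 := H k
  rw [abs_mul, abs_of_pos (Real.exp_pos _)] at h1
  have h2 : (k : ℝ) * c + 1 ≤ Real.exp (k * c) := Real.add_one_le_exp _
  rw [div_lt_iff₀ (by positivity)] at hk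
  nlinarith

theorem dca_closed_near (t : Fin n → ℝ) (k : ℕ) (r : ℝ) :
    IsClosed {h : SLR n | Near r (cj (dA t) k h)} := by
  simp only [Near, cj_dA_entry, Set.ofPred_forall]
  refine isClosed_iInter fun i => isClosed_iInter fun j => ?_
  exact isClosed_le (((continuous_entry i j).mul continuous_const).sub continuous_const).abs
    continuous_const

/-- Compactness: a limit of counterexamples has vanishing expanded entries. -/
theorem cov_delta {S : Finset (Fin n)} {Ω : Set (ModSpace n)} (hΩ : IsCompact Ω)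
    (hY : ∀ x ∈ Ω, ∀ h, IsLow S h → act x h ∈ Ω → NoCross S h) {L r δ : ℝ} (hL : 2 ≤ L)
    (hr : r < 1) (hδ : 0 < δ) : ∃ N : ℕ, ∀ y ∈ Ω, ∀ h, act y h ∈ Ω →
      (∀ j ≤ N, Near r (cj (dA (tS S L)) j h)) → ∀ i ∈ S, ∀ j ∉ S, |h.1 i j| ≤ δ := by
  by_contra hcon
  push Not at hcon
  let F : ℕ → Set (ModSpace n × SLR n) := fun N =>
    {p | p.1 ∈ Ω ∧ act p.1 p.2 ∈ Ω ∧ (∀ j ≤ N, Near r (cj (dA (tS S L)) j p.2)) ∧
      ∃ i ∈ S, ∃ j ∉ S, δ ≤ |p.2.1 i j|}
  have hcl : ∀ N, IsClosed (F N) := by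
    intro N
    refine (hΩ.isClosed.preimage continuous_fst).inter
      ((hΩ.isClosed.preimage continuous_act).inter (IsClosed.inter ?_ ?_))
    · have : IsClosed (⋂ j ∈ Set.Iic N,
          Prod.snd ⁻¹' {h : SLR n | Near r (cj (dA (tS S L)) j h)} : Set (ModSpace n × SLR n)) :=
        isClosed_biInter fun j _ => (dca_closed_near _ j r).preimage continuous_snd
      convert this using 1
      ext p
      simp only [Set.mem_iInter, Set.mem_Iic, Set.mem_preimage, Set.mem_ofPred_eq]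
      rfl
    · have : IsClosed (⋃ i : Fin n, ⋃ j : Fin n,
          {p : ModSpace n × SLR n | i ∈ S ∧ j ∉ S ∧ δ ≤ |p.2.1 i j|}) := by
        refine isClosed_iUnion_of_finite fun i => isClosed_iUnion_of_finite fun j => ?_
        refine isClosed_const.inter (isClosed_const.inter ?_)
        exact isClosed_le continuous_const ((continuous_entry i j).comp continuous_snd).abs
      convert this using 1
      ext p
      simp only [Set.mem_iUnion, Set.mem_ofPred_eq]
      constructor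
      · rintro ⟨i, hi, j, hj, h⟩
        exact ⟨i, j, hi, hj, h⟩
      · rintro ⟨i, j, hi, hj, h⟩
        exact ⟨i, hi, j, hj, h⟩
  have hcj0 : ∀ h : SLR n, cj (dA (tS S L)) 0 h = h := fun h => by simp [cj]
  have hc0 : IsCompact (F 0) := by
    refine (hΩ.prod (isCompact_bdd 2)).of_isClosed_subset (hcl 0) ?_
    rintro p ⟨h1, -, h3, -⟩
    refine ⟨h1, fun i j => ?_⟩
    have h4 := h3 0 le_rfl i j
    rw [hcj0] at h4
    have h5 : |(1 : Matrix (Fin n) (Fin n) ℝ) i j| ≤ 1 := by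
      rw [Matrix.one_apply]
      split_ifs <;> simp
    have h6 := abs_sub_abs_le_abs_sub (p.2.1 i j) ((1 : Matrix (Fin n) (Fin n) ℝ) i j)
    linarith
  obtain ⟨p, hp⟩ := IsCompact.nonempty_iInter_of_sequence_nonempty_isCompact_isClosed F
    (fun N q hq => ⟨hq.1, hq.2.1, fun j hj => hq.2.2.1 j (hj.trans (Nat.le_succ N)), hq.2.2.2⟩)
    (fun N => by
      obtain ⟨y, hy, h, h1, h2, i, hi, j, hj, h3⟩ := hcon N
      exact ⟨(y, h), hy, h1, h2, i, hi, j, hj, h3.le⟩) hc0 hcl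
  rw [Set.mem_iInter] at hp
  obtain ⟨h1, h2, -, i, hi, j, hj, h4⟩ := hp 0
  have h3 : ∀ k, Near r (cj (dA (tS S L)) k p.2) := fun k => (hp k).2.2.1 k le_rfl
  have hlow : IsLow S p.2 := by
    refine ⟨fun a => ?_, fun a b hab => ?_⟩
    · have := h3 0 a a
      rw [hcj0, Matrix.one_apply_eq] at this
      linarith [(abs_le.1 this).1]
    · have hab' := dca_t_lt S hL hab
      have hne : a ≠ b := by
        rintro rfl
        exact lt_irrefl _ hab
      refine dca_zero (sub_pos.2 hab') (r := r) fun k => ?_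
      rw [← cj_dA_entry]
      exact dca_off (h3 k) hne
  rw [hY p.1 h1 p.2 hlow h2 i hi j hj, abs_zero] at h4
  linarith

theorem cj_cj (a : SLR n) (k j : ℕ) (h : SLR n) : cj a j (cj a k h) = cj a (k + j) h := by
  simp only [cj, pow_add, mul_inv_rev, mul_assoc]

theorem cov_step_bad {S : Finset (Fin n)} {L r : ℝ} (hL : 2 ≤ L) (hr : 0 ≤ r) {k : ℕ} {h : SLR n}
    (H : Near r (cj (dA (tS S L)) (k + 1) h)) :
    Near (Real.exp (L + 1) * r) (cj (dA (tS S L)) k h) := by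
  intro i j
  have h1 : 1 ≤ Real.exp (L + 1) := Real.one_le_exp (by linarith)
  by_cases hij : i = j
  · subst hij
    rw [dca_diag _ k (k + 1)]
    exact (H i i).trans (le_mul_of_one_le_left hr h1)
  · rw [Matrix.one_apply_ne hij, sub_zero, dca_entry _ k (k + 1), mul_comm]
    refine mul_le_mul (Real.exp_le_exp.2 ?_) (dca_off H hij) (abs_nonneg _) (Real.exp_pos _).le
    have := dca_t_le S hL i j
    push_cast
    linarith

theorem cov_step_good {S : Finset (Fin n)} {L r δ : ℝ} (hL : 2 ≤ L) (hr : 0 ≤ r)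
    (hδ : Real.exp (L + 1) * δ ≤ r) {k : ℕ} {h : SLR n}
    (H : Near r (cj (dA (tS S L)) (k + 1) h))
    (H' : ∀ i ∈ S, ∀ j ∉ S, |(cj (dA (tS S L)) (k + 1) h).1 i j| ≤ δ) :
    Near (Real.exp 1 * r) (cj (dA (tS S L)) k h) := by
  intro i j
  have h1 : 1 ≤ Real.exp 1 := Real.one_le_exp (by linarith)
  by_cases hij : i = j
  · subst hij
    rw [dca_diag _ k (k + 1)]
    exact (H i i).trans (le_mul_of_one_le_left hr h1)
  · rw [Matrix.one_apply_ne hij, sub_zero, dca_entry _ k (k + 1), mul_comm]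
    by_cases hc : i ∈ S ∧ j ∉ S
    · refine le_trans ?_ (hδ.trans (le_mul_of_one_le_left hr h1))
      refine mul_le_mul (Real.exp_le_exp.2 ?_) (H' i hc.1 j hc.2) (abs_nonneg _)
        (Real.exp_pos _).le
      have := dca_t_le S hL i j
      push_cast
      linarith
    · refine mul_le_mul (Real.exp_le_exp.2 ?_) (dca_off H hij) (abs_nonneg _) (Real.exp_pos _).le
      have := dca_t_le_one S hL hc
      push_cast
      linarith

theorem cov_mid {S : Finset (Fin n)} {L r : ℝ} (hL : 2 ≤ L) (hr : 0 ≤ r) {M k m : ℕ}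
    {𝒢 : Set (SLR n)} (H : Tog (dA (tS S L)) r 0 M 𝒢) (hk : m ≤ k) (hk' : k + m ≤ M)
    {g g' : SLR n} (hg : g ∈ 𝒢) (hg' : g' ∈ 𝒢) : ∀ i ∈ S, ∀ j ∉ S,
      |(cj (dA (tS S L)) k (g⁻¹ * g')).1 i j| ≤ r * Real.exp (-(L - 1) * m) ∧
      |(cj (dA (tS S L)) k (g⁻¹ * g')).1 j i| ≤ r * Real.exp (-(L - 1) * m) := by
  intro i hi j hj
  have hij : i ≠ j := fun e => hj (e ▸ hi)
  have ht := dca_t_cross S L hi hj
  have hm : (0 : ℝ) ≤ m := Nat.cast_nonneg m
  constructor
  · rw [dca_entry _ k (k - m)]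
    refine mul_le_mul (dca_off (H g hg g' hg' _ (Nat.zero_le _) (by omega)) hij)
      (Real.exp_le_exp.2 ?_) (Real.exp_pos _).le hr
    rw [Nat.cast_sub hk]
    nlinarith
  · rw [dca_entry _ k (k + m)]
    refine mul_le_mul (dca_off (H g hg g' hg' _ (Nat.zero_le _) hk') hij.symm)
      (Real.exp_le_exp.2 ?_) (Real.exp_pos _).le hr
    push_cast
    nlinarith

/-- Finitely many small charts cover a compact set. -/
theorem cov_init {Ω : Set (ModSpace n)} (hΩ : IsCompact Ω) {r : ℝ} (hr : 0 < r) :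
    ∃ 𝒮 : Finset (Set (SLR n)), (∀ x ∈ Ω, ∃ T ∈ 𝒮, ∃ g ∈ T, mkX g = x) ∧
      ∀ T ∈ 𝒮, ∀ g ∈ T, ∀ g' ∈ T, Near r (g⁻¹ * g') := by
  classical
  have h1 : ∀ g₀ : SLR n, ∃ V ∈ 𝓝 g₀, ∀ g ∈ V, ∀ g' ∈ V, Near r (g⁻¹ * g') := by
    intro g₀
    have hc : Continuous fun p : SLR n × SLR n => p.1⁻¹ * p.2 := by fun_prop
    have h2 : (fun p : SLR n × SLR n => p.1⁻¹ * p.2) ⁻¹' {h | Near r h} ∈ 𝓝 (g₀, g₀) := by
      apply hc.continuousAt.preimage_mem_nhds
      simpa using near_mem_nhds hr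
    rw [nhds_prod_eq, Filter.mem_prod_self_iff] at h2
    obtain ⟨V, hV, hV'⟩ := h2
    refine ⟨V, hV, fun g hg g' hg' => ?_⟩
    have h5 := hV' (Set.mk_mem_prod hg hg')
    rw [Set.mem_preimage, Set.mem_ofPred_eq] at h5
    exact h5
  choose V hV hV' using h1
  choose o ho using fun x : ModSpace n => mkX_surj x
  have h3 : ∀ x ∈ Ω, mkX '' V (o x) ∈ 𝓝 x := by
    intro x _
    have h4 : mkX '' V (o x) ∈ 𝓝 (mkX (o x)) := isOpenMap_mkX.image_mem_nhds (hV (o x))
    rwa [ho x] at h4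
  obtain ⟨t, -, ht⟩ := hΩ.elim_nhds_subcover (fun x => mkX '' V (o x)) h3
  refine ⟨t.image fun x => V (o x), fun x hx => ?_, fun T hT => ?_⟩
  · obtain ⟨y, hy, g, hg, hgx⟩ := Set.mem_iUnion₂.1 (ht hx)
    exact ⟨_, Finset.mem_image_of_mem _ hy, g, hg, hgx⟩
  · obtain ⟨y, -, rfl⟩ := Finset.mem_image.1 hT
    exact hV' _

open Classical in
/-- Markov's inequality for the number of visits to `Ωᶜ`. -/
theorem cov_markov {X : Type*} [MeasurableSpace X] {μ : Measure X} {T : ℕ → X → X}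
    (hT : ∀ k, MeasurePreserving (T k) μ μ) {Ω : Set X} (hΩ : MeasurableSet Ω) (M : ℕ) {ε : ℝ}
    (hε : 0 < ε) :
    μ {x | ε * (M + 1) < (((Finset.range (M + 1)).filter fun k => T k x ∉ Ω).card : ℝ)} ≤
      μ Ωᶜ / ENNReal.ofReal ε := by
  let f : X → ℝ≥0∞ := fun x => ∑ k ∈ Finset.range (M + 1), (T k ⁻¹' Ωᶜ).indicator 1 x
  have hm : ∀ k, Measurable ((T k ⁻¹' Ωᶜ).indicator (1 : X → ℝ≥0∞)) := fun k =>
    measurable_const.indicator ((hT k).measurable hΩ.compl)
  have hf : Measurable f := Finset.measurable_sum _ fun k _ => hm k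
  have hint : ∫⁻ x, f x ∂μ = μ Ωᶜ * ((M + 1 : ℕ) : ℝ≥0∞) := by
    rw [lintegral_finsetSum _ fun k _ => hm k]
    rw [Finset.sum_congr rfl fun k _ => (lintegral_indicator_one ((hT k).measurable hΩ.compl)).trans
      ((hT k).measure_preimage hΩ.compl.nullMeasurableSet)]
    simp [mul_comm]
  have hε' : ENNReal.ofReal ε ≠ 0 := by simpa using hε
  have hM : ((M + 1 : ℕ) : ℝ≥0∞) ≠ 0 := by simp
  calc μ {x | ε * (M + 1) < (((Finset.range (M + 1)).filter fun k => T k x ∉ Ω).card : ℝ)}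
      ≤ μ {x | ENNReal.ofReal ε * ((M + 1 : ℕ) : ℝ≥0∞) ≤ f x} := by
        refine measure_mono fun x hx => ?_
        have h1 : f x = (((Finset.range (M + 1)).filter fun k => T k x ∉ Ω).card : ℝ≥0∞) := by
          simp only [f, Set.indicator_apply, Set.mem_preimage, Set.mem_compl_iff, Pi.one_apply]
          rw [Finset.sum_boole]
        rw [Set.mem_ofPred_eq, h1, ← ENNReal.ofReal_natCast, ← ENNReal.ofReal_natCast,
          ← ENNReal.ofReal_mul hε.le]
        refine ENNReal.ofReal_le_ofReal ?_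
        push_cast
        exact le_of_lt hx
    _ ≤ (∫⁻ x, f x ∂μ) / (ENNReal.ofReal ε * ((M + 1 : ℕ) : ℝ≥0∞)) :=
        meas_ge_le_lintegral_div hf.aemeasurable (mul_ne_zero hε' hM)
          (ENNReal.mul_ne_top ENNReal.ofReal_ne_top (ENNReal.natCast_ne_top _))
    _ = μ Ωᶜ / ENNReal.ofReal ε := by
        rw [hint, ENNReal.mul_div_mul_right _ _ hM (ENNReal.natCast_ne_top _)]

end Crest.Agent.R014

end
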