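import Crest.Agent.R014.DCovA

/-! # Row 14: the covering argument, counting -/

set_option autoImplicit false

noncomputable section

open MeasureTheory ProbabilityTheory Filter Topology Set
open scoped ENNReal Matrix NumberField
open Crest.NumberTheoryR.Packets

namespace Crest.Agent.R014

variable {n : ℕ}

theorem dca2_cj_mul (a : SLR n) (k : ℕ) (x y : SLR n) :
    cj a k (x * y) = cj a k x * cj a k y := by
  unfold cj; group

theorem dca2_cj_one (a : SLR n) (k : ℕ) : cj a k 1 = 1 := by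
  unfold cj; group

theorem dca2_near {r : ℝ} (hn : 0 < n) {u x y : SLR n} (hux : u * x = 1)
    (hu : ∀ i j, |u.1 i j| ≤ 2) (hxy : ∀ i j, |y.1 i j - x.1 i j| ≤ r / (2 * n)) :
    Near r (u * y) := by
  intro i j
  have h1 : (1 : Matrix (Fin n) (Fin n) ℝ) = u.1 * x.1 := by
    rw [← Matrix.SpecialLinearGroup.coe_mul, hux]; rfl
  have h2 : (u * y).1 i j - (1 : Matrix (Fin n) (Fin n) ℝ) i j
      = ∑ l, u.1 i l * (y.1 l j - x.1 l j) := by
    rw [h1, Matrix.SpecialLinearGroup.coe_mul, Matrix.mul_apply, Matrix.mul_apply,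
      ← Finset.sum_sub_distrib]
    exact Finset.sum_congr rfl fun l _ => by ring
  rw [h2]
  have hn' : (0 : ℝ) < n := by exact_mod_cast hn
  calc |∑ l, u.1 i l * (y.1 l j - x.1 l j)| ≤ ∑ l, |u.1 i l * (y.1 l j - x.1 l j)| :=
        Finset.abs_sum_le_sum_abs _ _
    _ ≤ ∑ _l : Fin n, 2 * (r / (2 * n)) := by
        refine Finset.sum_le_sum fun l _ => ?_
        rw [abs_mul]
        exact mul_le_mul (hu i l) (hxy l j) (abs_nonneg _) (by norm_num)
    _ = r := by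
        simp only [Finset.sum_const, Finset.card_univ, Fintype.card_fin, nsmul_eq_mul]
        field_simp

theorem dca2_floor {s w u v : ℝ} (hw : 0 < w) (hu : 0 ≤ u + s) (hv : 0 ≤ v + s)
    (h : ⌊(u + s) / w⌋₊ = ⌊(v + s) / w⌋₊) : |v - u| ≤ w := by
  have h1 := Nat.floor_le (div_nonneg hu hw.le)
  have h2 := Nat.floor_le (div_nonneg hv hw.le)
  have h3 := Nat.lt_floor_add_one ((u + s) / w)
  have h4 := Nat.lt_floor_add_one ((v + s) / w)
  rw [h] at h1 h3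
  rw [le_div_iff₀ hw] at h1 h2
  rw [div_lt_iff₀ hw] at h3 h4
  rw [abs_le]
  constructor <;> nlinarith


/-- Fix `g₁ ∈ 𝒢` and cut the entries of `cj a k (g₁⁻¹ g)` into intervals of length `r / (2 n)`;
`h⁻¹ h' - 1 = h⁻¹ (h' - h)` and the entries of `h⁻¹ = cj a k (g⁻¹ g₁)` are at most `2`. -/
theorem cov_subdiv (hn : 0 < n) {a : SLR n} {r R : ℝ} (hr : 0 < r) (hR : 1 ≤ R) (hRr : R * r ≤ 1)
    {k M : ℕ} {𝒢 : Set (SLR n)} (H : Tog a r (k + 1) M 𝒢)
    (H' : ∀ g ∈ 𝒢, ∀ g' ∈ 𝒢, Near (R * r) (cj a k (g⁻¹ * g'))) :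
    ∃ 𝒮 : Finset (Set (SLR n)), (𝒮.card : ℝ) ≤ (6 * n * R) ^ (n * n) ∧
      (∀ g ∈ 𝒢, ∃ T ∈ 𝒮, g ∈ T) ∧ ∀ T ∈ 𝒮, T ⊆ 𝒢 ∧ Tog a r k M T := by
  classical
  rcases 𝒢.eq_empty_or_nonempty with rfl | ⟨g₁, hg₁⟩
  · exact ⟨∅, by simp; positivity, by simp, by simp⟩
  have hn' : (1 : ℝ) ≤ n := by exact_mod_cast hn
  have hw : 0 < r / (2 * n) := by positivity
  set φ : SLR n → Fin n × Fin n → ℕ := fun g p =>
    ⌊(((cj a k (g₁⁻¹ * g)).1 p.1 p.2 - (1 : Matrix (Fin n) (Fin n) ℝ) p.1 p.2) + R * r) /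
      (r / (2 * n))⌋₊ with hφ
  set I : Finset (Fin n × Fin n → ℕ) :=
    Fintype.piFinset fun _ => Finset.range (⌊4 * n * R⌋₊ + 1) with hI
  refine ⟨I.image fun ψ => {g | g ∈ 𝒢 ∧ φ g = ψ}, ?_, ?_, ?_⟩
  · have h1 : (I.image fun ψ => {g | g ∈ 𝒢 ∧ φ g = ψ}).card ≤ (⌊4 * n * R⌋₊ + 1) ^ (n * n) := by
      refine Finset.card_image_le.trans ?_
      rw [hI, Fintype.card_piFinset]
      simp
    have h2 : ((⌊4 * n * R⌋₊ + 1 : ℕ) : ℝ) ≤ 6 * n * R := by
      have := Nat.floor_le (show (0 : ℝ) ≤ 4 * n * R by positivity)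
      have h3 : (1 : ℝ) ≤ n * R := by nlinarith
      push_cast
      nlinarith
    calc ((I.image fun ψ => {g | g ∈ 𝒢 ∧ φ g = ψ}).card : ℝ)
        ≤ (((⌊4 * n * R⌋₊ + 1) ^ (n * n) : ℕ) : ℝ) := by exact_mod_cast h1
      _ = ((⌊4 * n * R⌋₊ + 1 : ℕ) : ℝ) ^ (n * n) := by push_cast; ring
      _ ≤ _ := pow_le_pow_left₀ (by positivity) h2 _
  · intro g hg
    refine ⟨{g' | g' ∈ 𝒢 ∧ φ g' = φ g}, Finset.mem_image.2 ⟨φ g, ?_, rfl⟩, hg, rfl⟩
    rw [hI, Fintype.mem_piFinset]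
    intro p
    rw [Finset.mem_range, Nat.lt_add_one_iff]
    apply Nat.floor_le_floor
    have := (abs_le.1 (H' g₁ hg₁ g hg p.1 p.2)).2
    rw [div_le_iff₀ hw]
    have e : 4 * n * R * (r / (2 * n)) = 2 * (R * r) := by field_simp; ring
    rw [e]
    linarith
  · intro T hT
    obtain ⟨ψ, -, rfl⟩ := Finset.mem_image.1 hT
    refine ⟨fun g hg => hg.1, ?_⟩
    rintro g ⟨hg, hgψ⟩ g' ⟨hg', hgψ'⟩ j hkj hjM
    rcases hkj.eq_or_lt with rfl | hlt
    · have e : g⁻¹ * g' = (g⁻¹ * g₁) * (g₁⁻¹ * g') := by group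
      rw [e, dca2_cj_mul]
      refine dca2_near (x := cj a k (g₁⁻¹ * g)) hn ?_ ?_ ?_
      · rw [← dca2_cj_mul, show g⁻¹ * g₁ * (g₁⁻¹ * g) = 1 by group, dca2_cj_one]
      · intro i l
        have h1 := abs_le.1 (H' g hg g₁ hg₁ i l)
        have h2 : 0 ≤ (1 : Matrix (Fin n) (Fin n) ℝ) i l ∧ (1 : Matrix (Fin n) (Fin n) ℝ) i l ≤ 1 := by
          rw [Matrix.one_apply]; split_ifs <;> norm_num
        rw [abs_le]
        constructor <;> linarith [h1.1, h1.2, h2.1, h2.2]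
      · intro i l
        have h1 := (abs_le.1 (H' g₁ hg₁ g hg i l)).1
        have h2 := (abs_le.1 (H' g₁ hg₁ g' hg' i l)).1
        have h3 : φ g (i, l) = φ g' (i, l) := by rw [hgψ, hgψ']
        have := dca2_floor hw (by linarith) (by linarith) h3
        simpa using this
    · exact H g hg g' hg' j hlt hjM

theorem dca2_refine {α : Type*} {𝒢 : Set α} {P Q : Set α → Prop} {A C : ℝ} (hC : 0 ≤ C)
    {𝒮 : Finset (Set α)} (h1 : (𝒮.card : ℝ) ≤ A) (h2 : ∀ g ∈ 𝒢, ∃ T ∈ 𝒮, g ∈ T)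
    (h3 : ∀ T ∈ 𝒮, T ⊆ 𝒢 ∧ P T)
    (h4 : ∀ T, T ⊆ 𝒢 → P T → ∃ 𝒯 : Finset (Set α), (𝒯.card : ℝ) ≤ C ∧
      (∀ g ∈ T, ∃ U ∈ 𝒯, g ∈ U) ∧ ∀ U ∈ 𝒯, U ⊆ T ∧ Q U) :
    ∃ 𝒯 : Finset (Set α), (𝒯.card : ℝ) ≤ A * C ∧
      (∀ g ∈ 𝒢, ∃ U ∈ 𝒯, g ∈ U) ∧ ∀ U ∈ 𝒯, U ⊆ 𝒢 ∧ Q U := by
  classical
  choose! F hF1 hF2 hF3 using h4
  refine ⟨𝒮.biUnion F, ?_, ?_, ?_⟩
  · calc ((𝒮.biUnion F).card : ℝ) ≤ ((∑ T ∈ 𝒮, (F T).card : ℕ) : ℝ) := by
          exact_mod_cast Finset.card_biUnion_le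
      _ = ∑ T ∈ 𝒮, ((F T).card : ℝ) := by push_cast; rfl
      _ ≤ ∑ _T ∈ 𝒮, C := Finset.sum_le_sum fun T hT => hF1 T (h3 T hT).1 (h3 T hT).2
      _ = 𝒮.card * C := by simp
      _ ≤ A * C := mul_le_mul_of_nonneg_right h1 hC
  · intro g hg
    obtain ⟨T, hT, hgT⟩ := h2 g hg
    obtain ⟨U, hU, hgU⟩ := hF2 T (h3 T hT).1 (h3 T hT).2 g hgT
    exact ⟨U, Finset.mem_biUnion.2 ⟨T, hT, hU⟩, hgU⟩
  · intro U hU
    obtain ⟨T, hT, hU⟩ := Finset.mem_biUnion.1 hU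
    obtain ⟨h5, h6⟩ := hF3 T (h3 T hT).1 (h3 T hT).2 U hU
    exact ⟨h5.trans (h3 T hT).1, h6⟩

theorem dca2_bad_card (P : Finset ℕ) (N M : ℕ) :
    ((Finset.Ioc 0 M).filter fun j => ¬ (j ∈ P ∧ j + N ≤ M)).card ≤
      ((Finset.range (M + 1)) \ P).card + N := by
  have h : ((Finset.Ioc 0 M).filter fun j => ¬ (j ∈ P ∧ j + N ≤ M)) ⊆
      ((Finset.range (M + 1)) \ P) ∪ Finset.Ioc (M - N) M := by
    intro j hj
    simp only [Finset.mem_filter, Finset.mem_Ioc, Finset.mem_union, Finset.mem_sdiff,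
      Finset.mem_range] at hj ⊢
    by_cases hP : j ∈ P
    · right
      have : ¬ j + N ≤ M := fun h => hj.2 ⟨hP, h⟩
      omega
    · left
      exact ⟨by omega, hP⟩
  refine (Finset.card_le_card h).trans ((Finset.card_union_le _ _).trans ?_)
  rw [Nat.card_Ioc]
  omega

/-- Downward induction on `k` from `M` to `0`.  The step from `k + 1` to `k` is good if `k + 1 ∈ P`
and `k + 1 + N ≤ M` (use `hN` for `y = mkX g · a^(k+1)`, `h = cj a (k+1) (g⁻¹ g')`), otherwise bad;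
at most `#(range (M+1) \ P) + N` steps are bad. -/
theorem cov_count (hn : 0 < n) {S : Finset (Fin n)} {Ω : Set (ModSpace n)} {L r : ℝ} (hL : 2 ≤ L)
    (hr : 0 < r) (hr' : Real.exp (L + 1) * r ≤ 1) {N : ℕ}
    (hN : ∀ y ∈ Ω, ∀ h, act y h ∈ Ω → (∀ j ≤ N, Near r (cj (dA (tS S L)) j h)) →
      ∀ i ∈ S, ∀ j ∉ S, |h.1 i j| ≤ Real.exp (-(L + 1)) * r)
    {M : ℕ} (P : Finset ℕ) {𝒢 : Set (SLR n)} (H : Tog (dA (tS S L)) r M M 𝒢)
    (hP : ∀ g ∈ 𝒢, ∀ k ∈ P, act (mkX g) (dA (tS S L) ^ k) ∈ Ω) :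
    ∃ 𝒮 : Finset (Set (SLR n)), (𝒮.card : ℝ) ≤ (6 * n * Real.exp 1) ^ (n * n * M) *
        Real.exp (L * (n * n) * (((Finset.range (M + 1)) \ P).card + N)) ∧
      (∀ g ∈ 𝒢, ∃ T ∈ 𝒮, g ∈ T) ∧ ∀ T ∈ 𝒮, T ⊆ 𝒢 ∧ Tog (dA (tS S L)) r 0 M T := by
  classical
  have hn' : (1 : ℝ) ≤ n := by exact_mod_cast hn
  have he1 : (1 : ℝ) ≤ Real.exp 1 := Real.one_le_exp (by norm_num)
  have key : ∀ d k, k + d = M → ∃ 𝒮 : Finset (Set (SLR n)),
      (𝒮.card : ℝ) ≤ (6 * n * Real.exp 1) ^ (n * n * d) * Real.exp (L * (n * n) *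
        (((Finset.Ioc k M).filter fun j => ¬ (j ∈ P ∧ j + N ≤ M)).card : ℝ)) ∧
      (∀ g ∈ 𝒢, ∃ T ∈ 𝒮, g ∈ T) ∧ ∀ T ∈ 𝒮, T ⊆ 𝒢 ∧ Tog (dA (tS S L)) r k M T := by
    intro d
    induction d with
    | zero =>
      intro k hk
      obtain rfl : k = M := by omega
      refine ⟨{𝒢}, by simp, fun g hg => ⟨𝒢, by simp, hg⟩, fun T hT => ?_⟩
      rw [Finset.mem_singleton] at hT
      subst hT
      exact ⟨subset_rfl, H⟩
    | succ d ih =>
      intro k hk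
      obtain ⟨𝒮, h1, h2, h3⟩ := ih (k + 1) (by omega)
      have hI : Finset.Ioc k M = insert (k + 1) (Finset.Ioc (k + 1) M) := by
        ext j
        simp only [Finset.mem_Ioc, Finset.mem_insert]
        omega
      have hnot : k + 1 ∉ (Finset.Ioc (k + 1) M).filter fun j => ¬ (j ∈ P ∧ j + N ≤ M) := by
        simp
      by_cases hgood : k + 1 ∈ P ∧ k + 1 + N ≤ M
      · obtain ⟨𝒯, h4, h5, h6⟩ := dca2_refine (Q := Tog (dA (tS S L)) r k M)
          (C := (6 * n * Real.exp 1) ^ (n * n)) (by positivity) h1 h2 h3 (by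
            intro T hT hT'
            refine cov_subdiv hn hr he1 ?_ hT' ?_
            · exact le_trans (mul_le_mul_of_nonneg_right
                (Real.exp_le_exp.2 (by linarith)) hr.le) hr'
            · intro g hg g' hg'
              refine cov_step_good (δ := Real.exp (-(L + 1)) * r) hL hr.le ?_
                (hT' g hg g' hg' (k + 1) le_rfl (by omega)) ?_
              · rw [← mul_assoc, ← Real.exp_add, add_neg_cancel, Real.exp_zero, one_mul]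
              · refine hN (act (mkX g) (dA (tS S L) ^ (k + 1))) (hP g (hT hg) _ hgood.1) _ ?_ ?_
                · have := hP g' (hT hg') _ hgood.1
                  rw [act_mkX] at this
                  rw [act_mkX, act_mkX]
                  convert this using 2
                  unfold cj
                  group
                · intro j hj
                  rw [cj_cj]
                  exact hT' g hg g' hg' _ (by omega) (by omega))
        refine ⟨𝒯, h4.trans (le_of_eq ?_), h5, h6⟩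
        rw [hI, Finset.filter_insert, if_neg (not_not.2 hgood), Nat.mul_succ, pow_add]
        ring
      · obtain ⟨𝒯, h4, h5, h6⟩ := dca2_refine (Q := Tog (dA (tS S L)) r k M)
          (C := (6 * n * Real.exp (L + 1)) ^ (n * n)) (by positivity) h1 h2 h3 (by
            intro T hT hT'
            refine cov_subdiv hn hr (Real.one_le_exp (by linarith)) hr' hT' ?_
            intro g hg g' hg'
            exact cov_step_bad hL hr.le (hT' g hg g' hg' (k + 1) le_rfl (by omega)))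
        refine ⟨𝒯, h4.trans (le_of_eq ?_), h5, h6⟩
        rw [hI, Finset.filter_insert, if_pos hgood, Finset.card_insert_of_notMem hnot,
          Nat.mul_succ, pow_add]
        have e : (6 * n * Real.exp (L + 1)) ^ (n * n) =
            (6 * n * Real.exp 1) ^ (n * n) * Real.exp (L * (n * n)) := by
          rw [Real.exp_add, show 6 * n * (Real.exp L * Real.exp 1) =
            (6 * n * Real.exp 1) * Real.exp L by ring, mul_pow, ← Real.exp_nat_mul]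
          push_cast
          ring_nf
        rw [e]
        push_cast
        rw [mul_add, mul_one, Real.exp_add]
        ring
  obtain ⟨𝒮, h1, h2, h3⟩ := key M 0 (by omega)
  refine ⟨𝒮, h1.trans ?_, h2, h3⟩
  refine mul_le_mul_of_nonneg_left (Real.exp_le_exp.2 ?_) (by positivity)
  refine mul_le_mul_of_nonneg_left ?_ (by positivity)
  exact_mod_cast dca2_bad_card P N M

end Crest.Agent.R014

end
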