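import Crest.Agent.R014.DCovA2
import Crest.Agent.R014.DLat2

/-! # Row 14: the covering argument -/

set_option autoImplicit false

noncomputable section

open MeasureTheory ProbabilityTheory Filter Topology Set
open scoped ENNReal Matrix NumberField
open Crest.NumberTheoryR.Packets

namespace Crest.Agent.R014

variable {n : ℕ}

theorem dcb_mp {μ : Measure (ModSpace n)} (hA : AInv μ) (t : Fin n → ℝ) (k : ℕ) :
    MeasurePreserving (fun x => act x (dA t ^ k)) μ μ := by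
  refine ⟨measurable_act_left _, ?_⟩
  rw [dA_pow]
  exact hA _

theorem dcb_omega (hn : 2 ≤ n) {μ : Measure (ModSpace n)} [IsFiniteMeasure μ] (hA : AInv μ)
    {S : Finset (Fin n)} (hS : ∀ i ∈ S, ∀ j ∉ S, ∀ h : i ≠ j, RootTriv μ h) {η : ℝ} (hη : 0 < η) :
    ∃ ρ : ℝ, 1 ≤ ρ ∧ ∃ Ω : Set (ModSpace n), IsCompact Ω ∧ Ω ⊆ boxSet n ρ ∧
      (∀ x ∈ Ω, ∀ h, IsLow S h → act x h ∈ Ω → NoCross S h) ∧ μ.real Ωᶜ ≤ η := by
  have hη' : ENNReal.ofReal (η / 2) ≠ 0 := by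
    rw [Ne, ENNReal.ofReal_eq_zero, not_le]; positivity
  obtain ⟨ρ, hρ, hbox⟩ := boxSet_large hn μ hA hη'
  obtain ⟨Y, hYm, hY0, hY⟩ := exists_low_conull hA hS
  have hm : MeasurableSet (Y ∩ boxSet n ρ) := hYm.inter (isOpen_boxSet ρ).measurableSet
  obtain ⟨Ω, hΩs, hΩc, hΩ⟩ := hm.exists_isCompact_sdiff_lt (μ := μ) (measure_ne_top _ _) hη'
  refine ⟨ρ, hρ, Ω, hΩc, fun x hx => (hΩs hx).2, fun x hx h hl hx' => hY x (hΩs hx).1 h hl (hΩs hx').1, ?_⟩
  have hsub : Ωᶜ ⊆ Yᶜ ∪ ((boxSet n ρ)ᶜ ∪ ((Y ∩ boxSet n ρ) \ Ω)) := by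
    intro x hx
    by_cases h1 : x ∈ Y
    · by_cases h2 : x ∈ boxSet n ρ
      · exact Or.inr (Or.inr ⟨⟨h1, h2⟩, hx⟩)
      · exact Or.inr (Or.inl h2)
    · exact Or.inl h1
  have h3 : μ Ωᶜ ≤ ENNReal.ofReal η := by
    calc μ Ωᶜ ≤ μ Yᶜ + (μ (boxSet n ρ)ᶜ + μ ((Y ∩ boxSet n ρ) \ Ω)) :=
          (measure_mono hsub).trans ((measure_union_le _ _).trans
            (add_le_add le_rfl (measure_union_le _ _)))
      _ ≤ 0 + (ENNReal.ofReal (η / 2) + ENNReal.ofReal (η / 2)) := by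
          rw [hY0]; exact add_le_add le_rfl (add_le_add hbox hΩ.le)
      _ = ENNReal.ofReal η := by
          rw [zero_add, ← ENNReal.ofReal_add (by positivity) (by positivity)]
          congr 1; ring
  exact ENNReal.toReal_le_of_le_ofReal hη.le h3

theorem dcb_exists_k (P : Finset ℕ) (M : ℕ) {ε : ℝ} (hε : ε ≤ 1 / 10)
    (hP : (((Finset.range (M + 1)) \ P).card : ℝ) ≤ ε * (M + 1)) :
    ∃ k ∈ P, M / 3 ≤ k ∧ k + M / 3 ≤ M := by
  by_contra hcon
  push Not at hcon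
  have hsub : Finset.Icc (M / 3) (M - M / 3) ⊆ (Finset.range (M + 1)) \ P := by
    intro k hk
    rw [Finset.mem_Icc] at hk
    rw [Finset.mem_sdiff, Finset.mem_range]
    refine ⟨by omega, fun hkP => ?_⟩
    have := hcon k hkP hk.1
    omega
  have hc := Finset.card_le_card hsub
  rw [Nat.card_Icc] at hc
  have h1 : M + 1 < 10 * ((Finset.range (M + 1)) \ P).card := by omega
  have h2 : ((M : ℝ) + 1) < 10 * (((Finset.range (M + 1)) \ P).card : ℝ) := by exact_mod_cast h1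
  have h3 : ε * (M + 1) ≤ 1 / 10 * (M + 1) := mul_le_mul_of_nonneg_right hε (by positivity)
  linarith

theorem dcb_near_mono {r r' : ℝ} (h : r ≤ r') {g : SLR n} (hg : Near r g) : Near r' g :=
  fun i j => (hg i j).trans h

theorem dcb_piece {μ : Measure (ModSpace n)} [IsFiniteMeasure μ] (hA : AInv μ)
    {S : Finset (Fin n)} {ρ r₀ C L r D : ℝ} (hL : 2 ≤ L) (hr : 0 < r) (hrr : r ≤ r₀)
    (hnear : ∀ y ∈ boxSet n ρ, ∃ θ : ℝ, ∀ (h : SLR n) (δ : ℝ), 0 < δ →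
      Near r₀ h → Near r₀ h⁻¹ → (∀ i ∈ S, ∀ j ∉ S, |h.1 i j| ≤ δ ∧ |h.1 j i| ≤ δ) →
      act y h ∈ pairSet (2 * ρ) S θ (C * δ))
    {M k m : ℕ} (hk : m ≤ k) (hk' : k + m ≤ M) (hD0 : 0 ≤ D)
    (hD : ∀ θ, μ.real (pairSet (2 * ρ) S θ (C * (r * Real.exp (-(L - 1) * m)))) ≤ D)
    {T : Set (SLR n)} (H : Tog (dA (tS S L)) r 0 M T)
    (hT : ∀ g ∈ T, act (mkX g) (dA (tS S L) ^ k) ∈ boxSet n ρ) :
    μ.real (mkX '' T) ≤ D := by
  rcases T.eq_empty_or_nonempty with rfl | ⟨g₀, hg₀⟩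
  · simpa using hD0
  obtain ⟨θ, hθ⟩ := hnear _ (hT g₀ hg₀)
  set a := dA (tS S L) with ha
  have hsub : mkX '' T ⊆ (fun x => act x (a ^ k)) ⁻¹'
      pairSet (2 * ρ) S θ (C * (r * Real.exp (-(L - 1) * m))) := by
    rintro _ ⟨g, hg, rfl⟩
    have h1 := hθ (cj a k (g₀⁻¹ * g)) (r * Real.exp (-(L - 1) * m)) (by positivity)
      (dcb_near_mono hrr (H g₀ hg₀ g hg k (Nat.zero_le _) (by omega)))
      (by
        have e : (cj a k (g₀⁻¹ * g))⁻¹ = cj a k (g⁻¹ * g₀) := by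
          simp only [cj, mul_inv_rev, inv_inv, mul_assoc]
        rw [e]
        exact dcb_near_mono hrr (H g hg g₀ hg₀ k (Nat.zero_le _) (by omega)))
      (cov_mid hL hr.le H hk hk' hg₀ hg)
    have e : act (act (mkX g₀) (a ^ k)) (cj a k (g₀⁻¹ * g)) = act (mkX g) (a ^ k) := by
      simp only [act_mkX, cj]
      congr 1
      group
    rw [e] at h1
    exact h1
  refine (measureReal_mono hsub).trans ?_
  have := (dcb_mp hA (tS S L) k).measureReal_preimage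
    (isOpen_pairSet (2 * ρ) S θ (C * (r * Real.exp (-(L - 1) * m)))).measurableSet.nullMeasurableSet
  rw [this]
  exact hD θ

open Classical in
theorem dcb_bound (hn : 0 < n) {μ : Measure (ModSpace n)} [IsFiniteMeasure μ] (hA : AInv μ)
    {S : Finset (Fin n)} {Ω : Set (ModSpace n)} {ρ r₀ C L r D ε : ℝ} (hL : 2 ≤ L) (hr : 0 < r)
    (hrr : r ≤ r₀) (hr' : Real.exp (L + 1) * r ≤ 1) (hε : ε ≤ 1 / 10) (hΩ : Ω ⊆ boxSet n ρ)
    (hnear : ∀ y ∈ boxSet n ρ, ∃ θ : ℝ, ∀ (h : SLR n) (δ : ℝ), 0 < δ →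
      Near r₀ h → Near r₀ h⁻¹ → (∀ i ∈ S, ∀ j ∉ S, |h.1 i j| ≤ δ ∧ |h.1 j i| ≤ δ) →
      act y h ∈ pairSet (2 * ρ) S θ (C * δ))
    {N : ℕ} (hN : ∀ y ∈ Ω, ∀ h, act y h ∈ Ω → (∀ j ≤ N, Near r (cj (dA (tS S L)) j h)) →
      ∀ i ∈ S, ∀ j ∉ S, |h.1 i j| ≤ Real.exp (-(L + 1)) * r)
    {𝒮₀ : Finset (Set (SLR n))} (h0 : ∀ x ∈ Ω, ∃ T ∈ 𝒮₀, ∃ g ∈ T, mkX g = x)
    (h0' : ∀ T ∈ 𝒮₀, ∀ g ∈ T, ∀ g' ∈ T, Near r (g⁻¹ * g'))
    (M : ℕ) (hD0 : 0 ≤ D)
    (hD : ∀ θ, μ.real (pairSet (2 * ρ) S θ (C * (r * Real.exp (-(L - 1) * (M / 3 : ℕ))))) ≤ D) :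
    μ.real {x | act x (dA (tS S L) ^ M) ∈ Ω ∧
      (((Finset.range (M + 1)).filter fun k => act x (dA (tS S L) ^ k) ∉ Ω).card : ℝ) ≤
        ε * (M + 1)} ≤
      2 ^ (M + 1) * (𝒮₀.card * ((6 * n * Real.exp 1) ^ (n * n * M) *
        Real.exp (L * (n * n) * (ε * (M + 1) + N)) * D)) := by
  set a := dA (tS S L) with ha
  set K : ℝ := (6 * n * Real.exp 1) ^ (n * n * M) *
        Real.exp (L * (n * n) * (ε * (M + 1) + N)) with hK
  have hK0 : 0 ≤ K := by positivity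
  let 𝒢 : Finset ℕ → Set (SLR n) → Set (SLR n) := fun P T =>
    {g | g * a ^ M ∈ T ∧ ∀ k ∈ P, act (mkX g) (a ^ k) ∈ Ω}
  let PP : Finset (Finset ℕ) := (Finset.range (M + 1)).powerset.filter fun P =>
    (((Finset.range (M + 1)) \ P).card : ℝ) ≤ ε * (M + 1)
  have hsub : {x | act x (a ^ M) ∈ Ω ∧
      (((Finset.range (M + 1)).filter fun k => act x (a ^ k) ∉ Ω).card : ℝ) ≤
        ε * (M + 1)} ⊆ ⋃ P ∈ PP, ⋃ T ∈ 𝒮₀, mkX '' 𝒢 P T := by
    rintro x ⟨hx1, hx2⟩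
    obtain ⟨T, hT, g, hg, hgx⟩ := h0 _ hx1
    have hx : mkX (g * (a ^ M)⁻¹) = x := by
      rw [← act_mkX, hgx, act_mul, mul_inv_cancel, act_one]
    simp only [mem_iUnion]
    refine ⟨(Finset.range (M + 1)).filter fun k => act x (a ^ k) ∈ Ω, ?_, T, hT,
      g * (a ^ M)⁻¹, ⟨?_, ?_⟩, hx⟩
    · refine Finset.mem_filter.2 ⟨Finset.mem_powerset.2 (Finset.filter_subset _ _), ?_⟩
      rw [← Finset.filter_not]
      exact hx2
    · rw [inv_mul_cancel_right]; exact hg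
    · intro k hk
      rw [hx]
      exact (Finset.mem_filter.1 hk).2
  have hpiece : ∀ P ∈ PP, ∀ T ∈ 𝒮₀, μ.real (mkX '' 𝒢 P T) ≤ K * D := by
    intro P hP T hT
    have hPc := (Finset.mem_filter.1 hP).2
    have hTog : Tog a r M M (𝒢 P T) := by
      intro g hg g' hg' j hj hj'
      obtain rfl : j = M := le_antisymm hj' hj
      have e : cj a j (g⁻¹ * g') = (g * a ^ j)⁻¹ * (g' * a ^ j) := by
        simp only [cj, mul_inv_rev, mul_assoc]
      rw [e]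
      exact h0' T hT _ hg.1 _ hg'.1
    obtain ⟨𝒮, hcard, hcov, hp⟩ := cov_count hn hL hr hr' hN P hTog (fun g hg => hg.2)
    obtain ⟨k, hkP, hk, hk'⟩ := dcb_exists_k P M hε hPc
    have hs2 : mkX '' 𝒢 P T ⊆ ⋃ T' ∈ 𝒮, mkX '' T' := by
      rintro _ ⟨g, hg, rfl⟩
      obtain ⟨T', hT', hgT⟩ := hcov g hg
      simp only [mem_iUnion]
      exact ⟨T', hT', g, hgT, rfl⟩
    have hcard' : (𝒮.card : ℝ) ≤ K := by
      refine hcard.trans ?_
      rw [hK]
      have hL0 : 0 ≤ L := by linarith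
      gcongr
    calc μ.real (mkX '' 𝒢 P T) ≤ μ.real (⋃ T' ∈ 𝒮, mkX '' T') :=
          measureReal_mono hs2 (measure_ne_top _ _)
      _ ≤ ∑ T' ∈ 𝒮, μ.real (mkX '' T') := measureReal_biUnion_finset_le _ _
      _ ≤ ∑ _T' ∈ 𝒮, D := by
          refine Finset.sum_le_sum fun T' hT' => ?_
          exact dcb_piece hA hL hr hrr hnear hk hk' hD0 hD (hp T' hT').2
            fun g hg => hΩ (((hp T' hT').1 hg).2 k hkP)
      _ = 𝒮.card * D := by rw [Finset.sum_const, nsmul_eq_mul]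
      _ ≤ K * D := mul_le_mul_of_nonneg_right hcard' hD0
  have hPcard : (PP.card : ℝ) ≤ 2 ^ (M + 1) := by
    have h1 : PP.card ≤ (Finset.range (M + 1)).powerset.card := Finset.card_filter_le _ _
    rw [Finset.card_powerset, Finset.card_range] at h1
    exact_mod_cast h1
  calc _ ≤ μ.real (⋃ P ∈ PP, ⋃ T ∈ 𝒮₀, mkX '' 𝒢 P T) :=
        measureReal_mono hsub (measure_ne_top _ _)
    _ ≤ ∑ P ∈ PP, μ.real (⋃ T ∈ 𝒮₀, mkX '' 𝒢 P T) := measureReal_biUnion_finset_le _ _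
    _ ≤ ∑ _P ∈ PP, (𝒮₀.card * (K * D)) := by
        refine Finset.sum_le_sum fun P hP => (measureReal_biUnion_finset_le _ _).trans ?_
        refine (Finset.sum_le_sum fun T hT => hpiece P hP T hT).trans ?_
        rw [Finset.sum_const, nsmul_eq_mul]
    _ = PP.card * (𝒮₀.card * (K * D)) := by rw [Finset.sum_const, nsmul_eq_mul]
    _ ≤ 2 ^ (M + 1) * (𝒮₀.card * (K * D)) :=
        mul_le_mul_of_nonneg_right hPcard (by positivity)

open Classical in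
theorem dcb_lower {μ : Measure (ModSpace n)} [IsFiniteMeasure μ] (hA : AInv μ) (t : Fin n → ℝ)
    {Ω : Set (ModSpace n)} (hΩ : MeasurableSet Ω) {ε : ℝ} (hε0 : 0 < ε) (hε : ε ≤ 1 / 10)
    (hΩ' : μ.real Ωᶜ ≤ ε ^ 2 * μ.real univ) (M : ℕ) :
    μ.real univ ≤ 2 * μ.real {x | act x (dA t ^ M) ∈ Ω ∧
      (((Finset.range (M + 1)).filter fun k => act x (dA t ^ k) ∉ Ω).card : ℝ) ≤
        ε * (M + 1)} := by
  set G := {x | act x (dA t ^ M) ∈ Ω ∧
      (((Finset.range (M + 1)).filter fun k => act x (dA t ^ k) ∉ Ω).card : ℝ) ≤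
        ε * (M + 1)} with hG
  have hm := cov_markov (T := fun k x => act x (dA t ^ k)) (fun k => dcb_mp hA t k) hΩ M hε0
  set B := {x | ε * (M + 1) <
    (((Finset.range (M + 1)).filter fun k => act x (dA t ^ k) ∉ Ω).card : ℝ)} with hB
  have hB' : μ.real B ≤ μ.real Ωᶜ / ε := by
    have h1 : ENNReal.ofReal ε ≠ 0 := by
      rw [Ne, ENNReal.ofReal_eq_zero, not_le]; exact hε0
    have h2 := ENNReal.toReal_mono (ENNReal.div_ne_top (measure_ne_top _ _) h1) hm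
    rw [ENNReal.toReal_div, ENNReal.toReal_ofReal hε0.le] at h2
    exact h2
  have hpre : μ.real ((fun x => act x (dA t ^ M)) ⁻¹' Ωᶜ) = μ.real Ωᶜ :=
    (dcb_mp hA t M).measureReal_preimage hΩ.compl.nullMeasurableSet
  have hsub : (univ : Set (ModSpace n)) ⊆ G ∪ ((fun x => act x (dA t ^ M)) ⁻¹' Ωᶜ ∪ B) := by
    intro x _
    by_cases h1 : act x (dA t ^ M) ∈ Ω
    · by_cases h2 : x ∈ B
      · exact Or.inr (Or.inr h2)
      · exact Or.inl ⟨h1, not_lt.1 h2⟩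
    · exact Or.inr (Or.inl h1)
  have h3 : μ.real univ ≤ μ.real G + (μ.real Ωᶜ + μ.real B) := by
    refine (measureReal_mono hsub).trans ((measureReal_union_le _ _).trans ?_)
    rw [← hpre]
    exact add_le_add le_rfl (measureReal_union_le _ _)
  have hV : 0 ≤ μ.real univ := measureReal_nonneg
  have h4 : μ.real Ωᶜ / ε ≤ ε * μ.real univ := by
    rw [div_le_iff₀ hε0]
    calc _ ≤ ε ^ 2 * μ.real univ := hΩ'
      _ = _ := by ring
  have h5 : ε ^ 2 * μ.real univ ≤ 1 / 10 * μ.real univ :=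
    mul_le_mul_of_nonneg_right (by nlinarith) hV
  have h6 : ε * μ.real univ ≤ 1 / 10 * μ.real univ := mul_le_mul_of_nonneg_right hε hV
  linarith

theorem dcb_num {A L c ε q N C' E : ℝ} (hA : 0 < A) (hc : 0 < c) (hL : 2 ≤ L) (hE : 0 < E)
    (hC' : 0 ≤ C') (p : ℕ) (h1 : Real.log (2 * A ^ p) + 2 ≤ c * (L - 1) / 3)
    (h2 : L * p * ε ≤ 1) (hq : 0 ≤ q) (M : ℕ) :
    2 ^ (M + 1) * (q * (A ^ (p * M) * Real.exp (L * p * (ε * (M + 1) + N)) *
      (C' * (E * Real.exp (-(L - 1) * (M / 3 : ℕ))) ^ c))) ≤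
      2 * q * Real.exp (1 + L * p * N) * C' * E ^ c * Real.exp (c * (L - 1)) *
        Real.exp (-M) := by
  have hm : (M : ℝ) / 3 - 1 ≤ (M / 3 : ℕ) := by
    have : M ≤ 3 * (M / 3) + 2 := by omega
    have : (M : ℝ) ≤ 3 * (M / 3 : ℕ) + 2 := by exact_mod_cast this
    linarith
  have hAp : 0 < 2 * A ^ p := by positivity
  have e1 : (2 : ℝ) ^ (M + 1) * A ^ (p * M) = 2 * Real.exp (M * Real.log (2 * A ^ p)) := by
    rw [Real.exp_nat_mul, Real.exp_log hAp, mul_pow, pow_mul, pow_succ]; ring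
  have e2 : (E * Real.exp (-(L - 1) * (M / 3 : ℕ))) ^ c =
      E ^ c * Real.exp (-(L - 1) * (M / 3 : ℕ) * c) := by
    rw [Real.mul_rpow hE.le (Real.exp_pos _).le, ← Real.exp_mul]
  have key : M * Real.log (2 * A ^ p) + L * p * (ε * (M + 1) + N) +
      -(L - 1) * (M / 3 : ℕ) * c ≤ (1 + L * p * N) + c * (L - 1) + -M := by
    have hM : (0 : ℝ) ≤ M := Nat.cast_nonneg _
    have a1 : M * (Real.log (2 * A ^ p) + 2) ≤ M * (c * (L - 1) / 3) :=
      mul_le_mul_of_nonneg_left h1 hM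
    have a2 : L * p * ε * (M + 1) ≤ 1 * (M + 1) := mul_le_mul_of_nonneg_right h2 (by linarith)
    have a3 : c * (L - 1) * ((M : ℝ) / 3 - 1) ≤ c * (L - 1) * (M / 3 : ℕ) :=
      mul_le_mul_of_nonneg_left hm (mul_nonneg hc.le (by linarith))
    nlinarith
  have hk := Real.exp_le_exp.2 key
  rw [Real.exp_add, Real.exp_add, Real.exp_add, Real.exp_add] at hk
  have hEc : 0 ≤ E ^ c := Real.rpow_nonneg hE.le _
  have hw : 0 ≤ 2 * q * C' * E ^ c := by positivity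
  calc _ = (2 ^ (M + 1) * A ^ (p * M)) * q * Real.exp (L * p * (ε * (M + 1) + N)) *
        (C' * (E * Real.exp (-(L - 1) * (M / 3 : ℕ))) ^ c) := by ring
    _ = 2 * q * C' * E ^ c * (Real.exp (M * Real.log (2 * A ^ p)) *
        Real.exp (L * p * (ε * (M + 1) + N)) * Real.exp (-(L - 1) * (M / 3 : ℕ) * c)) := by
        rw [e1, e2]; ring
    _ ≤ 2 * q * C' * E ^ c * (Real.exp (1 + L * p * N) * Real.exp (c * (L - 1)) *
        Real.exp (-M)) := mul_le_mul_of_nonneg_left hk hw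
    _ = _ := by ring

/-- Choose `L` with `c (L - 1) / 8 ≥ log (2 (6 n e)^{n²}) + 1`, then `ε ≤ 1/10` with
`L n² ε ≤ c (L - 1) / 16`, then `ρ` (`boxSet_large`) and a compact `Ω ⊆ Y ∩ boxSet n ρ` with
`μ Ωᶜ ≤ ε² μ univ` (`exists_low_conull`, inner regularity), `r` (`pair_near`, `exp (L+1) r ≤ 1`),
`N` (`cov_delta`), the charts of `cov_init`.  For large `M` the set of `x` with `x a^M ∈ Ω` and at
most `ε (M + 1)` times outside `Ω` has measure `≥ μ univ / 2`; for each pattern `P ⊆ range (M+1)` and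
chart `T` apply `cov_count` to `{g | g a^M ∈ T, ∀ k ∈ P, mkX g · a^k ∈ Ω}`; for each nonempty piece
take `k ∈ P` with `m ≤ k ≤ M - m`, `m = ⌊M / 3⌋`: by `cov_mid`, `pair_near` its image lies in the
preimage under `a^k` of `pairSet (2ρ) S θ (C r exp (-(L-1) m))`.  The total measure tends to `0`. -/
theorem cover (hn : 2 ≤ n) {μ : Measure (ModSpace n)} [IsFiniteMeasure μ] (hA : AInv μ) {c : ℝ}
    (hc : 0 < c) (hPB : PB μ c) {S : Finset (Fin n)} (h1 : S.Nonempty) (h2 : S ≠ Finset.univ)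
    (hS : ∀ i ∈ S, ∀ j ∉ S, ∀ h : i ≠ j, RootTriv μ h) : μ = 0 := by
  classical
  by_contra hμ
  have hV : 0 < μ.real univ := by
    have : μ univ ≠ 0 := fun h => hμ (Measure.measure_univ_eq_zero.1 h)
    exact ENNReal.toReal_pos this (measure_ne_top _ _)
  have hn0 : 0 < n := by omega
  have hn0' : (0 : ℝ) < n := by exact_mod_cast hn0
  set A : ℝ := 6 * n * Real.exp 1 with hAdef
  have hA0 : 0 < A := by positivity
  set B : ℝ := Real.log (2 * A ^ (n * n)) with hB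
  set L : ℝ := 2 + 3 * (|B| + 2) / c with hLdef
  have hL : 2 ≤ L := by
    have : 0 ≤ 3 * (|B| + 2) / c := by positivity
    linarith
  have hL1 : B + 2 ≤ c * (L - 1) / 3 := by
    have e : c * (L - 1) / 3 = c / 3 + (|B| + 2) := by
      rw [hLdef]; field_simp; ring
    have := le_abs_self B
    rw [e]; linarith
  set ε : ℝ := 1 / (10 + L * (n * n : ℕ)) with hεdef
  have hLn : 0 ≤ L * (n * n : ℕ) := mul_nonneg (by linarith) (Nat.cast_nonneg _)
  have hε0 : 0 < ε := by positivity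
  have hε : ε ≤ 1 / 10 := one_div_le_one_div_of_le (by norm_num) (by linarith)
  have hε2 : L * (n * n : ℕ) * ε ≤ 1 := by
    rw [hεdef, mul_one_div, div_le_one (by linarith)]; linarith
  obtain ⟨ρ, hρ, Ω, hΩc, hΩb, hΩl, hΩm⟩ := dcb_omega hn hA hS
    (η := ε ^ 2 * μ.real univ) (by positivity)
  obtain ⟨r₀, C, hr₀, hC, hnear⟩ := pair_near n hρ
  set r : ℝ := min (min r₀ (Real.exp (-(L + 1)))) C⁻¹ with hrdef
  have hr : 0 < r := lt_min (lt_min hr₀ (Real.exp_pos _)) (inv_pos.2 hC)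
  have hrr : r ≤ r₀ := (min_le_left _ _).trans (min_le_left _ _)
  have hre : r ≤ Real.exp (-(L + 1)) := (min_le_left _ _).trans (min_le_right _ _)
  have hrC : C * r ≤ 1 := by
    have : r ≤ C⁻¹ := min_le_right _ _
    calc C * r ≤ C * C⁻¹ := mul_le_mul_of_nonneg_left this hC.le
      _ = 1 := mul_inv_cancel₀ hC.ne'
  have hr' : Real.exp (L + 1) * r ≤ 1 := by
    calc Real.exp (L + 1) * r ≤ Real.exp (L + 1) * Real.exp (-(L + 1)) :=
          mul_le_mul_of_nonneg_left hre (Real.exp_pos _).le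
      _ = 1 := by rw [← Real.exp_add, add_neg_cancel, Real.exp_zero]
  have hr1 : r < 1 := hre.trans_lt (Real.exp_lt_one_iff.2 (by linarith))
  obtain ⟨N, hN⟩ := cov_delta hΩc hΩl hL hr1 (δ := Real.exp (-(L + 1)) * r) (by positivity)
  obtain ⟨𝒮₀, h0, h0'⟩ := cov_init hΩc hr
  obtain ⟨C', hC'⟩ := hPB (2 * ρ) (by linarith)
  have hbound : ∀ M : ℕ, μ.real univ ≤ 2 * (2 * 𝒮₀.card * Real.exp (1 + L * (n * n : ℕ) * N) *
      max C' 0 * (C * r) ^ c * Real.exp (c * (L - 1)) * Real.exp (-M)) := by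
    intro M
    refine (dcb_lower hA (tS S L) hΩc.isClosed.measurableSet hε0 hε hΩm M).trans ?_
    refine mul_le_mul_of_nonneg_left ?_ (by norm_num)
    have hδ0 : 0 < C * r * Real.exp (-(L - 1) * (M / 3 : ℕ)) := by positivity
    have hδ1 : C * r * Real.exp (-(L - 1) * (M / 3 : ℕ)) ≤ 1 := by
      have : Real.exp (-(L - 1) * (M / 3 : ℕ)) ≤ 1 := by
        rw [Real.exp_le_one_iff]
        exact mul_nonpos_of_nonpos_of_nonneg (by linarith) (Nat.cast_nonneg _)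
      calc _ ≤ 1 * 1 := mul_le_mul hrC this (Real.exp_pos _).le (by norm_num)
        _ = 1 := one_mul _
    have hD0 : 0 ≤ max C' 0 * (C * r * Real.exp (-(L - 1) * (M / 3 : ℕ))) ^ c :=
      mul_nonneg (le_max_right _ _) (Real.rpow_nonneg hδ0.le _)
    have hb := dcb_bound hn0 hA hL hr hrr hr' hε hΩb (hnear S) hN h0 h0' M hD0 (by
      intro θ
      rw [← mul_assoc]
      refine ENNReal.toReal_le_of_le_ofReal hD0 ((hC' S h1 h2 θ _ hδ0 hδ1).trans ?_)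
      exact ENNReal.ofReal_le_ofReal
        (mul_le_mul_of_nonneg_right (le_max_left _ _) (Real.rpow_nonneg hδ0.le _)))
    refine hb.trans ?_
    have hnum := dcb_num (N := (N : ℝ)) hA0 hc hL (mul_pos hC hr) (le_max_right C' 0) (n * n) hL1
      hε2 (Nat.cast_nonneg 𝒮₀.card) M
    have e : ((n * n : ℕ) : ℝ) = (n : ℝ) * n := Nat.cast_mul _ _
    rw [← e]
    exact hnum
  have hlim : Tendsto (fun M : ℕ => 2 * (2 * 𝒮₀.card * Real.exp (1 + L * (n * n : ℕ) * N) *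
      max C' 0 * (C * r) ^ c * Real.exp (c * (L - 1)) * Real.exp (-M))) atTop (𝓝 0) := by
    have h := (Real.tendsto_exp_neg_atTop_nhds_zero.comp tendsto_natCast_atTop_atTop)
    have h' := (h.const_mul (2 * 𝒮₀.card * Real.exp (1 + L * (n * n : ℕ) * N) *
      max C' 0 * (C * r) ^ c * Real.exp (c * (L - 1)))).const_mul 2
    simpa only [mul_zero, Function.comp_def] using h'
  have := ge_of_tendsto' hlim hbound
  linarith

end Crest.Agent.R014

end
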