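import Crest.Prelude.Def_TorusPacket

/-!
# Row 14: definitions for the dynamical part

`SLR n = SL_n(ℝ)`, `ModSpace n = SL_n(ℤ)\SL_n(ℝ)`, right action `act`.  A point `x` is the lattice
`lat x ⊆ ℝⁿ` spanned by the rows of any representative.
-/

set_option autoImplicit false

noncomputable section

open MeasureTheory ProbabilityTheory Filter Topology Set
open scoped ENNReal Matrix
open Crest.NumberTheoryR.Packets

namespace Crest.Agent.R014

/-- The projection `G → Γ\G`. -/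
def mkX {n : ℕ} (g : SLR n) : ModSpace n := Quotient.mk _ g

instance instMeasSLR (n : ℕ) : MeasurableSpace (SLR n) := borel _
instance instBorelSLR (n : ℕ) : BorelSpace (SLR n) := ⟨rfl⟩

/-- The positive diagonal matrix with entries `exp (t i - mean t)`. -/
def dA {n : ℕ} (t : Fin n → ℝ) : SLR n :=
  ⟨Matrix.diagonal (fun i => Real.exp (t i - (∑ j, t j) / n)), by
    rw [Matrix.det_diagonal, ← Real.exp_sum, Finset.sum_sub_distrib]
    rcases Nat.eq_zero_or_pos n with rfl | hn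
    · simp
    · have : (n : ℝ) ≠ 0 := by exact_mod_cast hn.ne'
      simp only [Finset.sum_const, Finset.card_univ, Fintype.card_fin, nsmul_eq_mul]
      rw [mul_div_cancel₀ _ this, sub_self, Real.exp_zero]⟩

/-- The root element `1 + s E_{ij}`. -/
def rt {n : ℕ} {i j : Fin n} (h : i ≠ j) (s : ℝ) : SLR n :=
  Matrix.SpecialLinearGroup.transvection h s

/-- Invariance under the positive diagonal group. -/
def AInv {n : ℕ} (μ : Measure (ModSpace n)) : Prop :=
  ∀ t : Fin n → ℝ, μ.map (fun x => act x (dA t)) = μ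

/-- The lattice of a point: the vectors `e g`, `e ∈ ℤⁿ`, `g` any representative. -/
def lat {n : ℕ} (x : ModSpace n) : Submodule ℤ (Fin n → ℝ) :=
  Submodule.span ℤ (range fun i : Fin n => ((Quotient.out x : SLR n) : Matrix (Fin n) (Fin n) ℝ) i)

/-- The dual lattice for the dot product. -/
def dualL {n : ℕ} (Λ : Submodule ℤ (Fin n → ℝ)) : Submodule ℤ (Fin n → ℝ) where
  carrier := {w | ∀ v ∈ Λ, ∃ k : ℤ, v ⬝ᵥ w = k}
  zero_mem' := fun v _ => ⟨0, by simp⟩
  add_mem' := by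
    intro a b ha hb v hv
    obtain ⟨k, hk⟩ := ha v hv
    obtain ⟨l, hl⟩ := hb v hv
    exact ⟨k + l, by rw [dotProduct_add, hk, hl]; push_cast; ring⟩
  smul_mem' := by
    intro c a ha v hv
    obtain ⟨k, hk⟩ := ha v hv
    refine ⟨c * k, ?_⟩
    rw [dotProduct_smul, hk]; simp

/-- `v` is a primitive vector of `Λ`. -/
def PrimIn {n : ℕ} (Λ : Submodule ℤ (Fin n → ℝ)) (v : Fin n → ℝ) : Prop :=
  v ∈ Λ ∧ v ≠ 0 ∧ ∀ r : ℝ, r • v ∈ Λ → ∃ k : ℤ, r = k

/-- All coordinates have size between `ρ⁻¹` and `ρ`. -/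
def InBox {n : ℕ} (ρ : ℝ) (v : Fin n → ℝ) : Prop := ∀ i, ρ⁻¹ < |v i| ∧ |v i| < ρ

/-- Lattices with a primitive vector and a primitive dual vector in the box. -/
def boxSet (n : ℕ) (ρ : ℝ) : Set (ModSpace n) :=
  {x | ∃ v w, PrimIn (lat x) v ∧ PrimIn (dualL (lat x)) w ∧ InBox ρ v ∧ InBox ρ w}

/-- The same with the partial pairing over `S` close to `θ`. -/
def pairSet {n : ℕ} (ρ : ℝ) (S : Finset (Fin n)) (θ δ : ℝ) : Set (ModSpace n) :=
  {x | ∃ v w, PrimIn (lat x) v ∧ PrimIn (dualL (lat x)) w ∧ InBox ρ v ∧ InBox ρ w ∧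
    |∑ i ∈ S, v i * w i - θ| < δ}

/-- Lattices with a short vector (sup norm). -/
def shortSet (n : ℕ) (r : ℝ) : Set (ModSpace n) := {x | ∃ v ∈ lat x, v ≠ 0 ∧ ‖v‖ < r}

/-- The pair bound with exponent `c`. -/
def PB {n : ℕ} (μ : Measure (ModSpace n)) (c : ℝ) : Prop :=
  ∀ ρ : ℝ, 1 ≤ ρ → ∃ C : ℝ, ∀ S : Finset (Fin n), S.Nonempty → S ≠ Finset.univ →
    ∀ θ δ : ℝ, 0 < δ → δ ≤ 1 → μ (pairSet ρ S θ δ) ≤ ENNReal.ofReal (C * δ ^ c)

/-- The Cauchy density. -/
def cau (s : ℝ) : ℝ := (Real.pi * (1 + s ^ 2))⁻¹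

/-- The Cauchy probability measure. -/
def cauM : Measure ℝ := volume.withDensity (fun s => ENNReal.ofReal (cau s))

/-- Projective affine action on probability measures on `ℝ`: divide by the Cauchy density, push
forward by `s ↦ c s + t`, multiply by the Cauchy density (not normalised). -/
def affU (c t : ℝ) (ρ : Measure ℝ) : Measure ℝ :=
  (ρ.withDensity (fun s => ENNReal.ofReal (cau (c * s + t) / cau s))).map (fun s => c * s + t)

/-- The normalised version of `affU`. -/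
def aff (c t : ℝ) (ρ : Measure ℝ) : Measure ℝ := (affU c t ρ univ)⁻¹ • affU c t ρ

/-- A measurable flow. -/
structure IsFlow {X : Type*} [MeasurableSpace X] (u : X → ℝ → X) : Prop where
  meas : Measurable fun p : X × ℝ => u p.1 p.2
  zero : ∀ x, u x 0 = x
  add : ∀ x s t, u (u x s) t = u x (s + t)

/-- Leafwise measures (weighted by the Cauchy density) of `μ` along the flow `u`. -/
structure IsLeaf {X : Type*} [MeasurableSpace X] (μ : Measure X) (u : X → ℝ → X)
    (f : Kernel X ℝ) (X0 : Set X) : Prop where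
  markov : IsMarkovKernel f
  meas : MeasurableSet X0
  conull : μ X0ᶜ = 0
  stable : ∀ x ∈ X0, ∀ s, u x s ∈ X0
  equiv : ∀ x ∈ X0, ∀ s, f (u x s) = aff 1 (-s) (f x)
  typ : (μ ⊗ₘ f).map (fun p => u p.1 p.2) ≪ μ
  scale : ∀ (e : X ≃ᵐ X) (c : ℝ), 0 < c → MeasurePreserving e μ μ →
    (∀ x s, e (u x s) = u (e x) (c * s)) → ∀ᵐ x ∂μ, f (e x) = aff c 0 (f x)
  inv : (∀ᵐ x ∂μ, f x = cauM) → ∀ t, μ.map (fun x => u x t) = μ

/-- The measure of pairs (point on the leaf, coordinate of the original point). -/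
def leafM {X : Type*} [MeasurableSpace X] (μ : Measure X) (u : X → ℝ → X) : Measure (X × ℝ) :=
  (μ.prod cauM).map (fun p => (u p.1 (-p.2), p.2))

/-- `f` takes the same value at the two points of a typical pair on a `u`-leaf. -/
def PairEq {X : Type*} [MeasurableSpace X] (μ : Measure X) (u : X → ℝ → X) (f : Kernel X ℝ) :
    Prop :=
  ∀ ν : Measure (X × ℝ), IsFiniteMeasure ν → ν.map Prod.fst ≪ μ →
    ν.map (fun p => u p.1 p.2) ≪ μ → ∀ᵐ p ∂ν, f (u p.1 p.2) = f p.1

/-- The flow of a root group. -/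
def rtF {n : ℕ} {i j : Fin n} (h : i ≠ j) (x : ModSpace n) (s : ℝ) : ModSpace n := act x (rt h s)

/-- The exponents of `diagFlow u`. -/
def lg {d : ℕ} (u : Fin d → ℝ) : Fin (d + 1) → ℝ := Fin.snoc u (-∑ i, u i)

/-- Generic exponents: the differences `tg j - tg i` are pairwise distinct. -/
def tg {n : ℕ} (i : Fin n) : ℝ := 2 ^ (i : ℕ) / 2 ^ n

open Classical in
/-- The exponents of the contracting element attached to `S`. -/
def tS {n : ℕ} (S : Finset (Fin n)) (L : ℝ) (i : Fin n) : ℝ := tg i + if i ∈ S then L else 0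

/-- The group of elements with positive diagonal whose expanded entries vanish. -/
def IsLow {n : ℕ} (S : Finset (Fin n)) (h : SLR n) : Prop :=
  (∀ i, 0 < h.1 i i) ∧ ∀ i j, tS S 2 i < tS S 2 j → h.1 i j = 0

/-- The entries from `S` to its complement vanish. -/
def NoCross {n : ℕ} (S : Finset (Fin n)) (h : SLR n) : Prop := ∀ i ∈ S, ∀ j ∉ S, h.1 i j = 0

/-- All entries of `h - 1` are at most `r`. -/
def Near {n : ℕ} (r : ℝ) (h : SLR n) : Prop :=
  ∀ i j, |h.1 i j - (1 : Matrix (Fin n) (Fin n) ℝ) i j| ≤ r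

/-- Conjugation `a^{-k} h a^k`. -/
def cj {n : ℕ} (a : SLR n) (k : ℕ) (h : SLR n) : SLR n := (a ^ k)⁻¹ * h * a ^ k

/-- A set of group elements which stay together during the times `k ≤ j ≤ M`. -/
def Tog {n : ℕ} (a : SLR n) (r : ℝ) (k M : ℕ) (𝒢 : Set (SLR n)) : Prop :=
  ∀ g ∈ 𝒢, ∀ g' ∈ 𝒢, ∀ j, k ≤ j → j ≤ M → Near r (cj a j (g⁻¹ * g'))

/-- A set meeting each orbit of the root group in at most one parameter. -/
def RootTriv {n : ℕ} (μ : Measure (ModSpace n)) {i j : Fin n} (h : i ≠ j) : Prop :=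
  ∃ Y : Set (ModSpace n), MeasurableSet Y ∧ μ Yᶜ = 0 ∧ ∀ x ∈ Y, ∀ s, act x (rt h s) ∈ Y → s = 0

end Crest.Agent.R014

end
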