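import Crest.Agent.R014.DLeafA2

/-! # Row 14: existence of leafwise measures -/

set_option autoImplicit false

noncomputable section

open MeasureTheory ProbabilityTheory Filter Topology Set
open scoped ENNReal Matrix NumberField
open Crest.NumberTheoryR.Packets

namespace Crest.Agent.R014

variable {X : Type*} [MeasurableSpace X] {μ : Measure X} {u : X → ℝ → X}

theorem dlfb_add {p : ℝ → Prop} (h : ∀ᵐ t ∂cauM, p t) (a : ℝ) : ∀ᵐ t ∂cauM, p (t + a) :=
  cauM_ac.ae_le ((measurePreserving_add_right volume a).quasiMeasurePreserving.ae (ac_cauM.ae_le h))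

theorem dlfb_mul {p : ℝ → Prop} (h : ∀ᵐ t ∂cauM, p t) {c : ℝ} (hc : 0 < c) :
    ∀ᵐ t ∂cauM, p (c * t) := by
  have h1 : Measure.QuasiMeasurePreserving (fun t : ℝ => c * t) volume volume :=
    ⟨by fun_prop, by
      rw [Real.map_volume_mul_left hc.ne']
      exact Measure.smul_absolutelyContinuous⟩
  exact cauM_ac.ae_le (h1.ae (ac_cauM.ae_le h))

/-- `f x = ∫ aff 1 (-t) (κ (u x (-t))) d cauM(t)` (`Measure.bind`), `X0` the set of `x` such that
the integrand equals `f x` for almost all `t`.  It is conull by `cond_equiv` (`e = refl`, `c = 1`)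
and Fubini; stability and equivariance are exact (`aff_aff`, translation invariance of null sets). -/
theorem exists_rep [IsFiniteMeasure μ] (hu : IsFlow u) : ∃ (f : Kernel X ℝ) (X0 : Set X),
    IsMarkovKernel f ∧ MeasurableSet X0 ∧ μ X0ᶜ = 0 ∧ (∀ x ∈ X0, ∀ s, u x s ∈ X0) ∧
    (∀ x ∈ X0, ∀ s, f (u x s) = aff 1 (-s) (f x)) ∧
    ∀ x ∈ X0, ∀ᵐ t ∂cauM, aff 1 (-t) ((leafM μ u).condKernel (u x (-t))) = f x := by
  set κ := (leafM μ u).condKernel with hκ
  have hm : Measurable fun p : X × ℝ => u p.1 (-p.2) :=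
    hu.meas.comp (measurable_fst.prodMk measurable_snd.neg)
  let G : Kernel (X × ℝ) ℝ := ⟨fun p => aff 1 (-p.2) (κ (u p.1 (-p.2))),
    measurable_aff one_pos measurable_snd.neg (κ.comap _ hm)⟩
  have hG : ∀ x t, G (x, t) = aff 1 (-t) (κ (u x (-t))) := fun _ _ => rfl
  have : IsMarkovKernel G := ⟨fun p => isProb_aff one_pos _ _⟩
  let f : Kernel X ℝ := Kernel.snd (Kernel.const X cauM ⊗ₖ G)
  have hf : ∀ x (ρ : Measure ℝ), (∀ᵐ t ∂cauM, G (x, t) = ρ) → f x = ρ := fun x ρ h => by
    ext s hs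
    rw [Kernel.snd_apply' _ _ hs, Kernel.compProd_apply (measurable_snd hs), Kernel.const_apply,
      lintegral_congr_ae (g := fun _ => ρ s) (h.mono fun t ht => by rw [ht]; rfl)]
    simp
  have hme : ∀ {Y : Type _} [MeasurableSpace Y] {a b : Y → X × ℝ}, Measurable a → Measurable b →
      MeasurableSet {y | G (a y) = G (b y)} := fun ha hb =>
    measurableSet_meas_eq (G.measurable.comp ha) (G.measurable.comp hb) (fun _ => inferInstance)
      fun _ => inferInstance
  have hS : MeasurableSet {p : X × ℝ | G p = f p.1} :=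
    measurableSet_meas_eq G.measurable (f.measurable.comp measurable_fst) (fun _ => inferInstance)
      fun _ => inferInstance
  have key : ∀ x, (∀ᵐ t ∂cauM, G (x, t) = f x) → ∀ s,
      ∀ᵐ t ∂cauM, G (u x s, t) = aff 1 (-s) (f x) := fun x hx s => by
    filter_upwards [dlfb_add hx (-s)] with t ht
    rw [← ht, hG, hG, aff_aff one_pos one_pos, hu.add, one_mul, one_mul]
    congr 1
    · ring
    · congr 2
      ring
  refine ⟨f, {x | ∀ᵐ t ∂cauM, G (x, t) = f x}, inferInstance, ?_, ?_, fun x hx s => ?_,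
    fun x hx s => hf _ _ (key x hx s), fun x hx => hx⟩
  · exact measurable_measure_prodMk_left (ν := cauM) hS.compl (measurableSet_singleton 0)
  · have h1 : ∀ r : ℝ, ∀ᵐ p ∂(μ.prod cauM), G (p.1, r + p.2) = G p := fun r => by
      refine (Measure.ae_prod_iff_ae_ae (hme (by fun_prop) measurable_id)).2 ?_
      filter_upwards [ae_of_ae_fst hu (cond_equiv hu (MeasurableEquiv.refl X) one_pos
        (MeasurePreserving.id μ) (fun x s => by simp) r)] with x hx
      filter_upwards [hx] with t ht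
      simp only [MeasurableEquiv.refl_apply, hu.add, ← hκ] at ht
      change G (x, r + t) = G (x, t)
      rw [hG, hG, show -(r + t) = -t + -r by ring, ht, aff_aff one_pos one_pos, one_mul, one_mul]
      congr 1
      ring
    have h2 : ∀ᵐ p ∂(μ.prod cauM), ∀ᵐ r ∂cauM, G (p.1, r + p.2) = G p :=
      (Measure.ae_ae_comm (p := fun (r : ℝ) (p : X × ℝ) => G (p.1, r + p.2) = G p)
        (hme (by fun_prop) measurable_snd)).1 (.of_forall h1)
    change ∀ᵐ x ∂μ, ∀ᵐ t ∂cauM, G (x, t) = f x
    filter_upwards [Measure.ae_ae_of_ae_prod h2] with x hx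
    obtain ⟨t, ht⟩ := hx.exists
    have h3 : ∀ᵐ r ∂cauM, G (x, r) = G (x, t) := by
      simpa using dlfb_add ht (-t)
    rw [hf x _ h3]
    exact h3
  · have h := key x hx s
    change ∀ᵐ t ∂cauM, G (u x s, t) = f (u x s)
    rw [hf _ _ h]
    exact h

/-- `typ` from `cond_typ` and `aff_null_iff`; `scale` from `cond_equiv` with `t = 0`
(`aff 1 (-(c t)) (aff c 0 ρ) = aff c 0 (aff 1 (-t) ρ)`); `inv` from `inv_of_cond`, `aff_cauM`. -/
theorem exists_leaf [IsFiniteMeasure μ] (hu : IsFlow u) : ∃ f X0, IsLeaf μ u f X0 := by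
  obtain ⟨f, X0, h1, h2, h3, h4, h5, h6⟩ := exists_rep (μ := μ) hu
  have h0 : ∀ᵐ x ∂μ, x ∈ X0 := h3
  refine ⟨f, X0, h1, h2, h3, h4, h5, ?_, fun e c hc he hes => ?_, fun h => ?_⟩
  · refine Measure.AbsolutelyContinuous.mk fun N hN h0N => ?_
    rw [Measure.map_apply hu.meas hN, Measure.compProd_apply (hu.meas hN)]
    refine (lintegral_congr_ae (g := fun _ => 0) ?_).trans lintegral_zero
    filter_upwards [h0, ae_of_ae_fst hu (cond_typ hu hN h0N)] with x hx hx'
    obtain ⟨t, ht, ht'⟩ := ((h6 x hx).and hx').exists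
    rw [← ht, aff_null_iff one_pos _ _ (measurable_prodMk_left (hu.meas hN)), ← ht']
    congr 1
    ext s
    simp only [mem_preimage, mem_ofPred_eq, hu.add, one_mul, add_comm s]
  · filter_upwards [h0, he.quasiMeasurePreserving.ae h0,
      ae_of_ae_fst hu (cond_equiv hu e hc he hes 0)] with x hx hx' hx''
    obtain ⟨t, ⟨ht, ht'⟩, ht''⟩ := (((h6 x hx).and (dlfb_mul (h6 _ hx') hc)).and hx'').exists
    rw [neg_zero, hu.zero, hes, mul_neg] at ht''
    rw [← ht', ← ht, ht'', aff_aff one_pos hc, aff_aff hc one_pos]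
    congr 1 <;> ring
  · refine inv_of_cond hu (ae_fst_of_ae hu (measurableSet_meas_eq (Kernel.measurable _)
      measurable_const (fun _ => inferInstance) fun _ => inferInstance) ?_)
    filter_upwards [h0, h] with x hx hx'
    filter_upwards [h6 x hx] with t ht
    rw [← aff_cauM one_pos t, ← hx', ← ht, aff_aff one_pos one_pos, one_mul, one_mul,
      neg_add_cancel, aff_one_zero]

end Crest.Agent.R014

end
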