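import Crest.Agent.R014.DStab2

/-! # Row 14: full stabiliser -/

set_option autoImplicit false

noncomputable section

open MeasureTheory ProbabilityTheory Filter Topology Set
open scoped ENNReal Matrix NumberField
open Crest.NumberTheoryR.Packets

namespace Crest.Agent.R014

/-- The measure `ρ / cau`. -/
def dst3_lam (ρ : Measure ℝ) : Measure ℝ := ρ.withDensity (fun s => ENNReal.ofReal (cau s)⁻¹)

theorem dst3_ext {μ ν : Measure ℝ}
    (h : ∀ g : ℝ → ℝ≥0∞, Measurable g → ∫⁻ s, g s ∂μ = ∫⁻ s, g s ∂ν) : μ = ν := by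
  ext A hA
  rw [← lintegral_indicator_one hA, ← lintegral_indicator_one hA]
  exact h _ (measurable_one.indicator hA)

theorem dst3_mcau : Measurable cau := continuous_cau.measurable

theorem dst3_lam_affU (c t : ℝ) (ρ : Measure ℝ) :
    dst3_lam (affU c t ρ) = (dst3_lam ρ).map (fun s => c * s + t) := by
  have hm := dst3_mcau
  have hφ : Measurable fun s : ℝ => c * s + t := by fun_prop
  refine dst3_ext fun g hg => ?_
  unfold dst3_lam affU
  rw [lintegral_withDensity_eq_lintegral_mul _ (by fun_prop) hg,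
    lintegral_map (by fun_prop) hφ, lintegral_map hg hφ,
    lintegral_withDensity_eq_lintegral_mul _ (by fun_prop) (by fun_prop),
    lintegral_withDensity_eq_lintegral_mul _ (by fun_prop) (by fun_prop)]
  refine lintegral_congr fun s => ?_
  have h1 := cau_pos s
  have h2 := cau_pos (c * s + t)
  simp only [Pi.mul_apply]
  rw [← mul_assoc, ← ENNReal.ofReal_mul (by positivity)]
  congr 2
  field_simp

theorem dst3_lam_aff (c t : ℝ) (ρ : Measure ℝ) :
    dst3_lam (aff c t ρ) = (affU c t ρ univ)⁻¹ • (dst3_lam ρ).map (fun s => c * s + t) := by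
  rw [← dst3_lam_affU]
  exact withDensity_smul_measure _ _

theorem dst3_back (ρ : Measure ℝ) :
    (dst3_lam ρ).withDensity (fun s => ENNReal.ofReal (cau s)) = ρ := by
  have hm := dst3_mcau
  unfold dst3_lam
  rw [← withDensity_mul _ (by fun_prop) (by fun_prop)]
  have : ((fun s => ENNReal.ofReal (cau s)⁻¹) * fun s => ENNReal.ofReal (cau s)) =
      fun _ : ℝ => (1 : ℝ≥0∞) := by
    funext s
    have h1 := cau_pos s
    simp only [Pi.mul_apply]
    rw [← ENNReal.ofReal_mul (by positivity), inv_mul_cancel₀ h1.ne', ENNReal.ofReal_one]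
  rw [this]
  exact withDensity_one

theorem dst3_smul_inj {ρ : Measure ℝ} [IsProbabilityMeasure ρ] {a b : ℝ≥0∞}
    (h : a • dst3_lam ρ = b • dst3_lam ρ) : a = b := by
  have := congrArg (fun m : Measure ℝ => m.withDensity (fun s => ENNReal.ofReal (cau s)) univ) h
  simpa only [withDensity_smul_measure, dst3_back, Measure.smul_apply, measure_univ, smul_eq_mul,
    mul_one] using this

theorem dst3_shift {ρ : Measure ℝ} [IsProbabilityMeasure ρ] {r : ℝ} (h : aff 1 r ρ = ρ) :
    (dst3_lam ρ).map (fun s => s + r) = affU 1 r ρ univ • dst3_lam ρ := by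
  obtain ⟨h0, h1⟩ := affU_univ_ne one_pos r ρ
  have h2 := dst3_lam_aff 1 r ρ
  rw [h] at h2
  simp only [one_mul] at h2
  conv_rhs => rw [h2]
  rw [smul_smul, ENNReal.mul_inv_cancel h0 h1, one_smul]

theorem dst3_char {ρ : Measure ℝ} [IsProbabilityMeasure ρ] (h : ∀ r, aff 1 r ρ = ρ) :
    ∃ θ : ℝ, ∀ r, (dst3_lam ρ).map (fun s => s + r) =
      ENNReal.ofReal (Real.exp (-θ * r)) • dst3_lam ρ := by
  have hm := dst3_mcau
  set K : ℝ → ℝ≥0∞ := fun r => affU 1 r ρ univ with hK
  have hK0 : ∀ r, K r ≠ 0 := fun r => (affU_univ_ne one_pos r ρ).1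
  have hK1 : ∀ r, K r ≠ ∞ := fun r => (affU_univ_ne one_pos r ρ).2
  have hs : ∀ r, (dst3_lam ρ).map (fun s => s + r) = K r • dst3_lam ρ := fun r => dst3_shift (h r)
  have hmul : ∀ r r', K (r + r') = K r * K r' := by
    intro r r'
    apply dst3_smul_inj (ρ := ρ)
    rw [← hs, mul_smul, ← hs r', ← Measure.map_smul, ← hs r,
      Measure.map_map (by fun_prop) (by fun_prop)]
    congr 1
    funext s
    simp [add_assoc]
  have hKm : Measurable K := by
    have : K = fun r => ∫⁻ s, ENNReal.ofReal (cau (1 * s + r) / cau s) ∂ρ := by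
      funext r
      simp only [hK, affU]
      rw [Measure.map_apply (by fun_prop) MeasurableSet.univ, preimage_univ,
        withDensity_apply _ MeasurableSet.univ, Measure.restrict_univ]
    rw [this]
    exact Measurable.lintegral_prod_right'
      (f := fun p : ℝ × ℝ => ENNReal.ofReal (cau (1 * p.2 + p.1) / cau p.2)) (by fun_prop)
  have hpos : ∀ r, 0 < (K r).toReal := fun r => ENNReal.toReal_pos (hK0 r) (hK1 r)
  let L : ℝ →+ ℝ := AddMonoidHom.mk' (fun r => Real.log (K r).toReal) fun r r' => by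
    rw [hmul, ENNReal.toReal_mul, Real.log_mul (hpos r).ne' (hpos r').ne']
  have hL : Continuous L := Measure.AddMonoidHom.continuous_of_measurable L (by
    change Measurable fun r => Real.log (K r).toReal
    fun_prop)
  refine ⟨-L 1, fun r => ?_⟩
  have h1 : L r = r * L 1 := by
    have := map_real_smul L hL r 1
    simpa using this
  rw [hs, neg_neg, mul_comm, ← h1]
  change _ = ENNReal.ofReal (Real.exp (Real.log (K r).toReal)) • _
  rw [Real.exp_log (hpos r), ENNReal.ofReal_toReal (hK1 r)]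

theorem dst3_lam_exp {ρ : Measure ℝ} {C θ : ℝ} (hC : 0 < C)
    (h : ρ = volume.withDensity (fun s => ENNReal.ofReal (C * Real.exp (θ * s) * cau s))) :
    dst3_lam ρ = volume.withDensity (fun s => ENNReal.ofReal (C * Real.exp (θ * s))) := by
  have hm := dst3_mcau
  unfold dst3_lam
  rw [h, ← withDensity_mul _ (by fun_prop) (by fun_prop)]
  congr 1
  funext s
  have h1 := cau_pos s
  simp only [Pi.mul_apply]
  rw [← ENNReal.ofReal_mul (by positivity)]
  congr 1
  field_simp

theorem dst3_ratio {C θ L : ℝ} (hC : 0 < C) (hL : 0 < L) :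
    Real.log ((volume.withDensity (fun s => ENNReal.ofReal (C * Real.exp (θ * s)))
        (Ico L (2 * L))).toReal /
      (volume.withDensity (fun s => ENNReal.ofReal (C * Real.exp (θ * s))) (Ico 0 L)).toReal) =
      θ * L := by
  have hc : Continuous fun s => C * Real.exp (θ * s) := by fun_prop
  have key : ∀ a b : ℝ, a ≤ b →
      (volume.withDensity (fun s => ENNReal.ofReal (C * Real.exp (θ * s))) (Ico a b)).toReal =
        ∫ s in a..b, C * Real.exp (θ * s) := by
    intro a b hab
    rw [withDensity_apply _ measurableSet_Ico, intervalIntegral.integral_of_le hab,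
      integral_Ioc_eq_integral_Ioo, ← integral_Ico_eq_integral_Ioo,
      integral_eq_lintegral_of_nonneg_ae (Eventually.of_forall fun s => by positivity)
        hc.aestronglyMeasurable]
  rw [key _ _ (by linarith), key _ _ hL.le]
  have h1 : ∫ s in L..2 * L, C * Real.exp (θ * s) =
      Real.exp (θ * L) * ∫ s in (0 : ℝ)..L, C * Real.exp (θ * s) := by
    have := intervalIntegral.integral_comp_add_right (a := 0) (b := L)
      (fun s => C * Real.exp (θ * s)) L
    rw [zero_add, ← two_mul] at this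
    rw [← this, ← intervalIntegral.integral_const_mul]
    congr 1
    funext s
    rw [mul_add, Real.exp_add]
    ring
  have h2 : 0 < ∫ s in (0 : ℝ)..L, C * Real.exp (θ * s) :=
    intervalIntegral.intervalIntegral_pos_of_pos (hc.intervalIntegrable _ _)
      (fun s => by positivity) hL
  rw [h1, mul_div_assoc, div_self h2.ne', mul_one, Real.log_exp]

theorem dst3_tilt_eq (ρ : Measure ℝ) :
    tilt ρ = Real.log ((dst3_lam ρ (Ico 1 2)).toReal / (dst3_lam ρ (Ico 0 1)).toReal) := by
  unfold tilt dst3_lam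
  rw [withDensity_apply _ measurableSet_Ico, withDensity_apply _ measurableSet_Ico]

theorem dst3_tilt_exp {ρ : Measure ℝ} {C θ : ℝ} (hC : 0 < C)
    (h : ρ = volume.withDensity (fun s => ENNReal.ofReal (C * Real.exp (θ * s) * cau s))) :
    tilt ρ = θ := by
  have := dst3_ratio (θ := θ) hC one_pos
  rw [mul_one, mul_one] at this
  rw [dst3_tilt_eq, dst3_lam_exp hC h, this]

theorem dst3_stab_aff {c : ℝ} (hc : 0 < c) {ρ : Measure ℝ} [IsProbabilityMeasure ρ]
    (h : ∀ r, aff 1 r ρ = ρ) (r : ℝ) : aff 1 r (aff c 0 ρ) = aff c 0 ρ := by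
  conv_rhs => rw [← h (r / c)]
  rw [aff_aff one_pos hc, aff_aff hc one_pos]
  congr 1
  · ring
  · field_simp
    ring

theorem dst3_stab_iff {c : ℝ} (hc : 0 < c) (ρ : Measure ℝ) [IsProbabilityMeasure ρ] :
    (∀ r, aff 1 r (aff c 0 ρ) = aff c 0 ρ) ↔ ∀ r, aff 1 r ρ = ρ := by
  refine ⟨fun h r => ?_, fun h => dst3_stab_aff hc h⟩
  haveI := isProb_aff hc 0 ρ
  have := dst3_stab_aff (inv_pos.2 hc) h r
  rwa [aff_aff (inv_pos.2 hc) hc, inv_mul_cancel₀ hc.ne', mul_zero, add_zero, aff_one_zero] at this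

theorem dst3_rat_iff (ρ : Measure ℝ) [IsProbabilityMeasure ρ] :
    (∀ q : ℚ, aff 1 q ρ = ρ) ↔ ∀ r, aff 1 r ρ = ρ :=
  ⟨fun h r => Rat.denseRange_cast.induction_on (p := fun r : ℝ => aff 1 r ρ = ρ) r
    (isClosed_stab ρ) h, fun h q => h q⟩

/-- `λ = ρ / cau` is locally finite with `λ (· + r) = c(r) λ`; `c` is multiplicative and monotone
or continuous, so `c(r) = exp (θ r)`, and `exp (-θ s) λ` is translation invariant, hence a multiple
of Lebesgue measure (`isAddLeftInvariant_eq_smul`). -/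
theorem exp_of_stab {ρ : Measure ℝ} [IsProbabilityMeasure ρ] (h : ∀ r, aff 1 r ρ = ρ) :
    ∃ C θ : ℝ, 0 < C ∧
      ρ = volume.withDensity (fun s => ENNReal.ofReal (C * Real.exp (θ * s) * cau s)) := by
  have hm := dst3_mcau
  obtain ⟨θ, hθ⟩ := dst3_char h
  let ν : Measure ℝ := (dst3_lam ρ).withDensity fun s => ENNReal.ofReal (Real.exp (-θ * s))
  haveI : IsLocallyFiniteMeasure (dst3_lam ρ) :=
    IsLocallyFiniteMeasure.withDensity_ofReal (continuous_cau.inv₀ fun s => (cau_pos s).ne')
  haveI : IsLocallyFiniteMeasure ν := IsLocallyFiniteMeasure.withDensity_ofReal (by fun_prop)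
  haveI : ν.IsAddLeftInvariant := ⟨fun r => by
    refine dst3_ext fun g hg => ?_
    have h1 := lintegral_map (μ := dst3_lam ρ) (g := fun s => s + r)
      (f := fun s => ENNReal.ofReal (Real.exp (-θ * s)) * g s) (by fun_prop) (by fun_prop)
    rw [hθ, lintegral_smul_measure, smul_eq_mul] at h1
    rw [lintegral_map hg (by fun_prop),
      lintegral_withDensity_eq_lintegral_mul _ (by fun_prop) (by fun_prop),
      lintegral_withDensity_eq_lintegral_mul _ (by fun_prop) hg]
    have h2 : ∫⁻ a, ENNReal.ofReal (Real.exp (-θ * (a + r))) * g (a + r) ∂dst3_lam ρ =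
        ENNReal.ofReal (Real.exp (-θ * r)) *
          ∫⁻ a, ENNReal.ofReal (Real.exp (-θ * a)) * g (r + a) ∂dst3_lam ρ := by
      rw [← lintegral_const_mul _ (by fun_prop)]
      refine lintegral_congr fun a => ?_
      rw [← mul_assoc, ← ENNReal.ofReal_mul (Real.exp_pos _).le, ← Real.exp_add, add_comm r a]
      congr 3
      ring
    rw [h2] at h1
    exact ((ENNReal.mul_right_inj (by simp [Real.exp_pos]) ENNReal.ofReal_ne_top).1 h1).symm⟩
  have hν := Measure.isAddLeftInvariant_eq_smul ν (volume : Measure ℝ)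
  set C := Measure.addHaarScalarFactor ν (volume : Measure ℝ) with hC
  have hρ : ρ = ν.withDensity fun s => ENNReal.ofReal (Real.exp (θ * s) * cau s) := by
    conv_lhs => rw [← dst3_back ρ]
    rw [← withDensity_mul _ (by fun_prop) (by fun_prop)]
    congr 1
    funext s
    simp only [Pi.mul_apply]
    rw [← ENNReal.ofReal_mul (Real.exp_pos _).le, ← mul_assoc, ← Real.exp_add]
    simp
  have hρ' : ρ = volume.withDensity
      (fun s => ENNReal.ofReal ((C : ℝ) * Real.exp (θ * s) * cau s)) := by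
    rw [hρ, hν, ENNReal.smul_def, withDensity_smul_measure, ← withDensity_smul _ (by fun_prop)]
    congr 1
    funext s
    simp only [Pi.smul_apply, smul_eq_mul]
    rw [mul_assoc, ENNReal.ofReal_mul C.coe_nonneg, ENNReal.ofReal_coe_nnreal]
  refine ⟨C, θ, ?_, hρ'⟩
  rcases C.coe_nonneg.eq_or_lt with h0 | h0
  · exfalso
    rw [← h0] at hρ'
    simp only [zero_mul, ENNReal.ofReal_zero] at hρ'
    have := IsProbabilityMeasure.ne_zero ρ
    exact this (hρ'.trans withDensity_zero)
  · exact h0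

theorem tilt_aff {c : ℝ} (hc : 0 < c) {ρ : Measure ℝ} [IsProbabilityMeasure ρ]
    (h : ∀ r, aff 1 r ρ = ρ) : tilt (aff c 0 ρ) = c⁻¹ * tilt ρ := by
  obtain ⟨C, θ, hC, hρ⟩ := exp_of_stab h
  obtain ⟨h0, h1⟩ := affU_univ_ne hc 0 ρ
  have hpre : ∀ a b : ℝ, (fun s => c * s + 0) ⁻¹' Ico a b = Ico (a * c⁻¹) (b * c⁻¹) := by
    intro a b
    ext s
    simp only [mem_preimage, mem_Ico, add_zero, ← div_eq_mul_inv, div_le_iff₀ hc, lt_div_iff₀ hc,
      mul_comm c s]
  have h2 := dst3_ratio (θ := θ) hC (inv_pos.2 hc)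
  rw [dst3_tilt_exp hC hρ, dst3_tilt_eq, dst3_lam_aff, Measure.smul_apply, Measure.smul_apply,
    Measure.map_apply (by fun_prop) measurableSet_Ico,
    Measure.map_apply (by fun_prop) measurableSet_Ico, hpre, hpre, one_mul, zero_mul, smul_eq_mul,
    smul_eq_mul, ENNReal.toReal_mul, ENNReal.toReal_mul, mul_div_mul_left, dst3_lam_exp hC hρ, h2,
    mul_comm]
  exact (ENNReal.toReal_pos (ENNReal.inv_ne_zero.2 h1) (ENNReal.inv_ne_top.2 h0)).ne'

theorem eq_cauM_of_tilt {ρ : Measure ℝ} [IsProbabilityMeasure ρ] (h : ∀ r, aff 1 r ρ = ρ)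
    (h0 : tilt ρ = 0) : ρ = cauM := by
  have hm := dst3_mcau
  obtain ⟨C, θ, hC, hρ⟩ := exp_of_stab h
  have h1 := dst3_tilt_exp hC hρ
  rw [h0] at h1
  subst h1
  have h2 : ρ = ENNReal.ofReal C • cauM := by
    rw [hρ, cauM, ← withDensity_smul _ (by fun_prop)]
    congr 1
    funext s
    simp only [Pi.smul_apply, smul_eq_mul, zero_mul, Real.exp_zero, mul_one]
    rw [ENNReal.ofReal_mul hC.le]
  have h3 : ENNReal.ofReal C = 1 := by
    have := congrArg (fun m : Measure ℝ => m univ) h2
    simpa only [measure_univ, Measure.smul_apply, smul_eq_mul, mul_one] using this.symm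
  rw [h2, h3, one_smul]

/-- `no_scale` for `per0 ∘ f`, then for `tilt ∘ f` times the indicator of the (measurable, almost
invariant) set `{x | ∀ q : ℚ, aff 1 q (f x) = f x}`. -/
theorem stab_cau {X : Type*} [MeasurableSpace X] {μ : Measure X} [IsFiniteMeasure μ] {a : X → X}
    (ha : MeasurePreserving a μ μ) (f : Kernel X ℝ) [IsMarkovKernel f] {c : ℝ} (hc : 0 < c)
    (hc1 : c ≠ 1) (h : ∀ᵐ x ∂μ, f (a x) = aff c 0 (f x)) :
    ∀ᵐ x ∂μ, (∃ r ≠ 0, aff 1 r (f x) = f x) → f x = cauM := by
  classical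
  have h1 : ∀ᵐ x ∂μ, per0 (f x) = 0 :=
    no_scale ha (measurable_per0 f) hc hc1 (h.mono fun x hx => by rw [hx, per0_aff hc])
  let S : Set X := {x | ∀ q : ℚ, aff 1 q (f x) = f x}
  have hS : MeasurableSet S := by
    have : S = ⋂ q : ℚ, {x | aff 1 q (f x) = f x} := by
      ext x
      simp [S]
    rw [this]
    exact MeasurableSet.iInter fun q => measurableSet_meas_eq
      (measurable_aff one_pos (t := fun _ => (q : ℝ)) measurable_const f) f.measurable
      (fun x => isProb_aff one_pos _ _) fun x => inferInstance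
  have hmem : ∀ x, x ∈ S ↔ ∀ r, aff 1 r (f x) = f x := fun x => dst3_rat_iff (f x)
  have h2 : ∀ᵐ x ∂μ, S.indicator (fun x => tilt (f x)) x = 0 := by
    refine no_scale ha ((measurable_tilt f).indicator hS) (inv_pos.2 hc)
      (fun h => hc1 (inv_eq_one.1 h)) (h.mono fun x hx => ?_)
    have hiff : a x ∈ S ↔ x ∈ S := by rw [hmem, hmem, hx, dst3_stab_iff hc]
    by_cases hxS : x ∈ S
    · rw [indicator_of_mem hxS, indicator_of_mem (hiff.2 hxS), hx, tilt_aff hc ((hmem x).1 hxS)]
    · rw [indicator_of_notMem hxS, indicator_of_notMem (mt hiff.1 hxS), mul_zero]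
  filter_upwards [h1, h2] with x hx1 hx2 hx
  have h3 := stab_all hx hx1
  rw [indicator_of_mem ((hmem x).2 h3)] at hx2
  exact eq_cauM_of_tilt h3 hx2

end Crest.Agent.R014

end
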