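import Crest.Agent.R014.DAlg
import Crest.Agent.R014.DLeafB
import Crest.Agent.R014.DStab3

/-! # Row 14: the high entropy argument -/

set_option autoImplicit false

noncomputable section

open MeasureTheory ProbabilityTheory Filter Topology Set
open scoped ENNReal Matrix NumberField
open Crest.NumberTheoryR.Packets

namespace Crest.Agent.R014

theorem dhi_ac {X : Type*} [MeasurableSpace X] {μ ρ : Measure X} [IsFiniteMeasure μ]
    [IsFiniteMeasure ρ] (h : ρ ≪ μ) {ε : ℝ≥0∞} (hε : ε ≠ 0) :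
    ∃ δ > 0, ∀ s, MeasurableSet s → μ s < δ → ρ s < ε := by
  obtain ⟨δ, h0, hδ⟩ := exists_pos_setLIntegral_lt_of_measure_lt
    (Measure.lintegral_rnDeriv_lt_top ρ μ).ne hε
  refine ⟨δ, h0, fun s hs h1 => ?_⟩
  rw [← Measure.setLIntegral_rnDeriv' h hs]
  exact hδ s h1

/-- Approximate `F` in `L¹(μ)` by a continuous compactly supported `φ`
(`Integrable.exists_hasCompactSupport_integral_sub_le`); `F (x p) - F (y p) = F (b^k (x p)) -
F (b^k (y p))` almost surely; the sets `{|F - φ| ∘ b^k > ε}` have small `μ`-measure uniformly in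
`k`, hence small measure for the finite measures `ν.map x`, `ν.map y ≪ μ`
(`exists_pos_setLIntegral_lt_of_measure_lt` or the `ε`-`δ` form of absolute continuity). -/
theorem asym_eq {X : Type*} [TopologicalSpace X] [T2Space X] [LocallyCompactSpace X]
    [SecondCountableTopology X] [MeasurableSpace X] [BorelSpace X] {μ : Measure X}
    [IsFiniteMeasure μ] {P : Type*} [MeasurableSpace P] (ν : Measure P) [IsFiniteMeasure ν]
    {x y : P → X} (hx : Measurable x) (hy : Measurable y) (hxμ : ν.map x ≪ μ) (hyμ : ν.map y ≪ μ)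
    {b : X → X} (hb : MeasurePreserving b μ μ) {F : X → ℝ} (hF : Measurable F)
    (hF1 : ∀ z, |F z| ≤ 1) (hFb : ∀ᵐ z ∂μ, F (b z) = F z)
    (has : ∀ φ : X → ℝ, Continuous φ → HasCompactSupport φ → ∀ p,
      Tendsto (fun k : ℕ => φ (b^[k] (x p)) - φ (b^[k] (y p))) atTop (𝓝 0)) :
    ∀ᵐ p ∂ν, F (x p) = F (y p) := by
  have hit : ∀ k : ℕ, ∀ᵐ z ∂μ, F (b^[k] z) = F z := by
    intro k
    induction k with
    | zero => exact Eventually.of_forall fun z => rfl
    | succ k ih =>
      filter_upwards [hFb, hb.quasiMeasurePreserving.ae ih] with z h1 h2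
      rw [Function.iterate_succ_apply, h2, h1]
  have hit' : ∀ᵐ z ∂μ, ∀ k : ℕ, F (b^[k] z) = F z := ae_all_iff.2 hit
  have hx' : ∀ᵐ p ∂ν, ∀ k : ℕ, F (b^[k] (x p)) = F (x p) :=
    ae_of_ae_map hx.aemeasurable (hxμ.ae_le hit')
  have hy' : ∀ᵐ p ∂ν, ∀ k : ℕ, F (b^[k] (y p)) = F (y p) :=
    ae_of_ae_map hy.aemeasurable (hyμ.ae_le hit')
  have hFi : Integrable F μ :=
    Integrable.of_bound hF.aestronglyMeasurable 1 (Eventually.of_forall hF1)
  have key : ∀ η : ℝ, 0 < η → ∀ᵐ p ∂ν, |F (x p) - F (y p)| ≤ 3 * η := by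
    intro η hη
    set E : Set P := {p | (∀ k : ℕ, F (b^[k] (x p)) = F (x p)) ∧
      (∀ k : ℕ, F (b^[k] (y p)) = F (y p)) ∧ 3 * η < |F (x p) - F (y p)|} with hE
    have hE0 : ν E = 0 := by
      refine le_antisymm (ENNReal.le_of_forall_pos_le_add fun ε hε _ => ?_) bot_le
      rw [zero_add]
      have hε2 : (ε : ℝ≥0∞) / 2 ≠ 0 := by simp [hε.ne']
      obtain ⟨δ1, h1, h1'⟩ := dhi_ac hxμ hε2
      obtain ⟨δ2, h2, h2'⟩ := dhi_ac hyμ hε2
      obtain ⟨δ, hδ0, hδ⟩ := ENNReal.lt_iff_exists_nnreal_btwn.1 (lt_min h1 h2)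
      have hδ0' : (0 : ℝ) < δ := by exact_mod_cast hδ0
      obtain ⟨φ, hφc, hφ, hφ1, hφi⟩ :=
        hFi.exists_hasCompactSupport_integral_sub_le (mul_pos hη hδ0')
      set A : Set X := {z | η ≤ ‖F z - φ z‖} with hA
      have hAm : MeasurableSet A := measurableSet_le measurable_const (hF.sub hφ1.measurable).norm
      have hAμ : μ A ≤ δ := by
        have h3 := (mul_meas_ge_le_integral_of_nonneg (f := fun z => ‖F z - φ z‖)
          (Eventually.of_forall fun z => norm_nonneg _) (hFi.sub hφi).norm η).trans hφ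
        have h4 : μ.real A ≤ δ := le_of_mul_le_mul_left h3 hη
        rw [← ofReal_measureReal, ← ENNReal.ofReal_coe_nnreal]
        exact ENNReal.ofReal_le_ofReal h4
      set B : ℕ → Set P := fun k => x ⁻¹' (b^[k] ⁻¹' A) ∪ y ⁻¹' (b^[k] ⁻¹' A) with hB
      have hBν : ∀ k, ν (B k) ≤ ε := by
        intro k
        have hm : MeasurableSet (b^[k] ⁻¹' A) := (hb.iterate k).measurable hAm
        have hk : μ (b^[k] ⁻¹' A) < min δ1 δ2 := by
          rw [(hb.iterate k).measure_preimage hAm.nullMeasurableSet]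
          exact hAμ.trans_lt hδ
        have e1 := h1' _ hm (hk.trans_le (min_le_left _ _))
        have e2 := h2' _ hm (hk.trans_le (min_le_right _ _))
        rw [Measure.map_apply hx hm] at e1
        rw [Measure.map_apply hy hm] at e2
        calc ν (B k) ≤ ν (x ⁻¹' (b^[k] ⁻¹' A)) + ν (y ⁻¹' (b^[k] ⁻¹' A)) := measure_union_le _ _
          _ ≤ ε / 2 + ε / 2 := add_le_add e1.le e2.le
          _ = ε := ENNReal.add_halves _
      have hsub : E ⊆ ⋃ K : ℕ, ⋂ k ≥ K, B k := by
        rintro p ⟨p1, p2, p3⟩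
        obtain ⟨K, hK⟩ := eventually_atTop.1
          ((Metric.tendsto_nhds.1 (has φ hφ1 hφc p)) η hη)
        refine mem_iUnion.2 ⟨K, mem_iInter₂.2 fun k hk => ?_⟩
        by_contra hn
        have n1 : ¬η ≤ ‖F (b^[k] (x p)) - φ (b^[k] (x p))‖ := fun h => hn (Or.inl h)
        have n2 : ¬η ≤ ‖F (b^[k] (y p)) - φ (b^[k] (y p))‖ := fun h => hn (Or.inr h)
        have n3 := hK k hk
        rw [p1 k, Real.norm_eq_abs, not_le, abs_lt] at n1
        rw [p2 k, Real.norm_eq_abs, not_le, abs_lt] at n2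
        rw [Real.dist_eq, sub_zero, abs_lt] at n3
        refine absurd p3 (not_lt.2 (abs_le.2 ⟨?_, ?_⟩)) <;> linarith [n1.1, n1.2, n2.1, n2.2, n3.1, n3.2]
      refine (measure_mono hsub).trans ?_
      rw [Monotone.measure_iUnion fun K L hKL => biInter_subset_biInter_left fun k hk => hKL.trans hk]
      exact iSup_le fun K => (measure_mono (biInter_subset_of_mem (le_refl K))).trans (hBν K)
    filter_upwards [hx', hy', measure_eq_zero_iff_ae_notMem.1 hE0] with p p1 p2 p3
    exact not_lt.1 fun h => p3 ⟨p1, p2, h⟩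
  have key' : ∀ᵐ p ∂ν, ∀ m : ℕ, |F (x p) - F (y p)| ≤ 3 * (1 / ((m : ℝ) + 1)) :=
    ae_all_iff.2 fun m => key _ Nat.one_div_pos_of_nat
  filter_upwards [key'] with p hp
  have hlim : Tendsto (fun m : ℕ => 3 * (1 / ((m : ℝ) + 1))) atTop (𝓝 (3 * 0)) :=
    tendsto_one_div_add_atTop_nhds_zero_nat.const_mul 3
  rw [mul_zero] at hlim
  exact sub_eq_zero.1 (abs_nonpos_iff.1 (ge_of_tendsto' hlim hp))

/-- Apply `asym_eq` to `F z = (f z (Iic q)).toReal`, `b = act · (dA t)`; `f ∘ b = f` a.e. by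
`IsLeaf.scale` with `c = 1`; `rt h s * dA (k t) = dA (k t) * rt h (exp (k (t j - t i)) s)` and
`cc_asym`. -/
theorem pairEq_root {n : ℕ} {μ : Measure (ModSpace n)} [IsFiniteMeasure μ] (hA : AInv μ)
    {i j k l : Fin n} (hij : i ≠ j) (hkl : k ≠ l) (t : Fin n → ℝ) (h1 : t k = t l) (h2 : t j < t i)
    {f : Kernel (ModSpace n) ℝ} {X0 : Set (ModSpace n)} (hf : IsLeaf μ (rtF hkl) f X0) :
    PairEq μ (rtF hij) f := by
  intro ν hν hν1 hν2
  haveI := hf.markov
  have hb : MeasurePreserving (fun z : ModSpace n => act z (dA t)) μ μ :=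
    ⟨measurable_act_left _, hA t⟩
  have hsc : ∀ᵐ z ∂μ, f (act z (dA t)) = f z := by
    have := hf.scale (actE (dA t)) 1 one_pos hb fun z s => by
      simp only [actE_apply, rtF, act_mul, rt_mul_dA, h1, sub_self, Real.exp_zero]
    filter_upwards [this] with z hz
    rw [aff_one_zero] at hz
    exact hz
  have hit : ∀ (m : ℕ) (z : ModSpace n),
      (fun z : ModSpace n => act z (dA t))^[m] z = act z (dA ((m : ℝ) • t)) := by
    intro m z
    rw [← dA_pow]
    induction m with
    | zero => exact (act_one z).symm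
    | succ m ih => rw [Function.iterate_succ_apply', ih, act_mul, pow_succ]
  have key : ∀ q : ℚ, ∀ᵐ p ∂ν, (f p.1).real (Iic (q : ℝ)) =
      (f (rtF hij p.1 p.2)).real (Iic (q : ℝ)) := by
    intro q
    refine asym_eq ν measurable_fst (isFlow_rtF hij).meas hν1 hν2 hb
      (F := fun z => (f z).real (Iic (q : ℝ)))
      (f.measurable_coe measurableSet_Iic).ennreal_toReal (fun z => ?_) ?_ ?_
    · rw [abs_of_nonneg measureReal_nonneg]
      exact measureReal_le_one
    · filter_upwards [hsc] with z hz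
      rw [hz]
    · intro φ hφ hc p
      have hlim : Tendsto (fun m : ℕ => rt hij (Real.exp ((m : ℝ) * (t j - t i)) * p.2)) atTop
          (𝓝 1) := by
        rw [← rt_zero hij]
        refine ((continuous_rt hij).tendsto 0).comp ?_
        rw [← zero_mul p.2]
        exact (Real.tendsto_exp_atBot.comp
          (tendsto_natCast_atTop_atTop.atTop_mul_const_of_neg (sub_neg.2 h2))).mul_const _
      refine (cc_asym hφ hc (fun m : ℕ => act p.1 (dA ((m : ℝ) • t))) hlim).congr fun m => ?_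
      simp only [hit, rtF, act_mul, rt_mul_dA, Pi.smul_apply, smul_eq_mul, mul_sub]
  filter_upwards [ae_all_iff.2 key] with p hp
  refine ext_of_generate_finite _ Real.borel_eq_generateFrom_Iic_rat Real.isPiSystem_Iic_rat
    (fun s hs => ?_) (by simp)
  obtain ⟨q, rfl⟩ := mem_iUnion.1 hs
  exact ((measureReal_eq_measureReal_iff (measure_ne_top _ _) (measure_ne_top _ _)).1 (hp q)).symm

end Crest.Agent.R014

end
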