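import Crest.Agent.R014.DAlg

/-! # Row 14: lattices attached to points -/

set_option autoImplicit false

noncomputable section

open MeasureTheory ProbabilityTheory Filter Topology Set
open scoped ENNReal Matrix NumberField
open Crest.NumberTheoryR.Packets

namespace Crest.Agent.R014

variable {n : ℕ}

theorem dlat_mul_inv (g : SLR n) : g.1 * (g⁻¹).1 = 1 := by
  rw [← Matrix.SpecialLinearGroup.coe_mul, mul_inv_cancel, Matrix.SpecialLinearGroup.coe_one]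

theorem dlat_mul_inv' (g : SLR n) : ((g⁻¹).1)ᵀ * (g.1)ᵀ = 1 := by
  rw [← Matrix.transpose_mul, dlat_mul_inv, Matrix.transpose_one]

theorem dlat_cancel {A B : Matrix (Fin n) (Fin n) ℝ} (h : A * B = 1) (v : Fin n → ℝ) :
    v ᵥ* A ᵥ* B = v := by
  rw [Matrix.vecMul_vecMul, h, Matrix.vecMul_one]

theorem dlat_inj {A B : Matrix (Fin n) (Fin n) ℝ} (h : A * B = 1) {v v' : Fin n → ℝ} :
    v ᵥ* A = v' ᵥ* A ↔ v = v' :=
  ⟨fun e => by rw [← dlat_cancel h v, e, dlat_cancel h], fun e => by rw [e]⟩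

theorem dlat_of_eq {g g' : SLR n} (h : mkX g = mkX g') (e : Fin n → ℤ) :
    ∃ e' : Fin n → ℤ, (fun i => (e i : ℝ)) ᵥ* g'.1 = (fun i => (e' i : ℝ)) ᵥ* g.1 := by
  obtain ⟨γ, hγ⟩ := (mkX_eq_iff g g').1 h
  refine ⟨e ᵥ* γ.1, ?_⟩
  have h1 : g' = Matrix.SpecialLinearGroup.map (Int.castRingHom ℝ) γ * g := by
    rw [hγ, inv_mul_cancel_right]
  rw [h1, Matrix.SpecialLinearGroup.coe_mul, ← Matrix.vecMul_vecMul]
  congr 1
  funext j
  simp [Matrix.vecMul, dotProduct]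

theorem dlat_single (A : Matrix (Fin n) (Fin n) ℝ) (i : Fin n) :
    (fun j => ((Pi.single i 1 : Fin n → ℤ) j : ℝ)) ᵥ* A = A i := by
  funext k
  simp [Matrix.vecMul, dotProduct, Pi.single_apply]

theorem dlat_prim (hn : 0 < n) {Λ : Submodule ℤ (Fin n → ℝ)} {A B : Matrix (Fin n) (Fin n) ℝ}
    (h : A * B = 1) (hΛ : ∀ v, v ∈ Λ ↔ ∃ e : Fin n → ℤ, v = (fun i => (e i : ℝ)) ᵥ* A) :
    ∃ v, PrimIn Λ v := by
  refine ⟨_, (hΛ _).2 ⟨Pi.single ⟨0, hn⟩ 1, rfl⟩, fun h0 => ?_, fun r hr => ?_⟩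
  · rw [← Matrix.zero_vecMul A, dlat_inj h] at h0
    simpa using congrFun h0 ⟨0, hn⟩
  · obtain ⟨e, he⟩ := (hΛ _).1 hr
    rw [← Matrix.smul_vecMul, dlat_inj h] at he
    exact ⟨e ⟨0, hn⟩, by simpa using congrFun he ⟨0, hn⟩⟩

theorem dlat_fin {Λ : Submodule ℤ (Fin n → ℝ)} {A B : Matrix (Fin n) (Fin n) ℝ}
    (h : A * B = 1) (hΛ : ∀ v, v ∈ Λ ↔ ∃ e : Fin n → ℤ, v = (fun i => (e i : ℝ)) ᵥ* A) (R : ℝ) :
    {v | v ∈ Λ ∧ ‖v‖ ≤ R}.Finite := by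
  refine ((Finite.pi' fun j => finite_Icc (-⌈∑ i, R * |B i j|⌉) ⌈∑ i, R * |B i j|⌉).image
    fun e : Fin n → ℤ => (fun i => (e i : ℝ)) ᵥ* A).subset ?_
  rintro v ⟨hv, hR⟩
  obtain ⟨e, he⟩ := (hΛ v).1 hv
  refine ⟨e, fun j => abs_le.1 ?_, he.symm⟩
  have h1 : (e j : ℝ) = ∑ i, v i * B i j := by
    have := congrFun (dlat_cancel h fun i => (e i : ℝ)) j
    rw [← he] at this
    exact this.symm
  have h2 : |(e j : ℝ)| ≤ ∑ i, R * |B i j| := by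
    rw [h1]
    refine (Finset.abs_sum_le_sum_abs _ _).trans (Finset.sum_le_sum fun i _ => ?_)
    rw [abs_mul]
    exact mul_le_mul_of_nonneg_right ((norm_le_pi_norm v i).trans hR) (abs_nonneg _)
  exact_mod_cast h2.trans (Int.le_ceil _)

theorem dlat_prim_map {Λ Λ' : Submodule ℤ (Fin n → ℝ)} {A B : Matrix (Fin n) (Fin n) ℝ}
    (h : A * B = 1) (hΛ : ∀ v, v ᵥ* A ∈ Λ' ↔ v ∈ Λ) {v : Fin n → ℝ} (hv : PrimIn Λ v) :
    PrimIn Λ' (v ᵥ* A) := by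
  refine ⟨(hΛ v).2 hv.1, fun h0 => hv.2.1 ?_, fun r hr => hv.2.2 r ((hΛ _).1 ?_)⟩
  · rwa [← Matrix.zero_vecMul A, dlat_inj h] at h0
  · rwa [Matrix.smul_vecMul]

theorem mem_lat_mkX (g : SLR n) (v : Fin n → ℝ) :
    v ∈ lat (mkX g) ↔ ∃ e : Fin n → ℤ, v = (fun i => (e i : ℝ)) ᵥ* g.1 := by
  have h1 : ∀ e : Fin n → ℤ, ∑ i, e i • (Quotient.out (mkX g) : SLR n).1 i =
      (fun i => (e i : ℝ)) ᵥ* (Quotient.out (mkX g) : SLR n).1 := fun e => by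
    funext k
    simp [Matrix.vecMul, dotProduct]
  rw [lat, Submodule.mem_span_range_iff_exists_fun]
  simp only [h1]
  constructor
  · rintro ⟨e, rfl⟩
    exact dlat_of_eq (mkX_out (mkX g)).symm e
  · rintro ⟨e, rfl⟩
    obtain ⟨e', he⟩ := dlat_of_eq (mkX_out (mkX g)) e
    exact ⟨e', he.symm⟩

theorem mem_dual_mkX (g : SLR n) (w : Fin n → ℝ) :
    w ∈ dualL (lat (mkX g)) ↔ ∃ e : Fin n → ℤ, w = (fun i => (e i : ℝ)) ᵥ* ((g⁻¹).1)ᵀ := by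
  constructor
  · intro hw
    choose e he using fun i => hw _ ((mem_lat_mkX g _).2 ⟨_, (dlat_single g.1 i).symm⟩)
    refine ⟨e, ?_⟩
    have h1 : (fun i => (e i : ℝ)) = w ᵥ* (g.1)ᵀ := by
      rw [Matrix.vecMul_transpose]
      exact funext fun i => (he i).symm
    rw [h1, dlat_cancel (mul_eq_one_comm.1 (dlat_mul_inv' g))]
  · rintro ⟨e', rfl⟩ v hv
    obtain ⟨e, rfl⟩ := (mem_lat_mkX g v).1 hv
    refine ⟨e ⬝ᵥ e', ?_⟩
    rw [Matrix.vecMul_transpose, Matrix.dotProduct_mulVec, dlat_cancel (dlat_mul_inv g)]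
    simp [dotProduct]

theorem vecMul_mem_lat (x : ModSpace n) (h : SLR n) (v : Fin n → ℝ) :
    v ᵥ* h.1 ∈ lat (act x h) ↔ v ∈ lat x := by
  obtain ⟨g, rfl⟩ := mkX_surj x
  simp only [act_mkX, mem_lat_mkX, Matrix.SpecialLinearGroup.coe_mul, ← Matrix.vecMul_vecMul,
    dlat_inj (dlat_mul_inv h)]

theorem vecMul_mem_dual (x : ModSpace n) (h : SLR n) (w : Fin n → ℝ) :
    w ᵥ* ((h⁻¹).1)ᵀ ∈ dualL (lat (act x h)) ↔ w ∈ dualL (lat x) := by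
  obtain ⟨g, rfl⟩ := mkX_surj x
  simp only [act_mkX, mem_dual_mkX, mul_inv_rev, Matrix.SpecialLinearGroup.coe_mul,
    Matrix.transpose_mul, ← Matrix.vecMul_vecMul, dlat_inj (dlat_mul_inv' h)]

theorem lat_inj {x y : ModSpace n} (h : lat x = lat y) : x = y := by
  obtain ⟨g, rfl⟩ := mkX_surj x
  obtain ⟨g', rfl⟩ := mkX_surj y
  choose E hE using fun i => (mem_lat_mkX g (g'.1 i)).1
    (h ▸ (mem_lat_mkX g' _).2 ⟨_, (dlat_single g'.1 i).symm⟩)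
  have h1 : (Int.castRingHom ℝ).mapMatrix (Matrix.of E) = (g' * g⁻¹).1 := by
    ext i j
    rw [Matrix.SpecialLinearGroup.coe_mul, Matrix.mul_apply_eq_vecMul, hE i,
      dlat_cancel (dlat_mul_inv g)]
    rfl
  have h2 : (Matrix.of E).det = 1 := by
    have := (Int.castRingHom ℝ).map_det (Matrix.of E)
    rw [h1, (g' * g⁻¹).2] at this
    exact_mod_cast (show (((Matrix.of E).det : ℤ) : ℝ) = 1 from this)
  exact (mkX_eq_iff g g').2 ⟨⟨Matrix.of E, h2⟩, Subtype.ext h1⟩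

theorem primIn_act {x : ModSpace n} {v : Fin n → ℝ} (hv : PrimIn (lat x) v) (h : SLR n) :
    PrimIn (lat (act x h)) (v ᵥ* h.1) :=
  dlat_prim_map (dlat_mul_inv h) (vecMul_mem_lat x h) hv

theorem primIn_dual_act {x : ModSpace n} {w : Fin n → ℝ} (hw : PrimIn (dualL (lat x)) w)
    (h : SLR n) : PrimIn (dualL (lat (act x h))) (w ᵥ* ((h⁻¹).1)ᵀ) :=
  dlat_prim_map (dlat_mul_inv' h) (vecMul_mem_dual x h) hw

/-- The first row of a representative. -/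
theorem exists_primIn (hn : 0 < n) (x : ModSpace n) : ∃ v, PrimIn (lat x) v := by
  obtain ⟨g, rfl⟩ := mkX_surj x
  exact dlat_prim hn (dlat_mul_inv g) (mem_lat_mkX g)

theorem exists_primIn_dual (hn : 0 < n) (x : ModSpace n) : ∃ w, PrimIn (dualL (lat x)) w := by
  obtain ⟨g, rfl⟩ := mkX_surj x
  exact dlat_prim hn (dlat_mul_inv' g) (mem_dual_mkX g)

theorem finite_lat (x : ModSpace n) (R : ℝ) : {v | v ∈ lat x ∧ ‖v‖ ≤ R}.Finite := by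
  obtain ⟨g, rfl⟩ := mkX_surj x
  exact dlat_fin (dlat_mul_inv g) (mem_lat_mkX g) R

theorem finite_dual (x : ModSpace n) (R : ℝ) : {w | w ∈ dualL (lat x) ∧ ‖w‖ ≤ R}.Finite := by
  obtain ⟨g, rfl⟩ := mkX_surj x
  exact dlat_fin (dlat_mul_inv' g) (mem_dual_mkX g) R

end Crest.Agent.R014

end
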