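import Crest.Agent.R014.DAff2

/-! # Row 14: leafwise measures, the conditional kernel -/

set_option autoImplicit false

noncomputable section

open MeasureTheory ProbabilityTheory Filter Topology Set
open scoped ENNReal Matrix NumberField
open Crest.NumberTheoryR.Packets

namespace Crest.Agent.R014

variable {X : Type*} [MeasurableSpace X] {μ : Measure X} {u : X → ℝ → X}

instance instFinLeafM [IsFiniteMeasure μ] : IsFiniteMeasure (leafM μ u) := by
  unfold leafM; infer_instance

theorem dlfa_meas_neg (hu : IsFlow u) : Measurable fun p : X × ℝ => u p.1 (-p.2) :=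
  hu.meas.comp (measurable_fst.prodMk measurable_snd.neg)

theorem dlfa_meas_phi (hu : IsFlow u) :
    Measurable fun p : X × ℝ => (u p.1 (-p.2), p.2) :=
  (dlfa_meas_neg hu).prodMk measurable_snd

theorem dlfa_fst (hu : IsFlow u) :
    (leafM μ u).fst = (μ.prod cauM).map (fun p : X × ℝ => u p.1 (-p.2)) := by
  unfold leafM Measure.fst
  rw [Measure.map_map measurable_fst (dlfa_meas_phi hu)]
  rfl

theorem ae_of_ae_fst [IsFiniteMeasure μ] (hu : IsFlow u) {p : X → Prop}
    (h : ∀ᵐ y ∂(leafM μ u).fst, p y) : ∀ᵐ x ∂μ, ∀ᵐ t ∂cauM, p (u x (-t)) := by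
  rw [dlfa_fst hu] at h
  have h2 := ae_of_ae_map (dlfa_meas_neg hu).aemeasurable h
  exact Measure.ae_ae_of_ae_prod h2

theorem ae_fst_of_ae [IsFiniteMeasure μ] (hu : IsFlow u) {p : X → Prop}
    (hp : MeasurableSet {y | p y}) (h : ∀ᵐ x ∂μ, ∀ᵐ t ∂cauM, p (u x (-t))) :
    ∀ᵐ y ∂(leafM μ u).fst, p y := by
  rw [dlfa_fst hu, ae_map_iff (dlfa_meas_neg hu).aemeasurable hp]
  have hp' : MeasurableSet {z : X × ℝ | p (u z.1 (-z.2))} := (dlfa_meas_neg hu) hp
  exact (Measure.ae_prod_iff_ae_ae hp').2 h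

theorem dlfa_meas_cau : Measurable fun s : ℝ => ENNReal.ofReal (cau s) :=
  continuous_cau.measurable.ennreal_ofReal

theorem dlfa_meas_lin (c t : ℝ) : Measurable fun s : ℝ => c * s + t := by fun_prop

theorem dlfa_meas_w (c t : ℝ) :
    Measurable fun s : ℝ => ENNReal.ofReal (cau (c * s + t) / cau s) :=
  ((continuous_cau.measurable.comp (dlfa_meas_lin c t)).div
    continuous_cau.measurable).ennreal_ofReal

theorem dlfa_lint_affU (c t : ℝ) (ρ : Measure ℝ) {g : ℝ → ℝ≥0∞} (hg : Measurable g) :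
    ∫⁻ s, g s ∂(affU c t ρ) =
      ∫⁻ s, ENNReal.ofReal (cau (c * s + t) / cau s) * g (c * s + t) ∂ρ := by
  unfold affU
  rw [lintegral_map hg (dlfa_meas_lin c t),
    lintegral_withDensity_eq_lintegral_mul _ (dlfa_meas_w c t) (g := fun s => g (c * s + t))
      (hg.comp (dlfa_meas_lin c t))]
  rfl

theorem dlfa_affU_univ (c t : ℝ) (ρ : Measure ℝ) :
    affU c t ρ univ = ∫⁻ s, ENNReal.ofReal (cau (c * s + t) / cau s) ∂ρ := by
  have := dlfa_lint_affU c t ρ (g := fun _ => 1) measurable_const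
  simpa using this

theorem dlfa_lint_vol {c : ℝ} (hc : 0 < c) (t : ℝ) {g : ℝ → ℝ≥0∞} (hg : Measurable g) :
    ENNReal.ofReal c * ∫⁻ s, g (c * s + t) = ∫⁻ s, g s := by
  have h1 : ∫⁻ s, g (c * s + t) = ∫⁻ s, g (s + t) ∂(Measure.map (fun s => c * s) volume) := by
    rw [lintegral_map (f := fun s => g (s + t)) (hg.comp (by fun_prop)) (by fun_prop)]
  rw [h1, Real.map_volume_mul_left hc.ne', lintegral_smul_measure, smul_eq_mul, ← mul_assoc,
    ← ENNReal.ofReal_mul hc.le, abs_of_pos (inv_pos.2 hc), mul_inv_cancel₀ hc.ne',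
    ENNReal.ofReal_one, one_mul, lintegral_add_right_eq_self]

theorem dlfa_lint_cau {c : ℝ} (hc : 0 < c) (t : ℝ) {g : ℝ → ℝ≥0∞} (hg : Measurable g) :
    ENNReal.ofReal c *
      ∫⁻ s, ENNReal.ofReal (cau (c * s + t) / cau s) * g (c * s + t) ∂cauM = ∫⁻ s, g s ∂cauM := by
  unfold cauM
  rw [lintegral_withDensity_eq_lintegral_mul _ dlfa_meas_cau
      (g := fun s => ENNReal.ofReal (cau (c * s + t) / cau s) * g (c * s + t))
      ((dlfa_meas_w c t).mul (hg.comp (dlfa_meas_lin c t))),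
    lintegral_withDensity_eq_lintegral_mul _ dlfa_meas_cau hg,
    ← dlfa_lint_vol hc t (dlfa_meas_cau.mul hg)]
  congr 1
  refine lintegral_congr fun s => ?_
  simp only [Pi.mul_apply]
  rw [← mul_assoc, ← ENNReal.ofReal_mul (cau_pos s).le, mul_div_cancel₀ _ (cau_pos s).ne']

theorem dlfa_lint_leaf [IsFiniteMeasure μ] (hu : IsFlow u) {F : X × ℝ → ℝ≥0∞}
    (hF : Measurable F) :
    ∫⁻ p, F p ∂(leafM μ u) = ∫⁻ x, ∫⁻ s, F (u x (-s), s) ∂cauM ∂μ := by
  unfold leafM
  rw [lintegral_map hF (dlfa_meas_phi hu),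
    lintegral_prod (fun p : X × ℝ => F (u p.1 (-p.2), p.2))
      (hF.comp (dlfa_meas_phi hu)).aemeasurable]

theorem dlfa_key [IsFiniteMeasure μ] (hu : IsFlow u) (e : X ≃ᵐ X) {c : ℝ} (hc : 0 < c)
    (he : MeasurePreserving e μ μ) (hes : ∀ x s, e (u x s) = u (e x) (c * s)) (t : ℝ)
    {F : X × ℝ → ℝ≥0∞} (hF : Measurable F) :
    ∫⁻ p, F p ∂(leafM μ u) = ENNReal.ofReal c *
      ∫⁻ p, ENNReal.ofReal (cau (c * p.2 + t) / cau p.2) * F (u (e p.1) (-t), c * p.2 + t)
        ∂(leafM μ u) := by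
  have hE : Measurable fun y : X => u (e y) (-t) :=
    hu.meas.comp (e.measurable.prodMk measurable_const)
  have hG : Measurable fun p : X × ℝ =>
      ENNReal.ofReal (cau (c * p.2 + t) / cau p.2) * F (u (e p.1) (-t), c * p.2 + t) :=
    ((dlfa_meas_w c t).comp measurable_snd).mul
      (hF.comp ((hE.comp measurable_fst).prodMk ((dlfa_meas_lin c t).comp measurable_snd)))
  have hH : Measurable fun x : X => ∫⁻ s, F (u x (-s), s) ∂cauM :=
    (hF.comp (dlfa_meas_phi hu)).lintegral_prod_right'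
  rw [dlfa_lint_leaf hu hF, dlfa_lint_leaf hu hG, ← he.lintegral_comp hH,
    ← lintegral_const_mul' _ _ ENNReal.ofReal_ne_top]
  refine lintegral_congr fun x => ?_
  have hg : Measurable fun s : ℝ => F (u (e x) (-s), s) :=
    (hF.comp (dlfa_meas_phi hu)).comp (measurable_const.prodMk measurable_id)
  rw [← dlfa_lint_cau hc t hg]
  congr 1
  refine lintegral_congr fun s => ?_
  simp only
  rw [hes, hu.add]
  congr 4
  ring

/-- The equivalence `y ↦ u (e y) (-t)`. -/
def dlfa_E (hu : IsFlow u) (e : X ≃ᵐ X) (t : ℝ) : X ≃ᵐ X where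
  toFun y := u (e y) (-t)
  invFun y := e.symm (u y t)
  left_inv y := by simp [hu.add, hu.zero]
  right_inv y := by simp [hu.add, hu.zero]
  measurable_toFun := hu.meas.comp (e.measurable.prodMk measurable_const)
  measurable_invFun := e.symm.measurable.comp (hu.meas.comp (measurable_id.prodMk measurable_const))

/-- Let `ρ = leafM μ u`, `Θ (y, s) = (u (e y) (-t), c s + t)`, `w s = cau (c s + t) / cau s`.
In the coordinates `(x, s)`, `x = u y s`, `Θ` is `(x, s) ↦ (e x, c s + t)`, so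
`ρ = c • Θ_* (w ρ)`.  With `ρ = m ⊗ κ` this reads `ρ = m' ⊗ κ'` where `E y = u (e y) (-t)` is a
measurable equivalence, `κ' (E y) = aff c t (κ y)` and `m' = E_* (c • affU c t (κ y) univ • m)`.
Conclude with `eq_condKernel_of_measure_eq_compProd` (`m' = ρ.fst = m`) and the positivity of the
density. -/
theorem cond_equiv [IsFiniteMeasure μ] (hu : IsFlow u) (e : X ≃ᵐ X) {c : ℝ} (hc : 0 < c)
    (he : MeasurePreserving e μ μ) (hes : ∀ x s, e (u x s) = u (e x) (c * s)) (t : ℝ) :
    ∀ᵐ y ∂(leafM μ u).fst,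
      (leafM μ u).condKernel (u (e y) (-t)) = aff c t ((leafM μ u).condKernel y) := by
  set ρ := leafM μ u with hρ
  set κ := ρ.condKernel with hκ
  set m := ρ.fst with hm
  let E := dlfa_E hu e t
  have hEa : ∀ y, E y = u (e y) (-t) := fun y => rfl
  have hdis : m ⊗ₘ κ = ρ := Measure.disintegrate ρ κ
  let Z : X → ℝ≥0∞ := fun y => ENNReal.ofReal c * affU c t (κ y) univ
  have hZm : Measurable Z := by
    refine measurable_const.mul ?_
    simp only [dlfa_affU_univ]
    exact (dlfa_meas_w c t).lintegral_kernel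
  have hZ0 : ∀ y, Z y ≠ 0 := fun y =>
    mul_ne_zero (by simpa using hc) (affU_univ_ne hc t (κ y)).1
  let κ' : Kernel X ℝ := ⟨fun y => aff c t (κ (E.symm y)),
    (measurable_aff hc (t := fun _ => t) measurable_const κ).comp E.symm.measurable⟩
  have hκ' : ∀ y, κ' (E y) = aff c t (κ y) := fun y => by
    show aff c t (κ (E.symm (E y))) = _
    rw [E.symm_apply_apply]
  have : IsMarkovKernel κ' := ⟨fun y => isProb_aff hc t (κ (E.symm y))⟩
  let m' : Measure X := (m.withDensity Z).map E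
  have hmain : ρ = m' ⊗ₘ κ' := by
    refine Measure.ext_of_lintegral _ fun F hF => ?_
    have hG : Measurable fun p : X × ℝ =>
        ENNReal.ofReal (cau (c * p.2 + t) / cau p.2) * F (u (e p.1) (-t), c * p.2 + t) :=
      ((dlfa_meas_w c t).comp measurable_snd).mul
        (hF.comp ((E.measurable.comp measurable_fst).prodMk
          ((dlfa_meas_lin c t).comp measurable_snd)))
    have hH : Measurable fun y : X => ∫⁻ s, F (y, s) ∂κ' y := hF.lintegral_kernel_prod_right'
    rw [hρ, dlfa_key hu e hc he hes t hF, ← hρ, ← hdis, Measure.lintegral_compProd hG,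
      Measure.lintegral_compProd hF, lintegral_map hH E.measurable,
      lintegral_withDensity_eq_lintegral_mul _ hZm
        (g := fun y => ∫⁻ s, F (E y, s) ∂κ' (E y)) (hH.comp E.measurable),
      ← lintegral_const_mul' _ _ ENNReal.ofReal_ne_top]
    refine lintegral_congr fun y => ?_
    have hg : Measurable fun s : ℝ => F (E y, s) :=
      hF.comp (measurable_const.prodMk measurable_id)
    simp only [Pi.mul_apply, hκ', Z]
    unfold aff
    rw [lintegral_smul_measure, smul_eq_mul, mul_assoc, ← mul_assoc (affU c t (κ y) univ),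
      ENNReal.mul_inv_cancel (affU_univ_ne hc t (κ y)).1 (affU_univ_ne hc t (κ y)).2, one_mul,
      dlfa_lint_affU c t _ hg]
    rfl
  have hm' : m = m' := by
    rw [hm, hmain, Measure.fst_compProd]
  have h1 : ∀ᵐ y ∂ρ.fst, κ' y = ρ.condKernel y :=
    eq_condKernel_of_measure_eq_compProd κ' (by rw [← hm, hm']; exact hmain)
  rw [← hm, hm'] at h1
  have h2 := ae_of_ae_map E.measurable.aemeasurable h1
  have h3 : m ≪ m.withDensity Z :=
    withDensity_absolutelyContinuous' hZm.aemeasurable (Eventually.of_forall hZ0)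
  filter_upwards [h3.ae_le h2] with y hy
  rw [← hκ', hy, hEa]

end Crest.Agent.R014

end
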