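import Crest.Agent.R014.DLeafA

/-! # Row 14: leafwise measures, typical points -/

set_option autoImplicit false

noncomputable section

open MeasureTheory ProbabilityTheory Filter Topology Set
open scoped ENNReal Matrix NumberField
open Crest.NumberTheoryR.Packets

namespace Crest.Agent.R014

variable {X : Type*} [MeasurableSpace X] {μ : Measure X} {u : X → ℝ → X}

theorem dlfa2_meas (hu : IsFlow u) : Measurable fun p : X × ℝ => (u p.1 (-p.2), p.2) :=
  (hu.meas.comp (measurable_fst.prodMk measurable_snd.neg)).prodMk measurable_snd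

/-- The second coordinate brings back to `μ`: `(y, s) ↦ u y s` maps `leafM μ u` to `μ`. -/
theorem cond_typ [IsFiniteMeasure μ] (hu : IsFlow u) {N : Set X} (hN : MeasurableSet N)
    (h0 : μ N = 0) :
    ∀ᵐ y ∂(leafM μ u).fst, (leafM μ u).condKernel y {s | u y s ∈ N} = 0 := by
  have hT : MeasurableSet {p : X × ℝ | u p.1 p.2 ∈ N} := hu.meas hN
  have e : ((leafM μ u).fst ⊗ₘ (leafM μ u).condKernel) {p : X × ℝ | u p.1 p.2 ∈ N} = 0 := by
    rw [Measure.disintegrate, leafM, Measure.map_apply (dlfa2_meas hu) hT]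
    have : (fun p : X × ℝ => (u p.1 (-p.2), p.2)) ⁻¹' {p : X × ℝ | u p.1 p.2 ∈ N} = N ×ˢ univ := by
      ext p
      simp [hu.add, hu.zero]
    rw [this, Measure.prod_prod, h0, zero_mul]
  rw [Measure.compProd_apply hT, lintegral_eq_zero_iff (Kernel.measurable_kernel_prodMk_left hT)] at e
  exact e

theorem dlfa2_lint {φ : ℝ → ℝ≥0∞} (hφ : Measurable φ) :
    ∫⁻ s, (ENNReal.ofReal (cau s))⁻¹ * φ s ∂cauM = ∫⁻ s, φ s := by
  have hw := continuous_cau.measurable.ennreal_ofReal
  refine (lintegral_withDensity_eq_lintegral_mul _ hw (hw.inv.mul hφ)).trans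
    (lintegral_congr fun s => ?_)
  change ENNReal.ofReal (cau s) * ((ENNReal.ofReal (cau s))⁻¹ * φ s) = _
  rw [← mul_assoc,
    ENNReal.mul_inv_cancel (ENNReal.ofReal_pos.2 (cau_pos s)).ne' ENNReal.ofReal_ne_top, one_mul]

/-- If the conditional kernel is the Cauchy measure then `leafM = m ⊗ cauM`; dividing by the density,
`μ ⊗ Leb` is invariant under `(x, s) ↦ (u x t, s + t)`.  (Or: `μ = (m ⊗ cauM).map u` and, by
`cond_equiv`-like computation, `m` ... any proof is fine: for a measurable `A`,
`μ A * Leb [0,1] = ∫ Leb {s ∈ [0,1] | u y s ∈ A} dm(y)`, and with weights `1_{[a,a+1]}` for every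
`a`; compare `A` and `u(·, t)⁻¹ A`.) -/
theorem inv_of_cond [IsFiniteMeasure μ] (hu : IsFlow u)
    (h : ∀ᵐ y ∂(leafM μ u).fst, (leafM μ u).condKernel y = cauM) (t : ℝ) :
    μ.map (fun x => u x t) = μ := by
  have hw := continuous_cau.measurable.ennreal_ofReal
  have e : leafM μ u = (leafM μ u).fst.prod cauM := by
    rw [← Measure.compProd_const, ← Measure.compProd_congr (κ := (leafM μ u).condKernel)
      (η := Kernel.const X cauM) h, Measure.disintegrate]
  have key : ∀ G : X × ℝ → ℝ≥0∞, Measurable G →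
      ∫⁻ x, ∫⁻ s, G (x, s) ∂volume ∂μ = ∫⁻ y, ∫⁻ s, G (u y s, s) ∂volume ∂(leafM μ u).fst := by
    intro G hG
    have h1 : Measurable fun p : X × ℝ => (ENNReal.ofReal (cau p.2))⁻¹ * G (u p.1 p.2, p.2) :=
      (hw.comp measurable_snd).inv.mul (hG.comp (hu.meas.prodMk measurable_snd))
    have h2 := lintegral_map (μ := μ.prod cauM) h1 (dlfa2_meas hu)
    change ∫⁻ p, _ ∂leafM μ u = _ at h2
    rw [e, lintegral_prod _ h1.aemeasurable] at h2
    replace h2 := h2.trans (lintegral_prod _ (h1.comp (dlfa2_meas hu)).aemeasurable)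
    simp only [hu.add, neg_add_cancel, hu.zero] at h2
    refine Eq.trans (lintegral_congr fun x => ?_) (h2.symm.trans (lintegral_congr fun y => ?_))
    · exact (dlfa2_lint (hG.comp measurable_prodMk_left)).symm
    · exact dlfa2_lint (hG.comp ((hu.meas.comp measurable_prodMk_left).prodMk measurable_id))
  have hm : Measurable fun x => u x t := hu.meas.comp measurable_prodMk_right
  have one : ∫⁻ s, ENNReal.ofReal (cau s) = 1 := by
    rw [← setLIntegral_univ, ← withDensity_apply _ MeasurableSet.univ]
    exact measure_univ (μ := cauM)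
  refine Measure.ext_of_lintegral _ fun f hf => ?_
  have k1 := key (fun p => f (u p.1 t) * ENNReal.ofReal (cau p.2))
    (((hf.comp hm).comp measurable_fst).mul (hw.comp measurable_snd))
  have k2 := key (fun p => f p.1 * ENNReal.ofReal (cau (p.2 - t)))
    ((hf.comp measurable_fst).mul (hw.comp (measurable_snd.sub_const t)))
  have hw' : Measurable fun s => ENNReal.ofReal (cau (s - t)) := hw.comp (measurable_id.sub_const t)
  simp only [lintegral_const_mul _ hw, lintegral_const_mul _ hw', one, mul_one, hu.add,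
    lintegral_sub_right_eq_self (fun s => ENNReal.ofReal (cau s)) t] at k1 k2
  rw [lintegral_map hf hm, k1, k2]
  refine lintegral_congr fun y => ?_
  rw [← lintegral_add_right_eq_self (fun s => f (u y s) * ENNReal.ofReal (cau (s - t))) t]
  simp only [add_sub_cancel_right]

end Crest.Agent.R014

end
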