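import Crest.Agent.R014.DAlg

/-! # Row 14: limits of invariant measures -/

set_option autoImplicit false

noncomputable section

open MeasureTheory ProbabilityTheory Filter Topology Set
open scoped ENNReal Matrix NumberField
open Crest.NumberTheoryR.Packets

namespace Crest.Agent.R014

theorem dli_half {X G : Type*} [MeasurableSpace X] [Group G] [MeasurableSpace G] [MeasurableMul G]
    (m : Measure G) [SFinite m] [m.IsMulLeftInvariant] (hm : m ≠ 0) (e : G → X ≃ᵐ X)
    (ha : Measurable fun p : X × G => e p.2 p.1) (hmul : ∀ x g h, e h (e g x) = e (g * h) x)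
    (htr : ∀ x y, ∃ g, e g x = y) {ν μ : Measure X} [IsFiniteMeasure ν] [IsFiniteMeasure μ]
    (hac : ν ≪ μ) (hν : ∀ g, ν.map (e g) = ν) (hμ : ∀ g, μ.map (e g) = μ) :
    ∃ c : ℝ≥0∞, ν = c • μ := by
  set f := ν.rnDeriv μ with hf
  have hfm : Measurable f := Measure.measurable_rnDeriv ν μ
  have h1 : ∀ g, ∀ᵐ x ∂μ, f (e g x) = f x := by
    intro g
    have h := (e g).measurableEmbedding.rnDeriv_map ν μ
    rw [hν g, hμ g] at h
    exact h
  have hS : MeasurableSet {p : X × G | f (e p.2 p.1) = f p.1} :=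
    measurableSet_eq_fun (hfm.comp ha) (hfm.comp measurable_fst)
  have h2 : ∀ᵐ x ∂μ, ∀ᵐ g ∂m, f (e g x) = f x :=
    (Measure.ae_ae_comm (p := fun x g => f (e g x) = f x) hS).2 (ae_of_all _ h1)
  have h3 : ∀ x y, (∀ᵐ g ∂m, f (e g x) = f x) → (∀ᵐ g ∂m, f (e g y) = f y) → f y = f x := by
    intro x y hx hy
    obtain ⟨k, rfl⟩ := htr x y
    have hx' : ∀ᵐ g ∂m, f (e (k * g) x) = f x :=
      (measurePreserving_mul_left m k).quasiMeasurePreserving.ae hx
    haveI : (ae m).NeBot := ae_neBot.2 hm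
    obtain ⟨g, hg1, hg2⟩ := (hx'.and hy).exists
    rw [hmul] at hg2
    rw [← hg2, hg1]
  by_cases h0 : μ = 0
  · subst h0
    exact ⟨0, by rw [Measure.absolutelyContinuous_zero_iff.1 hac]; simp⟩
  · haveI : (ae μ).NeBot := ae_neBot.2 h0
    obtain ⟨x0, hx0⟩ := h2.exists
    have h4 : f =ᵐ[μ] fun _ => f x0 := h2.mono fun y hy => h3 x0 y hx0 hy
    refine ⟨f x0, ?_⟩
    rw [← withDensity_const, ← withDensity_congr_ae h4, hf, Measure.withDensity_rnDeriv_eq _ _ hac]

/-- For `φ ≥ 0` continuous compactly supported on `G` and a Haar measure `m`: the density of `ν`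
with respect to `ν + ν'` is invariant under each `g` a.e., so by Fubini and transitivity it is a.e.
constant.  (Or any other proof.) -/
theorem haar_unique {n : ℕ} {ν ν' : Measure (ModSpace n)} (h : IsHaarProbability ν)
    (h' : IsHaarProbability ν') : ν = ν' := by
  obtain ⟨hp, hi⟩ := h
  obtain ⟨hp', hi'⟩ := h'
  have hm : (Measure.haar : Measure (SLR n)) ≠ 0 := by
    intro h0
    have := (isOpen_univ (X := SLR n)).measure_pos (Measure.haar : Measure (SLR n)) univ_nonempty
    rw [h0] at this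
    simp at this
  have htr : ∀ x y : ModSpace n, ∃ g, actE g x = y := by
    intro x y
    obtain ⟨a, rfl⟩ := mkX_surj x
    obtain ⟨b, rfl⟩ := mkX_surj y
    exact ⟨a⁻¹ * b, by rw [actE_apply, act_mkX, mul_inv_cancel_left]⟩
  have hμ : ∀ g : SLR n, (ν + ν').map (actE g) = ν + ν' := by
    intro g
    rw [Measure.map_add _ _ (actE g).measurable]
    exact congrArg₂ (· + ·) (hi g) (hi' g)
  have key : ∀ ρ : Measure (ModSpace n), IsProbabilityMeasure ρ → ρ ≪ ν + ν' →
      (∀ g : SLR n, ρ.map (actE g) = ρ) → ρ = (2 : ℝ≥0∞)⁻¹ • (ν + ν') := by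
    intro ρ hρ hac hinv
    obtain ⟨c, hc⟩ := dli_half (Measure.haar : Measure (SLR n)) hm actE measurable_act
      (fun x g k => act_mul x g k) htr hac hinv hμ
    have h1 : ρ univ = (c • (ν + ν')) univ := by rw [← hc]
    simp only [measure_univ, Measure.smul_apply, Measure.add_apply, smul_eq_mul] at h1
    have h2 : c = 2⁻¹ := by
      have h3 : c * 2 = 1 := by rw [← one_add_one_eq_two]; exact h1.symm
      exact ENNReal.eq_inv_of_mul_eq_one_left h3
    rw [hc, h2]
  rw [key ν hp (Measure.absolutelyContinuous_of_le (Measure.le_add_right le_rfl)) hi]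
  exact (key ν' hp' (Measure.absolutelyContinuous_of_le (Measure.le_add_left le_rfl)) hi').symm

end Crest.Agent.R014

end
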