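import Crest.Agent.R014.DAlg
import Crest.Agent.R014.DCoset

/-! # Row 14: reduction to root groups -/

set_option autoImplicit false

noncomputable section

open MeasureTheory ProbabilityTheory Filter Topology Set
open scoped ENNReal Matrix NumberField
open Crest.NumberTheoryR.Packets

namespace Crest.Agent.R014

variable {n : ℕ}

theorem dro_pow_max {a b c d : ℕ} (h1 : a ≤ b) (h : 2 ^ a + 2 ^ b = 2 ^ c + 2 ^ d) : d ≤ b := by
  by_contra hc
  have a1 : 2 ^ a ≤ 2 ^ b := Nat.pow_le_pow_right two_pos h1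
  have a2 : 2 ^ (b + 1) ≤ 2 ^ d := Nat.pow_le_pow_right two_pos (by omega)
  have a3 : 0 < 2 ^ c := Nat.two_pow_pos c
  rw [pow_succ] at a2
  omega

theorem dro_pow_ord {a b c d : ℕ} (h1 : a ≤ b) (h2 : c ≤ d) (h : 2 ^ a + 2 ^ b = 2 ^ c + 2 ^ d) :
    a = c ∧ b = d := by
  have e : b = d := le_antisymm (dro_pow_max h2 h.symm) (dro_pow_max h1 h)
  subst e
  exact ⟨Nat.pow_right_injective le_rfl (by simpa using h), rfl⟩

theorem dro_pow {a b c d : ℕ} (h : 2 ^ a + 2 ^ b = 2 ^ c + 2 ^ d) :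
    (a = c ∧ b = d) ∨ (a = d ∧ b = c) := by
  rcases le_total a b with h1 | h1 <;> rcases le_total c d with h2 | h2
  · exact Or.inl (dro_pow_ord h1 h2 h)
  · exact Or.inr (dro_pow_ord h1 h2 (by omega))
  · exact Or.inr (dro_pow_ord h1 h2 (by omega)).symm
  · exact Or.inl (dro_pow_ord h1 h2 (by omega)).symm

theorem dro_uac {X : Type*} [MeasurableSpace X] {μ m : Measure X} [IsFiniteMeasure μ]
    [IsFiniteMeasure m] (h : m ≪ μ) {ε : ℝ≥0∞} (hε : ε ≠ 0) :
    ∃ δ > 0, ∀ s, μ s < δ → m s < ε := by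
  obtain ⟨δ, hδ, H⟩ := exists_pos_setLIntegral_lt_of_measure_lt
    (Measure.lintegral_rnDeriv_lt_top m μ).ne hε
  exact ⟨δ, hδ, fun s hs => by rw [← Measure.setLIntegral_rnDeriv h s]; exact H s hs⟩

theorem tg_sub_inj {i j k l : Fin n} (hij : i ≠ j) (h : tg j - tg i = tg l - tg k) :
    i = k ∧ j = l := by
  have h2 : (0 : ℝ) < 2 ^ n := by positivity
  unfold tg at h
  rw [← sub_div, ← sub_div, div_left_inj' h2.ne'] at h
  have h3 : (2 : ℝ) ^ (j : ℕ) + 2 ^ (k : ℕ) = 2 ^ (l : ℕ) + 2 ^ (i : ℕ) := by linarith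
  have h4 : 2 ^ (j : ℕ) + 2 ^ (k : ℕ) = 2 ^ (l : ℕ) + 2 ^ (i : ℕ) := by exact_mod_cast h3
  rcases dro_pow h4 with ⟨a, b⟩ | ⟨a, -⟩
  · exact ⟨Fin.ext b.symm, Fin.ext a⟩
  · exact absurd (Fin.ext a.symm) hij

theorem tg_mem (i : Fin n) : 0 < tg i ∧ tg i < 1 := by
  unfold tg
  refine ⟨by positivity, ?_⟩
  rw [div_lt_one (by positivity)]
  exact pow_lt_pow_right₀ one_lt_two i.2

theorem tg_inj {i j : Fin n} (h : tg i = tg j) : i = j := by
  have h2 : (0 : ℝ) < 2 ^ n := by positivity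
  unfold tg at h
  rw [div_left_inj' h2.ne'] at h
  have h4 : 2 ^ (i : ℕ) = 2 ^ (j : ℕ) := by exact_mod_cast h
  exact Fin.ext (Nat.pow_right_injective le_rfl h4)

/-- Suppose `ν E ≠ 0`.  Take a compact `K ⊆ Y` with `μ Kᶜ` so small that for every `k` some `p ∈ E`
has `x p · b^k ∈ K` and `x p · g p · b^k = (x p · b^k) · cj b k (g p) ∈ K` (uniform absolute
continuity); pass to a subsequence. -/
theorem rr_core {μ : Measure (ModSpace n)} [IsFiniteMeasure μ] {b : SLR n}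
    (hb : μ.map (fun x => act x b) = μ) {i j : Fin n} {hij : i ≠ j} (hY : RootTriv μ hij)
    {P : Type*} [MeasurableSpace P] (ν : Measure P) [IsFiniteMeasure ν] {x : P → ModSpace n}
    {g : P → SLR n} (hx : Measurable x) (hg : Measurable g) (hxμ : ν.map x ≪ μ)
    (hyμ : ν.map (fun p => act (x p) (g p)) ≪ μ) {C : Set (SLR n)}
    (hC : ∀ gs : ℕ → SLR n, (∀ k, gs k ∈ C) → ∃ φ : ℕ → ℕ, StrictMono φ ∧ ∃ s ≠ 0,
      Tendsto (fun k => cj b (φ k) (gs (φ k))) atTop (𝓝 (rt hij s)))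
    {E : Set P} (hE : MeasurableSet E) (hEC : ∀ p ∈ E, g p ∈ C) : ν E = 0 := by
  by_contra hE0
  obtain ⟨Y, hYm, hY0, hY⟩ := hY
  have hy : Measurable fun p => act (x p) (g p) := measurable_act.comp (hx.prodMk hg)
  have hε : ν E / 2 ≠ 0 := by simpa using hE0
  obtain ⟨δ₁, hδ₁, H₁⟩ := dro_uac hxμ hε
  obtain ⟨δ₂, hδ₂, H₂⟩ := dro_uac hyμ hε
  obtain ⟨K, hKY, hK, hKμ⟩ := hYm.exists_isCompact_sdiff_lt (measure_ne_top μ Y)
    (lt_min hδ₁ hδ₂).ne'
  have hKm : MeasurableSet K := hK.isClosed.measurableSet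
  have hKc : μ Kᶜ < min δ₁ δ₂ := by
    refine lt_of_le_of_lt ?_ hKμ
    calc μ Kᶜ ≤ μ (Y \ K ∪ Yᶜ) := measure_mono fun z hz => by
          by_cases h : z ∈ Y
          · exact Or.inl ⟨h, hz⟩
          · exact Or.inr h
      _ ≤ μ (Y \ K) + μ Yᶜ := measure_union_le _ _
      _ = μ (Y \ K) := by rw [hY0, add_zero]
  have hpow : ∀ k : ℕ, μ.map (fun z => act z (b ^ k)) = μ := fun k => by
    induction k with
    | zero => simp only [pow_zero, act_one, Measure.map_id']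
    | succ k ih =>
      have e : (fun z => act z (b ^ (k + 1))) = (fun z => act z b) ∘ fun z => act z (b ^ k) := by
        funext z
        simp only [Function.comp, act_mul, pow_succ]
      rw [e, ← Measure.map_map (measurable_act_left _) (measurable_act_left _), ih, hb]
  have hex : ∀ k : ℕ, ∃ p ∈ E, act (x p) (b ^ k) ∈ K ∧ act (act (x p) (g p)) (b ^ k) ∈ K := by
    intro k
    have hA : MeasurableSet ((fun z => act z (b ^ k)) ⁻¹' Kᶜ) :=
      measurable_act_left _ hKm.compl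
    have hAμ : μ ((fun z => act z (b ^ k)) ⁻¹' Kᶜ) < min δ₁ δ₂ := by
      rw [← Measure.map_apply (measurable_act_left _) hKm.compl, hpow]
      exact hKc
    have a1 := H₁ _ (hAμ.trans_le (min_le_left _ _))
    have a2 := H₂ _ (hAμ.trans_le (min_le_right _ _))
    rw [Measure.map_apply hx hA] at a1
    rw [Measure.map_apply hy hA] at a2
    by_contra hc
    have a3 : E ⊆ x ⁻¹' ((fun z => act z (b ^ k)) ⁻¹' Kᶜ) ∪
        (fun p => act (x p) (g p)) ⁻¹' ((fun z => act z (b ^ k)) ⁻¹' Kᶜ) := fun p hp => by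
      by_contra h
      rw [mem_union, not_or] at h
      exact hc ⟨p, hp, not_not.1 h.1, not_not.1 h.2⟩
    have a4 := ((measure_mono a3).trans (measure_union_le _ _)).trans_lt (ENNReal.add_lt_add a1 a2)
    rw [ENNReal.add_halves] at a4
    exact lt_irrefl _ a4
  choose p hpE hp1 hp2 using hex
  obtain ⟨φ, -, s, hs, hlim⟩ := hC (fun k => g (p k)) fun k => hEC _ (hpE k)
  obtain ⟨z, hz, ψ, hψ, hzl⟩ := hK.tendsto_subseq
    (x := fun k => act (x (p (φ k))) (b ^ φ k)) fun k => hp1 _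
  have h1 := (continuous_act.tendsto (z, rt hij s)).comp
    (hzl.prodMk_nhds (hlim.comp hψ.tendsto_atTop))
  have h2 : act z (rt hij s) ∈ K := by
    refine hK.isClosed.mem_of_tendsto h1 (Eventually.of_forall fun k => ?_)
    have := hp2 (φ (ψ k))
    simp only [Function.comp, act_mul, cj] at this ⊢
    rwa [← mul_assoc, ← mul_assoc, mul_inv_cancel, one_mul]
  exact hs (hY z (hKY hz) s (hKY h2))

end Crest.Agent.R014

end
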