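import Crest.Agent.R014.DRoot

/-! # Row 14: reduction to root groups, II -/

set_option autoImplicit false

noncomputable section

open MeasureTheory ProbabilityTheory Filter Topology Set
open scoped ENNReal Matrix NumberField
open Crest.NumberTheoryR.Packets

namespace Crest.Agent.R014

variable {n : ℕ}

theorem dro2_tS_inj (S : Finset (Fin n)) : Function.Injective (tS S 2) := by
  intro i j h
  have hi := tg_mem i
  have hj := tg_mem j
  unfold tS at h
  apply tg_inj
  split_ifs at h <;> linarith [hi.1, hi.2, hj.1, hj.2]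

theorem dro2_conv {S : Finset (Fin n)} {i j : Fin n} (hi : i ∈ S) (hj : j ∉ S) (hij : i ≠ j)
    {R : ℝ} (hR : 0 < R) (gs : ℕ → SLR n)
    (hgs : ∀ k, (IsLow S (gs k) ∧ ∀ a, (gs k).1 a a = 1) ∧
      (∀ a b, a ∈ S → b ∉ S → tg j - tg i < tg b - tg a → (gs k).1 a b = 0) ∧
      (∀ a b, |(gs k).1 a b| ≤ R) ∧ R⁻¹ ≤ |(gs k).1 i j|) :
    ∃ φ : ℕ → ℕ, StrictMono φ ∧ ∃ s ≠ 0,
      Tendsto (fun k => cj (dA (tS S (tg j - tg i))) (φ k) (gs (φ k))) atTop (𝓝 (rt hij s)) := by
  obtain ⟨s, -, φ, hφ, hs⟩ := (isCompact_Icc (a := -R) (b := R)).tendsto_subseq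
    (x := fun k => (gs k).1 i j) (fun k => abs_le.1 ((hgs k).2.2.1 i j))
  have hs0 : s ≠ 0 := by
    have h1 : R⁻¹ ≤ |s| := ge_of_tendsto' hs.abs fun k => (hgs (φ k)).2.2.2
    intro h
    rw [h, abs_zero] at h1
    exact absurd (inv_pos.2 hR) (not_lt.2 h1)
  refine ⟨φ, hφ, s, hs0, tendsto_SL_iff.2 fun a b => ?_⟩
  simp only [cj_dA_entry, rt_entry]
  by_cases hab : a = b
  · subst hab
    have : ¬(a = i ∧ a = j) := fun h => hij (h.1.symm.trans h.2)
    simp only [(hgs _).1.2, sub_self, mul_zero, Real.exp_zero, mul_one, if_neg this,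
      Matrix.one_apply_eq, add_zero]
    exact tendsto_const_nhds
  rw [Matrix.one_apply_ne hab, zero_add]
  by_cases h0 : a = i ∧ b = j
  · obtain ⟨rfl, rfl⟩ := h0
    have : tS S (tg b - tg a) b - tS S (tg b - tg a) a = 0 := by
      simp only [tS, if_pos hi, if_neg hj]; ring
    simp only [this, mul_zero, Real.exp_zero, mul_one, and_self, if_true]
    exact hs
  rw [if_neg h0]
  by_cases hneg : tS S (tg j - tg i) b - tS S (tg j - tg i) a < 0
  · have h1 : Tendsto (fun k : ℕ => Real.exp ((φ k : ℝ) *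
        (tS S (tg j - tg i) b - tS S (tg j - tg i) a))) atTop (𝓝 0) :=
      Real.tendsto_exp_atBot.comp
        ((tendsto_natCast_atTop_atTop.comp hφ.tendsto_atTop).atTop_mul_const_of_neg hneg)
    have h2 := h1.const_mul R
    rw [mul_zero] at h2
    refine squeeze_zero_norm (fun k => ?_) h2
    rw [Real.norm_eq_abs, abs_mul, abs_of_pos (Real.exp_pos _)]
    exact mul_le_mul_of_nonneg_right ((hgs _).2.2.1 a b) (Real.exp_pos _).le
  · have hz : ∀ k, (gs k).1 a b = 0 := by
      intro k
      have ha := tg_mem a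
      have hb := tg_mem b
      have hne : tg a ≠ tg b := fun h => hab (tg_inj h)
      by_cases haS : a ∈ S <;> by_cases hbS : b ∈ S
      · refine (hgs k).1.1.2 a b ?_
        simp only [tS, if_pos haS, if_pos hbS] at hneg ⊢
        exact lt_of_le_of_ne (by linarith) (fun h => hne (by linarith))
      · refine (hgs k).2.1 a b haS hbS ?_
        simp only [tS, if_pos haS, if_neg hbS] at hneg
        refine lt_of_le_of_ne (by linarith) fun h => h0 ?_
        have := tg_sub_inj hij h
        exact ⟨this.1.symm, this.2.symm⟩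
      · refine (hgs k).1.1.2 a b ?_
        simp only [tS, if_neg haS, if_pos hbS]
        linarith [ha.1, ha.2, hb.1, hb.2]
      · refine (hgs k).1.1.2 a b ?_
        simp only [tS, if_neg haS, if_neg hbS] at hneg ⊢
        exact lt_of_le_of_ne (by linarith) (fun h => hne (by linarith))
    simp only [hz, zero_mul]
    exact tendsto_const_nhds

/-- Unipotent case.  Induction over the cross pairs `(i, j)`, `i ∈ S`, `j ∉ S`, in decreasing order
of `tg j - tg i`: if the earlier cross entries vanish a.e., apply `rr_core` with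
`b = dA (tS S (tg j - tg i))` and `C = {g | IsLow S g, diagonal 1, earlier cross entries 0,
all entries ≤ R, |g i j| ≥ 1/R}`: all other off-diagonal entries are contracted. -/
theorem rr_unip {μ : Measure (ModSpace n)} [IsFiniteMeasure μ] (hA : AInv μ) {S : Finset (Fin n)}
    (hS : ∀ i ∈ S, ∀ j ∉ S, ∀ h : i ≠ j, RootTriv μ h)
    {P : Type*} [MeasurableSpace P] (ν : Measure P) [IsFiniteMeasure ν] {x : P → ModSpace n}
    {g : P → SLR n} (hx : Measurable x) (hg : Measurable g) (hxμ : ν.map x ≪ μ)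
    (hyμ : ν.map (fun p => act (x p) (g p)) ≪ μ)
    (hlow : ∀ p, IsLow S (g p) ∧ ∀ i, (g p).1 i i = 1) : ∀ᵐ p ∂ν, NoCross S (g p) := by
  have hm : ∀ a b, Measurable fun p => (g p).1 a b := fun a b =>
    (continuous_entry a b).measurable.comp hg
  have wf : WellFounded fun q q' : Fin n × Fin n => tg q'.2 - tg q'.1 < tg q.2 - tg q.1 :=
    @Finite.wellFounded_of_trans_of_irrefl _ _ _ ⟨fun _ _ _ h1 h2 => h2.trans h1⟩
      ⟨fun _ => lt_irrefl _⟩
  have key : ∀ q : Fin n × Fin n, q.1 ∈ S → q.2 ∉ S → ∀ᵐ p ∂ν, (g p).1 q.1 q.2 = 0 := by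
    intro q
    induction q using wf.induction with
    | _ q ih =>
      obtain ⟨i, j⟩ := q
      intro hi hj
      have hij : i ≠ j := fun h => hj (h ▸ hi)
      have h1 : ∀ᵐ p ∂ν, ∀ a b, a ∈ S → b ∉ S → tg j - tg i < tg b - tg a → (g p).1 a b = 0 := by
        refine ae_all_iff.2 fun a => ae_all_iff.2 fun b => ?_
        by_cases h : a ∈ S ∧ b ∉ S ∧ tg j - tg i < tg b - tg a
        · filter_upwards [ih (a, b) h.2.2 h.1 h.2.1] with p hp _ _ _ using hp
        · exact Eventually.of_forall fun p h1 h2 h3 => (h ⟨h1, h2, h3⟩).elim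
      have h2 : ∀ R : ℕ, ν {p | (∀ a b, a ∈ S → b ∉ S → tg j - tg i < tg b - tg a →
          (g p).1 a b = 0) ∧ (∀ a b, |(g p).1 a b| ≤ (R + 1 : ℝ)) ∧
            (R + 1 : ℝ)⁻¹ ≤ |(g p).1 i j|} = 0 := by
        intro R
        refine rr_core (hA (tS S (tg j - tg i))) (hS i hi j hj hij) ν hx hg hxμ hyμ
          (C := {h | (IsLow S h ∧ ∀ a, h.1 a a = 1) ∧
            (∀ a b, a ∈ S → b ∉ S → tg j - tg i < tg b - tg a → h.1 a b = 0) ∧
            (∀ a b, |h.1 a b| ≤ (R + 1 : ℝ)) ∧ (R + 1 : ℝ)⁻¹ ≤ |h.1 i j|})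
          (fun gs hgs => dro2_conv hi hj hij (by positivity) gs hgs) ?_
          (fun p hp => ⟨hlow p, hp⟩)
        refine Measurable.setOf (Measurable.and ?_ (Measurable.and ?_ ?_))
        · refine Measurable.forall fun a => Measurable.forall fun b => ?_
          refine measurable_const.imp (measurable_const.imp (measurable_const.imp ?_))
          exact measurableSet_setOfPred.1 (measurableSet_eq_fun (hm a b) measurable_const)
        · refine Measurable.forall fun a => Measurable.forall fun b => ?_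
          exact measurableSet_setOfPred.1 (measurableSet_le (hm a b).abs measurable_const)
        · exact measurableSet_setOfPred.1 (measurableSet_le measurable_const (hm i j).abs)
      have h3 := ae_all_iff.2 fun R : ℕ => measure_eq_zero_iff_ae_notMem.1 (h2 R)
      filter_upwards [h1, h3] with p hp1 hp3
      by_contra hne
      obtain ⟨R, hR⟩ := exists_nat_ge (|(g p).1 i j|⁻¹ + ∑ a, ∑ b, |(g p).1 a b|)
      have hpos : 0 < |(g p).1 i j| := abs_pos.2 hne
      have hsum : 0 ≤ ∑ a, ∑ b, |(g p).1 a b| :=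
        Finset.sum_nonneg fun a _ => Finset.sum_nonneg fun b _ => abs_nonneg _
      refine hp3 R ⟨hp1, fun a b => ?_, ?_⟩
      · have e1 : |(g p).1 a b| ≤ ∑ b, |(g p).1 a b| :=
          Finset.single_le_sum (f := fun b => |(g p).1 a b|) (fun _ _ => abs_nonneg _)
            (Finset.mem_univ b)
        have e2 : ∑ b, |(g p).1 a b| ≤ ∑ a, ∑ b, |(g p).1 a b| :=
          Finset.single_le_sum (f := fun a => ∑ b, |(g p).1 a b|)
            (fun _ _ => Finset.sum_nonneg fun b _ => abs_nonneg _) (Finset.mem_univ a)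
        have e3 := inv_pos.2 hpos
        linarith
      · exact inv_le_of_inv_le₀ hpos (by linarith)
  have := ae_all_iff.2 fun i => ae_all_iff.2 fun j =>
    (show ∀ᵐ p ∂ν, i ∈ S → j ∉ S → (g p).1 i j = 0 by
      by_cases h : i ∈ S ∧ j ∉ S
      · filter_upwards [key (i, j) h.1 h.2] with p hp _ _ using hp
      · exact Eventually.of_forall fun p h1 h2 => (h ⟨h1, h2⟩).elim)
  filter_upwards [this] with p hp i hi j hj using hp i j hi hj

theorem dro2_null {μ : Measure (ModSpace n)} (hA : AInv μ) {P : Type*} [MeasurableSpace P]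
    (ν : Measure P) [IsFiniteMeasure ν] {y : P → ModSpace n} (hy : Measurable y)
    (hyμ : ν.map y ≪ μ) {τ : P → Fin n → ℝ} (hτ : Measurable τ) :
    (ν.prod (volume : Measure (Fin n → ℝ)).toFinite).map
      (fun q : P × (Fin n → ℝ) => act (y q.1) (dA (q.2 - τ q.1))) ≪ μ := by
  have m0 : Measurable fun q : P × (Fin n → ℝ) => act (y q.1) (dA q.2) :=
    measurable_act.comp ((hy.comp measurable_fst).prodMk
      (continuous_dA.measurable.comp measurable_snd))
  have m1 : Measurable fun q : P × (Fin n → ℝ) => act (y q.1) (dA (q.2 - τ q.1)) :=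
    measurable_act.comp ((hy.comp measurable_fst).prodMk
      (continuous_dA.measurable.comp (measurable_snd.sub (hτ.comp measurable_fst))))
  refine Measure.AbsolutelyContinuous.mk fun N hN h0 => ?_
  rw [Measure.map_apply m1 hN]
  have a1 : (ν.prod (volume : Measure (Fin n → ℝ)))
      ((fun q : P × (Fin n → ℝ) => act (y q.1) (dA q.2)) ⁻¹' N) = 0 := by
    rw [Measure.prod_apply_symm (m0 hN)]
    refine (lintegral_congr fun a => ?_).trans lintegral_zero
    have b1 : μ ((fun z => act z (dA a)) ⁻¹' N) = 0 := by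
      rw [← Measure.map_apply (measurable_act_left _) hN, hA a, h0]
    have b2 := hyμ b1
    rw [Measure.map_apply hy (measurable_act_left _ hN)] at b2
    exact b2
  refine Measure.measure_prod_null_of_ae_null (m1 hN) ?_
  filter_upwards [(Measure.measure_prod_null (m0 hN)).1 a1] with p hp
  rw [Pi.zero_apply] at hp ⊢
  rw [toFinite_apply_eq_zero_iff, ← hp, ← measure_preimage_add_right volume (-τ p)
    (Prod.mk p ⁻¹' ((fun q : P × (Fin n → ℝ) => act (y q.1) (dA q.2)) ⁻¹' N))]
  simp only [sub_eq_add_neg]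
  rfl

theorem dro2_sum_log {S : Finset (Fin n)} {h : SLR n} (hl : IsLow S h) :
    ∑ i, Real.log (h.1 i i) = 0 := by
  have hinj : Function.Injective fun i => -tS S 2 i := fun i j e => dro2_tS_inj S (neg_injective e)
  have hd : h.1.det = ∏ i, h.1 i i :=
    @Matrix.det_of_isUpperTriangular _ _ _ _ _ _ (LinearOrder.lift' (fun i => -tS S 2 i) hinj)
      (fun i j e => hl.2 i j (neg_lt_neg_iff.1 e))
  rw [← Real.log_prod (fun i _ => (hl.1 i).ne'), ← hd, h.2, Real.log_one]

theorem dro2_entry {S : Finset (Fin n)} {h : SLR n} (hl : IsLow S h) (a : Fin n → ℝ)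
    (i j : Fin n) :
    ((dA a)⁻¹ * (h * dA (-fun i => Real.log (h.1 i i))) * dA a).1 i j =
      h.1 i j * (h.1 j j)⁻¹ * Real.exp (a j - a i) := by
  rw [conj_dA_entry]
  congr 1
  have e : (h * dA (-fun i => Real.log (h.1 i i))).1 = h.1 * (dA (-fun i => Real.log (h.1 i i))).1 :=
    rfl
  rw [e]
  simp only [dA, Matrix.mul_diagonal, Pi.neg_apply, Finset.sum_neg_distrib, dro2_sum_log hl,
    neg_zero, zero_div, sub_zero]
  rw [Real.exp_neg, Real.exp_log (hl.1 j)]

/-- A triangular matrix with positive diagonal: `g = g' * dA t` with `t i = log (g i i)` (the product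
of the diagonal entries is `det g = 1`), `g'` has diagonal `1`.  Apply `rr_unip` on `P × (Fin n → ℝ)`
with `ν ⊗ (volume restricted to the unit cube)`, `x' (p, a) = x p · dA a`,
`g' (p, a) = (dA a)⁻¹ g' p (dA a)`; the second point is `(x p · g p) · dA (a - t p)`. -/
theorem rr_low {μ : Measure (ModSpace n)} [IsFiniteMeasure μ] (hA : AInv μ) {S : Finset (Fin n)}
    (hS : ∀ i ∈ S, ∀ j ∉ S, ∀ h : i ≠ j, RootTriv μ h)
    {P : Type*} [MeasurableSpace P] (ν : Measure P) [IsFiniteMeasure ν] {x : P → ModSpace n}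
    {g : P → SLR n} (hx : Measurable x) (hg : Measurable g) (hxμ : ν.map x ≪ μ)
    (hyμ : ν.map (fun p => act (x p) (g p)) ≪ μ) (hlow : ∀ p, IsLow S (g p)) :
    ∀ᵐ p ∂ν, NoCross S (g p) := by
  have hm : ∀ a b, Measurable fun p => (g p).1 a b := fun a b =>
    (continuous_entry a b).measurable.comp hg
  have hτ : Measurable fun p (i : Fin n) => Real.log ((g p).1 i i) :=
    measurable_pi_lambda _ fun i => (hm i i).log
  have md : Measurable fun q : P × (Fin n → ℝ) => dA q.2 :=
    continuous_dA.measurable.comp measurable_snd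
  have mg : Measurable fun q : P × (Fin n → ℝ) =>
      (dA q.2)⁻¹ * (g q.1 * dA (-fun i => Real.log ((g q.1).1 i i))) * dA q.2 :=
    (md.inv.mul ((hg.comp measurable_fst).mul
      (continuous_dA.measurable.comp (hτ.comp measurable_fst).neg))).mul md
  have h1 := dro2_null hA ν hx hxμ (τ := fun _ => 0) measurable_const
  simp only [sub_zero] at h1
  have h2 := dro2_null hA ν (y := fun p => act (x p) (g p)) (measurable_act.comp (hx.prodMk hg)) hyμ hτ
  have key := rr_unip hA hS (ν.prod (volume : Measure (Fin n → ℝ)).toFinite)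
    (x := fun q => act (x q.1) (dA q.2))
    (g := fun q => (dA q.2)⁻¹ * (g q.1 * dA (-fun i => Real.log ((g q.1).1 i i))) * dA q.2)
    (measurable_act.comp ((hx.comp measurable_fst).prodMk md)) mg h1 ?_ ?_
  · filter_upwards [Measure.ae_ae_of_ae_prod key] with p hp
    rw [ae_toFinite] at hp
    obtain ⟨a, ha⟩ := hp.exists
    intro i hi j hj
    have := ha i hi j hj
    simp only [dro2_entry (hlow p)] at this
    rcases mul_eq_zero.1 this with h | h
    · rcases mul_eq_zero.1 h with h | h
      · exact h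
      · exact absurd h (inv_pos.2 ((hlow p).1 j)).ne'
    · exact absurd h (Real.exp_pos _).ne'
  · convert h2 using 3 with q
    simp only [act_mul]
    congr 1
    rw [sub_eq_neg_add, dA_add]
    group
  · intro q
    have hd : ∀ i, ((dA q.2)⁻¹ * (g q.1 * dA (-fun i => Real.log ((g q.1).1 i i))) * dA q.2).1 i i
        = 1 := by
      intro i
      rw [dro2_entry (hlow q.1), sub_self, Real.exp_zero, mul_one,
        mul_inv_cancel₀ ((hlow q.1).1 i).ne']
    refine ⟨⟨fun i => by rw [hd i]; exact one_pos, fun i j h => ?_⟩, hd⟩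
    rw [dro2_entry (hlow q.1), (hlow q.1).2 i j h, zero_mul, zero_mul]

end Crest.Agent.R014

end
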