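import Crest.Agent.R014.DRoot2

/-! # Row 14: reduction to root groups, III -/

set_option autoImplicit false

noncomputable section

open MeasureTheory ProbabilityTheory Filter Topology Set
open scoped ENNReal Matrix NumberField
open Crest.NumberTheoryR.Packets

namespace Crest.Agent.R014

variable {n : ℕ}

/-- block triangular matrices. -/
def dro3_tri (b : Fin n → ℝ) : Subgroup (SLR n) where
  carrier := {h | h.1.BlockTriangular b}
  one_mem' := Matrix.blockTriangular_one
  mul_mem' := fun {g h} hg hh => Matrix.BlockTriangular.mul hg hh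
  inv_mem' := fun {g} hg => by
    have e : g.1 * (g⁻¹).1 = 1 := by
      rw [← Matrix.SpecialLinearGroup.coe_mul, mul_inv_cancel, Matrix.SpecialLinearGroup.coe_one]
    have : Invertible g.1 := invertibleOfRightInverse _ _ e
    have := Matrix.blockTriangular_inv_of_blockTriangular hg
    rw [Matrix.inv_eq_right_inv e] at this
    exact this

theorem dro3_mem_tri {b : Fin n → ℝ} {h : SLR n} :
    h ∈ dro3_tri b ↔ ∀ i j, b j < b i → h.1 i j = 0 := Iff.rfl

theorem dro3_tri_closed (b : Fin n → ℝ) : IsClosed (dro3_tri b : Set (SLR n)) := by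
  have : (dro3_tri b : Set (SLR n)) = ⋂ i, ⋂ j, ⋂ _ : b j < b i, {h : SLR n | h.1 i j = 0} := by
    ext h
    simp only [SetLike.mem_coe, dro3_mem_tri, mem_iInter, mem_setOf_eq]
  rw [this]
  exact isClosed_iInter fun i => isClosed_iInter fun j => isClosed_iInter fun _ =>
    isClosed_eq (continuous_entry i j) continuous_const

theorem dro3_diag {b : Fin n → ℝ} (hb : Function.Injective b) {g h : SLR n} (hg : g ∈ dro3_tri b)
    (hh : h ∈ dro3_tri b) (i : Fin n) : (g * h).1 i i = g.1 i i * h.1 i i := by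
  rw [Matrix.SpecialLinearGroup.coe_mul, Matrix.mul_apply]
  refine Finset.sum_eq_single i (fun k _ hk => ?_) (by simp)
  rcases lt_or_gt_of_ne (hb.ne hk) with h1 | h1
  · rw [dro3_mem_tri.1 hg i k h1, zero_mul]
  · rw [dro3_mem_tri.1 hh k i h1, mul_zero]

theorem dro3_diag_inv {b : Fin n → ℝ} (hb : Function.Injective b) {g : SLR n}
    (hg : g ∈ dro3_tri b) (i : Fin n) : g.1 i i * (g⁻¹).1 i i = 1 := by
  rw [← dro3_diag hb hg (inv_mem hg), mul_inv_cancel]
  simp

theorem dro3_inj (S : Finset (Fin n)) : Function.Injective fun i => -tS S 2 i := by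
  intro i j hij
  have h : tS S 2 i = tS S 2 j := neg_injective hij
  have hi := tg_mem i
  have hj := tg_mem j
  unfold tS at h
  apply tg_inj
  split_ifs at h <;> linarith [hi.1, hi.2, hj.1, hj.2]

theorem dro3_low_iff (S : Finset (Fin n)) (h : SLR n) :
    IsLow S h ↔ (∀ i, 0 < h.1 i i) ∧ h ∈ dro3_tri fun i => -tS S 2 i := by
  simp only [IsLow, dro3_mem_tri, neg_lt_neg_iff]

/-- the group `IsLow S`. -/
def dro3_low (S : Finset (Fin n)) : Subgroup (SLR n) where
  carrier := {h | IsLow S h}
  one_mem' := (dro3_low_iff S 1).2 ⟨fun i => by simp, one_mem _⟩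
  mul_mem' := fun {g h} hg hh => by
    obtain ⟨g1, g2⟩ := (dro3_low_iff S g).1 hg
    obtain ⟨h1, h2⟩ := (dro3_low_iff S h).1 hh
    refine (dro3_low_iff S _).2 ⟨fun i => ?_, mul_mem g2 h2⟩
    rw [dro3_diag (dro3_inj S) g2 h2]
    exact mul_pos (g1 i) (h1 i)
  inv_mem' := fun {g} hg => by
    obtain ⟨g1, g2⟩ := (dro3_low_iff S g).1 hg
    refine (dro3_low_iff S _).2 ⟨fun i => ?_, inv_mem g2⟩
    have := dro3_diag_inv (dro3_inj S) g2 i
    exact (pos_iff_pos_of_mul_pos (by rw [this]; exact one_pos)).1 (g1 i)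

theorem dro3_closed (S : Finset (Fin n)) : IsClosed (dro3_low S : Set (SLR n)) := by
  have : (dro3_low S : Set (SLR n)) =
      (⋂ i, {h : SLR n | 0 ≤ h.1 i i}) ∩ (dro3_tri fun i => -tS S 2 i : Set (SLR n)) := by
    ext h
    simp only [mem_inter_iff, mem_iInter, mem_setOf_eq, SetLike.mem_coe]
    refine (dro3_low_iff S h).trans ⟨fun hh => ⟨fun i => (hh.1 i).le, hh.2⟩, fun hh =>
      ⟨fun i => (hh.1 i).lt_of_ne' fun h0 => ?_, hh.2⟩⟩
    have := dro3_diag_inv (dro3_inj S) hh.2 i
    rw [h0, zero_mul] at this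
    exact zero_ne_one this
  rw [this]
  exact (isClosed_iInter fun i => isClosed_le continuous_const (continuous_entry i i)).inter
    (dro3_tri_closed _)

/-- the key of `NoCross`. -/
def dro3_key (S : Finset (Fin n)) (i : Fin n) : ℝ := if i ∈ S then 1 else 0

theorem dro3_noCross_iff (S : Finset (Fin n)) (h : SLR n) :
    NoCross S h ↔ h ∈ dro3_tri (dro3_key S) := by
  rw [dro3_mem_tri]
  refine ⟨fun hh i j hij => ?_, fun hh i hi j hj => hh i j ?_⟩
  · unfold dro3_key at hij
    split_ifs at hij with h1 h2 h2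
    · exact absurd hij (lt_irrefl _)
    · exact absurd hij (by norm_num)
    · exact hh i h2 j h1
    · exact absurd hij (lt_irrefl _)
  · simp [dro3_key, hi, hj]

/-- `{h | IsLow S h}` is a closed subgroup (block triangular matrices for the injective key
`tS S 2`; closedness: the diagonal entries have product one), `NoCross` cuts out a subgroup of it.
Apply `exists_conull_coset` and `rr_low`. -/
theorem exists_low_conull {μ : Measure (ModSpace n)} [IsFiniteMeasure μ] (hA : AInv μ)
    {S : Finset (Fin n)} (hS : ∀ i ∈ S, ∀ j ∉ S, ∀ h : i ≠ j, RootTriv μ h) :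
    ∃ Y : Set (ModSpace n), MeasurableSet Y ∧ μ Yᶜ = 0 ∧
      ∀ x ∈ Y, ∀ h, IsLow S h → act x h ∈ Y → NoCross S h := by
  have hcl := dro3_closed S
  have : PolishSpace (dro3_low S) := hcl.polishSpace
  have : LocallyCompactSpace (dro3_low S) := hcl.locallyCompactSpace
  have hval : Measurable (Subtype.val : dro3_low S → SLR n) := measurable_subtype_coe
  obtain ⟨Y, hY, hY0, hYc⟩ := exists_conull_coset (X := ModSpace n) (V := dro3_low S)
    (fun x v => act x v.1)
    (measurable_act.comp (measurable_fst.prodMk (hval.comp measurable_snd)))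
    (fun x => act_one x) (fun x g h => act_mul x g.1 h.1) μ
    ((dro3_tri (dro3_key S)).subgroupOf (dro3_low S))
    (hval (dro3_tri_closed (dro3_key S)).measurableSet)
    (fun ν hν h1 h2 => by
      have := rr_low hA hS ν (x := Prod.fst) (g := fun p => p.2.1) measurable_fst
        (hval.comp measurable_snd) h1 h2 (fun p => p.2.2)
      filter_upwards [this] with p hp
      exact (dro3_noCross_iff S _).1 hp)
  exact ⟨Y, hY, hY0, fun x hx h hl hxh => (dro3_noCross_iff S h).2 (hYc x hx ⟨h, hl⟩ hxh)⟩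

end Crest.Agent.R014

end
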