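import Crest.Agent.R014.DAff2

/-! # Row 14: a non-trivial stabiliser forces invariance -/

set_option autoImplicit false

noncomputable section

open MeasureTheory ProbabilityTheory Filter Topology Set
open scoped ENNReal Matrix NumberField
open Crest.NumberTheoryR.Packets

namespace Crest.Agent.R014

/-- The sets `{c^j ≤ |σ| < c^(j+1)}`, `j ∈ ℤ`, are disjoint and have the same finite measure. -/
theorem no_scale {X : Type*} [MeasurableSpace X] {μ : Measure X} [IsFiniteMeasure μ] {a : X → X}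
    (ha : MeasurePreserving a μ μ) {σ : X → ℝ} (hσ : Measurable σ) {c : ℝ} (hc : 0 < c)
    (hc1 : c ≠ 1) (h : ∀ᵐ x ∂μ, σ (a x) = c * σ x) : ∀ᵐ x ∂μ, σ x = 0 := by
  have hl : Real.log c ≠ 0 := Real.log_ne_zero_of_pos_of_ne_one hc hc1
  set A : ℤ → Set X := fun j => {x | σ x ≠ 0 ∧ ⌊Real.log (σ x) / Real.log c⌋ = j} with hA
  have hm : ∀ j, MeasurableSet (A j) := fun j =>
    (hσ (measurableSet_singleton 0).compl).inter
      ((hσ.log.div_const _).floor (measurableSet_singleton j))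
  have h1 : ∀ j, μ (A (j + 1)) = μ (A j) := fun j => by
    rw [← ha.measure_preimage (hm _).nullMeasurableSet]
    refine measure_congr ?_
    filter_upwards [h] with x hx
    refine propext ?_
    show σ (a x) ≠ 0 ∧ ⌊Real.log (σ (a x)) / Real.log c⌋ = j + 1 ↔
      σ x ≠ 0 ∧ ⌊Real.log (σ x) / Real.log c⌋ = j
    rw [hx, mul_ne_zero_iff_left hc.ne']
    refine and_congr_right fun h0 => ?_
    rw [Real.log_mul hc.ne' h0, add_div, div_self hl, add_comm, Int.floor_add_one, add_left_inj]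
  have h2 : ∀ j, μ (A j) = μ (A 0) := fun j => by
    induction j using Int.induction_on with
    | zero => rfl
    | succ i ih => rw [h1, ih]
    | pred i ih => rw [← h1, sub_add_cancel, ih]
  have h3 : μ (⋃ j, A j) = ∑' _ : ℤ, μ (A 0) := by
    rw [measure_iUnion (fun i j hij => disjoint_left.2 fun x hi hj => hij (hi.2.symm.trans hj.2)) hm]
    exact tsum_congr h2
  have h4 : μ (A 0) = 0 := by
    by_contra h0
    exact measure_ne_top μ _ (h3.trans (ENNReal.tsum_const_eq_top_of_ne_zero h0))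
  rw [h4, tsum_zero] at h3
  refine measure_mono_null (fun x hx => ?_) h3
  exact mem_iUnion.2 ⟨_, hx, rfl⟩

/-- The smallest positive period (`0` if there is none or if there are arbitrarily small ones). -/
def per0 (ρ : Measure ℝ) : ℝ := sInf {r : ℝ | 0 < r ∧ aff 1 r ρ = ρ}

/-- The exponential tilt. -/
def tilt (ρ : Measure ℝ) : ℝ :=
  Real.log ((∫⁻ s in Ico (1 : ℝ) 2, ENNReal.ofReal (cau s)⁻¹ ∂ρ).toReal /
    (∫⁻ s in Ico (0 : ℝ) 1, ENNReal.ofReal (cau s)⁻¹ ∂ρ).toReal)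

theorem stab_add {ρ : Measure ℝ} [IsProbabilityMeasure ρ] {r r' : ℝ} (h : aff 1 r ρ = ρ)
    (h' : aff 1 r' ρ = ρ) : aff 1 (r + r') ρ = ρ := by
  have := aff_aff one_pos one_pos r' r ρ
  rw [h, h', one_mul, one_mul] at this
  exact this.symm

theorem stab_neg {ρ : Measure ℝ} [IsProbabilityMeasure ρ] {r : ℝ} (h : aff 1 r ρ = ρ) :
    aff 1 (-r) ρ = ρ := by
  have := aff_aff one_pos one_pos (-r) r ρ
  rwa [h, one_mul, one_mul, add_neg_cancel, aff_one_zero] at this

theorem dst_inv {c : ℝ} (hc : 0 < c) (ρ : Measure ℝ) [IsProbabilityMeasure ρ] :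
    aff c⁻¹ 0 (aff c 0 ρ) = ρ := by
  rw [aff_aff (inv_pos.2 hc) hc, inv_mul_cancel₀ hc.ne', mul_zero, add_zero, aff_one_zero]

theorem dst_iff {c : ℝ} (hc : 0 < c) (ρ : Measure ℝ) [IsProbabilityMeasure ρ] (r : ℝ) :
    aff 1 (c * r) (aff c 0 ρ) = aff c 0 ρ ↔ aff 1 r ρ = ρ := by
  have e : aff 1 (c * r) (aff c 0 ρ) = aff c 0 (aff 1 r ρ) := by
    rw [aff_aff one_pos hc, aff_aff hc one_pos]
    simp
  have := isProb_aff one_pos r ρ
  rw [e]
  exact ⟨fun h => by rw [← dst_inv hc (aff 1 r ρ), h, dst_inv hc], fun h => by rw [h]⟩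

theorem per0_aff {c : ℝ} (hc : 0 < c) (ρ : Measure ℝ) [IsProbabilityMeasure ρ] :
    per0 (aff c 0 ρ) = c * per0 ρ := by
  rw [per0, per0, ← smul_eq_mul, ← Real.sInf_smul_of_nonneg hc.le]
  congr 1
  ext r
  obtain ⟨r, rfl⟩ := mul_left_surjective₀ hc.ne' r
  exact (and_congr (mul_pos_iff_of_pos_left hc) (dst_iff hc ρ r)).trans
    (smul_mem_smul_set_iff₀ hc.ne' {r : ℝ | 0 < r ∧ aff 1 r ρ = ρ} r).symm

/-- A closed subgroup of `ℝ` with arbitrarily small positive elements is everything. -/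
theorem stab_all {ρ : Measure ℝ} [IsProbabilityMeasure ρ] (h : ∃ r ≠ 0, aff 1 r ρ = ρ)
    (h0 : per0 ρ = 0) (r : ℝ) : aff 1 r ρ = ρ := by
  let S : AddSubgroup ℝ :=
    { carrier := {r | aff 1 r ρ = ρ}
      zero_mem' := aff_one_zero ρ
      add_mem' := stab_add
      neg_mem' := stab_neg }
  have hd : Dense (S : Set ℝ) := by
    refine S.dense_of_no_min (fun hb => ?_) fun ⟨a, ha⟩ => ?_
    · obtain ⟨r, hr, hr'⟩ := h
      exact hr ((AddSubgroup.eq_bot_iff_forall S).1 hb r hr')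
    · have : per0 ρ = a := IsLeast.csInf_eq ⟨ha.1.symm, fun b hb => ha.2 hb.symm⟩
      exact ha.1.2.ne' (this.symm.trans h0)
  exact (isClosed_stab ρ).closure_subset (hd r)

end Crest.Agent.R014

end
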