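import Crest.Agent.R014.DStab

/-! # Row 14: measurability of period and tilt -/

set_option autoImplicit false

noncomputable section

open MeasureTheory ProbabilityTheory Filter Topology Set
open scoped ENNReal Matrix NumberField
open Crest.NumberTheoryR.Packets

namespace Crest.Agent.R014

theorem dst2_int_affU (ρ : Measure ℝ) (r : ℝ) {φ : ℝ → ℂ} (hφ : Continuous φ) :
    ∫ s, φ s ∂affU 1 r ρ = ∫ s, (cau (1 * s + r) / cau s) • φ (1 * s + r) ∂ρ := by
  have hw : Continuous fun s => cau (1 * s + r) / cau s :=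
    (continuous_cau.comp (by fun_prop)).div continuous_cau fun s => (cau_pos s).ne'
  unfold affU
  rw [integral_map (by fun_prop) hφ.aestronglyMeasurable,
    integral_withDensity_eq_integral_toReal_smul hw.measurable.ennreal_ofReal
      (Eventually.of_forall fun _ => ENNReal.ofReal_lt_top)]
  refine integral_congr_ae (Eventually.of_forall fun s => ?_)
  beta_reduce
  rw [ENNReal.toReal_ofReal (div_pos (cau_pos _) (cau_pos _)).le]

theorem dst2_cont_int (ρ : Measure ℝ) [IsProbabilityMeasure ρ] {φ : ℝ → ℂ} (hφ : Continuous φ)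
    (hb : ∀ s, ‖φ s‖ ≤ 1) : Continuous fun r => ∫ s, φ s ∂affU 1 r ρ := by
  simp only [dst2_int_affU ρ _ hφ]
  refine continuous_iff_continuousAt.2 fun r₀ => ?_
  obtain ⟨B, hB⟩ := cau_ratio_le one_pos (|r₀| + 1)
  refine continuousAt_of_dominated (bound := fun _ => B) (Eventually.of_forall fun r => ?_) ?_
    (integrable_const B) (Eventually.of_forall fun s => ?_)
  · exact (((continuous_cau.comp (by fun_prop)).div continuous_cau fun s => (cau_pos s).ne').smul
      (hφ.comp (by fun_prop))).aestronglyMeasurable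
  · have : ∀ᶠ r in 𝓝 r₀, |r| < |r₀| + 1 :=
      continuous_abs.continuousAt.eventually (gt_mem_nhds (lt_add_one _))
    filter_upwards [this] with r hr
    refine Eventually.of_forall fun s => ?_
    have h0 : 0 ≤ cau (1 * s + r) / cau s := (div_pos (cau_pos _) (cau_pos _)).le
    rw [norm_smul, Real.norm_of_nonneg h0]
    exact (mul_le_of_le_one_right h0 (hb _)).trans (hB r hr.le s)
  · refine Continuous.continuousAt ?_
    exact ((continuous_cau.comp (by fun_prop)).div_const _).smul (hφ.comp (by fun_prop))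

theorem dst2_cont_char (ρ : Measure ℝ) [IsProbabilityMeasure ρ] (t : ℝ) :
    Continuous fun r => charFun (aff 1 r ρ) t := by
  have h1 : Continuous fun r => ∫ _s, (1 : ℂ) ∂affU 1 r ρ :=
    dst2_cont_int ρ continuous_const fun _ => by simp
  have h2 : Continuous fun r => ∫ s : ℝ, Complex.exp (t * s * Complex.I) ∂affU 1 r ρ :=
    dst2_cont_int ρ (by fun_prop) fun s => by
      rw [← Complex.ofReal_mul, Complex.norm_exp_ofReal_mul_I]
  have e : ∀ r, ∫ _s, (1 : ℂ) ∂affU 1 r ρ = ((affU 1 r ρ univ).toReal : ℂ) := fun r => by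
    rw [integral_const, Complex.real_smul, mul_one, measureReal_def]
  have : (fun r => charFun (aff 1 r ρ) t) = fun r => (∫ _s, (1 : ℂ) ∂affU 1 r ρ)⁻¹ *
      ∫ s : ℝ, Complex.exp (t * s * Complex.I) ∂affU 1 r ρ := by
    funext r
    rw [charFun_apply_real, aff, integral_smul_measure, e, ENNReal.toReal_inv, Complex.real_smul,
      Complex.ofReal_inv]
  rw [this]
  refine (h1.inv₀ fun r => ?_).mul h2
  rw [e, Complex.ofReal_ne_zero]
  exact ENNReal.toReal_ne_zero.2 (affU_univ_ne one_pos r ρ)

theorem dst2_stab_iff (ρ : Measure ℝ) [IsProbabilityMeasure ρ] (r : ℝ) :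
    aff 1 r ρ = ρ ↔ ∀ q : ℚ, charFun (aff 1 r ρ) (q : ℝ) - charFun ρ (q : ℝ) = 0 := by
  refine ⟨fun h q => by rw [h, sub_self], fun h => ?_⟩
  have := isProb_aff one_pos r ρ
  refine Measure.ext_of_charFun ?_
  exact Rat.denseRange_cast.equalizer continuous_charFun continuous_charFun
    (funext fun q => sub_eq_zero.1 (h q))

/-- zero sets of countably many Carathéodory functions have measurable projections. -/
theorem dst2_cara {X : Type*} [MeasurableSpace X] (g : ℕ → X → ℝ → ℂ)
    (hm : ∀ k r, Measurable fun x => g k x r) (hc : ∀ k x, Continuous (g k x)) (a b : ℝ) :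
    MeasurableSet {x | ∃ r ∈ Icc a b, ∀ k, g k x r = 0} := by
  rcases lt_or_ge b a with hab | hab
  · simp [Icc_eq_empty_of_lt hab]
  have : {x | ∃ r ∈ Icc a b, ∀ k, g k x r = 0} =
      ⋂ m : ℕ, ⋃ q : ℚ, ⋂ k ∈ Finset.range m,
        {x | ‖g k x (max a (min b (q : ℝ)))‖ < 1 / ((m : ℝ) + 1)} := by
    ext x
    simp only [mem_ofPred_eq, mem_iInter, mem_iUnion]
    constructor
    · rintro ⟨r, hr, h0⟩ m
      have hU : IsOpen (⋂ k ∈ Finset.range m,
          {s : ℝ | ‖g k x (max a (min b s))‖ < 1 / ((m : ℝ) + 1)}) :=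
        isOpen_biInter_finset fun k _ =>
          isOpen_lt ((hc k x).comp (by fun_prop)).norm continuous_const
      obtain ⟨q, hq⟩ := Rat.denseRange_cast.exists_mem_open hU ⟨r, by
        simp only [mem_iInter, mem_ofPred_eq]
        intro k _
        rw [min_eq_right hr.2, max_eq_right hr.1, h0, norm_zero]
        exact Nat.one_div_pos_of_nat⟩
      exact ⟨q, by simpa only [mem_iInter, mem_ofPred_eq] using hq⟩
    · intro H
      have hne := IsCompact.nonempty_iInter_of_sequence_nonempty_isCompact_isClosed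
        (fun m : ℕ => Icc a b ∩ ⋂ k ∈ Finset.range m, {s : ℝ | ‖g k x s‖ ≤ 1 / ((m : ℝ) + 1)})
        (fun m s hs => ?_) (fun m => ?_) (by simpa using isCompact_Icc) (fun m => ?_)
      · obtain ⟨r, hr⟩ := hne
        rw [mem_iInter] at hr
        refine ⟨r, (hr 0).1, fun k => norm_le_zero_iff.1 ?_⟩
        refine ge_of_tendsto (tendsto_one_div_add_atTop_nhds_zero_nat (𝕜 := ℝ)) ?_
        filter_upwards [eventually_gt_atTop k] with m hm'
        have := (hr m).2
        simp only [mem_iInter, mem_ofPred_eq] at this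
        exact this k (Finset.mem_range.2 hm')
      · refine ⟨hs.1, ?_⟩
        have := hs.2
        simp only [mem_iInter, mem_ofPred_eq] at this ⊢
        intro k hk
        refine (this k (Finset.mem_range.2 (Nat.lt_succ_of_lt (Finset.mem_range.1 hk)))).trans ?_
        exact Nat.one_div_le_one_div (Nat.le_succ m)
      · obtain ⟨q, hq⟩ := H m
        refine ⟨max a (min b (q : ℝ)), ⟨le_max_left _ _, max_le hab (min_le_left _ _)⟩, ?_⟩
        simp only [mem_iInter, mem_ofPred_eq]
        exact fun k hk => (hq k hk).le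
      · exact isClosed_Icc.inter (isClosed_biInter fun k _ =>
          isClosed_le (hc k x).norm continuous_const)
  rw [this]
  exact MeasurableSet.iInter fun m => MeasurableSet.iUnion fun q =>
    Finset.measurableSet_biInter _ fun k _ => measurableSet_lt (hm k _).norm measurable_const

theorem dst2_meas_char {X : Type*} [MeasurableSpace X] (κ : Kernel X ℝ) (t : ℝ) :
    Measurable fun x => charFun (κ x) t := by
  simp only [charFun_apply_real]
  exact (StronglyMeasurable.integral_kernel (κ := κ)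
    (Continuous.stronglyMeasurable (by fun_prop))).measurable

theorem dst2_measSet {X : Type*} [MeasurableSpace X] (f : Kernel X ℝ) [IsMarkovKernel f]
    (a b : ℝ) : MeasurableSet {x | ∃ r ∈ Icc a b, aff 1 r (f x) = f x} := by
  obtain ⟨e, he⟩ := exists_surjective_nat ℚ
  have := dst2_cara (fun k x r => charFun (aff 1 r (f x)) (e k : ℝ) - charFun (f x) (e k : ℝ))
    (fun k r => (dst2_meas_char ⟨fun x => aff 1 r (f x),
      measurable_aff one_pos measurable_const f⟩ _).sub (dst2_meas_char f _))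
    (fun k x => (dst2_cont_char (f x) _).sub continuous_const) a b
  convert this using 6 with x r
  rw [dst2_stab_iff, he.forall]

/-- Let `d (x, r) = ∑_k 2^{-k} |∫ φ_k d(aff 1 r (f x)) - ∫ φ_k d(f x)|` for a countable family of
continuous functions `0 ≤ φ_k ≤ 1` separating probability measures (e.g. piecewise linear
approximations of `1_{Iic q}`): it is measurable in `x`, continuous in `r`, and vanishes iff
`aff 1 r (f x) = f x`.  The set `{x | ∃ r ∈ [a, b], d (x, r) = 0}` is `⋂_m ⋃_{q ∈ [a,b] ∩ (ℚ ∪ {a})}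
{d (x, q) < 1/m}`; `{0 < per0 < b}` and `{per0 = 0}` are countable combinations of such sets. -/
theorem measurable_per0 {X : Type*} [MeasurableSpace X] (f : Kernel X ℝ) [IsMarkovKernel f] :
    Measurable fun x => per0 (f x) := by
  have hP : ∀ b : ℝ, MeasurableSet {x | ∃ r, 0 < r ∧ r < b ∧ aff 1 r (f x) = f x} := by
    intro b
    have : {x | ∃ r, 0 < r ∧ r < b ∧ aff 1 r (f x) = f x} =
        ⋃ n : ℕ, {x | ∃ r ∈ Icc (1 / ((n : ℝ) + 1)) (b - 1 / ((n : ℝ) + 1)), aff 1 r (f x) = f x} := by
      ext x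
      simp only [mem_ofPred_eq, mem_iUnion]
      constructor
      · rintro ⟨r, h0, hb, hr⟩
        obtain ⟨n, hn⟩ := exists_nat_one_div_lt (lt_min h0 (sub_pos.2 hb))
        exact ⟨n, r, ⟨(hn.trans_le (min_le_left _ _)).le,
          by linarith [hn.trans_le (min_le_right _ _)]⟩, hr⟩
      · rintro ⟨n, r, ⟨h1, h2⟩, hr⟩
        have : (0 : ℝ) < 1 / ((n : ℝ) + 1) := Nat.one_div_pos_of_nat
        exact ⟨r, by linarith, by linarith, hr⟩
    rw [this]
    exact MeasurableSet.iUnion fun n => dst2_measSet f _ _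
  refine measurable_of_Iio fun b => ?_
  rcases le_or_gt b 0 with hb | hb
  · have : (fun x => per0 (f x)) ⁻¹' Iio b = ∅ := by
      refine eq_empty_of_forall_notMem fun x hx => ?_
      have h0 : 0 ≤ per0 (f x) := Real.sInf_nonneg fun r hr => hr.1.le
      exact absurd (lt_of_lt_of_le hx hb) (not_lt.2 h0)
    rw [this]
    exact MeasurableSet.empty
  · have : (fun x => per0 (f x)) ⁻¹' Iio b =
        (⋃ n : ℕ, {x | ∃ r, 0 < r ∧ r < (n : ℝ) ∧ aff 1 r (f x) = f x})ᶜ ∪
          {x | ∃ r, 0 < r ∧ r < b ∧ aff 1 r (f x) = f x} := by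
      ext x
      simp only [mem_preimage, mem_Iio, mem_union, mem_compl_iff, mem_iUnion, mem_ofPred_eq]
      rcases {r : ℝ | 0 < r ∧ aff 1 r (f x) = f x}.eq_empty_or_nonempty with he | hne
      · have h0 : per0 (f x) = 0 := by rw [per0, he, Real.sInf_empty]
        refine ⟨fun _ => Or.inl ?_, fun _ => h0 ▸ hb⟩
        rintro ⟨n, r, h1, -, h3⟩
        exact (he ▸ (show r ∈ {r : ℝ | 0 < r ∧ aff 1 r (f x) = f x} from ⟨h1, h3⟩) : r ∈ (∅ : Set ℝ))
      · have hbd : BddBelow {r : ℝ | 0 < r ∧ aff 1 r (f x) = f x} := ⟨0, fun r hr => hr.1.le⟩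
        rw [per0, csInf_lt_iff hbd hne]
        constructor
        · rintro ⟨r, hr, hrb⟩
          exact Or.inr ⟨r, hr.1, hrb, hr.2⟩
        · rintro (h | ⟨r, h1, h2, h3⟩)
          · obtain ⟨r, hr⟩ := hne
            obtain ⟨n, hn⟩ := exists_nat_gt r
            exact absurd ⟨n, r, hr.1, hn, hr.2⟩ h
          · exact ⟨r, ⟨h1, h3⟩, h2⟩
    rw [this]
    exact (MeasurableSet.iUnion fun n : ℕ => hP n).compl.union (hP b)

theorem measurable_tilt {X : Type*} [MeasurableSpace X] (f : Kernel X ℝ) [IsMarkovKernel f] :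
    Measurable fun x => tilt (f x) := by
  have hm : Measurable fun s : ℝ => ENNReal.ofReal (cau s)⁻¹ :=
    continuous_cau.measurable.inv.ennreal_ofReal
  unfold tilt
  exact Real.measurable_log.comp
    ((hm.setLIntegral_kernel measurableSet_Ico).ennreal_toReal.div
      (hm.setLIntegral_kernel measurableSet_Ico).ennreal_toReal)

end Crest.Agent.R014

end
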