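import Crest.Agent.R014.DDefs

/-! # Row 14: topology of the space of lattices -/

set_option autoImplicit false

noncomputable section

open MeasureTheory ProbabilityTheory Filter Topology Set
open scoped ENNReal Matrix NumberField
open Crest.NumberTheoryR.Packets

namespace Crest.Agent.R014

variable {n : ℕ}

theorem act_mkX (g h : SLR n) : act (mkX g) h = mkX (g * h) := rfl

theorem mkX_surj (x : ModSpace n) : ∃ g, mkX g = x := Quotient.exists_rep x

theorem mkX_out (x : ModSpace n) : mkX (Quotient.out x) = x := Quotient.out_eq x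

theorem mkX_eq_iff (g g' : SLR n) : mkX g = mkX g' ↔ g' * g⁻¹ ∈ intPoints n := by
  unfold mkX
  rw [Quotient.eq]
  exact QuotientGroup.rightRel_apply

theorem act_one (x : ModSpace n) : act x 1 = x := by
  obtain ⟨g, rfl⟩ := mkX_surj x
  rw [act_mkX, mul_one]

theorem act_mul (x : ModSpace n) (g h : SLR n) : act (act x g) h = act x (g * h) := by
  obtain ⟨a, rfl⟩ := mkX_surj x
  simp only [act_mkX, mul_assoc]

theorem continuous_mkX : Continuous (mkX : SLR n → ModSpace n) := continuous_quotient_mk'

/-- The saturation of an open set `U` is the union of the translates `γ U`. -/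
theorem isOpenMap_mkX : IsOpenMap (mkX : SLR n → ModSpace n) := by
  intro U hU
  have hq : IsQuotientMap (mkX : SLR n → ModSpace n) := isQuotientMap_quotient_mk'
  rw [← hq.isOpen_preimage]
  have h : mkX ⁻¹' (mkX '' U) = ⋃ γ ∈ intPoints n, (fun g : SLR n => γ * g) ⁻¹' U := by
    ext g
    simp only [mem_preimage, mem_image, mem_iUnion, exists_prop]
    constructor
    · rintro ⟨u, hu, hug⟩
      refine ⟨u * g⁻¹, (mkX_eq_iff g u).1 hug.symm, ?_⟩
      rwa [inv_mul_cancel_right]
    · rintro ⟨γ, hγ, hu⟩
      refine ⟨γ * g, hu, ((mkX_eq_iff g (γ * g)).2 ?_).symm⟩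
      rwa [mul_inv_cancel_right]
  rw [h]
  exact isOpen_biUnion fun γ _ => hU.preimage (continuous_const.mul continuous_id)

theorem dtop_oq : IsOpenQuotientMap (mkX : SLR n → ModSpace n) :=
  ⟨mkX_surj, continuous_mkX, isOpenMap_mkX⟩

theorem dtop_closed : IsClosed (intPoints n : Set (SLR n)) := by
  have h : IsClosedEmbedding
      (Matrix.SpecialLinearGroup.map (n := Fin n) (Int.castRingHom ℝ)) :=
    IsClosedEmbedding.specialLinearGroup_map (f := Int.castRingHom ℝ)
      Real.isClosedEmbedding_intCast
  exact h.isClosed_range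

/-- Closed embedding into the matrices (`Matrix.SpecialLinearGroup.isClosedEmbedding_val`). -/
instance instPolishSLR : PolishSpace (SLR n) := by
  haveI : PolishSpace (Matrix (Fin n) (Fin n) ℝ) :=
    inferInstanceAs (PolishSpace (Fin n → Fin n → ℝ))
  exact (Matrix.SpecialLinearGroup.isClosedEmbedding_val (n := Fin n) (R := ℝ)).polishSpace

instance instLCSLR : LocallyCompactSpace (SLR n) := by
  haveI : LocallyCompactSpace (Matrix (Fin n) (Fin n) ℝ) :=
    inferInstanceAs (LocallyCompactSpace (Fin n → Fin n → ℝ))
  exact (Matrix.SpecialLinearGroup.isClosedEmbedding_val (n := Fin n) (R := ℝ)).locallyCompactSpace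

/-- The relation `g' g⁻¹ ∈ SL_n(ℤ)` is closed and `mkX` is an open quotient map. -/
instance instT2X : T2Space (ModSpace n) := by
  rw [t2Space_iff_of_isOpenQuotientMap dtop_oq]
  have h : {q : SLR n × SLR n | mkX q.1 = mkX q.2}
      = (fun q : SLR n × SLR n => q.2 * q.1⁻¹) ⁻¹' (intPoints n : Set (SLR n)) := by
    ext q
    exact mkX_eq_iff q.1 q.2
  rw [h]
  exact dtop_closed.preimage (continuous_snd.mul continuous_fst.inv)

instance instSCX : SecondCountableTopology (ModSpace n) :=
  dtop_oq.isQuotientMap.secondCountableTopology isOpenMap_mkX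

instance instLCX : LocallyCompactSpace (ModSpace n) :=
  dtop_oq.locallyCompactSpace

/-- `mkX × id` is an open quotient map. -/
theorem continuous_act : Continuous fun p : ModSpace n × SLR n => act p.1 p.2 := by
  rw [← (dtop_oq.prodMap (IsOpenQuotientMap.id (X := SLR n))).continuous_comp_iff]
  exact continuous_mkX.comp (continuous_fst.mul continuous_snd)

theorem continuous_act_left (g : SLR n) : Continuous fun x : ModSpace n => act x g :=
  continuous_act.comp (continuous_id.prodMk continuous_const)

theorem measurable_act_left (g : SLR n) : Measurable fun x : ModSpace n => act x g :=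
  (continuous_act_left g).measurable

theorem measurable_act : Measurable fun p : ModSpace n × SLR n => act p.1 p.2 :=
  continuous_act.measurable

/-- The action of `g` as a measurable equivalence. -/
def actE (g : SLR n) : ModSpace n ≃ᵐ ModSpace n where
  toFun x := act x g
  invFun x := act x g⁻¹
  left_inv x := by simp only [act_mul, mul_inv_cancel, act_one]
  right_inv x := by simp only [act_mul, inv_mul_cancel, act_one]
  measurable_toFun := measurable_act_left g
  measurable_invFun := measurable_act_left g⁻¹

theorem actE_apply (g : SLR n) (x : ModSpace n) : actE g x = act x g := rfl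

theorem isOpen_iff_act (U : Set (ModSpace n)) :
    IsOpen U ↔ ∀ x ∈ U, ∀ᶠ h in 𝓝 (1 : SLR n), act x h ∈ U := by
  constructor
  · intro hU x hx
    have hc : Continuous fun h : SLR n => act x h :=
      continuous_act.comp (continuous_const.prodMk continuous_id)
    have h1 : act x 1 ∈ U := by rwa [act_one]
    exact hc.continuousAt.preimage_mem_nhds (hU.mem_nhds h1)
  · intro H
    rw [← dtop_oq.isQuotientMap.isOpen_preimage, isOpen_iff_mem_nhds]
    intro g hg
    have h1 := H (mkX g) hg
    have hc : Continuous fun k : SLR n => g⁻¹ * k := continuous_const.mul continuous_id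
    have h2 : Tendsto (fun k : SLR n => g⁻¹ * k) (𝓝 g) (𝓝 1) := by
      have := hc.tendsto g
      rwa [inv_mul_cancel] at this
    filter_upwards [h2.eventually h1] with k hk
    rw [act_mkX, mul_inv_cancel_left] at hk
    exact hk

theorem continuous_entry (i j : Fin n) : Continuous fun g : SLR n => g.1 i j :=
  (continuous_subtype_val (p := fun A : Matrix (Fin n) (Fin n) ℝ => A.det = 1)).matrix_elem i j

/-- Convergence in `SL_n(ℝ)` is convergence of the entries. -/
theorem tendsto_SL_iff {ι : Type*} {F : Filter ι} {g : ι → SLR n} {h : SLR n} :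
    Tendsto g F (𝓝 h) ↔ ∀ i j, Tendsto (fun k => (g k).1 i j) F (𝓝 (h.1 i j)) := by
  constructor
  · intro H i j
    exact ((continuous_entry i j).tendsto h).comp H
  · intro H
    have h1 : Tendsto (fun k => (g k).1) F (𝓝 h.1) :=
      tendsto_pi_nhds.2 fun i => tendsto_pi_nhds.2 fun j => H i j
    exact (tendsto_subtype_rng (p := fun A : Matrix (Fin n) (Fin n) ℝ => A.det = 1)).2 h1

/-- Sets with bounded entries are compact. -/
theorem isCompact_bdd (R : ℝ) : IsCompact {g : SLR n | ∀ i j, |g.1 i j| ≤ R} := by
  have hK : IsCompact {A : Matrix (Fin n) (Fin n) ℝ | ∀ i j, |A i j| ≤ R} := by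
    have h := isCompact_univ_pi (fun _ : Fin n =>
      isCompact_univ_pi (fun _ : Fin n => (isCompact_Icc : IsCompact (Icc (-R) R))))
    have e : {A : Fin n → Fin n → ℝ | ∀ i j, |A i j| ≤ R}
        = univ.pi fun _ : Fin n => univ.pi fun _ : Fin n => Icc (-R) R := by
      ext A
      simp only [mem_ofPred_eq, Set.mem_pi, mem_univ, true_imp_iff, mem_Icc, abs_le]
    rw [← e] at h
    exact h
  exact (Matrix.SpecialLinearGroup.isClosedEmbedding_val (n := Fin n)
    (R := ℝ)).isCompact_preimage hK

theorem near_mem_nhds {r : ℝ} (hr : 0 < r) : {h : SLR n | Near r h} ∈ 𝓝 (1 : SLR n) := by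
  have h : ∀ i j : Fin n, ∀ᶠ h in 𝓝 (1 : SLR n),
      |h.1 i j - (1 : Matrix (Fin n) (Fin n) ℝ) i j| ≤ r := by
    intro i j
    have hc : Continuous fun h : SLR n => |h.1 i j - (1 : Matrix (Fin n) (Fin n) ℝ) i j| :=
      ((continuous_entry i j).sub continuous_const).abs
    have h0 : |(1 : SLR n).1 i j - (1 : Matrix (Fin n) (Fin n) ℝ) i j| < r := by
      have e : (1 : SLR n).1 = 1 := rfl
      rw [e, sub_self, abs_zero]
      exact hr
    exact (hc.continuousAt.eventually_lt continuousAt_const h0).mono fun _ hh => hh.le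
  have h2 : ∀ᶠ h in 𝓝 (1 : SLR n), ∀ i j : Fin n,
      |h.1 i j - (1 : Matrix (Fin n) (Fin n) ℝ) i j| ≤ r :=
    eventually_all.2 fun i => eventually_all.2 fun j => h i j
  exact h2

end Crest.Agent.R014

end
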