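import Crest.Agent.R014.HUnf
import Crest.Agent.GQ.CHecke1

/-! # R014 HHecke1: continuation of the partial L-series, totally real case -/

set_option autoImplicit false
set_option linter.unusedSectionVars false

noncomputable section

open NumberField Complex MeasureTheory
open scoped nonZeroDivisors

namespace Crest.Agent.R014.HR

open GC

variable {F : Type} [Field F] [NumberField F] [IsTotallyReal F]

/-- the character on the integers -/
def psiZ (ψ : ℕ → ℂ) (n : ℤ) : ℂ := ψ (n : ZMod 3).val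

theorem psiZ_abs {ψ : ℕ → ℂ} (hψ : Psi ψ) {e : ℕ} (h2 : ψ 2 = (-1) ^ e) (n : ℤ) :
    ψ n.natAbs * ((|(n : ℝ)| : ℝ) : ℂ) ^ e = psiZ ψ n * (n : ℂ) ^ e := by
  obtain ⟨m, rfl | rfl⟩ := n.eq_nat_or_neg
  · rw [Int.natAbs_natCast, psiZ, ch1_mod hψ (m := ((m : ℤ) : ZMod 3).val) (n := m) (by simp)]
    simp
  · have h3 : ψ m = ψ (((-m : ℤ) : ZMod 3).val * 2) := ch1_mod hψ (by
      have : (3 : ZMod 3) = 0 := rfl
      simp only [Int.cast_neg, Int.cast_natCast, Nat.cast_mul, ZMod.natCast_val, ZMod.cast_id',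
        id_eq, Nat.cast_ofNat]
      linear_combination (m : ZMod 3) * this)
    rw [Int.natAbs_neg, Int.natAbs_natCast, h3, hψ.mul, h2, psiZ, mul_assoc, ← mul_pow]
    simp

open Classical in
/-- the theta series with sign character -/
def ThE (e : ℕ) (A : FI F) (g : Ideal (𝓞 F) → ℂ) (y : InfinitePlace F → ℝ) : ℂ :=
  ∑' β : F, if β ∈ A ∧ β ≠ 0 then g (idl A β) * (|fR e y (er β)| : ℝ) else 0

theorem fR_er (e : ℕ) (y : InfinitePlace F → ℝ) (β : F) : fR e y (er β) =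
    (Real.exp (∑ v, y v) * ((Algebra.norm ℚ β : ℚ) : ℝ)) ^ e * gG y (em β) := by
  rw [fR, prod_er, gR_er]

theorem abs_fR_er (e : ℕ) (y : InfinitePlace F → ℝ) (β : F) : |fR e y (er β)| =
    (Real.exp (∑ v, y v) * |((Algebra.norm ℚ β : ℚ) : ℝ)|) ^ e * gG y (em β) := by
  rw [fR_er, abs_mul, abs_pow, abs_mul, abs_of_pos (Real.exp_pos _), abs_of_pos (cpo_pos _ _)]

theorem ThE_eq (e : ℕ) {A : FI F} (hA : A ≠ 0) (g : Ideal (𝓞 F) → ℂ) (y : InfinitePlace F → ℝ) :
    ThE e A g y = ((Real.exp (∑ v, y v) * NI A : ℝ) : ℂ) ^ e *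
      Th A (fun J => g J * (Ideal.absNorm J : ℂ) ^ e) y := by
  rw [ThE, Th, ← tsum_mul_left]
  refine tsum_congr fun β => ?_
  split_ifs with h
  · rw [abs_fR_er, ← absNorm_idl hA h.1]
    push_cast
    ring
  · rw [mul_zero]

theorem norm_ThE_le {e : ℕ} (he : e ≤ 1) {A : FI F} (hA : A ≠ 0) {g : Ideal (𝓞 F) → ℂ}
    (hg : ∀ J, ‖g J‖ ≤ 1) (y : InfinitePlace F → ℝ) :
    ‖ThE e A g y‖ ≤ Th1 A (fun v => y v - 1) := by
  refine tsum_of_norm_bounded (hun_sum hA _).hasSum fun β => ?_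
  split_ifs
  · rw [norm_mul, norm_real, Real.norm_eq_abs, abs_abs, ← gR_er]
    exact (mul_le_of_le_one_left (abs_nonneg _) (hg _)).trans (abs_fR_le he _ _)
  · simp

theorem unfoldE {φ : (InfinitePlace F → ℝ) → ℝ} (hφ : PU φ) (e : ℕ) {A : FI F} (hA : A ≠ 0)
    {g : Ideal (𝓞 F) → ℂ} (hg : ∀ J, ‖g J‖ ≤ 1) {s : ℂ} (hs : 1 < s.re) :
    ∫ y, (φ y : ℂ) * ThE e A g y * Complex.exp (s * (∑ v, y v : ℝ)) =
      gam F ((s + e) / 2) * (NI A : ℂ) ^ (-s) * Zc A g s := by
  have hN := NI_pos hA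
  have hN' : (NI A : ℂ) ≠ 0 := ofReal_ne_zero.2 hN.ne'
  have h0 : 0 < (s + e).re := by
    rw [add_re, natCast_re]
    have : (0 : ℝ) ≤ e := Nat.cast_nonneg e
    linarith
  have h1 := (hun_main hφ hA (g := fun J => g J * (Ideal.absNorm J : ℂ) ^ e) h0
    (Summable.of_nonneg_of_le (fun J => by positivity) (fun J => ?_) (summable_absNorm hs))).2
  · have e1 : ∀ y : InfinitePlace F → ℝ, (φ y : ℂ) * ThE e A g y * cexp (s * (∑ v, y v : ℝ)) =
        (NI A : ℂ) ^ e * ((φ y : ℂ) * Th A (fun J => g J * (Ideal.absNorm J : ℂ) ^ e) y *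
          cexp ((s + e) * (∑ v, y v : ℝ))) := fun y => by
      rw [ThE_eq e hA, add_mul, Complex.exp_add, Complex.exp_nat_mul, ofReal_mul, ofReal_exp]
      ring
    have e2 : Zc A (fun J => g J * (Ideal.absNorm J : ℂ) ^ e) (s + e) = Zc A g s := by
      refine tsum_congr fun J => ?_
      split_ifs with hJ
      · obtain ⟨β, hβ, hβ0, rfl⟩ := (mem_Cl_iff hA).1 hJ
        have h2 : (Ideal.absNorm (idl A β) : ℂ) ≠ 0 := by
          have h3 := absNorm_idl hA hβ
          rw [← exp_sum_lm hβ0] at h3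
          intro h4
          rw [Nat.cast_eq_zero] at h4
          rw [h4, Nat.cast_zero, zero_mul] at h3
          exact (Real.exp_pos _).ne h3
        rw [neg_add, cpow_add _ _ h2, cpow_neg _ (e : ℂ), cpow_natCast]
        field_simp
      · rfl
    simp only [e1]
    rw [integral_const_mul, h1, e2, neg_add, cpow_add _ _ hN', cpow_neg _ (e : ℂ), cpow_natCast]
    field_simp
  · rcases Nat.eq_zero_or_pos (Ideal.absNorm J) with h | h
    · rw [h, Nat.cast_zero (R := ℝ), Real.zero_rpow (by linarith), mul_zero]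
      positivity
    · have h' : (0 : ℝ) < Ideal.absNorm J := by exact_mod_cast h
      rw [norm_mul, norm_pow, norm_natCast, add_re, natCast_re, neg_add, Real.rpow_add h',
        Real.rpow_neg h'.le (e : ℝ), Real.rpow_natCast]
      refine le_trans (le_of_eq (by field_simp)) (mul_le_of_le_one_left (by positivity) (hg J))

theorem hh1_per (ψ : ℕ → ℂ) {a : Ideal (𝓞 F)} {b b' : 𝓞 F}
    (h : b - b' ∈ Ideal.span {3} * a) :
    psiZ ψ (Algebra.norm ℤ b) = psiZ ψ (Algebra.norm ℤ b') := by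
  obtain ⟨c, -, hc⟩ := Ideal.mem_span_singleton_mul.1 h
  rw [psiZ, psiZ, ← ch1_norm_mod b' c, hc, add_sub_cancel]

open Classical in
theorem hh1_dual {e : ℕ} (he : e ≤ 1) {A : FI F} (hA : A ≠ 0) (y : InfinitePlace F → ℝ) (c : F) :
    ‖(∑' w : F, if w ∈ A then (fR e y (er w) : ℂ) * eR (er (w * c)) else 0) - 0 ^ e‖ ≤
      Th1 A (fun v => y v - 1) := by
  have hs := summable_ideal hA (fun v => y v - 1) 0
  simp only [add_zero] at hs
  have hn : ∀ w : F, ‖(fR e y (er w) : ℂ) * eR (er (w * c))‖ ≤ gG (fun v => y v - 1) (em w) :=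
    fun w => by
      rw [norm_mul, norm_eR, mul_one, norm_real, ← gR_er]
      exact abs_fR_le he _ _
  have hs' : Summable fun w : F => if w ∈ A then (fR e y (er w) : ℂ) * eR (er (w * c)) else 0 :=
    hs.of_norm_bounded fun w => by split_ifs; exacts [hn w, norm_zero.le]
  rw [hs'.tsum_eq_add_tsum_ite 0, if_pos (FractionalIdeal.zero_mem _)]
  have e1 : (fR e y (er (0 : F)) : ℂ) * eR (er (0 * c)) = 0 ^ e := by
    rw [fR_er, zero_mul, er_zero]
    simp [gG, eR, GC.em]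
  rw [e1, add_sub_cancel_left]
  refine tsum_of_norm_bounded (hun_sum hA _).hasSum fun w => ?_
  by_cases h : w ∈ A <;> by_cases h' : w = 0 <;> simp [h, h', hn, -norm_mul, -Complex.norm_mul]

theorem theta_fe {ψ : ℕ → ℂ} (hψ : Psi ψ) {e : ℕ} (he : e ≤ 1) (h2 : ψ 2 = (-1) ^ e)
    {a : Ideal (𝓞 F)} (ha : a ≠ ⊥)
    (h3 : ¬ 3 ∣ Ideal.absNorm a) : ∃ S : ℂ, ‖S‖ ≤ 1 ∧ (e = 0 → ψ = chi0 → 0 < S.re) ∧
    ∀ y : InfinitePlace F → ℝ,
      ‖ThE e (a : FI F) (fun J => ψ (Ideal.absNorm J)) y -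
          S * ((Real.exp (-∑ v, y v) / (Ideal.absNorm a * cR F) : ℝ) : ℂ)‖ ≤
        Real.exp (-∑ v, y v) / (Ideal.absNorm a * cR F) *
          Th1 (du ((Ideal.span {3} * a : Ideal (𝓞 F)) : FI F)) (fun v => -1 - y v) := by
  classical
  obtain ⟨R, hR, hRa, hex, huq⟩ := ch1_reps ha
  set T : Ideal (𝓞 F) := Ideal.span {3} * a with hT
  have hT0 : (T : FI F) ≠ 0 := FractionalIdeal.coeIdeal_ne_zero.2 (ch1_ne ha)
  set g : 𝓞 F → ℂ := fun b => ψ (Ideal.absNorm a) * psiZ ψ (Algebra.norm ℤ b) with hg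
  have g1 : ∀ b, ‖g b‖ ≤ 1 := fun b => (norm_mul_le _ _).trans
    (mul_le_one₀ (hψ.norm_le _) (norm_nonneg _) (hψ.norm_le _))
  have h3n : (0 : ℝ) < 3 ^ dg F := by positivity
  have hR' : (R.card : ℝ) ≤ 3 ^ dg F := by exact_mod_cast hR
  set η : ℂ := ((-I) ^ e) ^ rc F with hη
  have η1 : ‖η‖ = 1 := by simp [hη]
  have η2 : ‖η * 0 ^ e‖ ≤ 1 := by
    rw [norm_mul, η1, one_mul, norm_pow, norm_zero]
    exact pow_le_one₀ le_rfl zero_le_one
  refine ⟨η * 0 ^ e * (((3 ^ dg F : ℝ)⁻¹ : ℝ) * ∑ c ∈ R, g c), ?_, fun he0 h0 => ?_, fun y => ?_⟩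
  · refine (norm_mul_le _ _).trans (mul_le_one₀ η2 (norm_nonneg _) ?_)
    rw [norm_mul, norm_real, Real.norm_of_nonneg (by positivity), inv_mul_le_iff₀ h3n, mul_one]
    refine (norm_sum_le _ _).trans ((Finset.sum_le_card_nsmul _ _ _ fun c _ => g1 c).trans ?_)
    simpa using hR'
  · subst he0
    rw [hη, pow_zero, pow_zero, one_pow, one_mul, one_mul, re_ofReal_mul, re_sum]
    obtain ⟨c, hc, hc'⟩ := hex _ (Ideal.absNorm_mem a)
    refine mul_pos (inv_pos.2 h3n) (Finset.sum_pos' (fun c _ => ?_) ⟨c, hc, ?_⟩)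
    · simp only [hg, h0, chi0, psiZ]
      split_ifs <;> simp
    · have h4 : ¬ 3 ∣ Ideal.absNorm a ^ Module.finrank ℤ (𝓞 F) := fun h =>
        h3 (Nat.prime_three.dvd_of_dvd_pow h)
      have h5 := psiZ_abs hψ h2 (Algebra.norm ℤ ((Ideal.absNorm a : ℕ) : 𝓞 F))
      simp only [pow_zero, mul_one] at h5
      simp only [hg, ← hh1_per ψ hc', ← h5]
      simp [h0, chi0, h3, Algebra.norm_natCast, h4]
  have e1 : ∀ β : F, (if β ∈ (a : FI F) ∧ β ≠ 0 then ψ (Ideal.absNorm (idl (a : FI F) β)) *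
      ((|fR e y (er β)| : ℝ) : ℂ) else 0) =
      ∑ c ∈ R, g c * if β - c ∈ (T : FI F) then (fR e y (er β) : ℂ) else 0 := fun β => by
    by_cases hβ : β ∈ (a : FI F)
    · obtain ⟨b, hb, rfl⟩ := (FractionalIdeal.mem_coeIdeal _).1 hβ
      obtain ⟨c, hc, hbc⟩ := hex b hb
      have e0 : ∀ c : 𝓞 F, algebraMap (𝓞 F) F b - c ∈ (T : FI F) ↔ b - c ∈ T := fun c => by
        rw [← ch1_mem, RingOfIntegers.coe_eq_algebraMap (b - c), map_sub]
      rw [Finset.sum_eq_single_of_mem c hc fun c' hc' hne => by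
        rw [if_neg fun h => hne (huq c' hc' c hc (by simpa using T.sub_mem hbc ((e0 c').1 h))),
          mul_zero], if_pos ((e0 c).2 hbc), hg]
      simp only [← hh1_per ψ hbc, hβ, true_and]
      split_ifs with h
      · have h5 := psiZ_abs hψ h2 (Algebra.norm ℤ b)
        rw [← RingOfIntegers.coe_eq_algebraMap, ch1_idl hψ ha h3 hb, abs_fR_er, fR_er,
          ← Algebra.coe_norm_int, Rat.cast_intCast]
        simp only [ofReal_mul, ofReal_pow, mul_pow, ofReal_intCast]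
        linear_combination ψ (Ideal.absNorm a) * (Real.exp (∑ v, y v) : ℂ) ^ e *
          (gG y (em (b : F)) : ℂ) * h5
      · rw [RingOfIntegers.coe_injective ((not_not.1 h).trans (map_zero _).symm)]
        simp [psiZ, hψ.zero]
    · rw [if_neg fun h => hβ h.1]
      refine (Finset.sum_eq_zero fun c hc => ?_).symm
      rw [if_neg fun h => hβ ?_, mul_zero]
      obtain ⟨b, hb, h⟩ := (FractionalIdeal.mem_coeIdeal _).1 h
      rw [← eq_sub_iff_add_eq.1 h, ← map_add]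
      exact ch1_mem.2 (a.add_mem (Ideal.mul_le_right hb) (hRa c hc))
  have e2 : ∀ c : F, HasSum (fun β : F => if β - c ∈ (T : FI F) then (fR e y (er β) : ℂ) else 0)
      (∑' β : F, if β ∈ (T : FI F) then (fR e y (er (β + c)) : ℂ) else 0) := fun c => by
    rw [← (Equiv.addRight c).hasSum_iff]
    have h : Summable fun β : F => if β ∈ (T : FI F) then (fR e y (er (β + c)) : ℂ) else 0 :=
      (summable_ideal hT0 (fun v => y v - 1) c).of_norm_bounded fun β => by
        split_ifs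
        · rw [norm_real, ← gR_er]
          exact abs_fR_le he _ _
        · exact norm_zero.le
    simpa [Function.comp_def] using h.hasSum
  have e3 := (hasSum_sum fun c (_ : c ∈ R) => (e2 c).mul_left (g c)).tsum_eq
  simp only [← e1, poisson_ideal he hT0, ← hη] at e3
  have e4 : Real.exp (-∑ v, y v) / (NI (T : FI F) * cR F) =
      (3 ^ dg F : ℝ)⁻¹ * (Real.exp (-∑ v, y v) / (Ideal.absNorm a * cR F)) := by
    rw [NI_coe, ch1_absNorm]
    push_cast
    ring
  have hE : 0 ≤ Real.exp (-∑ v, y v) / (Ideal.absNorm a * cR F) := by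
    have := cR_pos (F := F)
    positivity
  rw [ThE, e3, e4]
  generalize Real.exp (-∑ v, y v) / (Ideal.absNorm a * cR F) = E at *
  have h1 := Th1_nonneg (du (T : FI F)) fun v => -1 - y v
  have e5 : η * 0 ^ e * (((3 ^ dg F : ℝ)⁻¹ : ℝ) * ∑ c ∈ R, g c) * E =
      ∑ c ∈ R, g c * (η * (((3 ^ dg F : ℝ)⁻¹ * E : ℝ) : ℂ) * 0 ^ e) := by
    rw [← Finset.sum_mul, ofReal_mul]
    ring
  rw [e5, ← Finset.sum_sub_distrib]
  refine (norm_sum_le _ _).trans ((Finset.sum_le_card_nsmul _ _ ((3 ^ dg F : ℝ)⁻¹ * E *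
    Th1 (du (T : FI F)) fun v => -1 - y v) fun c _ => ?_).trans ?_)
  · rw [← mul_sub, ← mul_sub, norm_mul (g c), norm_mul (η * _), norm_mul η, η1, one_mul, norm_real,
      Real.norm_of_nonneg (by positivity)]
    refine (mul_le_of_le_one_left (by positivity) (g1 c)).trans
      (mul_le_mul_of_nonneg_left ((hh1_dual he (du_ne_zero hT0) _ _).trans (le_of_eq ?_))
        (by positivity))
    congr 1
    funext v
    rw [Pi.neg_apply]
    ring
  · rw [nsmul_eq_mul, mul_assoc, ← mul_assoc]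
    exact mul_le_of_le_one_left (by positivity) ((mul_inv_le_iff₀ h3n).2 (by simpa using hR'))

theorem hh1_B0 {φ : (InfinitePlace F → ℝ) → ℝ} (hφ : PU φ) {A : FI F} (hA : A ≠ 0) {σ : ℝ}
    (hσ : 1 < σ) (l : ℝ) :
    Integrable (fun y => φ y * Th1 A y * Real.exp (σ * (l + ∑ v, y v))) ∧
    ∫ y, φ y * Th1 A y * Real.exp (σ * (l + ∑ v, y v)) =
      Real.exp (σ * l) * (gamR F (σ / 2) * NI A ^ (-σ) * Zr A σ) := by
  have e : ∀ y, φ y * Th1 A y * Real.exp (σ * (l + ∑ v, y v)) =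
      Real.exp (σ * l) * (φ y * Th1 A y * Real.exp (σ * ∑ v, y v)) := fun y => by
    rw [mul_add, Real.exp_add]
    ring_nf
  simp only [e]
  exact ⟨(unfold_real hφ hA hσ).1.const_mul _, by rw [integral_const_mul, (unfold_real hφ hA hσ).2]⟩

theorem hh1_B1 {φ : (InfinitePlace F → ℝ) → ℝ} (hφ : PU φ) {A : FI F} (hA : A ≠ 0) {σ : ℝ}
    (hσ : 1 < σ) (l : ℝ) :
    Integrable (fun y => φ y * Th1 A (fun v => y v - 1) * Real.exp (σ * (l + ∑ v, y v))) ∧
    ∫ y, φ y * Th1 A (fun v => y v - 1) * Real.exp (σ * (l + ∑ v, y v)) =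
      Real.exp (σ * (l + rc F)) * (gamR F (σ / 2) * NI A ^ (-σ) * Zr A σ) := by
  obtain ⟨h1, h2⟩ := hh1_B0 hφ hA hσ (l + rc F)
  have h3 := h1.comp_sub_right fun _ => 1
  rw [← integral_sub_right_eq_self _ fun _ => (1 : ℝ)] at h2
  have e : ∀ y : InfinitePlace F → ℝ, l + rc F + ∑ v, (y v - 1) = l + ∑ v, y v := fun y => by
    rw [Finset.sum_sub_distrib, Finset.sum_const, Finset.card_univ, nsmul_eq_mul]
    ring
  have e' : ∀ y : InfinitePlace F → ℝ, φ (fun v => y v - 1) = φ y := fun y => hφ.diag y (-1)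
  simp only [Pi.sub_def, e, e'] at h2 h3
  exact ⟨h3, h2⟩

theorem hh1_B2 {φ : (InfinitePlace F → ℝ) → ℝ} (hφ : PU φ) {A : FI F} (hA : A ≠ 0) {σ : ℝ}
    (hσ : 1 < σ) (l : ℝ) :
    Integrable (fun y => φ y * Th1 A (fun v => -1 - y v) * Real.exp (-σ * (l + ∑ v, y v))) ∧
    ∫ y, φ y * Th1 A (fun v => -1 - y v) * Real.exp (-σ * (l + ∑ v, y v)) =
      Real.exp (σ * (-l + rc F)) * (gamR F (σ / 2) * NI A ^ (-σ) * Zr A σ) := by
  obtain ⟨h1, h2⟩ := hh1_B0 (hφ.reflect (-1)) hA hσ (-l + rc F)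
  have h3 := h1.comp_sub_left fun _ => -1
  rw [← integral_sub_left_eq_self _ _ fun _ => (-1 : ℝ)] at h2
  have e : ∀ y : InfinitePlace F → ℝ, σ * (-l + rc F + ∑ v, (-1 - y v)) =
      -σ * (l + ∑ v, y v) := fun y => by
    rw [Finset.sum_sub_distrib, Finset.sum_const, Finset.card_univ, nsmul_eq_mul]
    ring
  simp only [Pi.sub_def, sub_sub_cancel, e] at h2 h3
  exact ⟨h3, h2⟩

theorem hecke_class {φ : (InfinitePlace F → ℝ) → ℝ} (hφ : PU φ) {κ : ℝ} (hκ : Slab φ κ)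
    {ψ : ℕ → ℂ} (hψ : Psi ψ) {e : ℕ} (he : e ≤ 1) (h2e : ψ 2 = (-1) ^ e)
    {a : Ideal (𝓞 F)} (ha : a ≠ ⊥) (h3 : ¬ 3 ∣ Ideal.absNorm a) :
    ∃ (S : ℂ) (Λ : ℂ → ℂ), ‖S‖ ≤ 1 ∧ (e = 0 → ψ = chi0 → 0 < S.re) ∧ Differentiable ℂ Λ ∧
      (∀ s : ℂ, 1 < s.re → Λ s + κ * S / (cR F * (s - 1)) =
        gam F ((s + e) / 2) * Zc (a : FI F) (fun J => ψ (Ideal.absNorm J)) s) ∧
      ∀ s : ℂ, 0 ≤ s.re → s.re ≤ 4 → ‖Λ s‖ ≤
        Real.exp (4 * rc F) * gamR F (4 / 2) * Zr (a : FI F) 4 +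
        Real.exp (2 * rc F) * (DD F * 3 ^ dg F) ^ 2 / cR F * gamR F (2 / 2) *
          Zr (du ((Ideal.span {3} * a : Ideal (𝓞 F)) : FI F)) 2 := by
  classical
  obtain ⟨S, hS, hS', hfe⟩ := theta_fe hψ he h2e ha h3
  set T : Ideal (𝓞 F) := Ideal.span {3} * a with hT
  have hT0 : (T : FI F) ≠ 0 := FractionalIdeal.coeIdeal_ne_zero.2 (ch1_ne ha)
  have ha0 : (a : FI F) ≠ 0 := FractionalIdeal.coeIdeal_ne_zero.2 ha
  have hN : (0 : ℝ) < Ideal.absNorm a := NI_coe a ▸ NI_pos ha0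
  have hc := cR_pos (F := F)
  have hg : ∀ J : Ideal (𝓞 F), ‖ψ (Ideal.absNorm J)‖ ≤ 1 := fun J => hψ.norm_le _
  have mφ := hφ.meas
  have mT : Measurable (ThE e (a : FI F) fun J => ψ (Ideal.absNorm J)) := by
    have := measurable_Th (a : FI F) fun J => ψ (Ideal.absNorm J) * (Ideal.absNorm J : ℂ) ^ e
    rw [funext (ThE_eq e ha0 _)]
    fun_prop
  have hT1 := norm_ThE_le he ha0 hg
  have hu := fun s => unfoldE hφ e ha0 hg (s := s)
  generalize ThE e (a : FI F) (fun J => ψ (Ideal.absNorm J)) = Θ at *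
  set l := Real.log (Ideal.absNorm a) with hl
  set L : (InfinitePlace F → ℝ) → ℝ := fun y => l + ∑ v, y v with hL
  have mL : Measurable L := by fun_prop
  have eL : ∀ y : InfinitePlace F → ℝ, Real.exp (-∑ v, y v) / (Ideal.absNorm a * cR F) =
      Real.exp (-L y) / cR F := fun y => by
    rw [hL, neg_add, Real.exp_add, Real.exp_neg l, Real.exp_log hN]
    field_simp
  simp only [eL] at hfe
  set w : (InfinitePlace F → ℝ) → ℂ := fun y => φ y *
    (Θ y - if L y ≤ 0 then S * (Real.exp (-L y) / cR F : ℝ) else 0) with hw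
  have mw : Measurable w := (measurable_ofReal.comp mφ).mul (mT.sub (Measurable.ite
    (measurableSet_le mL measurable_const) (by fun_prop) measurable_const))
  have hb : ∀ σ σ₁ σ₂ : ℝ, σ ≤ σ₁ → 1 - σ ≤ σ₂ → ∀ y, ‖w y‖ * Real.exp (σ * L y) ≤
      φ y * Th1 (a : FI F) (fun v => y v - 1) * Real.exp (σ₁ * L y) + (cR F)⁻¹ *
        (φ y * Th1 (du (T : FI F)) (fun v => -1 - y v) * Real.exp (-σ₂ * L y)) := by
    intro σ σ₁ σ₂ h1 h2 y
    have := hφ.nonneg y
    have := Th1_nonneg (a : FI F) fun v => y v - 1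
    have := Th1_nonneg (du (T : FI F)) fun v => -1 - y v
    rw [hw, norm_mul, norm_real, Real.norm_of_nonneg (hφ.nonneg y)]
    split_ifs with h
    · refine le_add_of_nonneg_of_le (by positivity) ?_
      calc _ ≤ φ y * (Real.exp (-L y) / cR F * Th1 (du (T : FI F)) fun v => -1 - y v) *
            Real.exp (σ * L y) := by gcongr; exact hfe y
        _ = (cR F)⁻¹ * (φ y * Th1 (du (T : FI F)) (fun v => -1 - y v) *
            Real.exp (-L y + σ * L y)) := by rw [Real.exp_add]; ring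
        _ ≤ _ := by gcongr; nlinarith
    · refine le_add_of_le_of_nonneg ?_ (by positivity)
      rw [sub_zero]
      gcongr
      exacts [hT1 y, (not_le.1 h).le]
  have hi : ∀ σ : ℝ, Integrable fun y => ‖w y‖ * Real.exp (σ * L y) := fun σ =>
    ((hh1_B1 hφ ha0 (lt_max_of_lt_right one_lt_two) l).1.add
      ((hh1_B2 hφ (du_ne_zero hT0) (lt_max_of_lt_right one_lt_two) l).1.const_mul _)).mono'
      (by fun_prop) (.of_forall fun y => (Real.norm_of_nonneg (by positivity)).trans_le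
        (hb σ _ _ (le_max_left _ _) (le_max_left _ _) y))
  have hn : ∀ (s : ℂ) y, ‖w y * cexp (s * L y)‖ = ‖w y‖ * Real.exp (s.re * L y) := fun s y => by
    rw [norm_mul, norm_exp, re_mul_ofReal]
  refine ⟨S, fun s => ∫ y, w y * cexp (s * L y), hS, hS', ch1_entire mw mL hi, fun s hs => ?_,
    fun s h0 h4 => ?_⟩
  · have hs' : 0 < (s - 1).re := by simpa using hs
    obtain ⟨h1, h2⟩ := hκ ((Set.Iic (-l)).indicator fun τ => cexp ((s - 1) * τ))
      ((integrableOn_exp_mul_complex_Iic hs' _).integrable_indicator measurableSet_Iic)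
    rw [integral_indicator measurableSet_Iic, integral_exp_mul_complex_Iic hs'] at h2
    have e0 : ∀ y, cexp (s * l) * (φ y * Θ y * cexp (s * (∑ v, y v : ℝ))) =
        w y * cexp (s * L y) + S / cR F * cexp ((s - 1) * l) * (φ y * (Set.Iic (-l)).indicator
          (fun τ : ℝ => cexp ((s - 1) * τ)) (∑ v, y v)) := fun y => by
      have e1 : cexp (s * L y) = cexp (s * l) * cexp (s * (∑ v, y v : ℝ)) := by
        rw [← exp_add, hL]
        push_cast
        ring_nf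
      have e2 : cexp ((s - 1) * l) * cexp ((s - 1) * (∑ v, y v : ℝ)) =
          Real.exp (-L y) * cexp (s * L y) := by
        rw [ofReal_exp, ← exp_add, ← exp_add, hL]
        push_cast
        ring_nf
      rw [hw, Set.indicator_apply]
      simp only [Set.mem_Iic, show ∑ v, y v ≤ -l ↔ L y ≤ 0 from
        ⟨fun h => by simp only [hL]; linarith, fun h => by simp only [hL] at h; linarith⟩]
      split_ifs
      · rw [ofReal_div]
        linear_combination -(φ y * Θ y) * e1 - S / cR F * φ y * e2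
      · rw [e1]
        ring
    have h5 := integral_congr_ae (μ := volume) (.of_forall e0)
    rw [integral_const_mul, hu s hs, integral_add ((hi s.re).mono' (by fun_prop)
      (.of_forall fun y => (hn _ y).le)) (h1.const_mul _), integral_const_mul, h2] at h5
    have e3 : cexp (s * l) * (NI (a : FI F) : ℂ) ^ (-s) = 1 := by
      rw [NI_coe, cpow_def_of_ne_zero (ofReal_ne_zero.2 hN.ne'), ← ofReal_log hN.le, ← exp_add,
        ← exp_zero, ← hl]
      ring_nf
    have e4 : cexp ((s - 1) * l) * cexp ((s - 1) * (-l : ℝ)) = 1 := by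
      rw [← exp_add, ← exp_zero]
      push_cast
      ring_nf
    rw [mul_comm (cR F : ℂ), ← div_div]
    generalize s - 1 = D at h5 e4 ⊢
    linear_combination -h5 + gam F ((s + e) / 2) *
      Zc (a : FI F) (fun J => ψ (Ideal.absNorm J)) s * e3 - κ * S / D / cR F * e4
  · obtain ⟨h1, h2⟩ := hh1_B1 hφ ha0 (σ := 4) (by norm_num) l
    obtain ⟨h5, h6⟩ := hh1_B2 hφ (du_ne_zero hT0) one_lt_two l
    refine (norm_integral_le_of_norm_le (h1.add (h5.const_mul (cR F)⁻¹)) (.of_forall fun y =>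
      (hn s y).trans_le (hb _ 4 2 h4 (by linarith) y))).trans (le_of_eq ?_)
    simp only [Pi.add_apply]
    have hD := one_le_DD (F := F)
    have h7 : Real.exp (2 * -l) = ((Ideal.absNorm a : ℝ) ^ 2)⁻¹ := by
      rw [← Real.exp_log hN, ← Real.exp_nat_mul, ← Real.exp_neg, ← hl]
      push_cast
      ring_nf
    rw [integral_add h1 (h5.const_mul _), integral_const_mul, h2, h6, NI_du hT0, NI_coe, NI_coe,
      ch1_absNorm, Real.rpow_neg (by positivity), Real.rpow_neg (by positivity), Real.rpow_two,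
      mul_add, mul_add, Real.exp_add, Real.exp_add, h7, mul_comm 4 l, Real.exp_mul, Real.exp_log hN]
    push_cast
    field_simp

end Crest.Agent.R014.HR
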