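import Crest.Agent.R014.HPoi
import Crest.Agent.GQ.CLat

/-! # R014 HLat: the lattices of fractional ideals of a totally real field -/

set_option autoImplicit false
set_option linter.unusedSectionVars false

noncomputable section

open NumberField Complex MeasureTheory
open scoped nonZeroDivisors

namespace Crest.Agent.R014.HR

open GC

variable {F : Type} [Field F] [NumberField F] [IsTotallyReal F]

/-- the real embedding -/
def er (x : F) : InfinitePlace F → ℝ := fun v =>
  InfinitePlace.embedding_of_isReal (IsTotallyReal.isReal v) x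

/-- covolume of the ring of integers -/
def cR (F : Type) [Field F] [NumberField F] : ℝ := Real.sqrt (DD F)

omit [NumberField F] in
theorem er_coe (x : F) (v : InfinitePlace F) : (er x v : ℂ) = em x v :=
  InfinitePlace.embedding_of_isReal_apply _ x
omit [NumberField F] in
theorem er_mul (x y : F) : er (x * y) = er x * er y := funext fun _ => map_mul _ x y
omit [NumberField F] in
theorem er_add (x y : F) : er (x + y) = er x + er y := funext fun _ => map_add _ x y
omit [NumberField F] in
theorem er_zero : er (0 : F) = 0 := funext fun _ => map_zero _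
theorem er_injective : Function.Injective (er : F → InfinitePlace F → ℝ) := fun x y h =>
  em_injective (funext fun v => by rw [← er_coe, ← er_coe, h])
theorem gR_er (y : InfinitePlace F → ℝ) (x : F) : gR y (er x) = gG y (em x) := by
  simp only [gR, gG, ← er_coe, norm_real, Real.norm_eq_abs, sq_abs]
theorem rc_eq : rc F = dg F := by
  have h := InfinitePlace.sum_mult_eq (K := F)
  simpa only [IsTotallyReal.mult_eq, Finset.sum_const, Finset.card_univ, smul_eq_mul,
    mul_one] using h
omit [NumberField F] in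
theorem hla_conj (w : InfinitePlace F) : ComplexEmbedding.conjugate w.embedding = w.embedding :=
  ComplexEmbedding.isReal_iff.1 (IsTotallyReal.complexEmbedding_isReal _)
theorem prod_er (x : F) : ∏ v, er x v = ((Algebra.norm ℚ x : ℚ) : ℝ) := by
  classical
  have h := Algebra.norm_eq_prod_embeddings ℚ ℂ x
  rw [← Fintype.prod_equiv (RingHom.equivRatAlgHom F ℂ) (fun φ => φ x) (fun φ => φ x)
    (fun _ => by simp [RingHom.equivRatAlgHom_apply]),
    ← Finset.prod_fiberwise Finset.univ InfinitePlace.mk (fun φ : F →+* ℂ => φ x)] at h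
  have h2 : ∀ w : InfinitePlace F, ∏ φ ∈ Finset.univ.filter (fun φ => InfinitePlace.mk φ = w),
      φ x = ((er x w : ℝ) : ℂ) := fun w => by
    rw [cla_fiber w, hla_conj, Finset.pair_eq_singleton, Finset.prod_singleton, er_coe]
    rfl
  simp only [h2, ← Complex.ofReal_prod, eq_ratCast] at h
  exact_mod_cast h.symm
theorem trace_er (x : F) : ((Algebra.trace ℚ F x : ℚ) : ℝ) = ∑ v, er x v := by
  classical
  have h := trace_eq_sum_embeddings ℂ (K := ℚ) (x := x)
  rw [← Fintype.sum_equiv (RingHom.equivRatAlgHom F ℂ) (fun φ => φ x) (fun φ => φ x)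
    (fun _ => by simp [RingHom.equivRatAlgHom_apply]),
    ← Finset.sum_fiberwise Finset.univ InfinitePlace.mk (fun φ : F →+* ℂ => φ x)] at h
  have h2 : ∀ w : InfinitePlace F, ∑ φ ∈ Finset.univ.filter (fun φ => InfinitePlace.mk φ = w),
      φ x = ((er x w : ℝ) : ℂ) := fun w => by
    rw [cla_fiber w, hla_conj, Finset.pair_eq_singleton, Finset.sum_singleton, er_coe]
    rfl
  simp only [h2, ← Complex.ofReal_sum, eq_ratCast] at h
  exact_mod_cast h
theorem exp_sum_lm {x : F} (hx : x ≠ 0) :
    Real.exp (∑ v, lm x v) = |((Algebra.norm ℚ x : ℚ) : ℝ)| := by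
  rw [← prod_er, Real.exp_sum, Finset.abs_prod]
  refine Finset.prod_congr rfl fun v _ => ?_
  rw [lm, Real.exp_log (norm_pos_iff.2 (em_ne_zero hx v)), ← er_coe, norm_real, Real.norm_eq_abs]
theorem sum_lm_unit (u : (𝓞 F)ˣ) : ∑ v, lm (((u : 𝓞 F) : F)) v = 0 := by
  have h := exp_sum_lm (x := ((u : 𝓞 F) : F)) (by simp)
  have h2 := congrArg (fun q : ℚ => (q : ℝ)) (Units.norm F u)
  simp only [Rat.cast_abs, Rat.cast_one] at h2
  rwa [h2, Real.exp_eq_one_iff] at h
omit [IsTotallyReal F] in
theorem one_le_cR : 1 ≤ cR F := Real.one_le_sqrt.2 one_le_DD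
omit [IsTotallyReal F] in
theorem cR_pos : 0 < cR F := one_pos.trans_le one_le_cR

/-- `er` as a linear map -/
def erL : F →ₗ[ℤ] (InfinitePlace F → ℝ) where
  toFun := er
  map_add' := er_add
  map_smul' c a := by ext v; simp [er]
/-- the lattice of a fractional ideal -/
def latR (A : FI F) : Submodule ℤ (InfinitePlace F → ℝ) :=
  ((A : Submodule (𝓞 F) F).restrictScalars ℤ).map erL
theorem hla_mem {A : FI F} {n : InfinitePlace F → ℝ} : n ∈ latR A ↔ ∃ β ∈ A, er β = n := Iff.rfl
omit [NumberField F] in
theorem hla_empty : IsEmpty {w : InfinitePlace F // w.IsComplex} :=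
  ⟨fun w => InfinitePlace.not_isReal_iff_isComplex.2 w.2 (IsTotallyReal.isReal w.1)⟩
open Classical in
/-- identification with the mixed space -/
def hla_e (F : Type) [Field F] [NumberField F] [IsTotallyReal F] :
    (InfinitePlace F → ℝ) ≃L[ℝ] mixedEmbedding.mixedSpace F :=
  LinearEquiv.toContinuousLinearEquiv
    { toFun := fun z => (fun w => z w.1, 0)
      invFun := fun x v => x.1 ⟨v, IsTotallyReal.isReal v⟩
      map_add' := fun _ _ => Prod.ext rfl (by simp)
      map_smul' := fun _ _ => Prod.ext rfl (by simp)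
      left_inv := fun _ => rfl
      right_inv := fun _ => Prod.ext rfl (funext fun w => hla_empty.elim w) }
theorem hla_e_er (x : F) : hla_e F (er x) = mixedEmbedding F x :=
  Prod.ext (funext fun w => (mixedEmbedding.mixedEmbedding_apply_isReal F x w).symm)
    (funext fun w => hla_empty.elim w)
open Classical in
theorem hla_latR {A : FI F} (hA : A ≠ 0) : latR A =
    ZLattice.comap ℝ (mixedEmbedding.idealLattice F (Units.mk0 A hA)) (hla_e F).toLinearMap := by
  ext n
  change _ ↔ hla_e F n ∈ mixedEmbedding.idealLattice F (Units.mk0 A hA)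
  rw [hla_mem, mixedEmbedding.mem_idealLattice]
  refine exists_congr fun β => and_congr Iff.rfl ?_
  rw [← hla_e_er, (hla_e F).injective.eq_iff]
open Classical in
theorem hla_mp : MeasurePreserving (hla_e F) volume volume := by
  have := hla_empty (F := F)
  have hp : IsProbabilityMeasure (volume : Measure ({w : InfinitePlace F // w.IsComplex} → ℂ)) := by
    rw [Measure.volume_pi_eq_dirac]
    infer_instance
  have h1 := (volume_preserving_arrowCongr'
    (Equiv.subtypeUnivEquiv (IsTotallyReal.isReal (K := F))) (MeasurableEquiv.refl ℝ)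
    (MeasurePreserving.id _)).comp
    (measurePreserving_fst (μ := (volume : Measure ({w : InfinitePlace F // w.IsReal} → ℝ)))
      (ν := (volume : Measure ({w : InfinitePlace F // w.IsComplex} → ℂ))))
  exact MeasurePreserving.symm (hla_e F).toHomeomorph.toMeasurableEquiv.symm h1
theorem latR_discrete {A : FI F} (hA : A ≠ 0) : DiscreteTopology (latR A) := by
  classical
  rw [hla_latR hA]
  infer_instance
theorem latR_span {A : FI F} (hA : A ≠ 0) :
    Submodule.span ℝ (latR A : Set (InfinitePlace F → ℝ)) = ⊤ := by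
  classical
  rw [hla_latR hA]
  exact IsZLattice.span_top
theorem covolume_latR {A : FI F} (hA : A ≠ 0) : ZLattice.covolume (latR A) = NI A * cR F := by
  classical
  rw [hla_latR hA, ZLattice.covolume_comap _ _ _ hla_mp, mixedEmbedding.covolume_idealLattice,
    NI, cR, DD, IsTotallyReal.nrComplexPlaces_eq_zero]
  simp only [Units.val_mk0, pow_zero, mul_one]
theorem hla_B_inj {ι : Type} [Fintype ι] {w w' : ι → ℝ} (h : hpoB w = hpoB w') : w = w' := by
  refine sub_eq_zero.1 (hpoB_inj ?_)
  have := LinearMap.congr_fun h (w - w')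
  simp only [hpoB, LinearMap.coe_mk, AddHom.coe_mk] at this ⊢
  simp only [Pi.sub_apply, sub_mul, Finset.sum_sub_distrib] at this ⊢
  exact sub_eq_zero.2 this
theorem dualR_latR {A : FI F} (hA : A ≠ 0) : dualR (latR A) = latR (du A) := by
  have happ : ∀ w n : InfinitePlace F → ℝ, hpoB w n = ∑ v, w v * n v := fun _ _ => rfl
  ext w
  constructor
  · intro hw
    let b := basisOfFractionalIdeal F (Units.mk0 A hA)
    have hb : ∀ i, b i ∈ A := fun i =>
      (mem_span_basisOfFractionalIdeal F).1 (Submodule.subset_span ⟨i, rfl⟩)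
    choose k hk using fun i => hw _ (hla_mem.2 ⟨b i, hb i, rfl⟩)
    obtain ⟨β, hβ⟩ : ∃ β : F, ∀ a, Algebra.trace ℚ F (β * a) = b.constr ℚ (fun i => (k i : ℚ)) a :=
      ⟨_, fun a => LinearMap.BilinForm.apply_toDual_symm_apply
        (hB := traceForm_nondegenerate ℚ F) _ a⟩
    have h1 : ∀ a, ((Algebra.trace ℚ F (β * a) : ℚ) : ℝ) = hpoB w (er a) := by
      let ψ : F →+ ℝ := (hpoB w).toAddMonoidHom.comp erL.toAddMonoidHom
      have h2 : (Algebra.linearMap ℚ ℝ).comp (b.constr ℚ fun i => (k i : ℚ)) = ψ.toRatLinearMap :=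
        b.ext fun i => by
          change algebraMap ℚ ℝ (b.constr ℚ (fun i => (k i : ℚ)) (b i)) = hpoB w (er (b i))
          rw [Module.Basis.constr_basis, happ, hk]
          simp
      intro a
      rw [hβ]
      exact LinearMap.congr_fun h2 a
    refine hla_mem.2 ⟨β, (FractionalIdeal.mem_dual hA).2 fun a ha => ?_, ?_⟩
    · obtain ⟨n, hn⟩ := hw _ (hla_mem.2 ⟨a, ha, rfl⟩)
      refine ⟨n, ?_⟩
      have h2 := h1 a
      rw [happ, hn] at h2
      rw [Algebra.traceForm_apply, eq_intCast]
      exact_mod_cast h2.symm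
    · have h2 : hpoB (er β) = hpoB w := by
        refine LinearMap.ext_on (latR_span hA) fun n hn => ?_
        obtain ⟨a, -, rfl⟩ := hla_mem.1 hn
        rw [← h1, trace_er, er_mul, happ]
        rfl
      exact hla_B_inj h2
  · intro hw n hn
    obtain ⟨β, hβ, rfl⟩ := hla_mem.1 hw
    obtain ⟨a, ha, rfl⟩ := hla_mem.1 hn
    obtain ⟨k, hk⟩ := (FractionalIdeal.mem_dual hA).1 hβ a ha
    refine ⟨k, ?_⟩
    have h1 := trace_er (β * a)
    rw [er_mul, ← Algebra.traceForm_apply, ← hk, eq_intCast, Rat.cast_intCast] at h1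
    exact h1.symm
/-- reindexing the lattice -/
def hla_eq (A : FI F) : {β : F | β ∈ A} ≃ latR A :=
  Equiv.ofBijective (fun β => ⟨er β.1, hla_mem.2 ⟨β.1, β.2, rfl⟩⟩)
    ⟨fun _ _ h => Subtype.ext (er_injective (congrArg Subtype.val h)), fun n => by
      obtain ⟨β, hβ, e⟩ := hla_mem.1 n.2
      exact ⟨⟨β, hβ⟩, Subtype.ext e⟩⟩
open Classical in
theorem hla_hasSum {E : Type} [AddCommMonoid E] [TopologicalSpace E] (A : FI F)
    (f : (InfinitePlace F → ℝ) → E) {a : E} :
    HasSum (fun β : F => if β ∈ A then f (er β) else 0) a ↔ HasSum (fun n : latR A => f n) a := by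
  rw [← (hla_eq A).hasSum_iff]
  exact (hasSum_subtype_iff_indicator (f := fun β => f (er β)) (s := {β : F | β ∈ A})).symm
open Classical in
theorem hla_tsum {E : Type} [AddCommMonoid E] [TopologicalSpace E] (A : FI F)
    (f : (InfinitePlace F → ℝ) → E) :
    (∑' β : F, if β ∈ A then f (er β) else 0) = ∑' n : latR A, f n := by
  rw [← (hla_eq A).tsum_eq]
  exact (tsum_subtype {β : F | β ∈ A} fun β => f (er β)).symm
open Classical in
theorem summable_ideal {A : FI F} (hA : A ≠ 0) (y : InfinitePlace F → ℝ) (c : F) :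
    Summable (fun β : F => if β ∈ A then gG y (em (β + c)) else 0) := by
  have := latR_discrete hA
  simp only [← gR_er, er_add]
  exact ((hla_hasSum A fun n => gR y (n + er c)).2 (summable_gR (latR A) y (er c)).hasSum).summable
open Classical in
theorem poisson_ideal {e : ℕ} (he : e ≤ 1) {A : FI F} (hA : A ≠ 0) (y : InfinitePlace F → ℝ)
    (c : F) : ∑' β : F, (if β ∈ A then (fR e y (er (β + c)) : ℂ) else 0) =
      ((-I) ^ e) ^ rc F * ((Real.exp (-∑ v, y v) / (NI A * cR F) : ℝ) : ℂ) *
        ∑' w : F, if w ∈ du A then (fR e (-y) (er w) : ℂ) * eR (er (w * c)) else 0 := by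
  have := latR_discrete hA
  have : IsZLattice ℝ (latR A) := ⟨latR_span hA⟩
  have h := poisson_lat (latR A) he y (er c)
  rw [dualR_latR hA, covolume_latR hA] at h
  simp only [er_add, er_mul]
  rw [hla_tsum A fun n => (fR e y (n + er c) : ℂ),
    hla_tsum (du A) fun w => (fR e (-y) w : ℂ) * eR (w * er c), h]
theorem Th1_lower {A : FI F} (hA : A ≠ 0) (y : InfinitePlace F → ℝ) :
    Real.exp (-∑ v, y v) / (NI A * cR F) - 1 ≤ Th1 A y := by
  classical
  have h := poisson_ideal zero_le_one hA y 0
  have e0 : em (0 : F) = 0 := by ext v; simp [GC.em]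
  have g0 : ∀ y : InfinitePlace F → ℝ, gG y 0 = 1 := fun y => by simp [gG]
  have e1 : eR (0 : InfinitePlace F → ℝ) = 1 := by simp [eR]
  have hc : ∀ (p : Prop) [Decidable p] (r : ℝ), (if p then (r : ℂ) else 0) =
      ((if p then r else 0 : ℝ) : ℂ) := fun p _ r => by split_ifs <;> simp
  simp only [add_zero, mul_zero, er_zero, e1, mul_one, hc, ← Complex.ofReal_tsum, pow_zero, one_pow,
    one_mul, fR_zero, gR_er, ← Complex.ofReal_mul, Complex.ofReal_inj] at h
  have s1 := summable_ideal hA y 0
  have s2 := summable_ideal (du_ne_zero hA) (-y) 0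
  simp only [add_zero] at s1 s2
  have h1 := s2.le_tsum 0 fun β _ => by
    split_ifs
    · exact (Real.exp_pos _).le
    · exact le_rfl
  rw [if_pos (FractionalIdeal.zero_mem _), e0, g0] at h1
  rw [s1.tsum_eq_add_tsum_ite 0, if_pos (FractionalIdeal.zero_mem _), e0, g0] at h
  have h2 : Th1 A y = ∑' β : F, if β = 0 then 0 else if β ∈ A then gG y (em β) else 0 :=
    tsum_congr fun β => by by_cases h0 : β = 0 <;> simp [h0]
  have h3 : 0 < Real.exp (-∑ v, y v) / (NI A * cR F) :=
    div_pos (Real.exp_pos _) (mul_pos (NI_pos hA) cR_pos)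
  rw [h2]
  nlinarith

end Crest.Agent.R014.HR
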