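import Crest.Agent.GQ.CDefs
import Crest.Agent.GQ.PoissonAux2

/-! # R014 HPoi: Poisson summation for (odd) Gaussians on a lattice in `ι → ℝ` -/

set_option autoImplicit false

noncomputable section

open Complex MeasureTheory

namespace Crest.Agent.R014.HR

section aux

variable {ι : Type} [Fintype ι]

/-- the additive character -/
def eR (z : ι → ℝ) : ℂ := cexp (2 * Real.pi * I * (∑ v, z v : ℝ))
/-- the Gaussian -/
def gR (y z : ι → ℝ) : ℝ := Real.exp (-Real.pi * ∑ v, Real.exp (2 * y v) * z v ^ 2)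
/-- the even (`e = 0`) and odd (`e = 1`) Gaussian -/
def fR (e : ℕ) (y z : ι → ℝ) : ℝ := (Real.exp (∑ v, y v) * ∏ v, z v) ^ e * gR y z
/-- the dual lattice -/
def dualR (Λ : Submodule ℤ (ι → ℝ)) : Submodule ℤ (ι → ℝ) where
  carrier := {w | ∀ n ∈ Λ, ∃ k : ℤ, ∑ v, w v * n v = k}
  zero_mem' := fun n _ => ⟨0, by simp⟩
  add_mem' := by
    intro a b ha hb n hn
    obtain ⟨k, hk⟩ := ha n hn
    obtain ⟨l, hl⟩ := hb n hn
    refine ⟨k + l, ?_⟩
    push_cast
    rw [← hk, ← hl, ← Finset.sum_add_distrib]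
    exact Finset.sum_congr rfl fun v _ => by simp only [Pi.add_apply, add_mul]
  smul_mem' := by
    intro c a ha n hn
    obtain ⟨k, hk⟩ := ha n hn
    refine ⟨c * k, ?_⟩
    push_cast
    rw [← hk, Finset.mul_sum]
    exact Finset.sum_congr rfl fun v _ => by simp only [Pi.smul_apply, zsmul_eq_mul, mul_assoc]

theorem norm_eR (z : ι → ℝ) : ‖eR z‖ = 1 := by
  rw [eR, mul_right_comm, ← ofReal_ofNat, ← ofReal_mul, ← ofReal_mul, norm_exp_ofReal_mul_I]

theorem eR_add (z w : ι → ℝ) : eR (z + w) = eR z * eR w := by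
  simp only [eR, Pi.add_apply, mul_add, Finset.sum_add_distrib, ofReal_add, Complex.exp_add]

theorem eR_cont : Continuous (eR (ι := ι)) := by
  unfold eR
  fun_prop

theorem eR_dual {Λ : Submodule ℤ (ι → ℝ)} {w n : ι → ℝ} (hw : w ∈ dualR Λ) (hn : n ∈ Λ)
    (z : ι → ℝ) : eR (w * (n + z)) = eR (w * z) := by
  obtain ⟨k, hk⟩ := hw n hn
  rw [mul_add, eR_add, eR]
  simp only [Pi.mul_apply]
  rw [hk, ofReal_intCast, mul_comm _ (k : ℂ), Complex.exp_int_mul_two_pi_mul_I, one_mul]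

theorem gR_pos (y z : ι → ℝ) : 0 < gR y z := Real.exp_pos _

theorem fR_zero (y z : ι → ℝ) : fR 0 y z = gR y z := by simp [fR]

theorem hpo_one (t : ℝ) : |t| * Real.exp (-Real.pi * t ^ 2) ≤
    Real.exp (-Real.pi * (Real.exp (-2) * t ^ 2)) := by
  have h1 : Real.exp (-2) ≤ 1 / 2 := by
    rw [Real.exp_neg, inv_eq_one_div]
    exact one_div_le_one_div_of_le two_pos (by linarith [Real.add_one_le_exp (2 : ℝ)])
  have h2 : |t| ≤ Real.exp (t ^ 2) := by
    have := Real.add_one_le_exp (t ^ 2)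
    nlinarith [sq_abs t, sq_nonneg (|t| - 1), abs_nonneg t]
  refine (mul_le_mul_of_nonneg_right h2 (Real.exp_pos _).le).trans ?_
  rw [← Real.exp_add, Real.exp_le_exp]
  have h3 := Real.pi_gt_three
  have h4 : Real.exp (-2) * t ^ 2 ≤ 1 / 2 * t ^ 2 := mul_le_mul_of_nonneg_right h1 (sq_nonneg t)
  nlinarith [sq_nonneg t]

theorem abs_fR_le {e : ℕ} (he : e ≤ 1) (y z : ι → ℝ) : |fR e y z| ≤ gR (fun v => y v - 1) z := by
  have key : ∀ v, Real.exp (2 * (y v - 1)) * z v ^ 2 =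
      Real.exp (-2) * (Real.exp (y v) * z v) ^ 2 := fun v => by
    rw [mul_pow, ← Real.exp_nat_mul, ← mul_assoc, ← Real.exp_add]
    congr 2
    push_cast
    ring
  have key2 : ∀ v, Real.exp (2 * y v) * z v ^ 2 = (Real.exp (y v) * z v) ^ 2 := fun v => by
    rw [mul_pow, ← Real.exp_nat_mul]
    norm_num
  obtain rfl | rfl : e = 0 ∨ e = 1 := by omega
  · rw [fR_zero, abs_of_pos (gR_pos _ _)]
    refine Real.exp_le_exp.2 (mul_le_mul_of_nonpos_left (Finset.sum_le_sum fun v _ => ?_)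
      (neg_nonpos.2 Real.pi_pos.le))
    gcongr
    linarith
  · simp only [fR, gR, pow_one, key, key2, Finset.mul_sum, Real.exp_sum,
      ← Finset.prod_mul_distrib, Finset.abs_prod]
    refine Finset.prod_le_prod (fun v _ => abs_nonneg _) fun v _ => ?_
    rw [abs_mul, abs_of_pos (Real.exp_pos (-Real.pi * _))]
    exact hpo_one _

theorem fR_cont (e : ℕ) (y : ι → ℝ) : Continuous fun z : ι → ℝ => (fR e y z : ℂ) := by
  unfold fR gR
  fun_prop

theorem gR_le (y : ι → ℝ) : ∃ c : ℝ, 0 < c ∧ ∀ u, gR y u ≤ Real.exp (-c * ‖u‖ ^ 2) := by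
  refine ⟨Real.pi * Real.exp (2 * -‖y‖), by positivity, fun u => Real.exp_le_exp.2 ?_⟩
  have h1 : ‖u‖ ^ 2 ≤ ∑ v, u v ^ 2 := by
    rw [← Real.le_sqrt (norm_nonneg _) (by positivity), pi_norm_le_iff_of_nonneg (by positivity)]
    exact fun v => Real.abs_le_sqrt
      (Finset.single_le_sum (f := fun v => u v ^ 2) (fun _ _ => sq_nonneg _) (Finset.mem_univ v))
  rw [neg_mul, neg_mul, neg_le_neg_iff, mul_assoc]
  refine mul_le_mul_of_nonneg_left ((mul_le_mul_of_nonneg_left h1 (Real.exp_pos _).le).trans ?_)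
    Real.pi_pos.le
  rw [Finset.mul_sum]
  refine Finset.sum_le_sum fun v _ => ?_
  have := (abs_le.1 (norm_le_pi_norm y v)).1
  gcongr

theorem hpo_summable (L : Submodule ℤ (ι → ℝ)) [DiscreteTopology L] {c : ℝ} (hc : 0 < c) :
    Summable fun n : L => Real.exp (-c * ‖(n : ι → ℝ)‖ ^ 2) := by
  set N := Module.finrank ℤ L + 1
  refine Summable.of_norm_bounded_eventually
    ((ZLattice.summable_norm_pow_inv L (2 * N) (by omega)).mul_left (N.factorial / c ^ N)) ?_
  filter_upwards [(Set.finite_singleton (0 : L)).compl_mem_cofinite] with n hn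
  have h0 : 0 < ‖n‖ := norm_pos_iff.2 hn
  have h1 := Real.pow_div_factorial_le_exp (c * ‖n‖ ^ 2) (by positivity) N
  rw [Real.norm_of_nonneg (Real.exp_pos _).le, neg_mul, Real.exp_neg]
  refine (inv_anti₀ (by positivity) h1).trans (le_of_eq ?_)
  rw [mul_pow, pow_mul, inv_pow, inv_pow]
  field_simp

theorem hpo_bd (L : Submodule ℤ (ι → ℝ)) [DiscreteTopology L] (y : ι → ℝ) (r : ℝ) :
    ∃ g : L → ℝ, Summable g ∧ ∀ (n : L) (z : ι → ℝ), ‖z‖ ≤ r → gR y ((n : ι → ℝ) + z) ≤ g n := by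
  obtain ⟨c, hc, h⟩ := gR_le y
  refine ⟨_, (hpo_summable L (half_pos hc)).mul_left (Real.exp (c * r ^ 2)), fun n z hz =>
    (h _).trans ?_⟩
  rw [← Real.exp_add]
  have h1 : ‖(n : ι → ℝ)‖ ≤ ‖(n : ι → ℝ) + z‖ + ‖z‖ := by simpa using norm_sub_le (n + z) z
  have h2 : ‖z‖ ^ 2 ≤ r ^ 2 := by gcongr
  have h3 : ‖(n : ι → ℝ)‖ ^ 2 ≤ 2 * ‖(n : ι → ℝ) + z‖ ^ 2 + 2 * ‖z‖ ^ 2 := by
    nlinarith [norm_nonneg (n : ι → ℝ), norm_nonneg z, norm_nonneg (n + z),
      sq_nonneg (‖n + z‖ - ‖z‖)]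
  exact Real.exp_le_exp.2 (by nlinarith)

theorem hpo_int1 {b : ℝ} (hb : 0 < b) (c : ℝ) :
    Integrable fun x : ℝ => (x : ℂ) * cexp (-(b : ℂ) * x ^ 2 + (c * I) * x + 0) := by
  refine (integrable_mul_cexp_neg_mul_sq (b := b) (by simpa using hb)).norm.mono' (by fun_prop)
    (.of_forall fun x => le_of_eq ?_)
  rw [add_zero, Complex.exp_add, norm_mul, norm_mul, norm_mul, mul_right_comm (c : ℂ),
    ← ofReal_mul, norm_exp_ofReal_mul_I, mul_one]

theorem hpo_val1 {b : ℝ} (hb : 0 < b) (c : ℝ) :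
    ∫ x : ℝ, (x : ℂ) * cexp (-(b : ℂ) * x ^ 2 + (c * I) * x + 0) =
      c * I / (2 * b) * ∫ x : ℝ, cexp (-(b : ℂ) * x ^ 2 + (c * I) * x + 0) := by
  have h0 := integrable_cexp_quadratic (b := b) (by simpa using hb) (c * I) 0
  have h1 := hpo_int1 hb c
  have h2 := integral_eq_zero_of_hasDerivAt_of_integrable
    (f := fun x : ℝ => cexp (-(b : ℂ) * x ^ 2 + (c * I) * x + 0))
    (f' := fun x : ℝ => -(2 * b) * ((x : ℂ) * cexp (-(b : ℂ) * x ^ 2 + (c * I) * x + 0)) +
      c * I * cexp (-(b : ℂ) * x ^ 2 + (c * I) * x + 0)) (fun x => by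
      have h3 : HasDerivAt (fun z : ℂ => cexp (-(b : ℂ) * z ^ 2 + (c * I) * z + 0))
          (cexp (-(b : ℂ) * x ^ 2 + (c * I) * x + 0) * (-(b : ℂ) * (2 * x) + c * I)) x := by
        refine HasDerivAt.cexp (HasDerivAt.add_const _ ?_)
        simpa using ((hasDerivAt_pow 2 (x : ℂ)).const_mul (-(b : ℂ))).fun_add
          ((hasDerivAt_id (x : ℂ)).const_mul (c * I))
      exact h3.comp_ofReal.congr_deriv (by ring)) ((h1.const_mul _).add (h0.const_mul _)) h0
  rw [integral_add (h1.const_mul _) (h0.const_mul _), integral_const_mul, integral_const_mul] at h2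
  have hb' : (b : ℂ) ≠ 0 := by exact_mod_cast hb.ne'
  generalize ∫ x : ℝ, (x : ℂ) * cexp (-(b : ℂ) * x ^ 2 + (c * I) * x + 0) = A at h2 ⊢
  generalize ∫ x : ℝ, cexp (-(b : ℂ) * x ^ 2 + (c * I) * x + 0) = B at h2 ⊢
  field_simp
  linear_combination -h2

theorem hpo_factor (e : ℕ) (y w z : ι → ℝ) : (fR e y z : ℂ) * eR (-w * z) =
    ∏ v, ((Real.exp (y v) * z v : ℝ) : ℂ) ^ e *
      cexp (-((Real.pi * Real.exp (2 * y v) : ℝ) : ℂ) * z v ^ 2 +
        ((-(2 * Real.pi * w v) : ℝ) * I) * z v + 0) := by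
  rw [Finset.prod_mul_distrib, Finset.prod_pow, ← ofReal_prod, Finset.prod_mul_distrib,
    ← Real.exp_sum, ← Complex.exp_sum, fR, ofReal_mul, ofReal_pow, mul_assoc, eR, gR,
    Complex.ofReal_exp, ← Complex.exp_add]
  congr 2
  simp only [ofReal_mul, ofReal_sum, ofReal_neg, ofReal_pow, ofReal_ofNat]
  rw [Finset.mul_sum, Finset.mul_sum, ← Finset.sum_add_distrib]
  refine Finset.sum_congr rfl fun v _ => ?_
  simp only [Pi.neg_apply, Pi.mul_apply, neg_mul, ofReal_neg, ofReal_mul]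
  ring

theorem hpo_1d {e : ℕ} (he : e ≤ 1) (y w : ℝ) :
    Integrable (fun x : ℝ => ((Real.exp y * x : ℝ) : ℂ) ^ e *
      cexp (-((Real.pi * Real.exp (2 * y) : ℝ) : ℂ) * x ^ 2 +
        ((-(2 * Real.pi * w) : ℝ) * I) * x + 0)) ∧
    ∫ x : ℝ, ((Real.exp y * x : ℝ) : ℂ) ^ e *
      cexp (-((Real.pi * Real.exp (2 * y) : ℝ) : ℂ) * x ^ 2 +
        ((-(2 * Real.pi * w) : ℝ) * I) * x + 0) =
      (-I) ^ e * (Real.exp (-y) * ((Real.exp (-y) * w) ^ e *
        Real.exp (-Real.pi * (Real.exp (2 * -y) * w ^ 2))) : ℝ) := by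
  have hb : 0 < Real.pi * Real.exp (2 * y) := by positivity
  have e1 : Real.exp (2 * y) = Real.exp y ^ 2 := by rw [← Real.exp_nat_mul]; norm_num
  have e2 : Real.exp (2 * -y) = (Real.exp y ^ 2)⁻¹ := by rw [mul_neg, Real.exp_neg, e1]
  have h0 : ∫ x : ℝ, cexp (-((Real.pi * Real.exp (2 * y) : ℝ) : ℂ) * x ^ 2 +
      ((-(2 * Real.pi * w) : ℝ) * I) * x + 0) =
      (Real.exp (-y) * Real.exp (-Real.pi * (Real.exp (2 * -y) * w ^ 2)) : ℝ) := by
    rw [integral_cexp_quadratic (by rw [neg_re, ofReal_re]; linarith), neg_neg, e2, e1, Real.exp_neg, ofReal_mul _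
      (Real.exp _), ofReal_exp (-Real.pi * _)]
    have h4 := Real.exp_pos y
    generalize Real.exp y = ρ at h4
    have h1 : (ρ : ℂ) ≠ 0 := by exact_mod_cast h4.ne'
    have h2 : (Real.pi : ℂ) ≠ 0 := by exact_mod_cast Real.pi_pos.ne'
    congr 1
    · rw [show (Real.pi : ℂ) / ((Real.pi * ρ ^ 2 : ℝ) : ℂ) = ((ρ⁻¹ ^ 2 : ℝ) : ℂ) by
        push_cast; field_simp, show (1 / 2 : ℂ) = ((1 / 2 : ℝ) : ℂ) by push_cast; ring,
        ← ofReal_cpow (by positivity), ← Real.sqrt_eq_rpow, Real.sqrt_sq (by positivity)]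
    · congr 1
      push_cast
      field_simp
      rw [I_sq]
      ring
  obtain rfl | rfl : e = 0 ∨ e = 1 := by omega
  · simp only [pow_zero, one_mul]
    exact ⟨integrable_cexp_quadratic (by rwa [ofReal_re]) _ _, h0⟩
  · simp only [pow_one, ofReal_mul (Real.exp y), mul_assoc (Real.exp y : ℂ)]
    refine ⟨(hpo_int1 hb _).const_mul _, ?_⟩
    rw [integral_const_mul, hpo_val1 hb, h0, e1, Real.exp_neg]
    have h4 := Real.exp_pos y
    generalize Real.exp y = ρ at h4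
    have h1 : (ρ : ℂ) ≠ 0 := by exact_mod_cast h4.ne'
    have h2 : (Real.pi : ℂ) ≠ 0 := by exact_mod_cast Real.pi_pos.ne'
    generalize Real.exp (-Real.pi * (Real.exp (2 * -y) * w ^ 2)) = E
    push_cast
    field_simp

theorem fR_integrable {e : ℕ} (he : e ≤ 1) (y w : ι → ℝ) :
    Integrable fun z : ι → ℝ => (fR e y z : ℂ) * eR (-w * z) := by
  simp only [hpo_factor]
  exact Integrable.fintype_prod (μ := fun _ : ι => (volume : Measure ℝ))
    fun v => (hpo_1d he (y v) (w v)).1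

theorem fR_integral {e : ℕ} (he : e ≤ 1) (y w : ι → ℝ) : ∫ z, (fR e y z : ℂ) * eR (-w * z) =
    ((-I) ^ e) ^ Fintype.card ι * (Real.exp (-∑ v, y v) : ℂ) * fR e (-y) w := by
  simp only [hpo_factor]
  rw [integral_fintype_prod_volume_eq_prod fun v (x : ℝ) => ((Real.exp (y v) * x : ℝ) : ℂ) ^ e *
      cexp (-((Real.pi * Real.exp (2 * y v) : ℝ) : ℂ) * x ^ 2 +
        ((-(2 * Real.pi * w v) : ℝ) * I) * x + 0)]
  simp only [fun v => (hpo_1d he (y v) (w v)).2]
  rw [Finset.prod_mul_distrib, Finset.prod_const, Finset.card_univ, ← ofReal_prod, mul_assoc,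
    ← ofReal_mul, Finset.prod_mul_distrib, Finset.prod_mul_distrib, Finset.prod_pow,
    Finset.prod_mul_distrib, ← Real.exp_sum, ← Real.exp_sum, ← Finset.mul_sum,
    Finset.sum_neg_distrib, fR, gR]
  simp only [Pi.neg_apply, Finset.sum_neg_distrib]

/-- the pairing -/
def hpoB (w : ι → ℝ) : (ι → ℝ) →ₗ[ℝ] ℝ where
  toFun z := ∑ v, w v * z v
  map_add' a b := by simp only [Pi.add_apply, mul_add, Finset.sum_add_distrib]
  map_smul' c a := by
    simp only [Pi.smul_apply, smul_eq_mul, RingHom.id_apply, Finset.mul_sum, mul_left_comm]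

theorem hpoB_inj {w : ι → ℝ} (h : hpoB w w = 0) : w = 0 := by
  have h1 : ∑ v, w v * w v = 0 := h
  rw [Finset.sum_eq_zero_iff_of_nonneg fun v _ => mul_self_nonneg _] at h1
  funext v
  simpa using h1 v (Finset.mem_univ v)

theorem hpoB_surj (l : (ι → ℝ) →ₗ[ℝ] ℝ) : ∃ w, hpoB w = l := by
  classical
  refine ⟨fun v => l (Pi.single v 1), LinearMap.ext fun z => ?_⟩
  have h : z = ∑ v, (z v) • (Pi.single v 1 : ι → ℝ) := by
    rw [← Finset.univ_sum_single z]
    refine Finset.sum_congr rfl fun v _ => ?_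
    rw [Finset.univ_sum_single, ← Pi.single_smul]
    simp
  conv_rhs => rw [h]
  simp only [hpoB, LinearMap.coe_mk, AddHom.coe_mk, map_sum, map_smul, smul_eq_mul]
  exact Finset.sum_congr rfl fun v _ => by ring

theorem hpo_half {w : ι → ℝ} (hw : w ≠ 0) : ∃ t, eR (w * t) = -1 := by
  have h : hpoB w w ≠ 0 := fun h => hw (hpoB_inj h)
  refine ⟨(2 * hpoB w w)⁻¹ • w, ?_⟩
  have h1 : hpoB w ((2 * hpoB w w)⁻¹ • w) = 1 / 2 := by
    rw [map_smul, smul_eq_mul]
    field_simp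
  change cexp (2 * Real.pi * I * (hpoB w _ : ℝ)) = _
  rw [h1, ← exp_pi_mul_I]
  congr 1
  push_cast
  ring

end aux

variable {ι : Type} [Fintype ι] (Λ : Submodule ℤ (ι → ℝ)) [DiscreteTopology Λ] [IsZLattice ℝ Λ]

theorem hpo_disc : DiscreteTopology (dualR Λ) := by
  let b₀ := Module.Free.chooseBasis ℤ Λ
  choose f hf using fun (w : dualR Λ) i => w.2 (b₀ i) (b₀ i).2
  refine DiscreteTopology.of_continuous_injective (f := f) (continuous_pi fun i => ?_)
    fun w w' h => Subtype.ext (sub_eq_zero.1 (hpoB_inj ?_))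
  · rw [Int.isClosedEmbedding_coe_real.isInducing.continuous_iff]
    simp only [Function.comp_def, ← hf]
    exact continuous_finsetSum _ fun v _ =>
      ((continuous_apply v).comp continuous_subtype_val).mul continuous_const
  · have : hpoB (w - w' : ι → ℝ) = 0 := (b₀.ofZLatticeBasis ℝ Λ).ext fun i => by
      have h1 := hf w i
      rw [h, ← hf w' i, ← sub_eq_zero, ← Finset.sum_sub_distrib] at h1
      simpa only [Module.Basis.ofZLatticeBasis_apply, hpoB, LinearMap.coe_mk, AddHom.coe_mk,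
        Pi.sub_apply, sub_mul, LinearMap.zero_apply] using h1
    rw [this, LinearMap.zero_apply]

instance hpo_i1 : MeasurableVAdd Λ (ι → ℝ) :=
  (inferInstance : MeasurableVAdd Λ.toAddSubgroup (ι → ℝ))
instance hpo_i2 : VAddInvariantMeasure Λ (ι → ℝ) volume :=
  (inferInstance : VAddInvariantMeasure Λ.toAddSubgroup (ι → ℝ) volume)

/-- the fundamental domain -/
def hpoD : Set (ι → ℝ) :=
  ZSpan.fundamentalDomain ((Module.Free.chooseBasis ℤ Λ).ofZLatticeBasis ℝ Λ)

theorem hpoD_fd : IsAddFundamentalDomain Λ (hpoD Λ) volume := ZLattice.isAddFundamentalDomain _ _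

theorem hpoD_bd : Bornology.IsBounded (hpoD Λ) := ZSpan.fundamentalDomain_isBounded _

theorem hpoD_int {H : (ι → ℝ) → ℂ} (hH : Continuous H) : IntegrableOn H (hpoD Λ) :=
  (hH.continuousOn.integrableOn_compact (hpoD_bd Λ).isCompact_closure).mono_set subset_closure

open Pointwise in
theorem hpo_orth {w : ι → ℝ} (hw : w ∈ dualR Λ) (h0 : w ≠ 0) : ∫ z in hpoD Λ, eR (w * z) = 0 := by
  obtain ⟨t, ht⟩ := hpo_half h0
  have h1 := ((hpoD_fd Λ).vadd_of_comm t).setIntegral_eq (hpoD_fd Λ) (f := fun z => eR (w * z))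
    fun n z => eR_dual hw n.2 z
  have h2 := (measurePreserving_add_left volume t).setIntegral_image_emb
    (measurableEmbedding_addLeft t) (fun z => eR (w * z)) (hpoD Λ)
  simp only [mul_add, eR_add, ht, integral_const_mul] at h2
  have h3 := h1.symm.trans h2
  linear_combination h3 / 2

theorem hpo_complete {F : (ι → ℝ) → ℂ} (hF : Continuous F)
    (hper : ∀ z, ∀ n ∈ Λ, F (n + z) = F z)
    (h0 : ∀ w ∈ dualR Λ, ∫ z in hpoD Λ, F z * eR (-w * z) = 0) : F = 0 := by
  let b₀ := Module.Free.chooseBasis ℤ Λ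
  have : IsFiniteMeasure ((volume : Measure (ι → ℝ)).restrict (hpoD Λ)) :=
    isFiniteMeasure_restrict.2 (hpoD_bd Λ).measure_lt_top.ne
  have h1 : F =ᵐ[volume.restrict (hpoD Λ)] 0 := by
    refine GQ.po_torus (b₀.ofZLatticeBasis ℝ Λ) _ hF (fun z m => ?_) fun m => ?_
    · rw [add_comm, hper]
      refine sum_mem fun i _ => ?_
      rw [Int.cast_smul_eq_zsmul, Module.Basis.ofZLatticeBasis_apply]
      exact zsmul_mem (b₀ i).2 _
    · obtain ⟨w, hw⟩ := hpoB_surj (∑ i, (m i : ℝ) • (b₀.ofZLatticeBasis ℝ Λ).coord i)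
      have hw' : ∀ z, ∑ v, w v * z v = ∑ i, m i * (b₀.ofZLatticeBasis ℝ Λ).repr z i :=
        fun z => by simpa [hpoB] using LinearMap.congr_fun hw z
      rw [← h0 (-w) (neg_mem fun n hn => ⟨∑ i, m i * b₀.repr ⟨n, hn⟩ i, ?_⟩)]
      · simp only [neg_neg, eR, Pi.mul_apply, hw']
      · rw [hw']
        push_cast
        exact Finset.sum_congr rfl fun i _ => congrArg _
          (b₀.ofZLatticeBasis_repr_apply ℝ Λ ⟨n, hn⟩ i)
  have h2 : ∫⁻ z, ‖F z‖ₑ = 0 := by
    rw [(hpoD_fd Λ).lintegral_eq_tsum'', ENNReal.tsum_eq_zero]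
    intro n
    have : ∀ z, F (n +ᵥ z) = F z := fun z => hper z n n.2
    simp only [this]
    rw [lintegral_eq_zero_iff hF.enorm.measurable]
    filter_upwards [h1] with z hz
    simp [hz]
  rw [lintegral_eq_zero_iff hF.enorm.measurable] at h2
  refine (hF.ae_eq_iff_eq volume continuous_zero).1 ?_
  filter_upwards [h2] with z hz
  simpa using hz

omit [IsZLattice ℝ Λ] in
theorem summable_gR (y z : ι → ℝ) : Summable (fun n : Λ => gR y ((n : ι → ℝ) + z)) := by
  obtain ⟨g, hg, h⟩ := hpo_bd Λ y ‖z‖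
  exact hg.of_nonneg_of_le (fun _ => (gR_pos _ _).le) fun n => h n z le_rfl

theorem summable_gR_dual (y : ι → ℝ) : Summable (fun w : dualR Λ => gR y (w : ι → ℝ)) := by
  have := hpo_disc Λ
  simpa using summable_gR (dualR Λ) y 0

theorem poisson_lat {e : ℕ} (he : e ≤ 1) (y z : ι → ℝ) :
    ∑' n : Λ, (fR e y ((n : ι → ℝ) + z) : ℂ) =
      ((-I) ^ e) ^ Fintype.card ι * ((Real.exp (-∑ v, y v) / ZLattice.covolume Λ : ℝ) : ℂ) *
        ∑' w : dualR Λ, (fR e (-y) (w : ι → ℝ) : ℂ) * eR ((w : ι → ℝ) * z) := by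
  have := hpo_disc Λ
  have : Countable (dualR Λ) := countable_of_Lindelof_of_discrete
  have hV := ZLattice.covolume_eq_measure_fundamentalDomain Λ volume (hpoD_fd Λ)
  have hV' : ((ZLattice.covolume Λ : ℝ) : ℂ) ≠ 0 := by
    exact_mod_cast ZLattice.covolume_ne_zero Λ volume
  have hn : ∀ y (u : ι → ℝ), ‖(fR e y u : ℂ)‖ ≤ gR (fun v => y v - 1) u := fun y u => by
    rw [norm_real]
    exact abs_fR_le he y u
  have hgc := fR_cont e y
  have hE : ∀ w : ι → ℝ, Continuous fun z : ι → ℝ => eR (w * z) := fun w =>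
    eR_cont.comp (by fun_prop)
  set F : (ι → ℝ) → ℂ := fun z => ∑' n : Λ, (fR e y ((n : ι → ℝ) + z) : ℂ) with hF
  have hFc : Continuous F := by
    rw [continuous_iff_continuousAt]
    intro z
    obtain ⟨g, hg, h⟩ := hpo_bd Λ (fun v => y v - 1) (‖z‖ + 1)
    refine (continuousOn_tsum (s := Metric.closedBall 0 (‖z‖ + 1)) (fun n => ?_) hg
      (fun n u hu => (hn _ _).trans (h n u (by simpa using hu)))).continuousAt ?_
    · exact (hgc.comp (by fun_prop)).continuousOn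
    · exact Metric.closedBall_mem_nhds_of_mem (by simp)
  have ha := summable_gR_dual Λ fun v => (-y) v - 1
  set a : dualR Λ → ℝ := fun w => fR e (-y) (w : ι → ℝ) with ha'
  set G : (ι → ℝ) → ℂ := fun z => ∑' w : dualR Λ, (a w : ℂ) * eR ((w : ι → ℝ) * z) with hG
  have hGc : Continuous G :=
    continuous_tsum (fun w => continuous_const.mul (hE _)) ha fun w z => by
      rw [norm_mul, norm_eR, mul_one]
      exact hn _ _
  obtain ⟨r, hr⟩ := (hpoD_bd Λ).exists_norm_le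
  obtain ⟨g, hg, hb⟩ := hpo_bd Λ (fun v => y v - 1) r
  have hlt := (hpoD_bd Λ).measure_lt_top (μ := volume)
  have key := hpo_complete Λ (F := fun z => F z - ((-I) ^ e) ^ Fintype.card ι *
      ((Real.exp (-∑ v, y v) / ZLattice.covolume Λ : ℝ) : ℂ) * G z)
    (hFc.sub (continuous_const.mul hGc)) (fun z n hn => ?_) (fun w hw => ?_)
  · exact sub_eq_zero.1 (congrFun key z)
  · congr 1
    · rw [hF]
      beta_reduce
      rw [← (Equiv.addRight (⟨n, hn⟩ : Λ)).tsum_eq fun m : Λ => (fR e y ((m : ι → ℝ) + z) : ℂ)]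
      exact tsum_congr fun m => by simp [add_assoc]
    · exact congrArg _ (tsum_congr fun w => by rw [eR_dual w.2 hn])
  · have e1 : ∫ z in hpoD Λ, F z * eR (-w * z) = ∫ z, (fR e y z : ℂ) * eR (-w * z) := by
      rw [(hpoD_fd Λ).integral_eq_tsum'' _ (fR_integrable he y w),
        integral_tsum_of_summable_integral_norm]
      · congr 1
        funext z
        rw [hF, ← tsum_mul_right]
        exact tsum_congr fun n => congrArg _ (eR_dual (neg_mem hw) n.2 z).symm
      · exact fun n => hpoD_int Λ ((hgc.mul (hE _)).comp (continuous_const.add continuous_id))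
      · refine Summable.of_nonneg_of_le (fun n => integral_nonneg fun _ => norm_nonneg _)
          (fun n => ?_) (hg.mul_right (volume.real (hpoD Λ)))
        refine (Real.le_norm_self _).trans (norm_setIntegral_le_of_norm_le_const hlt fun z hz => ?_)
        rw [norm_norm, norm_mul, norm_eR, mul_one]
        exact (hn _ _).trans (hb n z (hr z hz))
    have e2 : ∫ z in hpoD Λ, G z * eR (-w * z) = a ⟨w, hw⟩ * ZLattice.covolume Λ := by
      simp only [hG, ← tsum_mul_right, mul_assoc, ← eR_add, ← add_mul]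
      rw [← integral_tsum_of_summable_integral_norm, tsum_eq_single ⟨w, hw⟩]
      · simp [eR, hV, mul_comm]
      · intro w' h
        rw [integral_const_mul, hpo_orth Λ (add_mem w'.2 (neg_mem hw))
          fun h' => h (Subtype.ext (add_neg_eq_zero.1 h')), mul_zero]
      · exact fun w' => hpoD_int Λ (continuous_const.mul (hE _))
      · simp only [norm_mul, norm_eR, mul_one, ha', integral_const, smul_eq_mul]
        exact (ha.of_nonneg_of_le (fun _ => norm_nonneg _) fun w => hn _ _).mul_left _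
    simp only [sub_mul, mul_assoc]
    have := hE (-w)
    rw [integral_sub (hpoD_int Λ (by fun_prop)) (hpoD_int Λ (by fun_prop)), integral_const_mul,
      integral_const_mul, e1, e2, fR_integral he, ofReal_div, ha']
    field_simp
    ring

end Crest.Agent.R014.HR
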