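import Crest.Agent.R014.HLat
import Crest.Agent.GQ.CUnf

/-! # R014 HUnf: partition of unity and unfolding, totally real case -/

set_option autoImplicit false
set_option linter.unusedSectionVars false

noncomputable section

open NumberField Complex MeasureTheory
open scoped nonZeroDivisors

namespace Crest.Agent.R014.HR

open GC

variable {F : Type} [Field F] [NumberField F] [IsTotallyReal F]

theorem exists_PU : ∃ φ : (InfinitePlace F → ℝ) → ℝ, PU φ := by
  have := cun_countU (F := F)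
  have hr : (rc F : ℝ) ≠ 0 := Nat.cast_ne_zero.2 rc_pos.ne'
  set G : (InfinitePlace F → ℝ) → ℝ := fun y =>
    gG (fun v => y v - (∑ w, y w) / rc F) (1 : InfinitePlace F → ℂ) with hG
  have h1 : Measurable G := by
    simp only [hG, gG]
    fun_prop
  have h2 : ∀ y, 0 < G y := fun y => Real.exp_pos _
  have h3 : ∀ y, Summable fun u : (𝓞 F)ˣ => G (y + lm ((u : 𝓞 F) : F)) := fun y => by
    refine ((summable_ideal (F := F) one_ne_zero (fun v => y v - (∑ w, y w) / rc F)
      0).comp_injective cun_inj).congr fun u => ?_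
    rw [Function.comp_apply, if_pos (FractionalIdeal.coe_mem_one _ _), add_zero, cun_gG (cun_ne u)]
    simp only [hG, Pi.add_apply, Finset.sum_add_distrib, sum_lm_unit, add_zero]
    congr 1
    funext v
    simp only [Pi.add_apply]
    ring
  have h4 : ∀ y (c : ℝ), G (fun v => y v + c) = G y := fun y c => by
    simp only [hG, Finset.sum_add_distrib, Finset.sum_const, Finset.card_univ, nsmul_eq_mul]
    congr 1
    funext v
    field_simp
    ring
  refine ⟨fun y => G y / ∑' u : (𝓞 F)ˣ, G (y + lm ((u : 𝓞 F) : F)), h1.div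
    (Measurable.tsum fun u => h1.comp (measurable_add_const _)),
    fun y => div_nonneg (h2 y).le (tsum_nonneg fun u => (h2 _).le), fun y c => ?_, fun y => ?_⟩
  · rw [h4]
    congr 2
    funext u
    rw [← h4 (y + _) c]
    congr 1
    funext v
    simp only [Pi.add_apply]
    ring
  · have h5 : ∀ u' : (𝓞 F)ˣ, ∑' u : (𝓞 F)ˣ, G (y + lm ((u' : 𝓞 F) : F) + lm ((u : 𝓞 F) : F)) =
        ∑' u : (𝓞 F)ˣ, G (y + lm ((u : 𝓞 F) : F)) := fun u' => by
      rw [← (Equiv.mulLeft u').tsum_eq fun u : (𝓞 F)ˣ => G (y + lm ((u : 𝓞 F) : F))]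
      refine tsum_congr fun u => ?_
      rw [add_assoc, ← lm_mul (cun_ne u') (cun_ne u)]
      simp
    simp only [h5]
    rw [← div_self ((h3 y).tsum_pos (fun u => (h2 _).le) 1 (h2 _)).ne']
    exact (h3 y).hasSum.div_const _

open Classical in
theorem hun_sum {A : FI F} (hA : A ≠ 0) (y : InfinitePlace F → ℝ) :
    Summable fun β : F => if β ∈ A ∧ β ≠ 0 then gG y (em β) else 0 := by
  refine Summable.of_nonneg_of_le (fun β => ?_) (fun β => ?_) (summable_ideal hA y 0)
  · split_ifs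
    exacts [(Real.exp_pos _).le, le_rfl]
  · by_cases h : β ∈ A ∧ β ≠ 0
    · rw [if_pos h, if_pos h.1, add_zero]
    · rw [if_neg h]
      split_ifs
      exacts [(Real.exp_pos _).le, le_rfl]

theorem measurable_Th (A : FI F) (g : Ideal (𝓞 F) → ℂ) : Measurable (Th A g) := by
  have := cun_count (F := F)
  refine Measurable.tsum fun β => ?_
  split_ifs
  · unfold gG
    fun_prop
  · exact measurable_const

theorem hun_main {φ : (InfinitePlace F → ℝ) → ℝ} (hφ : PU φ) {A : FI F} (hA : A ≠ 0)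
    {g : Ideal (𝓞 F) → ℂ} {s : ℂ} (hs : 0 < s.re)
    (hg : Summable fun J : Ideal (𝓞 F) => ‖g J‖ * (Ideal.absNorm J : ℝ) ^ (-s.re)) :
    Integrable (fun y => (φ y : ℂ) * Th A g y * Complex.exp (s * (∑ v, y v : ℝ))) ∧
    ∫ y, (φ y : ℂ) * Th A g y * Complex.exp (s * (∑ v, y v : ℝ)) =
      gam F (s / 2) * (NI A : ℂ) ^ (-s) * Zc A g s := by
  have := cun_count (F := F)
  have := cun_countU (F := F)
  choose sec s1 s2 s3 using fun J : Cl A => (mem_Cl_iff hA).1 J.2
  have : Countable (Cl A) := Function.Injective.countable (f := sec) fun J J' h =>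
    Subtype.ext (by rw [← s3, h, s3])
  set i : Cl A × (𝓞 F)ˣ → F := fun p => ((p.2 : 𝓞 F) : F) * sec p.1 with hi
  have i1 : ∀ p, i p ∈ A ∧ i p ≠ 0 := fun p =>
    ⟨(A : Submodule (𝓞 F) F).smul_mem (p.2 : 𝓞 F) (s1 _), mul_ne_zero (cun_ne _) (s2 _)⟩
  have i2 : ∀ p, idl A (i p) = p.1 := fun p =>
    ((idl_eq_iff hA (s1 _) (i1 p).1).2 ⟨_, rfl⟩).trans (s3 _)
  have i3 : Function.Injective i := fun p p' h => by
    have e : p.1 = p'.1 := Subtype.ext (by rw [← i2, h, i2])
    exact Prod.ext e (cun_inj (mul_right_cancel₀ (s2 p.1) (h.trans (by rw [e]))))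
  set W : (InfinitePlace F → ℝ) → ℂ := fun y =>
    ∏ v, ((Real.exp (-Real.pi * Real.exp (2 * y v)) : ℂ) * cexp (s * y v)) with hW
  obtain ⟨w1, w2⟩ := cun_gam1 (s := s / 2) (by simpa using hs)
  simp only [show 2 * (s / 2) = s by ring] at w1 w2
  have w3 : Integrable W := Integrable.fintype_prod (μ := fun _ => volume) fun _ => w1
  have w4 : ∫ y, W y = gam F (s / 2) := by
    rw [gam, ← w2]
    exact integral_fintype_prod_volume_eq_pow fun t : ℝ =>
      (Real.exp (-Real.pi * Real.exp (2 * t)) : ℂ) * cexp (s * t)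
  have hN := NI_pos hA
  have n0 : ∀ J : Cl A, (0 : ℝ) < Ideal.absNorm J.1 := fun J => by
    refine (mul_pos_iff_of_pos_right hN).1 ?_
    rw [← s3, absNorm_idl hA (s1 J), ← exp_sum_lm (s2 J)]
    exact Real.exp_pos _
  set c : Cl A → ℂ := fun J => (NI A : ℂ) ^ (-s) * (g J * (Ideal.absNorm J.1 : ℂ) ^ (-s)) with hc
  have e : ∀ y, (φ y : ℂ) * Th A g y * Complex.exp (s * (∑ v, y v : ℝ)) =
      ∑' p : Cl A × (𝓞 F)ˣ, c p.1 * φ y • W (y + (lm ((p.2 : 𝓞 F) : F) + lm (sec p.1))) := fun y => by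
    rw [Th, ← i3.tsum_eq fun β hβ => ?_, ← tsum_mul_left, ← tsum_mul_right]
    · refine tsum_congr fun p => ?_
      have a1 : ∑ v, lm (sec p.1) v = Real.log (Ideal.absNorm p.1.1) + Real.log (NI A) := by
        rw [← Real.log_mul (n0 _).ne' hN.ne', ← s3, absNorm_idl hA (s1 _), ← exp_sum_lm (s2 _),
          Real.log_exp]
      have a2 := congrArg (fun t : ℝ => (t : ℂ)) a1
      rw [if_pos (i1 p), i2, cun_gG (i1 p).2, hi, lm_mul (cun_ne _) (s2 _), hc, hW, real_smul]
      dsimp only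
      rw [Finset.prod_mul_distrib, ← ofReal_prod, ← Real.exp_sum, ← Complex.exp_sum,
        ← Finset.mul_sum, ← Finset.mul_sum, ← ofReal_sum, ← ofReal_natCast,
        cpow_def_of_ne_zero (ofReal_ne_zero.2 hN.ne'), ← ofReal_log hN.le,
        cpow_def_of_ne_zero (ofReal_ne_zero.2 (n0 _).ne'), ← ofReal_log (n0 _).le]
      simp only [gG, Pi.one_apply, norm_one, one_pow, mul_one, Pi.add_apply, Finset.sum_add_distrib,
        sum_lm_unit, zero_add, ofReal_add] at a2 ⊢
      rw [show (s * (∑ v, y v : ℝ) : ℂ) = Real.log (NI A) * -s +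
        Real.log (Ideal.absNorm p.1.1) * -s + s * ((∑ v, y v : ℝ) + (∑ v, lm (sec p.1) v : ℝ)) by
          linear_combination (-s) * a2, Complex.exp_add, Complex.exp_add]
      ring
    · have b1 : β ∈ A ∧ β ≠ 0 := by_contra fun h => hβ (if_neg h)
      obtain ⟨u, hu⟩ := (idl_eq_iff hA (s1 ⟨_, (mem_Cl_iff hA).2 ⟨β, b1.1, b1.2, rfl⟩⟩) b1.1).1
        (by rw [s3])
      exact ⟨(_, u), hu.symm⟩
  have f1 : ∀ p : Cl A × (𝓞 F)ˣ, Integrable fun y =>
      c p.1 * φ y • W (y + (lm ((p.2 : 𝓞 F) : F) + lm (sec p.1))) := fun p =>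
    ((cun_core hφ w3 _).1 _).const_mul _
  have f2 : Summable fun p : Cl A × (𝓞 F)ˣ =>
      ∫ y, ‖c p.1 * φ y • W (y + (lm ((p.2 : 𝓞 F) : F) + lm (sec p.1)))‖ := by
    have b1 := fun J => ((cun_core hφ w3.norm (lm (sec J))).2).mul_left ‖c J‖
    simp only [norm_mul, norm_smul, Real.norm_of_nonneg (hφ.nonneg _), integral_const_mul]
    refine (summable_prod_of_nonneg fun p => mul_nonneg (norm_nonneg _) (integral_nonneg fun y =>
      mul_nonneg (hφ.nonneg _) (norm_nonneg _))).2 ⟨fun J => (b1 J).summable, ?_⟩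
    refine Summable.congr (Summable.mul_right (∫ y, ‖W y‖) ?_) fun J => (b1 J).tsum_eq.symm
    refine ((hg.subtype (Cl A)).mul_left ‖(NI A : ℂ) ^ (-s)‖).congr fun J => ?_
    rw [hc, norm_mul, norm_mul, ← ofReal_natCast, norm_cpow_eq_rpow_re_of_pos (n0 J), neg_re]
    rfl
  simp only [e]
  refine ⟨cun_int f1 f2, ?_⟩
  rw [← ((hasSum_integral_of_summable_integral_norm f1 f2).prod_fiberwise fun J => by
    simpa only [integral_const_mul] using (cun_core hφ w3 (lm (sec J))).2.mul_left (c J)).tsum_eq,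
    tsum_mul_right, w4, hc, tsum_mul_left, mul_comm, ← mul_assoc, Zc,
    tsum_subtype (Cl A) fun J => g J * (Ideal.absNorm J : ℂ) ^ (-s)]
  exact congrArg _ (tsum_congr fun J => by classical exact Set.indicator_apply _ _ _)

theorem unfold_real {φ : (InfinitePlace F → ℝ) → ℝ} (hφ : PU φ) {A : FI F} (hA : A ≠ 0) {σ : ℝ}
    (hσ : 1 < σ) : Integrable (fun y => φ y * Th1 A y * Real.exp (σ * ∑ v, y v)) ∧
    ∫ y, φ y * Th1 A y * Real.exp (σ * ∑ v, y v) = gamR F (σ / 2) * NI A ^ (-σ) * Zr A σ := by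
  obtain ⟨h1, h2⟩ := hun_main hφ hA (g := fun _ => 1) (s := σ) (one_pos.trans hσ)
    (by simpa using summable_absNorm hσ)
  have e : ∀ y : InfinitePlace F → ℝ, (φ y : ℂ) * Th A (fun _ => 1) y *
      cexp (σ * (∑ v, y v : ℝ)) = (φ y * Th1 A y * Real.exp (σ * ∑ v, y v) : ℝ) := fun y => by
    simp only [← cun_Th1, ofReal_mul, ofReal_exp]
  simp only [e] at h1 h2
  refine ⟨h1.re, ofReal_injective ?_⟩
  rw [← integral_complex_ofReal, h2, gam, gamR, Zc, Zr, ofReal_mul, ofReal_mul, ofReal_tsum,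
    ofReal_cpow (NI_pos hA).le, ofReal_pow, ofReal_div, ofReal_mul, ofReal_cpow Real.pi_pos.le,
    ← Gamma_ofReal, ofReal_neg, ofReal_neg, ofReal_div, ofReal_ofNat]
  congr 2
  funext J
  split_ifs
  · rw [one_mul, ofReal_cpow (Nat.cast_nonneg _), ofReal_natCast, ofReal_neg]
  · rfl

theorem hun_one {A : FI F} (hA : A ≠ 0) {y : InfinitePlace F → ℝ}
    (h : ∑ v, y v ≤ -Real.log (2 * (NI A * cR F))) : 1 ≤ Th1 A y := by
  have h0 := mul_pos (NI_pos hA) (cR_pos (F := F))
  refine le_trans ?_ (Th1_lower hA y)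
  rw [le_sub_iff_add_le, le_div_iff₀ h0, one_add_one_eq_two, ← Real.log_le_iff_le_exp (by positivity)]
  linarith

theorem exists_slab {φ : (InfinitePlace F → ℝ) → ℝ} (hφ : PU φ) : ∃ κ : ℝ, 0 < κ ∧ Slab φ κ := by
  have := cun_countU (F := F)
  have hr : (rc F : ℝ) ≠ 0 := Nat.cast_ne_zero.2 rc_pos.ne'
  have m1 : Measurable fun y : InfinitePlace F → ℝ => ∑ v, y v := by fun_prop
  have m2 : Measurable fun y => ENNReal.ofReal (φ y) := hφ.meas.ennreal_ofReal
  set μ := (volume.withDensity fun y => ENNReal.ofReal (φ y)).map fun y => ∑ v, y v with hμ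
  have h1 : ∀ S, MeasurableSet S → μ S = ∫⁻ y, S.indicator 1 (∑ v, y v) * ENNReal.ofReal (φ y) :=
    fun S hS => by
      rw [hμ, Measure.map_apply m1 hS, withDensity_apply _ (m1 hS), ← lintegral_indicator (m1 hS)]
      exact lintegral_congr fun y => by by_cases h : ∑ v, y v ∈ S <;> simp [Set.indicator, h]
  have : μ.IsAddLeftInvariant := (forall_measure_preimage_add_iff μ).1 fun c S hS => by
    rw [h1 _ hS, h1 _ (measurable_const_add c hS),
      ← lintegral_add_right_eq_self (fun y => S.indicator 1 (∑ v, y v) * ENNReal.ofReal (φ y))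
        fun _ => c / rc F]
    refine lintegral_congr fun y => ?_
    rw [show φ (y + fun _ => c / rc F) = φ y from hφ.diag y _,
      show ∑ v, (y + fun _ : InfinitePlace F => c / rc F) v = c + ∑ v, y v by
        simp [Finset.sum_add_distrib, mul_div_cancel₀ _ hr, add_comm]]
    rfl
  set T := -Real.log (2 * (NI (1 : FI F) * cR F))
  have h2 : μ (Set.Ioo (T - 2) T) < ⊤ := by
    rw [h1 _ measurableSet_Ioo]
    refine lt_of_le_of_lt (lintegral_mono fun y => ?_)
      ((unfold_real hφ one_ne_zero one_lt_two).1.mul_const (Real.exp (-(2 * (T - 2))))).lintegral_lt_top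
    by_cases h : ∑ v, y v ∈ Set.Ioo (T - 2) T
    · rw [Set.indicator_of_mem h, Pi.one_apply, one_mul, mul_assoc, ← Real.exp_add, mul_assoc]
      exact ENNReal.ofReal_le_ofReal (le_mul_of_one_le_right (hφ.nonneg y) (one_le_mul_of_one_le_of_one_le
        (hun_one (A := (1 : FI F)) one_ne_zero h.2.le) (Real.one_le_exp (by linarith [h.1]))))
    · simp [Set.indicator_of_notMem h]
  have : IsLocallyFiniteMeasure μ := ⟨fun x => ⟨(fun t => (T - 1 - x) + t) ⁻¹' Set.Ioo (T - 2) T,
    (isOpen_Ioo.preimage (continuous_const_add _)).mem_nhds ⟨by linarith, by linarith⟩,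
    by rwa [measure_preimage_add]⟩⟩
  have h3 := Measure.isAddLeftInvariant_eq_smul μ volume
  generalize Measure.addHaarScalarFactor μ volume = κ at h3
  refine ⟨κ, NNReal.coe_pos.2 (pos_iff_ne_zero.2 ?_), fun h hh => ?_⟩
  · rintro rfl
    have a1 := h1 _ MeasurableSet.univ
    simp only [h3, zero_smul, Measure.coe_zero, Pi.zero_apply, Set.indicator_univ, Pi.one_apply,
      one_mul] at a1
    obtain ⟨y, hy⟩ := (ae_all_iff.2 fun u : (𝓞 F)ˣ => (measurePreserving_add_right volume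
      (lm ((u : 𝓞 F) : F))).quasiMeasurePreserving.ae ((lintegral_eq_zero_iff m2).1 a1.symm)).exists
    exact absurd (hasSum_le (fun u => ENNReal.ofReal_eq_zero.1 (hy u)) (hφ.sum y) hasSum_zero)
      (by norm_num)
  have a1 : Integrable h μ := h3 ▸ hh.smul_measure_nnreal
  have a2 := (integrable_withDensity_iff_integrable_smul' m2 (by simp)).1
    ((integrable_map_measure a1.1 m1.aemeasurable).1 a1)
  have a3 := integral_map m1.aemeasurable a1.1
  rw [integral_withDensity_eq_integral_toReal_smul m2 (by simp), ← hμ, h3,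
    integral_smul_nnreal_measure] at a3
  simp only [ENNReal.toReal_ofReal (hφ.nonneg _), real_smul, Function.comp_apply] at a2 a3
  exact ⟨a2, a3.symm⟩

theorem kappa_le {φ : (InfinitePlace F → ℝ) → ℝ} (hφ : PU φ) {κ : ℝ} (hκ : Slab φ κ) {A : FI F}
    (hA : A ≠ 0) : κ ≤ 8 * cR F ^ 2 * gamR F (2 / 2) * Zr A 2 := by
  have hN := NI_pos hA
  have hc := cR_pos (F := F)
  set T := -Real.log (2 * (NI A * cR F)) with hT
  obtain ⟨h1, h2⟩ := unfold_real hφ hA one_lt_two
  have h3 := (hκ (fun t => ((Set.Iic T).indicator (fun x => Real.exp (2 * x)) t : ℝ))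
    ((integrable_indicator_iff measurableSet_Iic).2 (integrableOn_exp_mul_Iic two_pos T)).ofReal).2
  simp only [← ofReal_mul, integral_complex_ofReal, ofReal_inj] at h3
  have h4 : ∫ y, φ y * (Set.Iic T).indicator (fun x => Real.exp (2 * x)) (∑ v, y v) ≤ _ :=
    integral_mono_of_nonneg (.of_forall fun y => mul_nonneg (hφ.nonneg y)
      (Set.indicator_nonneg (fun _ _ => (Real.exp_pos _).le) _)) h1 (.of_forall fun y => by
      dsimp only
      rw [mul_assoc]
      refine mul_le_mul_of_nonneg_left ?_ (hφ.nonneg y)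
      by_cases h : ∑ v, y v ∈ Set.Iic T
      · rw [Set.indicator_of_mem h]
        exact le_mul_of_one_le_left (Real.exp_pos _).le (hun_one hA h)
      · rw [Set.indicator_of_notMem h]
        exact mul_nonneg (Th1_nonneg A y) (Real.exp_pos _).le)
  rw [h3, h2, integral_indicator measurableSet_Iic, integral_exp_mul_Iic two_pos,
    show 2 * T = -((2 : ℕ) * Real.log (2 * (NI A * cR F))) by rw [hT]; push_cast; ring, Real.exp_neg,
    Real.exp_nat_mul, Real.exp_log (by positivity), Real.rpow_neg hN.le, Real.rpow_two] at h4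
  refine le_of_mul_le_mul_right (h4.trans (le_of_eq ?_)) (by positivity)
  field_simp
  ring

end Crest.Agent.R014.HR
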