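import Crest.Agent.R014.IDefs

/-! # Row 14: Hooley's Δ: Fejér majorant and moments -/

set_option autoImplicit false

noncomputable section

open Finset Filter Topology
open scoped Classical

namespace Crest.Agent.R014

theorem idla_ee_add (x y : ℝ) : ee (x + y) = ee x * ee y := by
  simp only [ee]
  rw [← Complex.exp_add]
  push_cast
  ring_nf

theorem idla_ee_zero : ee 0 = 1 := by simp [ee]

theorem idla_norm_ee (x : ℝ) : ‖ee x‖ = 1 := by
  rw [ee, Complex.norm_exp]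
  simp

theorem idla_conj_ee (x : ℝ) : (starRingEnd ℂ) (ee x) = ee (-x) := by
  simp only [ee]
  rw [← Complex.exp_conj]
  congr 1
  simp only [map_mul, Complex.conj_ofReal, Complex.conj_I, Complex.ofReal_neg, map_ofNat]
  ring

theorem idla_ee_sum {ι : Type*} (s : Finset ι) (f : ι → ℝ) :
    ee (∑ i ∈ s, f i) = ∏ i ∈ s, ee (f i) := by
  induction s using Finset.induction_on with
  | empty => simp [idla_ee_zero]
  | insert a s ha ih => rw [sum_insert ha, prod_insert ha, idla_ee_add, ih]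

theorem idla_ee_re (x : ℝ) : (ee x).re = Real.cos (2 * Real.pi * x) := by
  have : ee x = Complex.exp (((2 * Real.pi * x : ℝ) : ℂ) * Complex.I) := by
    simp only [ee]
    congr 1
    push_cast
    ring
  rw [this, Complex.exp_ofReal_mul_I_re]

theorem idla_ee_nat_mul (n : ℕ) (x : ℝ) : ee (n * x) = ee x ^ n := by
  induction n with
  | zero => simp [idla_ee_zero]
  | succ n ih => rw [pow_succ, ← ih, ← idla_ee_add]; congr 1; push_cast; ring

theorem idla_ee_int (n : ℤ) : ee n = 1 := by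
  rw [ee, mul_comm]
  simp

theorem idla_phi_eq (U : ℝ) (T : Finset ℕ) (k : ℤ) :
    phi U T.val k = ∑ d ∈ T.powerset, ee (k * ell d / U) := by
  have h : phi U T.val k = ∏ p ∈ T, (1 + ee (k * Real.log p / U)) := rfl
  rw [h, Finset.prod_one_add]
  refine sum_congr rfl fun d _ => ?_
  rw [← idla_ee_sum, ell, mul_sum, sum_div]

theorem idla_phi_conj (U : ℝ) (T : Multiset ℕ) (k : ℤ) :
    (starRingEnd ℂ) (phi U T k) = phi U T (-k) := by
  unfold phi
  rw [map_multiset_prod, Multiset.map_map]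
  congr 2
  funext p
  simp only [Function.comp, map_add, map_one, idla_conj_ee]
  congr 2
  push_cast
  ring

theorem idla_count (m : ℕ) {k : ℤ} (hk : k ∈ Ioo (-(m : ℤ)) m) :
    ((#((Ico (0 : ℤ) m ×ˢ Ico (0 : ℤ) m).filter fun p => p.1 - p.2 = k) : ℕ) : ℤ) = m - |k| := by
  have h : #((Ico (0 : ℤ) m ×ˢ Ico (0 : ℤ) m).filter fun p => p.1 - p.2 = k)
      = #(Ico (max 0 k) (min (m : ℤ) (m + k))) := by
    refine card_nbij' (fun p => p.1) (fun a => (a, a - k)) ?_ ?_ ?_ ?_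
    · rintro ⟨a, b⟩ hp
      simp only [coe_filter, mem_product, mem_Ico, Set.mem_ofPred_eq, coe_Ico, Set.mem_Ico] at hp ⊢
      omega
    · intro a ha
      simp only [coe_filter, mem_product, mem_Ico, Set.mem_ofPred_eq, coe_Ico, Set.mem_Ico] at ha ⊢
      omega
    · rintro ⟨a, b⟩ hp
      simp only [coe_filter, mem_product, mem_Ico, Set.mem_ofPred_eq] at hp
      simp only [Prod.mk.injEq, true_and]
      omega
    · intro a _
      rfl
  rw [h, Int.card_Ico]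
  rw [mem_Ioo] at hk
  rcases abs_cases k with h1 | h1 <;> omega

/-- the Fejér kernel as a double sum -/
theorem idla_fejer {m : ℕ} (hm : 0 < m) (t : ℝ) :
    (m : ℂ) * ∑ k ∈ Ioo (-(m : ℤ)) m, (fej m k : ℂ) * ee (k * t) =
      ∑ p ∈ Ico (0 : ℤ) m ×ˢ Ico (0 : ℤ) m, ee (((p.1 - p.2 : ℤ) : ℝ) * t) := by
  rw [← sum_fiberwise_of_maps_to (t := Ioo (-(m : ℤ)) m) (g := fun p : ℤ × ℤ => p.1 - p.2), mul_sum]
  · refine sum_congr rfl fun k hk => ?_
    rw [sum_congr rfl (g := fun _ => ee (k * t)) fun p hp => by rw [(mem_filter.1 hp).2],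
      sum_const, nsmul_eq_mul, ← mul_assoc]
    congr 1
    have h1 := idla_count m hk
    have hm' : (0 : ℝ) < m := by exact_mod_cast hm
    have h2 : |(k : ℝ)| ≤ m := by
      rw [mem_Ioo] at hk
      have : |k| ≤ (m : ℤ) := abs_le.2 ⟨hk.1.le, hk.2.le⟩
      exact_mod_cast this
    have h3 : (m : ℝ) * fej m k =
        ((#((Ico (0 : ℤ) m ×ˢ Ico (0 : ℤ) m).filter fun p => p.1 - p.2 = k) : ℕ) : ℝ) := by
      have h4 : (((#((Ico (0 : ℤ) m ×ˢ Ico (0 : ℤ) m).filter fun p => p.1 - p.2 = k) : ℕ) : ℤ) : ℝ)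
          = (((m : ℤ) - |k| : ℤ) : ℝ) := by rw [h1]
      rw [Int.cast_natCast] at h4
      rw [h4, fej, max_eq_right (by rw [sub_nonneg, div_le_one hm']; exact h2)]
      push_cast
      field_simp
    exact_mod_cast congrArg (fun r : ℝ => (r : ℂ)) h3
  · rintro ⟨a, b⟩ hp
    simp only [mem_product, mem_Ico, mem_Ioo] at hp ⊢
    omega

theorem idla_fejer_nonneg {m : ℕ} (hm : 0 < m) (t : ℝ) :
    0 ≤ (∑ k ∈ Ioo (-(m : ℤ)) m, (fej m k : ℂ) * ee (k * t)).re := by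
  have h := idla_fejer hm t
  have h2 : ∑ p ∈ Ico (0 : ℤ) m ×ˢ Ico (0 : ℤ) m, ee (((p.1 - p.2 : ℤ) : ℝ) * t) =
      (∑ a ∈ Ico (0 : ℤ) m, ee (a * t)) * (starRingEnd ℂ) (∑ a ∈ Ico (0 : ℤ) m, ee (a * t)) := by
    rw [map_sum, sum_mul_sum, sum_product]
    refine sum_congr rfl fun a _ => sum_congr rfl fun b _ => ?_
    rw [idla_conj_ee, ← idla_ee_add]
    congr 1
    push_cast
    ring
  rw [h2, Complex.mul_conj] at h
  have h3 := congrArg Complex.re h
  rw [Complex.ofReal_re, ← Complex.ofReal_natCast, Complex.re_ofReal_mul] at h3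
  have hm' : (0 : ℝ) < m := by exact_mod_cast hm
  exact nonneg_of_mul_nonneg_right (h3 ▸ Complex.normSq_nonneg _) hm'

theorem idla_fejer_ge {m : ℕ} (hm : 0 < m) {t : ℝ} (ht : m * |t| ≤ 1 / 128) :
    (m : ℝ) / 2 ≤ (∑ k ∈ Ioo (-(m : ℤ)) m, (fej m k : ℂ) * ee (k * t)).re := by
  have h3 := congrArg Complex.re (idla_fejer hm t)
  rw [← Complex.ofReal_natCast, Complex.re_ofReal_mul,
    Complex.re_sum (Ico (0 : ℤ) m ×ˢ Ico (0 : ℤ) m)] at h3
  have hm' : (0 : ℝ) < m := by exact_mod_cast hm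
  have h4 : ∑ _p ∈ Ico (0 : ℤ) m ×ˢ Ico (0 : ℤ) m, (1 / 2 : ℝ) ≤
      ∑ p ∈ Ico (0 : ℤ) m ×ˢ Ico (0 : ℤ) m, (ee (((p.1 - p.2 : ℤ) : ℝ) * t)).re := by
    refine sum_le_sum fun p hp => ?_
    rw [idla_ee_re]
    refine le_trans ?_ Real.one_sub_sq_div_two_le_cos
    have h5 : |p.1 - p.2| ≤ (m : ℤ) := by
      simp only [mem_product, mem_Ico] at hp
      rw [abs_le]
      omega
    have h6 : |((p.1 - p.2 : ℤ) : ℝ)| ≤ m := by exact_mod_cast h5
    have h7 : |2 * Real.pi * (((p.1 - p.2 : ℤ) : ℝ) * t)| ≤ 1 := by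
      rw [abs_mul, abs_mul (((p.1 - p.2 : ℤ) : ℝ)), abs_of_pos (by positivity : 0 < 2 * Real.pi)]
      have h8 : |((p.1 - p.2 : ℤ) : ℝ)| * |t| ≤ 1 / 128 :=
        (mul_le_mul_of_nonneg_right h6 (abs_nonneg t)).trans ht
      calc 2 * Real.pi * (|((p.1 - p.2 : ℤ) : ℝ)| * |t|) ≤ 2 * 4 * (1 / 128) := by
            gcongr
            exact Real.pi_le_four
        _ ≤ 1 := by norm_num
    have h9 := (sq_le_one_iff_abs_le_one _).2 h7
    linarith
  rw [sum_const, card_product, Int.card_Ico, nsmul_eq_mul, ← h3] at h4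
  simp only [sub_zero, Int.toNat_natCast, Nat.cast_mul] at h4
  refine le_of_mul_le_mul_left ?_ hm'
  linarith

theorem idla_bands {m j1 : ℕ} (hm : 0 < m) (hj : m ≤ 2 ^ j1) (f : ℤ → ℂ) :
    ∑ k ∈ Ioo (-(m : ℤ)) m, f k = f 0 + ∑ j ∈ range j1, ∑ k ∈ band m j, f k := by
  have h0 : (0 : ℤ) ∈ Ioo (-(m : ℤ)) m := by
    rw [mem_Ioo]; omega
  rw [← add_sum_erase _ _ h0]
  congr 1
  rw [← sum_fiberwise_of_maps_to (t := range j1) (g := fun k : ℤ => Nat.log 2 k.natAbs)]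
  · refine sum_congr rfl fun j _ => sum_congr ?_ fun _ _ => rfl
    ext k
    simp only [band, mem_filter, mem_erase]
    have e1 : (2 : ℤ) ^ j ≤ |k| ↔ 2 ^ j ≤ k.natAbs := by
      rw [← Int.natCast_natAbs]; exact_mod_cast Iff.rfl
    have e2 : |k| < (2 : ℤ) ^ (j + 1) ↔ k.natAbs < 2 ^ (j + 1) := by
      rw [← Int.natCast_natAbs]; exact_mod_cast Iff.rfl
    rw [e1, e2]
    constructor
    · rintro ⟨⟨hk0, hk⟩, hl⟩
      have := (Nat.log_eq_iff (b := 2) (m := j) (n := k.natAbs)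
        (Or.inr ⟨by norm_num, Int.natAbs_ne_zero.2 hk0⟩)).1 hl
      exact ⟨hk, this⟩
    · rintro ⟨hk, hl⟩
      have hpos : 0 < 2 ^ j := by positivity
      have hk0 : k ≠ 0 := by
        rintro rfl
        simp at hl
      exact ⟨⟨hk0, hk⟩, (Nat.log_eq_iff (b := 2) (m := j) (n := k.natAbs)
        (Or.inr ⟨by norm_num, Int.natAbs_ne_zero.2 hk0⟩)).2 hl⟩
  · intro k hk
    rw [mem_erase, mem_Ioo] at hk
    rw [mem_range]
    refine Nat.log_lt_of_lt_pow (Int.natAbs_ne_zero.2 hk.1) (lt_of_lt_of_le ?_ hj)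
    omega

theorem idla_orth {M : ℕ} (hM : 0 < M) {r : ℤ} (hr : |r| < M) :
    ∑ y ∈ range M, ee (r * (y / M)) = if r = 0 then (M : ℂ) else 0 := by
  have hM' : (M : ℝ) ≠ 0 := by exact_mod_cast hM.ne'
  split_ifs with h
  · subst h
    simp [idla_ee_zero]
  · have h1 : ∀ y : ℕ, ee (r * (y / M)) = ee (r / M) ^ y := fun y => by
      rw [← idla_ee_nat_mul]; congr 1; ring
    have h2 : ee (r / M) ^ M = 1 := by
      rw [← idla_ee_nat_mul, ← idla_ee_int r]; congr 1; field_simp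
    have h3 : ee (r / M) ≠ 1 := by
      intro h4
      rw [ee, Complex.exp_eq_one_iff] at h4
      obtain ⟨n, hn⟩ := h4
      have h5 : (2 * Real.pi * Complex.I : ℂ) ≠ 0 := by simp [Real.pi_ne_zero]
      rw [mul_comm (n : ℂ)] at hn
      have h6 := mul_left_cancel₀ h5 hn
      have h7 : (r : ℝ) / M = n := by exact_mod_cast h6
      rw [div_eq_iff hM'] at h7
      have h8 : r = n * M := by exact_mod_cast h7
      have h9 : (M : ℤ) ∣ r := ⟨n, by rw [h8, mul_comm]⟩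
      exact h (Int.eq_zero_of_abs_lt_dvd h9 hr)
    simp only [h1]
    rw [geom_sum_eq h3, h2, sub_self, zero_div]

/-- `∑_{|k| < m} fej m k e(k t) = |∑_{j < m} e(j t)|² / m ≥ 0`, and it is `≥ m / 4` for
`|t| ≤ 1/U` (real parts `cos (2 π j t) ≥ 1/2`).  Sum over `d ⊆ T` with `t = (ell d - x)/U`:
`∑_d e(k ell d / U) = phi U T k` (`Finset.prod_one_add`/`prod_add`); the term `k = 0` gives `2^{#T}`
and the other frequencies are partitioned by the bands; `4/m ≤ 1024/U`. -/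
theorem dl_fejer {U : ℝ} (hU : 256 ≤ U) (T : Finset ℕ) {j1 : ℕ} (hj : ⌊U / 128⌋₊ ≤ 2 ^ j1) (x : ℝ) :
    (#(T.powerset.filter fun d => |ell d - x| ≤ 1) : ℝ) ≤
      1024 / U * (2 ^ #T + ∑ j ∈ range j1, ‖HH U ⌊U / 128⌋₊ j T.val x‖) := by
  have hU0 : 0 < U := by linarith
  have hm1 : U / 128 < ⌊U / 128⌋₊ + 1 := Nat.lt_floor_add_one _
  have hm2 : (⌊U / 128⌋₊ : ℝ) ≤ U / 128 := Nat.floor_le (by positivity)
  generalize ⌊U / 128⌋₊ = m at *
  have hm3 : U / 256 ≤ m := by linarith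
  have hm : 0 < m := by
    have : (0 : ℝ) < m := by linarith
    exact_mod_cast this
  have h1 : ∑ d ∈ T.powerset, ∑ k ∈ Ioo (-(m : ℤ)) m, (fej m k : ℂ) * ee (k * ((ell d - x) / U))
      = 2 ^ #T + ∑ j ∈ range j1, HH U m j T.val x := by
    rw [sum_comm]
    have h2 : ∀ k : ℤ, ∑ d ∈ T.powerset, (fej m k : ℂ) * ee (k * ((ell d - x) / U))
        = (fej m k : ℂ) * ee (-(k * x / U)) * phi U T.val k := fun k => by
      rw [idla_phi_eq, mul_sum]
      refine sum_congr rfl fun d _ => ?_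
      rw [mul_assoc, ← idla_ee_add]
      congr 2
      ring
    simp only [h2]
    rw [idla_bands hm hj]
    congr 1
    simp [fej, idla_phi_eq, idla_ee_zero]
  have h3 := congrArg Complex.re h1
  rw [Complex.re_sum, Complex.add_re, Complex.re_sum] at h3
  have h4 : ((2 : ℂ) ^ #T).re = 2 ^ #T := by
    rw [show (2 : ℂ) ^ #T = (((2 : ℝ) ^ #T : ℝ) : ℂ) by push_cast; rfl, Complex.ofReal_re]
  have h5 : ∑ j ∈ range j1, (HH U m j T.val x).re ≤ ∑ j ∈ range j1, ‖HH U m j T.val x‖ :=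
    sum_le_sum fun j _ => Complex.re_le_norm _
  have h6 : ∑ _d ∈ T.powerset.filter (fun d => |ell d - x| ≤ 1), (m : ℝ) / 2 ≤
      ∑ d ∈ T.powerset,
        (∑ k ∈ Ioo (-(m : ℤ)) m, (fej m k : ℂ) * ee (k * ((ell d - x) / U))).re := by
    refine le_trans (sum_le_sum fun d hd => ?_) (sum_le_sum_of_subset_of_nonneg
      (filter_subset (fun d => |ell d - x| ≤ 1) _) fun d _ _ => idla_fejer_nonneg hm _)
    refine idla_fejer_ge hm ?_
    rw [abs_div, abs_of_pos hU0]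
    calc (m : ℝ) * (|ell d - x| / U) ≤ U / 128 * (1 / U) := by
          gcongr
          exact (mem_filter.1 hd).2
      _ = 1 / 128 := by field_simp
  rw [sum_const, nsmul_eq_mul, h3, h4] at h6
  rw [div_mul_eq_mul_div, le_div_iff₀ hU0]
  have h7 : (0 : ℝ) ≤ (#(T.powerset.filter fun d => |ell d - x| ≤ 1) : ℝ) := Nat.cast_nonneg _
  have h8 := mul_le_mul_of_nonneg_left hm3 h7
  have h9 := mul_nonneg h7 hU0.le
  linarith

/-- Expand the factor `phi U T2`. -/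
theorem HH_union (U : ℝ) (m j : ℕ) {T1 T2 : Finset ℕ} (h : Disjoint T1 T2) (x : ℝ) :
    HH U m j (T1 ∪ T2).val x = ∑ d ∈ T2.powerset, HH U m j T1.val (x - ell d) := by
  unfold HH
  rw [sum_comm]
  refine sum_congr rfl fun k _ => ?_
  have h1 : phi U (T1 ∪ T2).val k = phi U T1.val k * phi U T2.val k :=
    Finset.prod_union (f := fun p : ℕ => 1 + ee (k * Real.log p / U)) h
  rw [h1, idla_phi_eq U T2, mul_sum, mul_sum]
  refine sum_congr rfl fun d _ => ?_
  have h2 : ee (-(k * (x - ell d) / U)) = ee (-(k * x / U)) * ee (k * ell d / U) := by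
    rw [← idla_ee_add]; congr 1; ring
  rw [h2]
  ring

/-- `HH` is real since the band is symmetric and `phi U T (-k)` is the conjugate of `phi U T k`. -/
theorem HH_real (U : ℝ) (m j : ℕ) (T : Multiset ℕ) (x : ℝ) : (HH U m j T x).im = 0 := by
  rw [← Complex.conj_eq_iff_im]
  unfold HH
  rw [map_sum]
  have hb : ∀ k ∈ band m j, -k ∈ band m j := fun k hk => by
    simp only [band, mem_filter, mem_Ioo, abs_neg] at hk ⊢
    exact ⟨⟨by omega, by omega⟩, hk.2⟩
  refine sum_nbij' (fun k => -k) (fun k => -k) hb hb (fun k _ => neg_neg k) (fun k _ => neg_neg k)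
    fun k _ => ?_
  rw [map_mul, map_mul, Complex.conj_ofReal, idla_conj_ee, idla_phi_conj]
  congr 3
  · simp [fej]
  · push_cast
    ring

/-- A nonnegative trigonometric polynomial is bounded by its number of frequencies times its mean:
each coefficient is the average of `P(y/N') e(-κ y/N')` over `y ∈ range N'`, `N' = 2 N + 1`. -/
theorem trig_le (N : ℕ) (c : ℤ → ℂ)
    (h : ∀ t : ℝ, 0 ≤ (∑ κ ∈ Icc (-(N : ℤ)) N, c κ * ee (κ * t)).re ∧
      (∑ κ ∈ Icc (-(N : ℤ)) N, c κ * ee (κ * t)).im = 0) (t : ℝ) :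
    0 ≤ (c 0).re ∧ ‖∑ κ ∈ Icc (-(N : ℤ)) N, c κ * ee (κ * t)‖ ≤ (2 * N + 1) * (c 0).re := by
  set M : ℕ := 2 * N + 1 with hM
  have hM0 : 0 < M := by omega
  have hM' : (0 : ℝ) < M := by exact_mod_cast hM0
  have key : ∀ κ0 ∈ Icc (-(N : ℤ)) N, ∑ y ∈ range M,
      (∑ κ ∈ Icc (-(N : ℤ)) N, c κ * ee (κ * (y / M))) * ee (-(κ0 * (y / M))) = M * c κ0 := by
    intro κ0 h0
    simp only [sum_mul]
    rw [sum_comm]
    have h1 : ∀ κ ∈ Icc (-(N : ℤ)) N, ∑ y ∈ range M, c κ * ee (κ * (y / M)) * ee (-(κ0 * (y / M)))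
        = if κ = κ0 then M * c κ else 0 := by
      intro κ hκ
      have h2 : ∀ y : ℕ, c κ * ee (κ * (y / M)) * ee (-(κ0 * (y / M)))
          = c κ * ee (((κ - κ0 : ℤ) : ℝ) * (y / M)) := fun y => by
        rw [mul_assoc, ← idla_ee_add]; congr 2; push_cast; ring
      simp only [h2]
      rw [← mul_sum, idla_orth hM0]
      · simp only [sub_eq_zero]
        split_ifs <;> simp [mul_comm]
      · rw [mem_Icc] at h0 hκ
        rw [abs_lt]
        omega
    rw [sum_congr rfl h1, sum_ite_eq' , if_pos h0]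
  have hz : (0 : ℤ) ∈ Icc (-(N : ℤ)) N := by rw [mem_Icc]; omega
  have hsum : ∑ y ∈ range M, ‖∑ κ ∈ Icc (-(N : ℤ)) N, c κ * ee (κ * (y / M))‖ = M * (c 0).re := by
    have h1 := congrArg Complex.re (key 0 hz)
    rw [← Complex.ofReal_natCast, Complex.re_ofReal_mul, Complex.re_sum] at h1
    rw [← h1]
    refine sum_congr rfl fun y _ => ?_
    simp only [Int.cast_zero, zero_mul, neg_zero, idla_ee_zero, mul_one]
    rw [← Complex.abs_re_eq_norm.2 (h _).2, abs_of_nonneg (h _).1]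
  have hc : ∀ κ0 ∈ Icc (-(N : ℤ)) N, ‖c κ0‖ ≤ (c 0).re := by
    intro κ0 h0
    refine le_of_mul_le_mul_left ?_ hM'
    have e1 : (M : ℝ) * ‖c κ0‖ = ‖(M : ℂ) * c κ0‖ := by rw [norm_mul, Complex.norm_natCast]
    rw [← hsum, e1, ← key κ0 h0]
    refine (norm_sum_le _ _).trans (le_of_eq (sum_congr rfl fun y _ => ?_))
    rw [norm_mul, idla_norm_ee, mul_one]
  refine ⟨(norm_nonneg _).trans (hc 0 hz), (norm_sum_le _ _).trans ?_⟩
  calc ∑ κ ∈ Icc (-(N : ℤ)) N, ‖c κ * ee (κ * t)‖ ≤ ∑ _κ ∈ Icc (-(N : ℤ)) N, (c 0).re :=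
        sum_le_sum fun κ hκ => by rw [norm_mul, idla_norm_ee, mul_one]; exact hc κ hκ
    _ = (2 * N + 1) * (c 0).re := by
        rw [sum_const, nsmul_eq_mul, Int.card_Icc]
        congr 1
        have : ((N : ℤ) + 1 - -(N : ℤ)).toNat = 2 * N + 1 := by omega
        rw [this]
        push_cast
        ring

/-- `HH^16 = ∑_a ∏ (fej · phi)(a i) e(-(∑ a) x/U)` has frequencies at most `2^{j+5}`; `trig_le`. -/
theorem HH_pow_le {U : ℝ} (hU : 0 < U) (m j : ℕ) (T : Multiset ℕ) (x : ℝ) :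
    0 ≤ Mom U m j T ∧ ‖HH U m j T x‖ ^ 16 ≤ 2 ^ (j + 7) * Mom U m j T := by
  set c : ℤ → ℂ := fun κ =>
    ∑ a ∈ (Fintype.piFinset fun _ : Fin 16 => band m j).filter (fun a => ∑ i, a i = κ),
      ∏ i, ((fej m (a i) : ℂ) * phi U T (a i)) with hc
  have key : ∀ t : ℝ, ∑ κ ∈ Icc (-((2 ^ (j + 5) : ℕ) : ℤ)) (2 ^ (j + 5) : ℕ), c κ * ee (κ * t)
      = HH U m j T (-(t * U)) ^ 16 := by
    intro t
    unfold HH
    rw [Finset.sum_pow', ← sum_fiberwise_of_maps_to
      (t := Icc (-((2 ^ (j + 5) : ℕ) : ℤ)) (2 ^ (j + 5) : ℕ)) (g := fun a : Fin 16 → ℤ => ∑ i, a i)]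
    · refine sum_congr rfl fun κ _ => ?_
      rw [hc, sum_mul]
      refine sum_congr rfl fun a ha => ?_
      rw [← (mem_filter.1 ha).2, Int.cast_sum, sum_mul, idla_ee_sum, ← prod_mul_distrib]
      refine prod_congr rfl fun i _ => ?_
      have : -((a i : ℝ) * -(t * U) / U) = a i * t := by field_simp
      rw [this]
      ring
    · intro a ha
      rw [mem_Icc, ← abs_le]
      refine (abs_sum_le_sum_abs _ _).trans ?_
      calc ∑ i, |a i| ≤ ∑ _i : Fin 16, (2 : ℤ) ^ (j + 1) :=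
            sum_le_sum fun i _ => (mem_filter.1 (Fintype.mem_piFinset.1 ha i)).2.2.le
        _ = ((2 ^ (j + 5) : ℕ) : ℤ) := by
            rw [sum_const, card_univ, Fintype.card_fin, nsmul_eq_mul]
            push_cast
            ring
  have h1 := trig_le (2 ^ (j + 5)) c (fun t => by
    rw [key]
    have h2 : HH U m j T (-(t * U)) = ((HH U m j T (-(t * U))).re : ℂ) :=
      (Complex.conj_eq_iff_re.1 (Complex.conj_eq_iff_im.2 (HH_real U m j T _))).symm
    rw [h2, ← Complex.ofReal_pow, Complex.ofReal_re, Complex.ofReal_im]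
    exact ⟨by positivity, rfl⟩) (-(x / U))
  have h3 : (c 0).re = Mom U m j T := rfl
  have h4 : -(-(x / U) * U) = x := by field_simp
  rw [key, h3, h4, norm_pow] at h1
  refine ⟨h1.1, h1.2.trans (mul_le_mul_of_nonneg_right ?_ h1.1)⟩
  have h5 : (1 : ℝ) ≤ 2 ^ (j + 5) := one_le_pow₀ (by norm_num)
  have h6 : (2 : ℝ) ^ (j + 7) = 4 * 2 ^ (j + 5) := by ring
  push_cast
  linarith

end Crest.Agent.R014

end
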