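import Crest.Agent.R014.IDefs

/-! # Row 14: Hooley's Δ: sets versus tuples -/

set_option autoImplicit false

noncomputable section

open Finset Filter Topology
open scoped Classical

namespace Crest.Agent.R014

/-- Every `T` with `k s` elements in the block `B s` is the image of exactly `∏ (k s)!` injective
tuples. -/
theorem sum_sets_le_tuples {r : ℕ} (B : Fin r → Finset ℕ)
    (hB : Pairwise fun s t => Disjoint (B s) (B t)) (k : Fin r → ℕ) (F : Multiset ℕ → ℝ)
    (hF : ∀ T, 0 ≤ F T) :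
    (∏ s, ((k s).factorial : ℝ)) *
      ∑ T ∈ (univ.biUnion B).powerset.filter (fun T => ∀ s, #(T ∩ B s) = k s), F T.val ≤
    ∑ t ∈ Fintype.piFinset (fun i : (Σ s : Fin r, Fin (k s)) => B i.1), F (univ.val.map t) := by
  set S := (univ.biUnion B).powerset.filter (fun T => ∀ s, #(T ∩ B s) = k s) with hS
  set Q := Fintype.piFinset (fun i : (Σ s : Fin r, Fin (k s)) => B i.1) with hQ
  set P := Q.filter (fun t => univ.image t ∈ S ∧ Function.Injective t) with hP
  have h1 : ∑ t ∈ P, F (univ.val.map t) ≤ ∑ t ∈ Q, F (univ.val.map t) :=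
    sum_le_sum_of_subset_of_nonneg (filter_subset _ _) fun _ _ _ => hF _
  refine le_trans ?_ h1
  rw [← sum_fiberwise_of_maps_to (s := P) (t := S) (g := fun t => univ.image t)
    (fun t ht => (mem_filter.1 ht).2.1), mul_sum]
  refine sum_le_sum fun T hT => ?_
  have h2 : ∑ t ∈ P with univ.image t = T, F (univ.val.map t)
      = ∑ t ∈ P with univ.image t = T, F T.val := by
    refine sum_congr rfl fun t ht => ?_
    obtain ⟨ht1, ht2⟩ := mem_filter.1 ht
    have hinj := (mem_filter.1 ht1).2.2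
    rw [← ht2, image_val_of_injOn (fun a _ b _ h => hinj h)]
  rw [h2, sum_const, nsmul_eq_mul]
  refine mul_le_mul_of_nonneg_right ?_ (hF _)
  obtain ⟨hT1, hT2⟩ := mem_filter.1 hT
  have hT1' := mem_powerset.1 hT1
  have h3 : ∏ s, (k s).factorial ≤ #(P.filter fun t => univ.image t = T) := by
    have hc : #(univ : Finset (∀ s : Fin r, Equiv.Perm (Fin (k s)))) = ∏ s, (k s).factorial := by
      rw [card_univ, Fintype.card_pi]
      simp [Fintype.card_perm]
    rw [← hc]
    refine card_le_card_of_injOn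
      (fun σ i => (T ∩ B i.1).orderEmbOfFin (hT2 i.1) (σ i.1 i.2)) ?_ ?_
    · intro σ _
      have hmem : ∀ (s : Fin r) (j : Fin (k s)), (T ∩ B s).orderEmbOfFin (hT2 s) j ∈ T ∩ B s :=
        fun s j => orderEmbOfFin_mem _ _ _
      have him : univ.image (fun i : (Σ s : Fin r, Fin (k s)) =>
          (T ∩ B i.1).orderEmbOfFin (hT2 i.1) (σ i.1 i.2)) = T := by
        ext p
        simp only [mem_image, mem_univ, true_and]
        constructor
        · rintro ⟨i, rfl⟩
          exact (mem_inter.1 (hmem _ _)).1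
        · intro hp
          obtain ⟨s, -, hs⟩ := mem_biUnion.1 (hT1' hp)
          have hp' : p ∈ ((T ∩ B s : Finset ℕ) : Set ℕ) := mem_coe.2 (mem_inter.2 ⟨hp, hs⟩)
          rw [← range_orderEmbOfFin _ (hT2 s)] at hp'
          obtain ⟨j, hj⟩ := hp'
          exact ⟨⟨s, (σ s).symm j⟩, by simpa using hj⟩
      refine mem_coe.2 (mem_filter.2 ⟨mem_filter.2 ⟨?_, ?_, ?_⟩, him⟩)
      · exact Fintype.mem_piFinset.2 fun i => (mem_inter.1 (hmem _ _)).2
      · rw [him]; exact hT
      · rintro ⟨s, j⟩ ⟨s', j'⟩ h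
        have hs : s = s' := by
          by_contra hne
          have a1 := (mem_inter.1 (hmem s (σ s j))).2
          have a2 := (mem_inter.1 (hmem s' (σ s' j'))).2
          simp only at h
          rw [h] at a1
          exact disjoint_left.1 (hB hne) a1 a2
        subst hs
        have : j = j' := (σ s).injective (((T ∩ B s).orderEmbOfFin (hT2 s)).injective h)
        rw [this]
    · intro σ _ σ' _ h
      funext s
      ext j
      have := congrFun h ⟨s, j⟩
      exact congrArg Fin.val (((T ∩ B s).orderEmbOfFin (hT2 s)).injective this)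
  exact_mod_cast h3

/-- `Finset.prod_univ_sum`. -/
theorem sum_tuples_prod {r : ℕ} (B : Fin r → Finset ℕ) (k : Fin r → ℕ) (g : ℕ → ℂ) :
    ∑ t ∈ Fintype.piFinset (fun i : (Σ s : Fin r, Fin (k s)) => B i.1),
      ((univ.val.map t).map g).prod = ∏ s, (∑ p ∈ B s, g p) ^ k s := by
  have h1 : ∀ t : (Σ s : Fin r, Fin (k s)) → ℕ,
      ((univ.val.map t).map g).prod = ∏ i, g (t i) := by
    intro t
    rw [Multiset.map_map]; rfl
  simp_rw [h1]
  rw [← prod_univ_sum (fun i : (Σ s : Fin r, Fin (k s)) => B i.1) (fun _ p => g p),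
    Fintype.prod_sigma]
  simp

theorem idlb_mono {U : ℝ} (hU : 0 < U) {s t : ℕ} (h : s ≤ t) : U / 2 ^ t ≤ U / 2 ^ s :=
  div_le_div_of_nonneg_left hU.le (by positivity) (pow_le_pow_right₀ (by norm_num) h)

theorem disjoint_blk {U : ℝ} (hU : 0 < U) {s t : ℕ} (h : s ≠ t) : Disjoint (blk U s) (blk U t) := by
  wlog hst : s < t generalizing s t
  · exact (this h.symm (by omega)).symm
  rw [disjoint_left]
  intro p h1 h2
  unfold blk at h1 h2
  rw [mem_lp] at h1 h2
  have := idlb_mono hU (show s + 1 ≤ t from hst)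
  linarith [h1.2.1, h2.2.2]

theorem idlb_biUnion_range {U : ℝ} (hU : 0 < U) (r : ℕ) :
    (range r).biUnion (fun s => blk U s) = lp (U / 2 ^ r) U := by
  induction r with
  | zero =>
    ext p
    simp only [range_zero, biUnion_empty, notMem_empty, pow_zero, div_one, mem_lp, false_iff]
    rintro ⟨-, h1, h2⟩
    linarith
  | succ r ih =>
    rw [range_add_one, biUnion_insert, ih]
    ext p
    simp only [mem_union, blk, mem_lp]
    have h1 := idlb_mono hU (Nat.le_succ r)
    have h2 := idlb_mono hU (Nat.zero_le r)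
    rw [pow_zero, div_one] at h2
    constructor
    · rintro (⟨a, b, c⟩ | ⟨a, b, c⟩)
      · exact ⟨a, b, c.trans h2⟩
      · exact ⟨a, h1.trans_lt b, c⟩
    · rintro ⟨a, b, c⟩
      by_cases hh : Real.log p ≤ U / 2 ^ r
      · exact Or.inl ⟨a, b, hh⟩
      · exact Or.inr ⟨a, not_le.1 hh, c⟩

theorem biUnion_blk {U : ℝ} (hU : 0 < U) (r : ℕ) :
    (univ : Finset (Fin r)).biUnion (fun s => blk U s) = lp (U / 2 ^ r) U := by
  rw [← idlb_biUnion_range hU r]
  ext p
  simp only [mem_biUnion, mem_univ, true_and, mem_range]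
  constructor
  · rintro ⟨s, hs⟩
    exact ⟨s, s.2, hs⟩
  · rintro ⟨s, hs, h⟩
    exact ⟨⟨s, hs⟩, h⟩

/-- In `kc` the set `T` is silently coerced to a `Finset ℝ`; this is the intended form. -/
theorem idlb_kc_eq (U : ℝ) (j : ℕ) (T : Finset ℕ) :
    kc U j T = #(T.filter fun p : ℕ => U / 2 ^ j < Real.log p ∧ Real.log p ≤ U) := by
  unfold kc
  symm
  refine card_bij (fun p _ => (p : ℝ)) ?_ ?_ ?_
  · intro p hp
    simp only [mem_filter] at hp ⊢
    refine ⟨?_, hp.2⟩
    simpa using hp.1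
  · intro p _ q _ h
    exact_mod_cast h
  · intro x hx
    simp only [mem_filter] at hx ⊢
    obtain ⟨h1, h2⟩ := hx
    have : ∃ a ∈ T, (a : ℝ) = x := by simpa using h1
    obtain ⟨a, ha, rfl⟩ := this
    exact ⟨a, ⟨ha, h2⟩, rfl⟩

theorem kc_eq_sum {U : ℝ} (hU : 0 < U) {T : Finset ℕ} (hT : ∀ p ∈ T, p.Prime) (j : ℕ) :
    kc U j T = ∑ s ∈ range j, #(T ∩ blk U s) := by
  rw [← card_biUnion (fun s _ t _ hst =>
    (disjoint_blk hU hst).mono inter_subset_right inter_subset_right)]
  rw [← inter_biUnion, idlb_biUnion_range hU j]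
  rw [idlb_kc_eq]
  refine congrArg card ?_
  ext p
  simp only [mem_filter, mem_inter, mem_lp]
  exact ⟨fun h => ⟨h.1, hT p h.1, h.2⟩, fun h => ⟨h.1, h.2.2⟩⟩

theorem pm_eq_sum_blk (a : ℕ → ℝ) {U : ℝ} (hU : 0 < U) (r : ℕ) :
    pm a (U / 2 ^ r) U = ∑ s ∈ range r, ∑ p ∈ blk U s, a p / p := by
  unfold pm
  rw [← idlb_biUnion_range hU r, sum_biUnion (fun s _ t _ hst => disjoint_blk hU hst)]

end Crest.Agent.R014

end
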