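import Crest.Agent.R014.IDefs

/-! # Row 14: Hooley's Δ: small subsums -/

set_option autoImplicit false

noncomputable section

open Finset Filter Topology
open scoped Classical

namespace Crest.Agent.R014

/-- Indicator vector over `𝔽₂`. -/
def ind (I : Finset (Fin 16)) : Fin 16 → ZMod 2 := fun i => if i ∈ I then 1 else 0

/-- The rank of the family of small subsums. -/
def rk (a : Fin 16 → ℤ) (x : ℝ) : ℕ :=
  Module.finrank (ZMod 2) (Submodule.span (ZMod 2) (ind '' {I | |((∑ i ∈ I, a i : ℤ) : ℝ)| ≤ x}))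

theorem idlc_ind_inj : Function.Injective ind := by
  intro I J h
  ext i
  have := congrFun h i
  unfold ind at this
  by_cases hI : i ∈ I <;> by_cases hJ : i ∈ J <;> simp_all

theorem idlc_ind_univ_ne : ind univ ≠ 0 := by
  intro h
  have := congrFun h 0
  simp [ind] at this

theorem idlc_exists_notMem {K V : Type*} [Field K] [AddCommGroup V] [Module K V]
    [Module.Finite K V] {n : ℕ} (v : Fin n → V) (S : Set V)
    (h : n < Module.finrank K (Submodule.span K S)) :
    ∃ w ∈ S, w ∉ Submodule.span K (Set.range v) := by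
  by_contra hc
  push Not at hc
  have h1 : Submodule.span K S ≤ Submodule.span K (Set.range v) := Submodule.span_le.2 hc
  have h2 := Submodule.finrank_mono h1
  have h3 := finrank_range_le_card (R := K) v
  rw [Fintype.card_fin] at h3
  unfold Set.finrank at h3
  omega

theorem idlc_span_single :
    Submodule.span (ZMod 2) (ind '' {I | #I = 1}) = ⊤ := by
  rw [eq_top_iff, ← (Pi.basisFun (ZMod 2) (Fin 16)).span_eq]
  apply Submodule.span_mono
  rintro _ ⟨i, rfl⟩
  refine ⟨{i}, by simp, ?_⟩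
  funext j
  simp [ind, Pi.single_apply]

theorem Nn_le_two_pow (a : Fin 16 → ℤ) (x : ℝ) : Nn a x ≤ 2 ^ rk a x := by
  unfold Nn rk
  set W := Submodule.span (ZMod 2) (ind '' {I | |((∑ i ∈ I, a i : ℤ) : ℝ)| ≤ x}) with hW
  have h1 : Nat.card W = 2 ^ Module.finrank (ZMod 2) W := by
    rw [Module.natCard_eq_pow_finrank (K := ZMod 2), Nat.card_zmod]
  rw [← h1, ← Nat.card_eq_finsetCard]
  refine Nat.card_le_card_of_injective
    (fun I => (⟨ind I.1, Submodule.subset_span ⟨I.1, (mem_filter.1 I.2).2, rfl⟩⟩ : W)) ?_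
  intro I J h
  exact Subtype.ext (idlc_ind_inj (congrArg Subtype.val h))

theorem rk_mono (a : Fin 16 → ℤ) {x y : ℝ} (h : x ≤ y) : rk a x ≤ rk a y := by
  unfold rk
  apply Submodule.finrank_mono
  apply Submodule.span_mono
  apply Set.image_mono
  intro I hI
  exact le_trans hI h

theorem rk_le (a : Fin 16 → ℤ) (x : ℝ) : rk a x ≤ 16 := by
  unfold rk
  refine (Submodule.finrank_le _).trans ?_
  simp

theorem one_le_rk {a : Fin 16 → ℤ} (ha : ∑ i, a i = 0) {x : ℝ} (hx : 0 ≤ x) : 1 ≤ rk a x := by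
  unfold rk
  rw [Nat.one_le_iff_ne_zero]
  intro h
  rw [Submodule.finrank_eq_zero] at h
  have : ind univ ∈ Submodule.span (ZMod 2) (ind '' {I | |((∑ i ∈ I, a i : ℤ) : ℝ)| ≤ x}) :=
    Submodule.subset_span ⟨univ, by simp only [Set.mem_ofPred_eq, ha]; simpa using hx, rfl⟩
  rw [h, Submodule.mem_bot] at this
  exact idlc_ind_univ_ne this

theorem idlc_sum_symmDiff (a : Fin 16 → ℤ) (I : Finset (Fin 16)) :
    ∑ i ∈ symmDiff I (univ.filter fun i => a i < 0), |a i| =
      ∑ i ∈ I, a i - ∑ i ∈ univ.filter (fun i => a i < 0), a i := by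
  rw [← Finset.sum_ite_mem_eq, ← Finset.sum_ite_mem_eq I,
    ← Finset.sum_ite_mem_eq (univ.filter fun i => a i < 0), ← Finset.sum_sub_distrib]
  refine Finset.sum_congr rfl fun i _ => ?_
  by_cases hI : i ∈ I <;> by_cases hN : a i < 0
  · simp [Finset.mem_symmDiff, hI, hN]
  · simp [Finset.mem_symmDiff, hI, hN, abs_of_nonneg (not_lt.1 hN)]
  · simp [Finset.mem_symmDiff, hI, hN, abs_of_neg hN]
  · simp [Finset.mem_symmDiff, hI, hN]

/-- Littlewood–Offord: the sets `I ∆ {i | a i < 0}` form an antichain; `IsAntichain.sperner`,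
`Nat.choose 16 8 = 12870`. -/
theorem Nn_le_sperner {a : Fin 16 → ℤ} {x : ℝ} (h : ∀ i, 2 * x < |(a i : ℝ)|) : Nn a x ≤ 12870 := by
  unfold Nn
  set N : Finset (Fin 16) := univ.filter fun i => a i < 0 with hN
  set F := (univ : Finset (Finset (Fin 16))).filter fun I => |((∑ i ∈ I, a i : ℤ) : ℝ)| ≤ x with hF
  have hinj : Function.Injective fun I : Finset (Fin 16) => symmDiff I N :=
    symmDiff_left_injective N
  rw [← Finset.card_image_of_injective F hinj]
  have hanti : IsAntichain (· ⊆ ·)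
      ((F.image fun I : Finset (Fin 16) => symmDiff I N : Finset (Finset (Fin 16))) :
        Set (Finset (Fin 16))) := by
    intro A hA B hB hne hAB
    obtain ⟨I, hI, rfl⟩ := Finset.mem_image.1 hA
    obtain ⟨J, hJ, rfl⟩ := Finset.mem_image.1 hB
    have hI' := (mem_filter.1 hI).2
    have hJ' := (mem_filter.1 hJ).2
    obtain ⟨i, hiB, hiA⟩ := Finset.exists_of_ssubset (Finset.ssubset_iff_subset_ne.2 ⟨hAB, hne⟩)
    have h1 : ∑ j ∈ insert i (symmDiff I N), |a j| ≤ ∑ j ∈ symmDiff J N, |a j| :=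
      Finset.sum_le_sum_of_subset_of_nonneg (Finset.insert_subset hiB hAB)
        fun j _ _ => abs_nonneg _
    rw [Finset.sum_insert hiA, idlc_sum_symmDiff, idlc_sum_symmDiff] at h1
    have h2 : |a i| ≤ ∑ j ∈ J, a j - ∑ j ∈ I, a j := by linarith
    have h3 : |(a i : ℝ)| ≤ ((∑ j ∈ J, a j : ℤ) : ℝ) - ((∑ j ∈ I, a j : ℤ) : ℝ) := by
      exact_mod_cast h2
    have h4 := h i
    have h5 := (abs_le.1 hI').1
    have h6 := (abs_le.1 hJ').2
    linarith
  refine hanti.sperner.trans ?_
  rw [Fintype.card_fin]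
  decide

/-- Greedy basis: extend `{ind univ}` successively inside the nested families
(`exists_linearIndepOn_id_extension`), and finally by the singletons. -/
theorem exists_flag {a : Fin 16 → ℤ} (ha : ∑ i, a i = 0) (x : ℕ → ℝ) (hx : Monotone x)
    (hx0 : 0 ≤ x 0) (r : ℕ) : ∃ I : Fin 16 → Finset (Fin 16),
      LinearIndependent (ZMod 2) (fun t => ind (I t)) ∧ I 0 = univ ∧
      ∀ t : Fin 16, (∀ s < r, (t : ℕ) < rk a (x s) → |((∑ i ∈ I t, a i : ℤ) : ℝ)| ≤ x s) ∧
        (t ≠ 0 → (∀ s < r, rk a (x s) ≤ t) → #(I t) = 1) := by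
  let P : ℕ → Finset (Fin 16) → Prop := fun t J => (t = 0 → J = univ) ∧
    (∀ s < r, t < rk a (x s) → |((∑ i ∈ J, a i : ℤ) : ℝ)| ≤ x s) ∧
      (t ≠ 0 → (∀ s < r, rk a (x s) ≤ t) → #J = 1)
  have key : ∀ n ≤ 16, ∃ I : Fin n → Finset (Fin 16),
      LinearIndependent (ZMod 2) (fun t => ind (I t)) ∧ ∀ t : Fin n, P t (I t) := by
    intro n
    induction n with
    | zero => exact fun _ => ⟨fun t => t.elim0, linearIndependent_empty_type, fun t => t.elim0⟩
    | succ n ih =>
      intro hn
      obtain ⟨I, hI, hP⟩ := ih (by omega)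
      have hstep : ∃ J, ind J ∉ Submodule.span (ZMod 2) (Set.range fun t => ind (I t)) ∧ P n J := by
        by_cases h0 : n = 0
        · subst h0
          refine ⟨univ, ?_, fun _ => rfl, fun s _ _ => ?_, fun h => absurd rfl h⟩
          · rw [Set.range_eq_empty, Submodule.span_empty, Submodule.mem_bot]
            exact idlc_ind_univ_ne
          · rw [ha]
            simpa using hx0.trans (hx (Nat.zero_le s))
        by_cases hA : ∃ s, s < r ∧ n < rk a (x s)
        · obtain ⟨hs0, hs1⟩ := Nat.find_spec hA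
          obtain ⟨w, ⟨J, hJ, rfl⟩, hw⟩ := idlc_exists_notMem (fun t => ind (I t)) _ hs1
          refine ⟨J, hw, fun h => absurd h h0, fun s hs hs' => ?_, fun _ h => ?_⟩
          · exact le_trans hJ (hx (Nat.find_min' hA ⟨hs, hs'⟩))
          · have := h _ hs0
            omega
        · have h16 : n < Module.finrank (ZMod 2)
              (Submodule.span (ZMod 2) (ind '' {I | #I = 1})) := by
            rw [idlc_span_single, finrank_top]
            simpa using hn
          obtain ⟨w, ⟨J, hJ, rfl⟩, hw⟩ := idlc_exists_notMem (fun t => ind (I t)) _ h16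
          exact ⟨J, hw, fun h => absurd h h0, fun s hs hs' => absurd ⟨s, hs, hs'⟩ hA, fun _ _ => hJ⟩
      obtain ⟨J, hJ, hPJ⟩ := hstep
      refine ⟨Fin.snoc I J, ?_, fun t => ?_⟩
      · have : (fun t => ind ((Fin.snoc I J : Fin (n + 1) → Finset (Fin 16)) t)) =
            Fin.snoc (fun t => ind (I t)) (ind J) := by
          funext t
          refine Fin.lastCases ?_ (fun t => ?_) t <;> simp
        rw [this, linearIndependent_finSnoc]
        exact ⟨hI, hJ⟩
      · refine Fin.lastCases ?_ (fun t => ?_) t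
        · simpa using hPJ
        · simpa using hP t
  obtain ⟨I, hI, hP⟩ := key 16 le_rfl
  refine ⟨I, hI, (hP 0).1 rfl, fun t => ⟨(hP t).2.1, fun ht => (hP t).2.2 ?_⟩⟩
  intro h
  exact ht (Fin.ext h)

/-- A `0/1` matrix invertible modulo `2` has odd determinant. -/
theorem flag_inj {I : Fin 16 → Finset (Fin 16)}
    (hI : LinearIndependent (ZMod 2) (fun t => ind (I t))) :
    Function.Injective fun (a : Fin 16 → ℤ) (t : Fin 16) => ∑ i ∈ I t, a i := by
  let M : Matrix (Fin 16) (Fin 16) ℤ := Matrix.of fun t i => if i ∈ I t then 1 else 0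
  have hrow : ((Int.castRingHom (ZMod 2)).mapMatrix M).row = fun t => ind (I t) := by
    funext t i
    by_cases h : i ∈ I t <;> simp [M, ind, Matrix.row, h]
  have hu : IsUnit ((Int.castRingHom (ZMod 2)).mapMatrix M) := by
    rw [← Matrix.linearIndependent_rows_iff_isUnit, hrow]
    exact hI
  have hdet : M.det ≠ 0 := by
    intro h
    rw [Matrix.isUnit_iff_isUnit_det, ← RingHom.map_det, h, map_zero] at hu
    exact not_isUnit_zero hu
  have hM : ∀ a : Fin 16 → ℤ, M.mulVec a = fun t => ∑ i ∈ I t, a i := by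
    intro a
    funext t
    simp [M, Matrix.mulVec, dotProduct]
  intro a b hab
  have : M.mulVec (a - b) = 0 := by
    rw [Matrix.mulVec_sub, hM, hM]
    exact sub_eq_zero.2 hab
  exact sub_eq_zero.1 (Matrix.eq_zero_of_mulVec_eq_zero hdet this)

end Crest.Agent.R014

end
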