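import Crest.Agent.R014.IDelC

/-! # Row 14: Hooley's Δ: counting frequencies -/

set_option autoImplicit false

noncomputable section

open Finset Filter Topology
open scoped Classical

namespace Crest.Agent.R014

theorem idld_min {n : ℕ} {S : Finset ℕ} (hS : S ⊆ range n) (h : S.Nonempty) :
    ∃ s ∈ S, s + #S ≤ n := by
  refine ⟨S.min' h, S.min'_mem h, ?_⟩
  have h1 : S ⊆ Ico (S.min' h) n := fun x hx =>
    mem_Ico.2 ⟨S.min'_le x hx, mem_range.1 (hS hx)⟩
  have h2 := card_le_card h1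
  have h3 := mem_range.1 (hS (S.min'_mem h))
  rw [Nat.card_Ico] at h2
  omega

theorem idld_card15 : ∀ n ≤ 16, n - 1 ≤ #((univ : Finset (Fin 15)).filter fun i => i.1 + 1 < n) := by
  decide

theorem idld_fibre (r0 j j' : ℕ) (hj : j' ≤ j) (ρ : ℕ → ℕ) (I : Fin 16 → Finset (Fin 16))
    (A : Finset (Fin 16 → ℤ)) (h0 : ∀ a ∈ A, ∑ i, a i = 0 ∧ ∀ i, |a i| < 2 ^ (j + 1))
    (hA : ∀ a ∈ A, LinearIndependent (ZMod 2) (fun t => ind (I t)) ∧ I 0 = univ ∧
      ∀ t : Fin 16, (∀ s < j', (t : ℕ) < ρ s →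
        |((∑ i ∈ I t, a i : ℤ) : ℝ)| ≤ (2 : ℝ) ^ (s + r0)) ∧
        (t ≠ 0 → (∀ s < j', ρ s ≤ t) → #(I t) = 1)) :
    #A * 2 ^ (∑ i : Fin 15, #((range j').filter fun s => i.1 + 1 < ρ s)) ≤
      2 ^ (15 * (j + r0 + 3)) := by
  rcases A.eq_empty_or_nonempty with rfl | ⟨a0, ha0⟩
  · simp
  have hI := (hA a0 ha0).1
  let e : ℕ → ℕ := fun t => #((range j').filter fun s => t < ρ s)
  have he : ∀ t, e t ≤ j' := fun t => (card_filter_le _ _).trans (card_range j').le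
  let B : Fin 16 → ℕ := fun t => if t = 0 then 0 else 2 ^ (j + r0 + 1 - e t)
  have hB : ∀ a ∈ A, ∀ t, |∑ i ∈ I t, a i| ≤ (B t : ℤ) := by
    intro a ha t
    obtain ⟨-, h1, h2⟩ := hA a ha
    by_cases ht : t = 0
    · subst ht
      simp [B, h1, (h0 a ha).1]
    · simp only [B, if_neg ht]
      rcases ((range j').filter fun s => (t : ℕ) < ρ s).eq_empty_or_nonempty with h | h
      · have h3 : e t = 0 := card_eq_zero.2 h
        have h4 : ∀ s < j', ρ s ≤ t := fun s hs =>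
          not_lt.1 (filter_eq_empty_iff.1 h (mem_range.2 hs))
        obtain ⟨i, hi⟩ := card_eq_one.1 ((h2 t).2 ht h4)
        rw [hi, sum_singleton, h3]
        refine ((h0 a ha).2 i).le.trans ?_
        push_cast
        exact pow_le_pow_right₀ one_le_two (by omega)
      · obtain ⟨s, hs, hs'⟩ := idld_min (filter_subset _ _) h
        obtain ⟨hs1, hs2⟩ := mem_filter.1 hs
        have h3 := (h2 t).1 s (mem_range.1 hs1) hs2
        have h4 : |∑ i ∈ I t, a i| ≤ (2 : ℤ) ^ (s + r0) := by exact_mod_cast h3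
        refine h4.trans ?_
        push_cast
        exact pow_le_pow_right₀ one_le_two (by simp only [e]; omega)
  have hcard : #A ≤ ∏ t, (2 * B t + 1) := by
    have h1 : #A ≤ #(Fintype.piFinset fun t : Fin 16 => Icc (-(B t : ℤ)) (B t)) :=
      card_le_card_of_injOn (fun (a : Fin 16 → ℤ) (t : Fin 16) => ∑ i ∈ I t, a i)
        (fun a ha => mem_coe.2 (Fintype.mem_piFinset.2 fun t => mem_Icc.2 (abs_le.1 (hB a ha t))))
        (flag_inj hI).injOn
    refine h1.trans_eq ?_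
    rw [Fintype.card_piFinset]
    refine prod_congr rfl fun t _ => ?_
    rw [Int.card_Icc]
    omega
  rw [Fin.prod_univ_succ] at hcard
  have hB0 : B 0 = 0 := if_pos rfl
  rw [hB0, mul_zero, zero_add, one_mul] at hcard
  calc _ ≤ (∏ i : Fin 15, (2 * B i.succ + 1)) * 2 ^ (∑ i : Fin 15, e (i.1 + 1)) :=
        Nat.mul_le_mul_right _ hcard
    _ = ∏ i : Fin 15, (2 * B i.succ + 1) * 2 ^ e (i.1 + 1) := by
        rw [prod_mul_distrib, prod_pow_eq_pow_sum]
    _ ≤ ∏ _i : Fin 15, 2 ^ (j + r0 + 3) := by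
        refine prod_le_prod' fun i _ => ?_
        have h1 : B i.succ = 2 ^ (j + r0 + 1 - e (i.1 + 1)) := if_neg (Fin.succ_ne_zero i)
        have h2 := he (i.1 + 1)
        have h3 : 2 ^ (j + r0 + 3) = 4 * 2 ^ (j + r0 + 1 - e (i.1 + 1)) * 2 ^ e (i.1 + 1) := by
          rw [mul_assoc, ← pow_add, show (4 : ℕ) = 2 ^ 2 from rfl, ← pow_add]
          congr 1
          omega
        rw [h1, h3]
        have h4 : 1 ≤ 2 ^ (j + r0 + 1 - e (i.1 + 1)) := Nat.one_le_two_pow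
        exact Nat.mul_le_mul_right _ (by omega)
    _ = _ := by rw [prod_const, card_univ, Fintype.card_fin, ← pow_mul, mul_comm]

theorem idld_mem_tup {m j : ℕ} {a : Fin 16 → ℤ} (ha : a ∈ tup m j) :
    ∑ i, a i = 0 ∧ ∀ i, (2 : ℤ) ^ j ≤ |a i| ∧ |a i| < 2 ^ (j + 1) :=
  ⟨(mem_filter.1 ha).2, fun i => (mem_filter.1 (Fintype.mem_piFinset.1 (mem_filter.1 ha).1 i)).2⟩

theorem idld_core (r0 : ℕ) : ∃ K : ℕ, 0 < K ∧ ∀ (m j j' : ℕ) (ρ : ℕ → ℕ), j' ≤ j →
    #((tup m j).filter fun a => ∀ s < j', rk a (2 ^ (s + r0)) = ρ s) *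
      2 ^ (∑ s ∈ range j', (ρ s - 1)) ≤ K * 2 ^ (15 * (j + r0 + 3)) := by
  obtain ⟨Ω, hΩ⟩ : ∃ Ω : Finset (Fin 16 → Finset (Fin 16)), ∀ I, I ∈ Ω := ⟨univ, mem_univ⟩
  refine ⟨#Ω, card_pos.2 ⟨fun _ => ∅, hΩ _⟩, fun m j j' ρ hj => ?_⟩
  have hmem : ∀ a, a ∈ ((tup m j).filter fun a => ∀ s < j', rk a (2 ^ (s + r0)) = ρ s) ↔
      a ∈ tup m j ∧ ∀ s < j', rk a (2 ^ (s + r0)) = ρ s := fun a => mem_filter
  generalize ((tup m j).filter fun a => ∀ s < j', rk a (2 ^ (s + r0)) = ρ s) = A at hmem ⊢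
  rcases A.eq_empty_or_nonempty with h | ⟨a0, ha0⟩
  · rw [h, card_empty, zero_mul]
    exact Nat.zero_le _
  have hρ : ∀ s < j', ρ s ≤ 16 := fun s hs => ((hmem _).1 ha0).2 s hs ▸ rk_le _ _
  have hsum : ∑ s ∈ range j', (ρ s - 1) ≤
      ∑ i : Fin 15, #((range j').filter fun s => i.1 + 1 < ρ s) := by
    simp only [card_filter]
    rw [sum_comm]
    refine sum_le_sum fun s hs => ?_
    rw [← card_filter]
    exact idld_card15 _ (hρ s (mem_range.1 hs))
  let P : (Fin 16 → Finset (Fin 16)) → (Fin 16 → ℤ) → Prop := fun I a =>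
    LinearIndependent (ZMod 2) (fun t => ind (I t)) ∧ I 0 = univ ∧
      ∀ t : Fin 16, (∀ s < j', (t : ℕ) < ρ s →
        |((∑ i ∈ I t, a i : ℤ) : ℝ)| ≤ (2 : ℝ) ^ (s + r0)) ∧
        (t ≠ 0 → (∀ s < j', ρ s ≤ t) → #(I t) = 1)
  have hsub : A ⊆ Ω.biUnion fun I => A.filter (P I) := by
    intro a ha
    obtain ⟨ha1, ha2⟩ := (hmem a).1 ha
    obtain ⟨I, h1, h2, h3⟩ := exists_flag (idld_mem_tup ha1).1 (fun s => (2 : ℝ) ^ (s + r0))
      (fun s s' h => pow_le_pow_right₀ one_le_two (by omega)) (by positivity) j'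
    refine mem_biUnion.2 ⟨I, hΩ _, mem_filter.2 ⟨ha, h1, h2, fun t =>
      ⟨fun s hs ht => (h3 t).1 s hs (by rwa [ha2 s hs]), fun ht h => (h3 t).2 ht fun s hs => ?_⟩⟩⟩
    rw [ha2 s hs]
    exact h s hs
  calc _ ≤ (∑ I ∈ Ω, #(A.filter (P I))) *
        2 ^ (∑ i : Fin 15, #((range j').filter fun s => i.1 + 1 < ρ s)) :=
        Nat.mul_le_mul ((card_le_card hsub).trans card_biUnion_le)
          (Nat.pow_le_pow_right two_pos hsum)
    _ ≤ _ := by
        rw [sum_mul, ← smul_eq_mul]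
        refine sum_le_card_nsmul _ _ _ fun I _ => idld_fibre r0 j j' hj ρ I _ (fun a ha => ?_)
          fun a ha => (mem_filter.1 ha).2
        have := idld_mem_tup ((hmem a).1 (mem_filter.1 ha).1).1
        exact ⟨this.1, fun i => (this.2 i).2⟩

/-- For each of the at most `2^256` families `I` from `exists_flag` (with `x s = 2^{s+r0}`), `a` is
determined by the subsums (`flag_inj`); the `0`-th vanishes, the `t`-th has at most
`2^{s_t + r0 + 2}` values if `s_t = min {s < j' | t < ρ s}` exists and at most `2^{j+2}` values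
otherwise, and `∑_{t ≥ 1} (j' - s_t) = ∑_{s < j'} (ρ s - 1)` (`ρ` is monotone with values in `[1,16]`
on `range j'` if the set is nonempty). -/
theorem flag_count (r0 : ℕ) : ∃ C : ℝ, 0 < C ∧ ∀ (m j j' : ℕ) (ρ : ℕ → ℕ), j' ≤ j →
    (2 : ℝ) ^ j * #((tup m j).filter fun a => ∀ s < j', rk a (2 ^ (s + r0)) = ρ s) ≤
      C * 2 ^ (16 * j) / 2 ^ (∑ s ∈ range j', (ρ s - 1)) := by
  obtain ⟨K, hK, h⟩ := idld_core r0
  refine ⟨K * 2 ^ (15 * (r0 + 3)), by positivity, fun m j j' ρ hj => ?_⟩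
  have h1 : (#((tup m j).filter fun a => ∀ s < j', rk a (2 ^ (s + r0)) = ρ s) : ℝ) *
      2 ^ (∑ s ∈ range j', (ρ s - 1)) ≤ K * 2 ^ (15 * (j + r0 + 3)) := by
    exact_mod_cast h m j j' ρ hj
  rw [le_div_iff₀ (by positivity), mul_assoc]
  refine (mul_le_mul_of_nonneg_left h1 (by positivity)).trans_eq ?_
  ring

/-- Abel summation. -/
theorem abel_kb (j' : ℕ) (k : ℕ → ℕ) (b : ℕ → ℝ) (hb : Antitone b) (hb0 : ∀ s, 0 ≤ b s) {γ κ : ℝ}
    (hκ : 0 ≤ κ) (hk : ∀ i ≤ j', γ * i - κ ≤ ∑ s ∈ range i, (k s : ℝ)) :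
    γ * ∑ s ∈ range j', b s - κ * b 0 ≤ ∑ s ∈ range j', k s * b s := by
  have key : ∀ n ≤ j', (∑ s ∈ range n, (k s : ℝ) - γ * n + κ) * b n ≤
      ∑ s ∈ range n, k s * b s - γ * ∑ s ∈ range n, b s + κ * b 0 := by
    intro n
    induction n with
    | zero => simp
    | succ n ih =>
      intro hn
      have h1 := ih (by omega)
      have h2 := hk (n + 1) hn
      have h3 := mul_le_mul_of_nonneg_left (hb n.le_succ)
        (by linarith : 0 ≤ ∑ s ∈ range (n + 1), (k s : ℝ) - γ * (n + 1 : ℕ) + κ)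
      refine h3.trans ?_
      simp only [sum_range_succ]
      push_cast
      linarith
  have h1 := key j' le_rfl
  have h2 := mul_nonneg
    (by linarith [hk j' le_rfl] : 0 ≤ ∑ s ∈ range j', (k s : ℝ) - γ * j' + κ) (hb0 j')
  linarith

/-- A monotone sequence with values at most `16` is determined by the numbers
`#{s < j' | ρ s ≤ t}`, `t < 16`. -/
theorem card_monotone (j' : ℕ) :
    #((Fintype.piFinset fun _ : Fin j' => range 17).filter fun ρ : Fin j' → ℕ => Monotone ρ) ≤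
      (j' + 1) ^ 16 := by
  have h1 : (j' + 1) ^ 16 = #(Fintype.piFinset fun _ : Fin 16 => range (j' + 1)) := by
    rw [Fintype.card_piFinset, prod_const, card_range, card_univ, Fintype.card_fin]
  rw [h1]
  refine card_le_card_of_injOn
    (fun (ρ : Fin j' → ℕ) (t : Fin 16) => #(univ.filter fun s => ρ s ≤ t)) (fun ρ _ => ?_) ?_
  · refine mem_coe.2 (Fintype.mem_piFinset.2 fun t => mem_range.2 (Nat.lt_succ_of_le ?_))
    exact (card_filter_le _ _).trans (by simp)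
  · intro ρ hρ ρ' hρ' h
    obtain ⟨h1, h2⟩ := mem_filter.1 (mem_coe.1 hρ)
    obtain ⟨h1', h2'⟩ := mem_filter.1 (mem_coe.1 hρ')
    funext s
    have h3 := mem_range.1 (Fintype.mem_piFinset.1 h1 s)
    have h3' := mem_range.1 (Fintype.mem_piFinset.1 h1' s)
    have h4 : ∀ t, t < 16 → (ρ s ≤ t ↔ ρ' s ≤ t) := fun t ht => by
      have := congrFun h ⟨t, ht⟩
      simp only at this
      rw [← Tuple.lt_card_le_iff_apply_le_of_monotone h2,
        ← Tuple.lt_card_le_iff_apply_le_of_monotone h2', this]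
    have h5 := h4 (ρ s)
    have h6 := h4 (ρ' s)
    omega

/-- The saving per prime. -/
def idld_g (n : ℕ) : ℝ := if n ≤ 13 then 15.99 - n else 2.25

theorem idld_g_anti : Antitone idld_g := by
  intro n n' h
  have h' : (n : ℝ) ≤ n' := by exact_mod_cast h
  unfold idld_g
  split_ifs with h1 h2 h2
  · linarith
  · omega
  · have : (n : ℝ) ≤ 13 := by exact_mod_cast h2
    linarith
  · exact le_rfl

theorem idld_g_bd (n : ℕ) : 0 ≤ idld_g n ∧ idld_g n ≤ 16 ∧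
    16.06 ≤ ((n - 1 : ℕ) : ℝ) + 1.36 * idld_g n := by
  unfold idld_g
  split_ifs with h
  · have h1 : (n : ℝ) ≤ 13 := by exact_mod_cast h
    have h2 : (n : ℝ) ≤ ((n - 1 : ℕ) : ℝ) + 1 := by exact_mod_cast (by omega : n ≤ n - 1 + 1)
    have h3 : (0 : ℝ) ≤ n := n.cast_nonneg
    exact ⟨by linarith, by linarith, by linarith⟩
  · have h2 : (13 : ℝ) ≤ ((n - 1 : ℕ) : ℝ) := by exact_mod_cast (by omega : 13 ≤ n - 1)
    exact ⟨by norm_num, by norm_num, by linarith⟩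

theorem idld_num1 : (1.005 : ℝ) ≤ 2 ^ (0.01 : ℝ) := by
  rw [show (0.01 : ℝ) = ((100 : ℕ) : ℝ)⁻¹ by norm_num,
    Real.le_rpow_inv_iff_of_pos (by norm_num) (by norm_num) (by norm_num), Real.rpow_natCast]
  norm_num

theorem idld_num2 : (12871 : ℝ) ≤ 2 ^ (13.75 : ℝ) := by
  rw [show (13.75 : ℝ) = (55 : ℕ) * ((4 : ℕ) : ℝ)⁻¹ by norm_num, Real.rpow_mul (by norm_num),
    Real.le_rpow_inv_iff_of_pos (by norm_num) (by positivity) (by norm_num), Real.rpow_natCast,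
    Real.rpow_natCast]
  norm_num

theorem idld_Nt {a : Fin 16 → ℤ} {x : ℝ} (h : ∀ i, 2 * x < |(a i : ℝ)|) :
    Nt a x ≤ (2 : ℝ) ^ (16 - idld_g (rk a x)) := by
  refine (min_le_right _ _).trans ?_
  unfold idld_g
  split_ifs with h1
  · have h2 : (Nn a x : ℝ) ≤ 2 ^ rk a x := by exact_mod_cast Nn_le_two_pow a x
    have h3 : (1 : ℝ) ≤ 2 ^ rk a x := one_le_pow₀ one_le_two
    rw [show (16 : ℝ) - (15.99 - rk a x) = 0.01 + rk a x by ring, Real.rpow_add two_pos,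
      Real.rpow_natCast]
    nlinarith [idld_num1]
  · have h2 : (Nn a x : ℝ) ≤ 12870 := by exact_mod_cast Nn_le_sperner h
    rw [show (16 : ℝ) - 2.25 = 13.75 by norm_num]
    linarith [idld_num2]

theorem idld_poly : ∃ C : ℝ, 0 < C ∧ ∀ n : ℕ, ((n : ℝ) + 1) ^ 16 ≤ C * (2 : ℝ) ^ ((n : ℝ) / 100) := by
  have hc : 0 < Real.log 2 / 100 := by have := Real.log_pos one_lt_two; positivity
  set c := Real.log 2 / 100 with hc'
  refine ⟨(Nat.factorial 16 : ℝ) / c ^ 16 * Real.exp c, by positivity, fun n => ?_⟩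
  have h1 := Real.pow_div_factorial_le_exp (c * (n + 1)) (by positivity) 16
  have h2 : (2 : ℝ) ^ ((n : ℝ) / 100) = Real.exp (c * n) := by
    rw [Real.rpow_def_of_pos two_pos, hc']
    congr 1
    ring
  rw [h2, mul_assoc, ← Real.exp_add, show c + c * n = c * (n + 1) by ring, div_mul_eq_mul_div,
    le_div_iff₀ (by positivity)]
  rw [div_le_iff₀ (by positivity), mul_pow] at h1
  linarith

theorem idld_prod (r0 : ℕ) {m j j' : ℕ} (hj : j' ≤ j) {k : ℕ → ℕ} {κ : ℝ} (hκ : 0 ≤ κ)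
    (hk : ∀ i ≤ j', 1.36 * (i : ℝ) - 2 * κ ≤ ∑ s ∈ range i, (k s : ℝ)) {a : Fin 16 → ℤ}
    (ha : a ∈ tup m j) : ∏ s ∈ range j', Nt a (2 ^ (s + r0)) ^ k s ≤
      (2 : ℝ) ^ (16 * ∑ s ∈ range j', (k s : ℝ) + 32 * κ - 16.06 * (j' - (r0 + 1)) +
        ((∑ s ∈ range j', (rk a (2 ^ (s + r0)) - 1) : ℕ) : ℝ)) := by
  let b : ℕ → ℝ := fun s => if s + r0 + 1 < j then idld_g (rk a (2 ^ (s + r0))) else 0
  have hb0 : ∀ s, 0 ≤ b s := fun s => by
    simp only [b]
    split_ifs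
    · exact (idld_g_bd _).1
    · exact le_rfl
  have hb1 : b 0 ≤ 16 := by
    simp only [b]
    split_ifs
    · exact (idld_g_bd _).2.1
    · norm_num
  have hb : Antitone b := by
    intro s s' h
    by_cases h1 : s' + r0 + 1 < j
    · have h2 : s + r0 + 1 < j := by omega
      simp only [b, if_pos h1, if_pos h2]
      exact idld_g_anti (rk_mono a (pow_le_pow_right₀ one_le_two (by omega)))
    · simp only [b, if_neg h1]
      exact hb0 s
  have hN : ∀ s, Nt a (2 ^ (s + r0)) ≤ (2 : ℝ) ^ (16 - b s) := by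
    intro s
    simp only [b]
    split_ifs with h
    · refine idld_Nt fun i => ?_
      have h1 : (2 : ℝ) ^ j ≤ |(a i : ℝ)| := by exact_mod_cast ((idld_mem_tup ha).2 i).1
      rw [← pow_succ']
      exact (pow_lt_pow_right₀ one_lt_two h).trans_le h1
    · rw [sub_zero]
      exact (min_le_left _ _).trans_eq (by norm_num)
  have hN0 : ∀ s, 0 ≤ Nt a (2 ^ (s + r0)) := fun s => le_min (by positivity) (by positivity)
  have h1 := abel_kb j' k b hb hb0 (γ := 1.36) (κ := 2 * κ) (by linarith) hk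
  have h2 : 16.06 * ((j' : ℝ) - (r0 + 1)) ≤
      ∑ s ∈ range j', (((rk a (2 ^ (s + r0)) - 1 : ℕ) : ℝ) + 1.36 * b s) := by
    have h3 : j' ≤ #((range j').filter fun s => s + r0 + 1 < j) + (r0 + 1) := by
      have : range (j' - (r0 + 1)) ⊆ (range j').filter fun s => s + r0 + 1 < j := fun s hs => by
        have := mem_range.1 hs
        exact mem_filter.2 ⟨mem_range.2 (by omega), by omega⟩
      have := card_le_card this
      rw [card_range] at this
      omega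
    have h4 : (j' : ℝ) ≤ #((range j').filter fun s => s + r0 + 1 < j) + (r0 + 1) := by
      exact_mod_cast h3
    calc _ ≤ #((range j').filter fun s => s + r0 + 1 < j) • (16.06 : ℝ) := by
          rw [nsmul_eq_mul]
          linarith
      _ ≤ ∑ s ∈ (range j').filter fun s => s + r0 + 1 < j,
            (((rk a (2 ^ (s + r0)) - 1 : ℕ) : ℝ) + 1.36 * b s) := by
          refine card_nsmul_le_sum _ _ _ fun s hs => ?_
          simp only [b, if_pos (mem_filter.1 hs).2]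
          exact (idld_g_bd _).2.2
      _ ≤ _ := sum_le_sum_of_subset_of_nonneg (filter_subset _ _) fun s _ _ => by
          have := hb0 s
          positivity
  calc _ ≤ ∏ s ∈ range j', (2 : ℝ) ^ ((16 - b s) * k s) := by
        refine prod_le_prod (fun s _ => pow_nonneg (hN0 s) _) fun s _ => ?_
        rw [Real.rpow_mul_natCast two_pos.le]
        exact pow_le_pow_left₀ (hN0 s) (hN s) _
    _ = (2 : ℝ) ^ (∑ s ∈ range j', (16 - b s) * k s) := (Real.rpow_sum_of_pos two_pos _ _).symm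
    _ ≤ _ := by
        refine Real.rpow_le_rpow_of_exponent_le one_le_two ?_
        have e1 : ∑ s ∈ range j', (16 - b s) * k s =
            16 * ∑ s ∈ range j', (k s : ℝ) - ∑ s ∈ range j', k s * b s := by
          rw [mul_sum, ← sum_sub_distrib]
          exact sum_congr rfl fun s _ => by ring
        rw [sum_add_distrib, ← mul_sum] at h2
        rw [e1, Nat.cast_sum]
        nlinarith [mul_le_mul_of_nonneg_left hb1 hκ]

/-- Group the `a` by their rank sequence `ρ` (`card_monotone`, `flag_count`).  With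
`b s = 16 - ρ s - 0.01` if `ρ s ≤ 13`, `2.25` if `ρ s ≥ 14`, for `s + r0 + 1 < j`, `s < j'` and `b s = 0`
otherwise, `Nt a 2^{s+r0} ≤ 2^{16 - b s}` (`Nn_le_two_pow`, `Nn_le_sperner`, `1.005 ≤ 2^{0.01}`,
`12871 ≤ 2^{13.75}`), `b` is antitone, `abel_kb` applies, and `ρ s - 1 + 1.36 b s ≥ 16.06` when
`s + r0 + 1 < j`.  Finally `(j'+1)^16 ≤ C 2^{0.01 j'}`. -/
theorem comb_bound (r0 : ℕ) : ∃ C : ℝ, 0 < C ∧ ∀ (m j j' : ℕ) (k : ℕ → ℕ) (κ : ℝ), j' ≤ j → 0 ≤ κ →
    (∀ i ≤ j', 1.36 * (i : ℝ) - 2 * κ ≤ ∑ s ∈ range i, (k s : ℝ)) →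
    (2 : ℝ) ^ j * ∑ a ∈ tup m j, ∏ s ∈ range j', Nt a (2 ^ (s + r0)) ^ k s ≤
      C * 2 ^ (16 * ∑ s ∈ range j', k s) * (2 : ℝ) ^ (32 * κ - (j' : ℝ) / 20) *
        2 ^ (16 * (j - j')) := by
  obtain ⟨C₁, hC₁, h₁⟩ := flag_count r0
  obtain ⟨C₂, hC₂, h₂⟩ := idld_poly
  refine ⟨C₂ * C₁ * (2 : ℝ) ^ (16.06 * ((r0 : ℝ) + 1)), by positivity,
    fun m j j' k κ hj hκ hk => ?_⟩
  set M := (Fintype.piFinset fun _ : Fin j' => range 17).filter fun ρ : Fin j' → ℕ => Monotone ρ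
  let F : (Fin 16 → ℤ) → Fin j' → ℕ := fun a s => rk a (2 ^ (s.1 + r0))
  have hF : ∀ a ∈ tup m j, F a ∈ M := fun a _ => mem_filter.2
    ⟨Fintype.mem_piFinset.2 fun s => mem_range.2 (Nat.lt_succ_of_le (rk_le _ _)),
      fun s s' h => rk_mono a (pow_le_pow_right₀ one_le_two (Nat.add_le_add_right h _))⟩
  set T : ℝ := 16 * ∑ s ∈ range j', (k s : ℝ) + 32 * κ - 16.06 * (j' - (r0 + 1)) with hT
  have hρ : ∀ ρ ∈ M, (2 : ℝ) ^ j * ∑ a ∈ (tup m j).filter (F · = ρ),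
      ∏ s ∈ range j', Nt a (2 ^ (s + r0)) ^ k s ≤ C₁ * 2 ^ (16 * j) * (2 : ℝ) ^ T := by
    intro ρ _
    let ρ' : ℕ → ℕ := fun s => if h : s < j' then ρ ⟨s, h⟩ else 0
    have e : (tup m j).filter (F · = ρ) =
        (tup m j).filter fun a => ∀ s < j', rk a (2 ^ (s + r0)) = ρ' s := by
      refine filter_congr fun a _ => ⟨fun h s hs => ?_, fun h => funext fun s => ?_⟩
      · simp only [ρ', dif_pos hs, ← h, F]
      · simpa only [ρ', dif_pos s.2] using h s.1 s.2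
    rw [e]
    have h3 := h₁ m j j' ρ' hj
    rw [le_div_iff₀ (by positivity)] at h3
    have h4 : ∑ a ∈ (tup m j).filter fun a => ∀ s < j', rk a (2 ^ (s + r0)) = ρ' s,
        ∏ s ∈ range j', Nt a (2 ^ (s + r0)) ^ k s ≤
        #((tup m j).filter fun a => ∀ s < j', rk a (2 ^ (s + r0)) = ρ' s) •
          ((2 : ℝ) ^ (∑ s ∈ range j', (ρ' s - 1)) * (2 : ℝ) ^ T) := by
      refine sum_le_card_nsmul _ _ _ fun a ha => ?_
      obtain ⟨ha1, ha2⟩ := mem_filter.1 ha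
      refine (idld_prod r0 hj hκ hk ha1).trans_eq ?_
      rw [← hT, Real.rpow_add two_pos, Real.rpow_natCast, mul_comm,
        sum_congr rfl fun s hs => by rw [ha2 s (mem_range.1 hs)]]
    rw [nsmul_eq_mul] at h4
    refine (mul_le_mul_of_nonneg_left h4 (by positivity)).trans ?_
    rw [← mul_assoc, ← mul_assoc]
    exact mul_le_mul_of_nonneg_right h3 (by positivity)
  have hM : (#M : ℝ) ≤ C₂ * (2 : ℝ) ^ ((j' : ℝ) / 100) :=
    le_trans (by exact_mod_cast card_monotone j') (h₂ j')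
  rw [← sum_fiberwise_of_maps_to hF, mul_sum]
  refine (sum_le_card_nsmul _ _ _ hρ).trans ?_
  rw [nsmul_eq_mul]
  refine (mul_le_mul_of_nonneg_right hM (by positivity)).trans_eq ?_
  have e1 : (2 : ℝ) ^ ((j' : ℝ) / 100) * (2 ^ (16 * j) * (2 : ℝ) ^ T) =
      (2 : ℝ) ^ (16.06 * ((r0 : ℝ) + 1)) * (2 ^ (16 * ∑ s ∈ range j', k s) *
        ((2 : ℝ) ^ (32 * κ - (j' : ℝ) / 20) * 2 ^ (16 * (j - j')))) := by
    simp only [← Real.rpow_natCast, ← Real.rpow_add two_pos]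
    congr 1
    rw [hT]
    push_cast [hj]
    ring
  linear_combination (C₂ * C₁) * e1

end Crest.Agent.R014

end
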