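import Crest.Agent.R014.IDelA
import Crest.Agent.R014.IDelB

/-! # Row 14: Hooley's Δ: averaging over primes -/

set_option autoImplicit false

noncomputable section

open Finset Filter Topology
open scoped Classical

namespace Crest.Agent.R014

theorem idle_norm_ee (x : ℝ) : ‖ee x‖ = 1 := by
  have : (2 * Real.pi * Complex.I * x : ℂ) = ((2 * Real.pi * x : ℝ) : ℂ) * Complex.I := by
    push_cast; ring
  rw [ee, this, Complex.norm_exp_ofReal_mul_I]

theorem idle_ee_sum {ι : Type} (I : Finset ι) (x : ι → ℝ) :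
    ∏ i ∈ I, ee (x i) = ee (∑ i ∈ I, x i) := by
  simp only [ee, ← Complex.exp_sum, Complex.ofReal_sum, Finset.mul_sum]

theorem idle_expand (b : Fin 16 → ℤ) (x U : ℝ) :
    ∏ i, (1 + ee (b i * x / U)) =
      ∑ I : Finset (Fin 16), ee (((∑ i ∈ I, b i : ℤ) : ℝ) / U * x) := by
  rw [Finset.prod_one_add, Finset.powerset_univ]
  refine Finset.sum_congr rfl fun I _ => ?_
  rw [idle_ee_sum]
  congr 1
  push_cast
  rw [Finset.sum_div, Finset.sum_mul]
  exact Finset.sum_congr rfl fun i _ => by ring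

theorem idle_triv {a : ℕ → ℝ} (ha : ∀ p, 0 ≤ a p) (B : Finset ℕ) (θ : ℕ → ℝ) :
    ‖∑ p ∈ B, ((a p / p : ℝ) : ℂ) * ee (θ p)‖ ≤ ∑ p ∈ B, a p / p := by
  refine (norm_sum_le _ _).trans (Finset.sum_le_sum fun p _ => ?_)
  rw [norm_mul, idle_norm_ee, mul_one, Complex.norm_real,
    Real.norm_of_nonneg (div_nonneg (ha p) (Nat.cast_nonneg p))]

theorem idle_tuples {R : Type} [CommSemiring R] {r : ℕ} (B : Fin r → Finset ℕ) (k : Fin r → ℕ)
    (g : ℕ → R) :
    ∑ t ∈ Fintype.piFinset (fun i : (Σ s : Fin r, Fin (k s)) => B i.1), ∏ i, g (t i) =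
      ∏ s, (∑ p ∈ B s, g p) ^ k s := by
  rw [← Finset.prod_univ_sum (fun i : (Σ s : Fin r, Fin (k s)) => B i.1) fun _ p => g p,
    Fintype.prod_sigma]
  simp only [Finset.prod_const, Finset.card_univ, Fintype.card_fin]

theorem idle_sets {U : ℝ} (hU : 0 < U) (r : ℕ) (k : ℕ → ℕ) (F : Multiset ℕ → ℝ)
    (hF : ∀ T, 0 ≤ F T) {X : ℝ}
    (hX : ∑ t ∈ Fintype.piFinset (fun i : (Σ s : Fin r, Fin (k s)) => blk U i.1),
      F (univ.val.map t) ≤ X) :
    ∑ T ∈ (lp (U / 2 ^ r) U).powerset.filter (fun T => ∀ s < r, #(T ∩ blk U s) = k s), F T.val ≤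
      X / ∏ s ∈ range r, ((k s).factorial : ℝ) := by
  have h := (sum_sets_le_tuples (fun s : Fin r => blk U s)
    (fun s t hst => disjoint_blk hU (Fin.val_ne_of_ne hst)) (fun s => k s) F hF).trans hX
  rw [biUnion_blk hU, Fin.prod_univ_eq_prod_range (fun s => ((k s).factorial : ℝ)) r] at h
  rw [le_div_iff₀' (Finset.prod_pos fun s _ => by positivity)]
  refine le_of_eq_of_le ?_ h
  congr 1
  refine Finset.sum_congr ?_ fun _ _ => rfl
  ext T
  simp only [Finset.mem_filter, Fin.forall_iff]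

theorem idle_fej (m : ℕ) (k : ℤ) : ‖(fej m k : ℂ)‖ ≤ 1 := by
  rw [Complex.norm_real, fej, Real.norm_of_nonneg (le_max_left _ _)]
  refine max_le zero_le_one ?_
  have : 0 ≤ |(k : ℝ)| / m := by positivity
  linarith

/-- `∏_i (1 + e(b_i θ)) = ∑_I e(b_I θ)`.  Terms with `|b_I| ≤ 2^{s+r0}` are bounded by the mass
`λ ≥ log 2 - C0/u0 ≥ 1/2` of the block, the others by `Equi.osc` (`ω = b_I/U`, `|ω| ≤ 1/8`):
`C0 2^{s+1}/|b_I| ≤ 2 C0 / 2^{r0}`.  The trivial bound is `2^16 λ`. -/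
theorem block_bound (C0 : ℝ) : ∃ (r0 : ℕ) (u1 : ℝ), ∀ (a : ℕ → ℝ) (U u0 : ℝ) (s : ℕ)
    (b : Fin 16 → ℤ), (∀ p, 0 ≤ a p) → Equi C0 a u0 → u1 ≤ u0 → 0 < u0 → u0 ≤ U / 2 ^ (s + 1) →
    (∀ i, |(b i : ℝ)| ≤ U / 128) →
    ‖∑ p ∈ blk U s, ((a p / p : ℝ) : ℂ) * ∏ i, (1 + ee (b i * Real.log p / U))‖ ≤
      (∑ p ∈ blk U s, a p / p) * Nt b (2 ^ (s + r0)) := by
  obtain ⟨r0, hr0⟩ := pow_unbounded_of_one_lt (800 * 65536 * C0) (one_lt_two (α := ℝ))
  refine ⟨r0, 10 * C0, fun a U u0 s b ha hE hu1 hu0 hu hb => ?_⟩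
  have hα : 0 < U / 2 ^ (s + 1) := hu0.trans_le hu
  have hU : 0 < U := by
    have := mul_pos hα (pow_pos two_pos (s + 1))
    rwa [div_mul_cancel₀ _ (by positivity)] at this
  have hαβ : U / 2 ^ (s + 1) ≤ U / 2 ^ s :=
    div_le_div_of_nonneg_left hU.le (by positivity) (pow_le_pow_right₀ one_le_two (by omega))
  obtain ⟨L, hL⟩ : ∃ L, L = ∑ p ∈ blk U s, a p / p := ⟨_, rfl⟩
  have hL2 : 1 / 2 ≤ L := by
    have h1 := hE.main _ _ hu hαβ
    have h2 : U / 2 ^ s / (U / 2 ^ (s + 1)) = 2 := by field_simp; ring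
    have h3 : C0 / (U / 2 ^ (s + 1)) ≤ 1 / 10 := by
      rw [div_le_iff₀ hα]
      linarith
    have h4 : pm a (U / 2 ^ (s + 1)) (U / 2 ^ s) = L := hL.symm
    rw [h2, h4] at h1
    have h5 := (abs_le.1 h1).1
    have h6 := Real.log_two_gt_d9
    linarith
  have hS : ∑ p ∈ blk U s, ((a p / p : ℝ) : ℂ) * ∏ i, (1 + ee (b i * Real.log p / U)) =
      ∑ I : Finset (Fin 16), ∑ p ∈ blk U s,
        ((a p / p : ℝ) : ℂ) * ee (((∑ i ∈ I, b i : ℤ) : ℝ) / U * Real.log p) := by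
    rw [Finset.sum_comm]
    refine Finset.sum_congr rfl fun p _ => ?_
    rw [idle_expand, Finset.mul_sum]
  have hcard : (#(univ : Finset (Finset (Fin 16))) : ℝ) = 65536 := by
    rw [Finset.card_univ, Fintype.card_finset, Fintype.card_fin]
    norm_num
  have h1 : ∀ I : Finset (Fin 16), ‖∑ p ∈ blk U s,
      ((a p / p : ℝ) : ℂ) * ee (((∑ i ∈ I, b i : ℤ) : ℝ) / U * Real.log p)‖ ≤ L := fun I =>
    hL ▸ idle_triv ha _ _
  have h2 : ∀ I : Finset (Fin 16), ‖∑ p ∈ blk U s,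
      ((a p / p : ℝ) : ℂ) * ee (((∑ i ∈ I, b i : ℤ) : ℝ) / U * Real.log p)‖ ≤
      (if |((∑ i ∈ I, b i : ℤ) : ℝ)| ≤ 2 ^ (s + r0) then L else 0) + L / (200 * 65536) := by
    intro I
    split_ifs with hI
    · have : 0 ≤ L / (200 * 65536) := by positivity
      linarith [h1 I]
    · obtain ⟨c, hc⟩ : ∃ c : ℝ, c = ((∑ i ∈ I, b i : ℤ) : ℝ) := ⟨_, rfl⟩
      rw [← hc] at hI ⊢
      have a1 : 2 ^ (s + r0) < |c| := not_le.1 hI
      have a2 : 0 < |c| := lt_trans (by positivity) a1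
      have a3 : |c| ≤ U / 8 := by
        rw [hc]
        push_cast
        refine (Finset.abs_sum_le_sum_abs _ _).trans ?_
        refine (Finset.sum_le_sum_of_subset_of_nonneg (Finset.subset_univ I)
          fun _ _ _ => abs_nonneg _).trans ?_
        refine (Finset.sum_le_sum fun i _ => hb i).trans (le_of_eq ?_)
        rw [Finset.sum_const, Finset.card_univ, Fintype.card_fin, nsmul_eq_mul]
        push_cast
        ring
      have a4 : |c / U| = |c| / U := by rw [abs_div, abs_of_pos hU]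
      have a5 := hE.osc _ _ (c / U) hu hαβ (div_ne_zero (abs_pos.1 a2) hU.ne')
        (by rw [a4, div_le_iff₀ hU]; linarith)
      refine a5.trans ?_
      have a6 : |c / U| * (U / 2 ^ (s + 1)) = |c| / 2 ^ (s + 1) := by rw [a4]; field_simp
      have a7 : (2 : ℝ) ^ r0 / 2 ≤ |c| / 2 ^ (s + 1) := by
        rw [le_div_iff₀ (by positivity)]
        refine le_trans (le_of_eq ?_) a1.le
        ring
      have a8 : (0 : ℝ) < |c| / 2 ^ (s + 1) := by positivity
      rw [a6, zero_add, div_le_iff₀ a8]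
      have a9 : 1 / 2 / (200 * 65536) * (2 ^ r0 / 2) ≤ L / (200 * 65536) * (|c| / 2 ^ (s + 1)) :=
        mul_le_mul (div_le_div_of_nonneg_right hL2 (by norm_num)) a7 (by positivity)
          (by positivity)
      linarith
  rw [hS, ← hL, Nt, mul_min_of_nonneg _ _ (by linarith)]
  refine (norm_sum_le _ _).trans (le_min ?_ ?_)
  · refine (Finset.sum_le_sum fun I _ => h1 I).trans (le_of_eq ?_)
    rw [Finset.sum_const, nsmul_eq_mul, hcard]
    ring
  · refine (Finset.sum_le_sum fun I _ => h2 I).trans (le_of_eq ?_)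
    rw [Finset.sum_add_distrib, ← Finset.sum_filter, Finset.sum_const, Finset.sum_const,
      nsmul_eq_mul, nsmul_eq_mul, hcard, Nn]
    ring

/-- `sum_sets_le_tuples` with `F T = ∏ a p / p`, `sum_tuples_prod`. -/
theorem fixed_counts_mass {a : ℕ → ℝ} (ha : ∀ p, 0 ≤ a p) {U : ℝ} (hU : 0 < U) (r : ℕ)
    (k : ℕ → ℕ) :
    ∑ T ∈ (lp (U / 2 ^ r) U).powerset.filter (fun T => ∀ s < r, #(T ∩ blk U s) = k s),
      ∏ p ∈ T, a p / p ≤
      ∏ s ∈ range r, (∑ p ∈ blk U s, a p / p) ^ k s / (k s).factorial := by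
  have h := idle_sets hU r k (fun T => (T.map fun p : ℕ => a p / p).prod)
    (fun T => Multiset.prod_map_nonneg fun p _ => div_nonneg (ha p) (Nat.cast_nonneg p))
    (X := ∏ s ∈ range r, (∑ p ∈ blk U s, a p / p) ^ k s) (le_of_eq (by
      rw [← Fin.prod_univ_eq_prod_range (fun s => (∑ p ∈ blk U s, a p / p) ^ k s) r,
        ← idle_tuples (fun s : Fin r => blk U s) (fun s => k s)]
      simp only [Multiset.map_map]
      rfl))
  rw [Finset.prod_div_distrib]
  exact h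

/-- `sum_sets_le_tuples` with `F T = (∏ a p / p) * Mom U m j T ≥ 0` (`HH_pow_le`); interchange the
sums over tuples of primes and of frequencies and use `sum_tuples_prod`; `0 ≤ fej ≤ 1`. -/
theorem fixed_counts_mom {a : ℕ → ℝ} (ha : ∀ p, 0 ≤ a p) {U : ℝ} (hU : 0 < U) (m j r : ℕ)
    (k : ℕ → ℕ) (N : (Fin 16 → ℤ) → ℕ → ℝ)
    (hN : ∀ b ∈ tup m j, ∀ s < r,
      ‖∑ p ∈ blk U s, ((a p / p : ℝ) : ℂ) * ∏ i, (1 + ee (b i * Real.log p / U))‖ ≤
        (∑ p ∈ blk U s, a p / p) * N b s) (hN0 : ∀ b s, 0 ≤ N b s) :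
    ∑ T ∈ (lp (U / 2 ^ r) U).powerset.filter (fun T => ∀ s < r, #(T ∩ blk U s) = k s),
      (∏ p ∈ T, a p / p) * Mom U m j T.val ≤
      (∏ s ∈ range r, (∑ p ∈ blk U s, a p / p) ^ k s / (k s).factorial) *
        ∑ b ∈ tup m j, ∏ s ∈ range r, N b s ^ k s := by
  have hw : ∀ p : ℕ, 0 ≤ a p / p := fun p => div_nonneg (ha p) (Nat.cast_nonneg p)
  have h := idle_sets hU r k (fun T => (T.map fun p : ℕ => a p / p).prod * Mom U m j T)
    (fun T => mul_nonneg (Multiset.prod_map_nonneg fun p _ => hw p) (HH_pow_le hU m j T 0).1)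
    (X := (∏ s ∈ range r, (∑ p ∈ blk U s, a p / p) ^ k s) *
      ∑ b ∈ tup m j, ∏ s ∈ range r, N b s ^ k s) (by
      have h1 : ∀ t : (Σ s : Fin r, Fin (k s)) → ℕ,
          ((univ.val.map t).map fun p : ℕ => a p / p).prod * Mom U m j (univ.val.map t) =
          (∑ b ∈ tup m j, (∏ l, (fej m (b l) : ℂ)) * ∏ i, (((a (t i) / t i : ℝ) : ℂ) *
            ∏ l, (1 + ee (b l * Real.log (t i) / U)))).re := fun t => by
        have e1 : ((univ.val.map t).map fun p : ℕ => a p / p).prod = ∏ i, a (t i) / t i := by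
          rw [Multiset.map_map]; rfl
        have e2 : ∀ c : ℤ, phi U (univ.val.map t) c =
            ∏ i, (1 + ee (c * Real.log (t i) / U)) := fun c => by
          rw [phi, Multiset.map_map]; rfl
        rw [e1, Mom, ← Complex.re_ofReal_mul, Finset.mul_sum]
        congr 1
        refine Finset.sum_congr rfl fun b _ => ?_
        simp only [e2]
        rw [Finset.prod_mul_distrib, Finset.prod_mul_distrib, Finset.prod_comm (s := univ)
          (f := fun l i => 1 + ee (b l * Real.log (t i) / U)), Complex.ofReal_prod]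
        ring
      simp only [h1]
      rw [← Complex.re_sum, Finset.sum_comm, Finset.mul_sum]
      refine (Complex.re_le_norm _).trans ((norm_sum_le _ _).trans
        (Finset.sum_le_sum fun b hb => ?_))
      rw [← Finset.mul_sum, idle_tuples (fun s : Fin r => blk U s) (fun s => k s)
        (fun p => ((a p / p : ℝ) : ℂ) * ∏ l, (1 + ee (b l * Real.log p / U))), norm_mul,
        ← Finset.prod_mul_distrib, norm_prod, norm_prod, Fin.prod_univ_eq_prod_range
        (fun s => ‖(∑ p ∈ blk U s, ((a p / p : ℝ) : ℂ) *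
          ∏ l, (1 + ee (b l * Real.log p / U))) ^ k s‖) r]
      refine (mul_le_of_le_one_left (Finset.prod_nonneg fun _ _ => norm_nonneg _)
        (Finset.prod_le_one (fun _ _ => norm_nonneg _) fun l _ => idle_fej m (b l))).trans ?_
      refine Finset.prod_le_prod (fun _ _ => norm_nonneg _) fun s hs => ?_
      rw [norm_pow, ← mul_pow]
      exact pow_le_pow_left₀ (norm_nonneg _) (hN b hb s (Finset.mem_range.1 hs)) _)
  rw [Finset.prod_div_distrib, div_mul_eq_mul_div]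
  exact h

end Crest.Agent.R014

end
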