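import Crest.Agent.R014.IDelD
import Crest.Agent.R014.IDelE

/-! # Row 14: Hooley's Δ: one band -/

set_option autoImplicit false

noncomputable section

open Finset Filter Topology
open scoped Classical

namespace Crest.Agent.R014

theorem idlf_root {x L : ℝ} (hx : 0 ≤ x) (hL : 0 < L) :
    x ^ (1 / 16 : ℝ) ≤ L * (1 + x / L ^ 16) := by
  have h0 : 0 ≤ x ^ (1 / 16 : ℝ) := Real.rpow_nonneg hx _
  have h1 : (x ^ (1 / 16 : ℝ)) ^ 16 = x := by
    rw [← Real.rpow_natCast, ← Real.rpow_mul hx]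
    norm_num
  generalize x ^ (1 / 16 : ℝ) = y at h0 h1
  subst h1
  have h2 : y / L ≤ 1 + (y / L) ^ 16 := by
    rcases le_total (y / L) 1 with h | h
    · have : 0 ≤ (y / L) ^ 16 := by positivity
      linarith
    · have : y / L ≤ (y / L) ^ 16 := le_self_pow₀ h (by norm_num)
      linarith
  rw [← div_pow, ← div_le_iff₀' hL]
  exact h2

theorem idlf_pow (κ : ℝ) (j' : ℕ) :
    ((4 : ℝ) ^ κ * (2 : ℝ) ^ (-(j' : ℝ) / 320)) ^ 16 = (2 : ℝ) ^ (32 * κ - (j' : ℝ) / 20) := by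
  have h4 : (4 : ℝ) ^ κ = (2 : ℝ) ^ (2 * κ) := by
    rw [Real.rpow_mul (by norm_num)]
    norm_num
  rw [h4, ← Real.rpow_add (by norm_num), ← Real.rpow_natCast, ← Real.rpow_mul (by norm_num)]
  congr 1
  push_cast
  ring

theorem idlf_fixed (C0 : ℝ) : ∃ C u1 : ℝ, 0 < C ∧
    ∀ (a : ℕ → ℝ) (U u0 κ : ℝ) (m j j' : ℕ) (k : ℕ → ℕ),
    (∀ p, 0 ≤ a p) → Equi C0 a u0 → u1 ≤ u0 → 0 < u0 → u0 ≤ U / 2 ^ j' → j' ≤ j →
    (m : ℝ) ≤ U / 128 → 0 ≤ κ →
    (∀ i ≤ j', 1.36 * (i : ℝ) - 2 * κ ≤ ∑ s ∈ range i, (k s : ℝ)) →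
    ∑ T ∈ (lp (U / 2 ^ j') U).powerset.filter (fun T => ∀ s < j', #(T ∩ blk U s) = k s),
      (∏ p ∈ T, a p / p) * (2 ^ (j + 7) * Mom U m j T.val) ^ (1 / 16 : ℝ) ≤
      C * (4 : ℝ) ^ κ * (2 : ℝ) ^ (-(j' : ℝ) / 320) * 2 ^ (j - j') *
        ∏ s ∈ range j', (2 * ∑ p ∈ blk U s, a p / p) ^ k s / (k s).factorial := by
  obtain ⟨r0, u1, hblk⟩ := block_bound C0
  obtain ⟨Cc, hCc, hcomb⟩ := comb_bound r0
  refine ⟨2 * (2 ^ 7 * Cc + 1), u1, by positivity, ?_⟩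
  intro a U u0 κ m j j' k ha hE hu1 hu0 huU hj hm hκ hk
  have hU : 0 < U := by
    have h := hu0.trans_le huU
    exact (div_pos_iff_of_pos_right (by positivity)).1 h
  have h1 := fixed_counts_mass ha hU j' k
  have h2 := fixed_counts_mom ha hU m j j' k (fun b s => Nt b (2 ^ (s + r0))) (by
    intro b hb s hs
    refine hblk a U u0 s b ha hE hu1 hu0 (huU.trans ?_) fun i => ?_
    · exact div_le_div_of_nonneg_left hU.le (by positivity) (pow_le_pow_right₀ one_le_two hs)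
    · have h3 := Fintype.mem_piFinset.1 (mem_filter.1 hb).1 i
      have h4 := mem_Ioo.1 (mem_filter.1 h3).1
      have h5 : |b i| ≤ (m : ℤ) := abs_le.2 ⟨h4.1.le, h4.2.le⟩
      have h6 : |(b i : ℝ)| ≤ (m : ℝ) := by exact_mod_cast h5
      exact h6.trans hm) (fun b s => le_min (by positivity) (by positivity))
  have h3 := hcomb m j j' k κ hj hκ hk
  obtain ⟨P, hP⟩ : ∃ P, P = ∏ s ∈ range j', (∑ p ∈ blk U s, a p / p) ^ k s / (k s).factorial :=
    ⟨_, rfl⟩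
  have hw : ∀ p : ℕ, 0 ≤ a p / p := fun p => div_nonneg (ha p) (Nat.cast_nonneg p)
  have hP0 : 0 ≤ P := by
    rw [hP]
    exact prod_nonneg fun s _ =>
      div_nonneg (pow_nonneg (sum_nonneg fun p _ => hw p) _) (Nat.cast_nonneg _)
  have hP2 : ∏ s ∈ range j', (2 * ∑ p ∈ blk U s, a p / p) ^ k s / (k s).factorial
      = 2 ^ (∑ s ∈ range j', k s) * P := by
    rw [hP, ← prod_pow_eq_pow_sum, ← prod_mul_distrib]
    exact prod_congr rfl fun s _ => by rw [mul_pow, mul_div_assoc]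
  rw [← hP] at h1 h2
  rw [hP2]
  obtain ⟨G, hG⟩ : ∃ G, G = (4 : ℝ) ^ κ * (2 : ℝ) ^ (-(j' : ℝ) / 320) := ⟨_, rfl⟩
  have hG0 : 0 < G := by rw [hG]; positivity
  rw [← idlf_pow, ← hG] at h3
  obtain ⟨L, hL⟩ : ∃ L : ℝ, L = (2 ^ 7 * Cc + 1) * 2 ^ (∑ s ∈ range j', k s) * G * 2 ^ (j - j') :=
    ⟨_, rfl⟩
  have hL0 : 0 < L := by rw [hL]; positivity
  have h4 : 2 ^ (j + 7) * ∑ b ∈ tup m j, ∏ s ∈ range j', Nt b (2 ^ (s + r0)) ^ k s ≤ L ^ 16 := by
    have h5 : 2 ^ 7 * Cc ≤ (2 ^ 7 * Cc + 1) ^ 16 :=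
      (le_add_of_nonneg_right zero_le_one).trans
        (le_self_pow₀ (le_add_of_nonneg_left (by positivity)) (by norm_num))
    rw [pow_add, mul_comm ((2 : ℝ) ^ j), mul_assoc, hL, mul_pow, mul_pow, mul_pow, ← pow_mul,
      ← pow_mul, mul_comm _ 16, mul_comm (j - j') 16]
    refine (mul_le_mul_of_nonneg_left h3 (by positivity)).trans ?_
    rw [← mul_assoc, ← mul_assoc, ← mul_assoc]
    gcongr
  calc _ ≤ ∑ T ∈ (lp (U / 2 ^ j') U).powerset.filter (fun T => ∀ s < j', #(T ∩ blk U s) = k s),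
        (L * ∏ p ∈ T, a p / p
          + L * (2 ^ (j + 7) / L ^ 16) * ((∏ p ∈ T, a p / p) * Mom U m j T.val)) := by
        refine sum_le_sum fun T _ => ?_
        have h6 : 0 ≤ 2 ^ (j + 7) * Mom U m j T.val :=
          mul_nonneg (by positivity) (HH_pow_le hU m j T.val 0).1
        refine (mul_le_mul_of_nonneg_left (idlf_root h6 hL0)
          (prod_nonneg fun p _ => hw p)).trans (le_of_eq ?_)
        ring
    _ ≤ L * P + L * (2 ^ (j + 7) / L ^ 16) *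
          (P * ∑ b ∈ tup m j, ∏ s ∈ range j', Nt b (2 ^ (s + r0)) ^ k s) := by
        rw [sum_add_distrib, ← mul_sum, ← mul_sum]
        exact add_le_add (mul_le_mul_of_nonneg_left h1 hL0.le)
          (mul_le_mul_of_nonneg_left h2 (by positivity))
    _ = L * P + L * P *
          ((2 ^ (j + 7) * ∑ b ∈ tup m j, ∏ s ∈ range j', Nt b (2 ^ (s + r0)) ^ k s) / L ^ 16) := by
        ring
    _ ≤ L * P + L * P * 1 :=
        add_le_add_right (mul_le_mul_of_nonneg_left ((div_le_one (by positivity)).2 h4)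
          (mul_nonneg hL0.le hP0)) _
    _ = _ := by
        rw [mul_assoc (2 * (2 ^ 7 * Cc + 1)), ← hG, hL]
        ring

/-- Group `T` by the counts `k s = #(T ∩ blk U s)`.  For fixed counts (which satisfy the hypothesis
of `comb_bound` by `kc_eq_sum`) use `x^{1/16} ≤ Λ^{1/16} (1 + x/Λ)` with `Λ` the bound of
`comb_bound` (times `2^7`), `fixed_counts_mass`, `fixed_counts_mom`, `block_bound`; finally
`∑_k ∏_s (2 λ_s)^{k s}/(k s)! ≤ exp (2 ∑ λ_s)` (`Finset.prod_univ_sum`, `Real.sum_le_exp_of_nonneg`)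
and `pm_eq_sum_blk`. -/
theorem band_bound (C0 : ℝ) : ∃ C u1 : ℝ, 0 < C ∧ ∀ (a : ℕ → ℝ) (U u0 κ : ℝ) (m j j' : ℕ),
    (∀ p, 0 ≤ a p) → Equi C0 a u0 → u1 ≤ u0 → 0 < u0 → u0 ≤ U / 2 ^ j' → j' ≤ j →
    (m : ℝ) ≤ U / 128 → 0 ≤ κ →
    ∑ T ∈ (lp (U / 2 ^ j') U).powerset.filter (fun T => G2 U j' 1.36 (2 * κ) T),
      (∏ p ∈ T, a p / p) * (2 ^ (j + 7) * Mom U m j T.val) ^ (1 / 16 : ℝ) ≤
      C * (4 : ℝ) ^ κ * (2 : ℝ) ^ (-(j' : ℝ) / 320) * 2 ^ (j - j') *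
        Real.exp (2 * pm a (U / 2 ^ j') U) := by
  obtain ⟨C, u1, hC, h⟩ := idlf_fixed C0
  refine ⟨C, u1, hC, ?_⟩
  intro a U u0 κ m j j' ha hE hu1 hu0 huU hj hm hκ
  have hU : 0 < U := by
    have h := hu0.trans_le huU
    exact (div_pos_iff_of_pos_right (by positivity)).1 h
  have hw : ∀ p : ℕ, 0 ≤ a p / p := fun p => div_nonneg (ha p) (Nat.cast_nonneg p)
  have hl : ∀ s, 0 ≤ 2 * ∑ p ∈ blk U s, a p / p := fun s =>
    mul_nonneg zero_le_two (sum_nonneg fun p _ => hw p)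
  obtain ⟨D, hD⟩ : ∃ D : ℝ, D = C * (4 : ℝ) ^ κ * (2 : ℝ) ^ (-(j' : ℝ) / 320) * 2 ^ (j - j') :=
    ⟨_, rfl⟩
  have hD0 : 0 ≤ D := by rw [hD]; positivity
  rw [← sum_fiberwise_of_maps_to (g := fun T (s : Fin j') => #(T ∩ blk U s))
    (t := Fintype.piFinset fun _ : Fin j' => range (#(lp (U / 2 ^ j') U) + 1))
    (fun T hT => Fintype.mem_piFinset.2 fun s => mem_range.2 (Nat.lt_succ_of_le
      (card_le_card (inter_subset_left.trans (mem_powerset.1 (mem_filter.1 hT).1))))), ← hD]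
  refine le_trans (sum_le_sum (g := fun kk : Fin j' → ℕ =>
    D * ∏ s : Fin j', (2 * ∑ p ∈ blk U s, a p / p) ^ kk s / (kk s).factorial) fun kk _ => ?_) ?_
  · rcases (((lp (U / 2 ^ j') U).powerset.filter (fun T => G2 U j' 1.36 (2 * κ) T)).filter
      (fun T => (fun s : Fin j' => #(T ∩ blk U s)) = kk)).eq_empty_or_nonempty with he | ⟨T0, hT0⟩
    · rw [he, sum_empty]
      exact mul_nonneg hD0 (prod_nonneg fun s _ =>
        div_nonneg (pow_nonneg (hl s) _) (Nat.cast_nonneg _))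
    · obtain ⟨hT1, rfl⟩ := mem_filter.1 hT0
      obtain ⟨hT2, hT3⟩ := mem_filter.1 hT1
      have h1 := h a U u0 κ m j j' (fun s => #(T0 ∩ blk U s)) ha hE hu1 hu0 huU hj hm hκ (by
        intro i hi
        have h2 := hT3 i hi
        rw [kc_eq_sum hU (fun p hp => (mem_lp.1 (mem_powerset.1 hT2 hp)).1) i] at h2
        exact_mod_cast h2)
      rw [← hD, ← Fin.prod_univ_eq_prod_range
        (fun s => (2 * ∑ p ∈ blk U s, a p / p) ^ #(T0 ∩ blk U s) / (#(T0 ∩ blk U s)).factorial)] at h1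
      refine le_trans (sum_le_sum_of_subset_of_nonneg (fun T hT => ?_) fun T _ _ => ?_) h1
      · obtain ⟨hT4, hT5⟩ := mem_filter.1 hT
        exact mem_filter.2 ⟨(mem_filter.1 hT4).1, fun s hs => congrFun hT5 ⟨s, hs⟩⟩
      · exact mul_nonneg (prod_nonneg fun p _ => hw p) (Real.rpow_nonneg
          (mul_nonneg (by positivity) (HH_pow_le hU m j T.val 0).1) _)
  · rw [← mul_sum, ← prod_univ_sum (fun _ : Fin j' => range (#(lp (U / 2 ^ j') U) + 1))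
      (fun s n => (2 * ∑ p ∈ blk U s, a p / p) ^ n / (n.factorial : ℝ)), pm_eq_sum_blk a hU,
      mul_sum, Real.exp_sum, ← Fin.prod_univ_eq_prod_range
        (fun s => Real.exp (2 * ∑ p ∈ blk U s, a p / p))]
    refine mul_le_mul_of_nonneg_left (prod_le_prod (fun s _ => sum_nonneg fun n _ =>
      div_nonneg (pow_nonneg (hl s) _) (Nat.cast_nonneg _)) fun s _ => ?_) hD0
    exact Real.sum_le_exp_of_nonneg (hl s) _

end Crest.Agent.R014

end
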