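import Crest.Agent.R014.IDelF
import Crest.Agent.R014.IBas

/-! # Row 14: Hooley's Δ on typical sets -/

set_option autoImplicit false

noncomputable section

open Finset Filter Topology
open scoped Classical

namespace Crest.Agent.R014

theorem idlg_sum_two {a : ℕ → ℝ} (ha : ∀ p, 0 ≤ a p) (P : Finset ℕ) :
    ∑ T ∈ P.powerset, (∏ p ∈ T, a p / p) * 2 ^ #T ≤ Real.exp (2 * ∑ p ∈ P, a p / p) := by
  have h1 : ∑ T ∈ P.powerset, (∏ p ∈ T, a p / p) * 2 ^ #T = ∏ p ∈ P, (1 + 2 * (a p / p)) := by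
    rw [Finset.prod_one_add]
    refine sum_congr rfl fun T _ => ?_
    rw [prod_mul_distrib, prod_const, mul_comm]
  rw [h1, mul_sum, Real.exp_sum]
  refine prod_le_prod (fun p _ => ?_) fun p _ => ?_
  · have := ha p
    positivity
  · linarith [Real.add_one_le_exp (2 * (a p / p))]

theorem idlg_split {P1 P2 : Finset ℕ} {𝒢 𝒢1 : Finset (Finset ℕ)} (h : ∀ T ∈ 𝒢, T ⊆ P1 ∪ P2)
    (h1 : ∀ T ∈ 𝒢, T ∩ P1 ∈ 𝒢1) {F G : Finset ℕ → ℝ} (hF : ∀ T, 0 ≤ F T) (hG : ∀ T, 0 ≤ G T) :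
    ∑ T ∈ 𝒢, F (T ∩ P1) * G (T ∩ P2) ≤ (∑ T ∈ 𝒢1, F T) * ∑ T ∈ P2.powerset, G T := by
  rw [sum_mul_sum, ← sum_product']
  have hinj : Set.InjOn (fun T : Finset ℕ => (T ∩ P1, T ∩ P2)) 𝒢 := by
    intro T hT T' hT' e
    have e1 : T ∩ P1 = T' ∩ P1 := congrArg Prod.fst e
    have e2 : T ∩ P2 = T' ∩ P2 := congrArg Prod.snd e
    have k1 : T = T ∩ P1 ∪ T ∩ P2 := by
      rw [← inter_union_distrib_left, inter_eq_left.2 (h T hT)]
    have k2 : T' = T' ∩ P1 ∪ T' ∩ P2 := by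
      rw [← inter_union_distrib_left, inter_eq_left.2 (h T' hT')]
    rw [k1, k2, e1, e2]
  have := sum_image (f := fun x : Finset ℕ × Finset ℕ => F x.1 * G x.2) hinj
  simp only at this
  rw [← this]
  refine sum_le_sum_of_subset_of_nonneg ?_ fun x _ _ => mul_nonneg (hF _) (hG _)
  intro x hx
  obtain ⟨T, hT, rfl⟩ := mem_image.1 hx
  exact mem_product.2 ⟨h1 T hT, mem_powerset.2 inter_subset_right⟩

theorem idlg_HH_le {U : ℝ} (hU : 0 < U) (m j : ℕ) {T1 T2 : Finset ℕ} (h : Disjoint T1 T2) (x : ℝ) :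
    ‖HH U m j (T1 ∪ T2).val x‖ ≤ (2 ^ (j + 7) * Mom U m j T1.val) ^ (1 / 16 : ℝ) * 2 ^ #T2 := by
  rw [HH_union U m j h]
  refine (norm_sum_le _ _).trans ?_
  have key : ∀ y : ℝ, ‖HH U m j T1.val y‖ ≤ (2 ^ (j + 7) * Mom U m j T1.val) ^ (1 / 16 : ℝ) := by
    intro y
    have h1 := (HH_pow_le hU m j T1.val y).2
    have h2 : ‖HH U m j T1.val y‖ = (‖HH U m j T1.val y‖ ^ 16) ^ (1 / 16 : ℝ) := by
      rw [one_div]
      exact (Real.pow_rpow_inv_natCast (norm_nonneg _) (by norm_num)).symm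
    rw [h2]
    exact Real.rpow_le_rpow (by positivity) h1 (by norm_num)
  refine (sum_le_sum fun d _ => key _).trans ?_
  rw [sum_const, card_powerset, nsmul_eq_mul, mul_comm]
  push_cast
  exact le_rfl

theorem idlg_band {a : ℕ → ℝ} (ha : ∀ p, 0 ≤ a p) {U : ℝ} (hU : 0 < U) (m j : ℕ) {j' J : ℕ}
    (hj : j' ≤ J) (c κ : ℝ) (x : Finset ℕ → ℝ) :
    ∑ T ∈ (lp (U / 2 ^ J) U).powerset.filter (fun T => G2 U J c κ T),
      (∏ p ∈ T, a p / p) * ‖HH U m j T.val (x T)‖ ≤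
    (∑ T ∈ (lp (U / 2 ^ j') U).powerset.filter (fun T => G2 U j' c κ T),
      (∏ p ∈ T, a p / p) * (2 ^ (j + 7) * Mom U m j T.val) ^ (1 / 16 : ℝ)) *
      Real.exp (2 * pm a (U / 2 ^ J) (U / 2 ^ j')) := by
  have hw : ∀ T : Finset ℕ, 0 ≤ ∏ p ∈ T, a p / p := fun T =>
    prod_nonneg fun p _ => div_nonneg (ha p) (Nat.cast_nonneg p)
  have hM : ∀ T : Finset ℕ, 0 ≤ (2 ^ (j + 7) * Mom U m j T.val) ^ (1 / 16 : ℝ) := fun T =>
    Real.rpow_nonneg (mul_nonneg (by positivity) (HH_pow_le hU m j T.val 0).1) _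
  set P1 := lp (U / 2 ^ j') U with hP1
  set P2 := lp (U / 2 ^ J) (U / 2 ^ j') with hP2
  have hdis : Disjoint P1 P2 := by
    rw [disjoint_left]
    intro p h1 h2
    have := (mem_lp.1 h1).2.1
    have := (mem_lp.1 h2).2.2
    linarith
  have hsub : ∀ T ∈ (lp (U / 2 ^ J) U).powerset.filter (fun T => G2 U J c κ T), T ⊆ P1 ∪ P2 := by
    intro T hT p hp
    have h0 := mem_lp.1 (mem_powerset.1 (mem_filter.1 hT).1 hp)
    rcases le_or_gt (Real.log p) (U / 2 ^ j') with h | h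
    · exact mem_union_right _ (mem_lp.2 ⟨h0.1, h0.2.1, h⟩)
    · exact mem_union_left _ (mem_lp.2 ⟨h0.1, h, h0.2.2⟩)
  have hG : ∀ T ∈ (lp (U / 2 ^ J) U).powerset.filter (fun T => G2 U J c κ T),
      T ∩ P1 ∈ P1.powerset.filter (fun T => G2 U j' c κ T) := by
    intro T hT
    refine mem_filter.2 ⟨mem_powerset.2 inter_subset_right, fun i hi => ?_⟩
    have h1 := (mem_filter.1 hT).2 i (hi.trans hj)
    have h2 : kc U i (T ∩ P1) = kc U i T := by
      have hp : ∀ p ∈ T, p.Prime := fun p hp =>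
        (mem_lp.1 (mem_powerset.1 (mem_filter.1 hT).1 hp)).1
      rw [kc_eq_sum hU hp, kc_eq_sum hU fun p h => hp p (mem_inter.1 h).1]
      refine sum_congr rfl fun s hs => ?_
      have hsub : blk U s ⊆ P1 := by
        intro p hp
        have h0 := mem_lp.1 hp
        refine mem_lp.2 ⟨h0.1, lt_of_le_of_lt ?_ h0.2.1,
          h0.2.2.trans (div_le_self hU.le (one_le_pow₀ (by norm_num)))⟩
        exact div_le_div_of_nonneg_left hU.le (by positivity)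
          (pow_le_pow_right₀ (by norm_num) (by have := mem_range.1 hs; omega))
      rw [inter_assoc, inter_eq_right.2 hsub]
    rw [h2]
    exact h1
  have hs := idlg_split hsub hG
    (F := fun T => (∏ p ∈ T, a p / p) * (2 ^ (j + 7) * Mom U m j T.val) ^ (1 / 16 : ℝ))
    (G := fun T => (∏ p ∈ T, a p / p) * 2 ^ #T) (fun T => mul_nonneg (hw T) (hM T))
    (fun T => mul_nonneg (hw T) (by positivity))
  refine le_trans (sum_le_sum fun T hT => ?_) (hs.trans ?_)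
  · have k1 : T = T ∩ P1 ∪ T ∩ P2 := by
      rw [← inter_union_distrib_left, inter_eq_left.2 (hsub T hT)]
    have k2 : Disjoint (T ∩ P1) (T ∩ P2) :=
      hdis.mono inter_subset_right inter_subset_right
    have k3 := idlg_HH_le hU m j k2 (x T)
    rw [← k1] at k3
    have k4 : ∏ p ∈ T, a p / p = (∏ p ∈ T ∩ P1, a p / p) * ∏ p ∈ T ∩ P2, a p / p := by
      rw [← prod_union k2, ← k1]
    refine (mul_le_mul_of_nonneg_left k3 (hw T)).trans (le_of_eq ?_)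
    rw [k4]
    ring
  · exact mul_le_mul_of_nonneg_left (idlg_sum_two ha P2)
      (sum_nonneg fun T _ => mul_nonneg (hw T) (hM T))

theorem idlg_geom {J j1 : ℕ} {U u0 : ℝ} (hu : 2 ≤ u0) (h1 : (2 : ℝ) ^ j1 ≤ U)
    (h2 : U / 2 ^ J ≤ 2 * u0) (h3 : u0 ^ 2000 ≤ U) :
    ∑ j ∈ range j1, (2 : ℝ) ^ (-((min j J : ℕ) : ℝ) / 320) * 2 ^ (j - min j J) ≤
      (1 - (2 : ℝ) ^ (-(1 : ℝ) / 320))⁻¹ + 1 := by
  set q : ℝ := (2 : ℝ) ^ (-(1 : ℝ) / 320) with hq
  have hq0 : 0 ≤ q := by positivity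
  have hq1 : q < 1 := Real.rpow_lt_one_of_one_lt_of_neg (by norm_num) (by norm_num)
  have hqj : ∀ j : ℕ, (2 : ℝ) ^ (-(j : ℝ) / 320) = q ^ j := by
    intro j
    rw [hq, ← Real.rpow_natCast, ← Real.rpow_mul (by norm_num)]
    congr 1
    ring
  have hterm : ∀ j ∈ range j1, (2 : ℝ) ^ (-((min j J : ℕ) : ℝ) / 320) * 2 ^ (j - min j J) ≤
      q ^ j + q ^ J / 2 ^ J * 2 ^ j := by
    intro j _
    rw [hqj]
    rcases le_total j J with h | h
    · rw [min_eq_left h, Nat.sub_self, pow_zero, mul_one]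
      have : 0 ≤ q ^ J / 2 ^ J * 2 ^ j := by positivity
      linarith
    · rw [min_eq_right h]
      have e : (2 : ℝ) ^ j = 2 ^ J * 2 ^ (j - J) := by rw [← pow_add, Nat.add_sub_cancel' h]
      have e2 : q ^ J / 2 ^ J * 2 ^ j = q ^ J * 2 ^ (j - J) := by
        rw [e]; field_simp
      have : 0 ≤ q ^ j := by positivity
      linarith
  refine (sum_le_sum hterm).trans ?_
  rw [sum_add_distrib, ← mul_sum]
  refine add_le_add ?_ ?_
  · rw [← tsum_geometric_of_lt_one hq0 hq1]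
    exact (summable_geometric_of_lt_one hq0 hq1).sum_le_tsum _ fun i _ => by positivity
  · have k1 : ∑ j ∈ range j1, (2 : ℝ) ^ j ≤ U := by
      rw [geom_sum_eq (by norm_num)]
      linarith
    have hu0 : 0 < u0 := by linarith
    have hJ : (0 : ℝ) < 2 ^ J := by positivity
    have k2 : (2 * u0) ^ 320 ≤ (2 : ℝ) ^ J := by
      have l1 : U ≤ 2 * u0 * 2 ^ J := (div_le_iff₀ hJ).1 h2
      have l2 : (2 * u0) ^ 321 ≤ u0 ^ 2000 := by
        calc (2 * u0) ^ 321 ≤ (u0 ^ 2) ^ 321 := pow_le_pow_left₀ (by positivity) (by nlinarith) _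
          _ = u0 ^ 642 := by rw [← pow_mul]
          _ ≤ u0 ^ 2000 := pow_le_pow_right₀ (by linarith) (by norm_num)
      have l3 : 2 * u0 * (2 * u0) ^ 320 ≤ 2 * u0 * 2 ^ J := by
        rw [← pow_succ']
        exact l2.trans (h3.trans l1)
      exact le_of_mul_le_mul_left l3 (by positivity)
    have k3 : 2 * u0 * q ^ J ≤ 1 := by
      have l1 : (2 * u0 * q ^ J) ^ 320 ≤ 1 := by
        have e : (q ^ J) ^ 320 = ((2 : ℝ) ^ J)⁻¹ := by
          rw [← hqj, ← Real.rpow_natCast, ← Real.rpow_mul (by norm_num), ← Real.rpow_natCast,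
            ← Real.rpow_neg (by norm_num)]
          congr 1
          push_cast
          ring
        rw [mul_pow, e, ← div_eq_mul_inv, div_le_one hJ]
        exact k2
      exact (pow_le_one_iff_of_nonneg (by positivity) (by norm_num)).1 l1
    calc q ^ J / 2 ^ J * ∑ j ∈ range j1, (2 : ℝ) ^ j ≤ q ^ J / 2 ^ J * U :=
          mul_le_mul_of_nonneg_left k1 (by positivity)
      _ = q ^ J * (U / 2 ^ J) := by ring
      _ ≤ q ^ J * (2 * u0) := mul_le_mul_of_nonneg_left h2 (by positivity)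
      _ ≤ 1 := by linarith

/-- `dl_fejer` with `2^{j1} < 2 m`.  For the band `j` put `j' = min j J`, split `T` into
`T1 = T ∩ lp (U/2^{j'}) U` and the rest `T2`: `‖HH T x‖ ≤ 2^{#T2} (2^{j+7} Mom T1)^{1/16}`
(`HH_union`, `HH_pow_le`), `G2 U j' … T1` holds, `∑_{T2} 2^{#T2} ∏ a p/p ≤ exp (2 pm …)`, and
`band_bound`.  The sum over `j ≤ J` is geometric; the sum over `J < j < j1` is at most
`2^{-J/320} 2^{j1 - J} ≤ (2 u0/U)^{1/320} 2 u0 ≤ C`. -/
theorem delta_bound (C0 : ℝ) : ∃ C u1 : ℝ, 0 < C ∧ ∀ (a : ℕ → ℝ) (π : Par) (u0 : ℝ),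
    (∀ p, 0 ≤ a p) → Equi C0 a u0 → u1 ≤ u0 → π.Ok u0 →
    ∑ T ∈ (lp (π.U / 2 ^ π.J) π.U).powerset.filter (fun T => G2 π.U π.J 1.36 (2 * π.κ) T),
      (∏ p ∈ T, a p / p) * Dl T ≤
      C * (4 : ℝ) ^ π.κ * Real.exp (2 * pm a (π.U / 2 ^ π.J) π.U) / π.U := by
  obtain ⟨C, u1, hC, hb⟩ := band_bound C0
  set K : ℝ := (1 - (2 : ℝ) ^ (-(1 : ℝ) / 320))⁻¹ + 1 with hK
  have hK0 : 0 < K := by
    have hq1 : (2 : ℝ) ^ (-(1 : ℝ) / 320) < 1 :=
      Real.rpow_lt_one_of_one_lt_of_neg (by norm_num) (by norm_num)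
    have : 0 < (1 - (2 : ℝ) ^ (-(1 : ℝ) / 320))⁻¹ := inv_pos.2 (by linarith)
    linarith
  refine ⟨1024 * (1 + C * K), max u1 2, by positivity, fun a π u0 ha hE hu hok => ?_⟩
  obtain ⟨U, J, κ, E⟩ := π
  have hlow : u0 ≤ U / 2 ^ J := hok.low
  have hupp : U / 2 ^ J ≤ 2 * u0 := hok.upp
  have hbig : u0 ^ 2000 ≤ U := hok.big
  have hκ : 0 ≤ κ := hok.kap
  simp only
  have hu1 : u1 ≤ u0 := (le_max_left _ _).trans hu
  have hu2 : 2 ≤ u0 := (le_max_right _ _).trans hu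
  have hU : 256 ≤ U := by
    calc (256 : ℝ) = 2 ^ 8 := by norm_num
      _ ≤ u0 ^ 8 := pow_le_pow_left₀ (by norm_num) hu2 _
      _ ≤ u0 ^ 2000 := pow_le_pow_right₀ (by linarith) (by norm_num)
      _ ≤ U := hbig
  have hU0 : 0 < U := by linarith
  set m : ℕ := ⌊U / 128⌋₊ with hm
  have hm2 : 2 ≤ m := Nat.le_floor (by push_cast; linarith)
  have hmU : (m : ℝ) ≤ U / 128 := Nat.floor_le (by positivity)
  set j1 : ℕ := Nat.clog 2 m with hj1
  have hj1a : m ≤ 2 ^ j1 := Nat.le_pow_clog (by norm_num) m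
  have hj1b : (2 : ℝ) ^ j1 ≤ U := by
    have h1 : 2 ^ (j1 - 1) < m := Nat.pow_pred_clog_lt_self (by norm_num) (by omega)
    have h2 : 2 ^ j1 ≤ 2 * 2 ^ (j1 - 1) := by
      rw [← pow_succ']
      exact Nat.pow_le_pow_right (by norm_num) (by omega)
    have h3 : 2 ^ j1 ≤ 2 * m := by omega
    have h4 : ((2 ^ j1 : ℕ) : ℝ) ≤ ((2 * m : ℕ) : ℝ) := by exact_mod_cast h3
    push_cast at h4
    linarith
  have hw : ∀ T : Finset ℕ, 0 ≤ ∏ p ∈ T, a p / p := fun T =>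
    prod_nonneg fun p _ => div_nonneg (ha p) (Nat.cast_nonneg p)
  have hx : ∀ T : Finset ℕ, ∃ x : ℝ, (Dl T : ℝ) ≤
      1024 / U * (2 ^ #T + ∑ j ∈ range j1, ‖HH U m j T.val x‖) := by
    intro T
    obtain ⟨d0, -, h⟩ := exists_mem_eq_sup T.powerset ⟨∅, empty_mem_powerset T⟩
      fun d0 => #(T.powerset.filter fun d => |ell d - ell d0| ≤ 1)
    refine ⟨ell d0, ?_⟩
    unfold Dl
    rw [h]
    exact dl_fejer hU T hj1a _
  choose x hx using hx
  set X : ℝ := Real.exp (2 * pm a (U / 2 ^ J) U) with hX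
  have hX0 : 0 < X := Real.exp_pos _
  have h4 : 1 ≤ (4 : ℝ) ^ κ := Real.one_le_rpow (by norm_num) hκ
  set 𝒢 := (lp (U / 2 ^ J) U).powerset.filter (fun T => G2 U J 1.36 (2 * κ) T) with h𝒢
  have s1 : ∑ T ∈ 𝒢, (∏ p ∈ T, a p / p) * 2 ^ #T ≤ X :=
    (sum_le_sum_of_subset_of_nonneg (filter_subset _ _) fun T _ _ =>
      mul_nonneg (hw T) (by positivity)).trans (idlg_sum_two ha _)
  have s2 : ∀ j ∈ range j1, ∑ T ∈ 𝒢, (∏ p ∈ T, a p / p) * ‖HH U m j T.val (x T)‖ ≤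
      C * (4 : ℝ) ^ κ * X * ((2 : ℝ) ^ (-((min j J : ℕ) : ℝ) / 320) * 2 ^ (j - min j J)) := by
    intro j _
    have hle : U / 2 ^ J ≤ U / 2 ^ min j J :=
      div_le_div_of_nonneg_left hU0.le (by positivity)
        (pow_le_pow_right₀ (by norm_num) (min_le_right j J))
    have hle2 : U / 2 ^ min j J ≤ U := div_le_self hU0.le (one_le_pow₀ (by norm_num))
    have k1 := idlg_band ha hU0 m j (min_le_right j J) 1.36 (2 * κ) x
    have k2 := hb a U u0 κ m j (min j J) ha hE hu1 (by linarith) (hlow.trans hle) (min_le_left j J)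
      hmU hκ
    refine k1.trans ((mul_le_mul_of_nonneg_right k2 (Real.exp_pos _).le).trans (le_of_eq ?_))
    rw [hX, pm_add a hle hle2, mul_add, Real.exp_add]
    ring
  have s3 : ∑ j ∈ range j1, ∑ T ∈ 𝒢, (∏ p ∈ T, a p / p) * ‖HH U m j T.val (x T)‖ ≤
      C * (4 : ℝ) ^ κ * X * K := by
    refine (sum_le_sum s2).trans ?_
    rw [← mul_sum]
    exact mul_le_mul_of_nonneg_left (idlg_geom hu2 hj1b hupp hbig) (by positivity)
  calc ∑ T ∈ 𝒢, (∏ p ∈ T, a p / p) * Dl T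
      ≤ ∑ T ∈ 𝒢, (∏ p ∈ T, a p / p) *
          (1024 / U * (2 ^ #T + ∑ j ∈ range j1, ‖HH U m j T.val (x T)‖)) :=
        sum_le_sum fun T _ => mul_le_mul_of_nonneg_left (hx T) (hw T)
    _ = 1024 / U * (∑ T ∈ 𝒢, (∏ p ∈ T, a p / p) * 2 ^ #T +
          ∑ j ∈ range j1, ∑ T ∈ 𝒢, (∏ p ∈ T, a p / p) * ‖HH U m j T.val (x T)‖) := by
        rw [sum_comm, ← sum_add_distrib, mul_sum]
        refine sum_congr rfl fun T _ => ?_
        rw [← mul_sum]
        ring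
    _ ≤ 1024 / U * ((4 : ℝ) ^ κ * X + C * (4 : ℝ) ^ κ * X * K) := by
        refine mul_le_mul_of_nonneg_left (add_le_add (s1.trans ?_) s3) (by positivity)
        nlinarith
    _ = 1024 * (1 + C * K) * (4 : ℝ) ^ κ * X / U := by ring

end Crest.Agent.R014

end
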