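import Crest.Agent.R014.IDefs

/-! # Row 14: Gaussian deconvolution, pointwise bounds -/

set_option autoImplicit false

noncomputable section

open Finset Filter Topology
open scoped Classical

namespace Crest.Agent.R014

/-- The smoothing of `1_{(α,β]}(y) e(ω y)/y`. -/
def gsm (α β ω t : ℝ) : ℂ :=
  ((Real.exp (Real.pi ^ 2 * ω ^ 2) / √Real.pi : ℝ) : ℂ) *
    ∫ y in α..β, ee (ω * y) / y * (Real.exp (-(t - y) ^ 2) : ℝ)

theorem ieqa_norm_ee (x : ℝ) : ‖ee x‖ = 1 := by
  rw [ee, Complex.norm_exp]; simp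

theorem ieqa_cont_ee (ω : ℝ) : Continuous fun y : ℝ => ee (ω * y) := by
  unfold ee; fun_prop

theorem ieqa_ee_gauss (ω t y : ℝ) : ee (ω * y) * (Real.exp (-(t - y) ^ 2) : ℝ) =
    Complex.exp ((-1) * (y : ℂ) ^ 2 + (2 * t + 2 * Real.pi * Complex.I * ω) * y + -(t : ℂ) ^ 2) := by
  rw [ee, Complex.ofReal_exp, ← Complex.exp_add]
  congr 1; push_cast; ring

theorem ieqa_integrable (ω t : ℝ) :
    MeasureTheory.Integrable fun y : ℝ => ee (ω * y) * (Real.exp (-(t - y) ^ 2) : ℝ) := by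
  simp only [ieqa_ee_gauss]
  exact integrable_cexp_quadratic' (by simp) _ _

theorem ieqa_fourier (ω t : ℝ) : ((Real.exp (Real.pi ^ 2 * ω ^ 2) / √Real.pi : ℝ) : ℂ) *
    ∫ y : ℝ, ee (ω * y) * (Real.exp (-(t - y) ^ 2) : ℝ) = ee (ω * t) := by
  simp only [ieqa_ee_gauss]
  rw [integral_cexp_quadratic (by simp)]
  have h1 : ((Real.pi : ℂ) / -(-1)) ^ (1 / 2 : ℂ) = ((√Real.pi : ℝ) : ℂ) := by
    rw [Real.sqrt_eq_rpow, Complex.ofReal_cpow Real.pi_pos.le]; simp
  have h2 : ((√Real.pi : ℝ) : ℂ) ≠ 0 := by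
    exact_mod_cast (Real.sqrt_pos.2 Real.pi_pos).ne'
  rw [h1, Complex.ofReal_div, ← mul_assoc, div_mul_cancel₀ _ h2, Complex.ofReal_exp,
    ← Complex.exp_add, ee]
  congr 1
  push_cast
  linear_combination (Real.pi : ℂ) ^ 2 * (ω : ℂ) ^ 2 * Complex.I_sq

theorem ieqa_between {a t y : ℝ} (h : (y - a) * (t - a) ≤ 0) :
    Real.exp (-(t - y) ^ 2) ≤ Real.exp (-(t - a) ^ 2) * Real.exp (-1 * (y - a) ^ 2) := by
  rw [← Real.exp_add]
  exact Real.exp_le_exp.2 (by nlinarith)

theorem ieqa_near {t y : ℝ} (ht : 1 ≤ t) (hy : 1 ≤ y) :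
    |1 / y - 1 / t| * Real.exp (-(t - y) ^ 2) ≤ 3 / t ^ 2 * Real.exp (-(1 / 2) * (y - t) ^ 2) := by
  have ht0 : 0 < t := by linarith
  have hy0 : 0 < y := by linarith
  have h1 : |1 / y - 1 / t| = |t - y| / (y * t) := by
    rw [div_sub_div _ _ hy0.ne' ht0.ne', abs_div, abs_of_pos (mul_pos hy0 ht0)]; simp
  have h2 : t ≤ y * (1 + |t - y|) := by
    nlinarith [le_abs_self (t - y), abs_nonneg (t - y)]
  have h3 : |t - y| / (y * t) ≤ |t - y| * (1 + |t - y|) / t ^ 2 := by
    rw [div_le_div_iff₀ (by positivity) (by positivity)]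
    have := mul_le_mul_of_nonneg_left h2 (mul_nonneg (abs_nonneg (t - y)) ht0.le)
    nlinarith
  have h4 : |t - y| * (1 + |t - y|) ≤ 3 * Real.exp ((t - y) ^ 2 / 2) := by
    have := Real.add_one_le_exp ((t - y) ^ 2 / 2)
    nlinarith [sq_abs (t - y), sq_nonneg (|t - y| - 1)]
  have h5 : Real.exp (-(1 / 2) * (y - t) ^ 2) =
      Real.exp ((t - y) ^ 2 / 2) * Real.exp (-(t - y) ^ 2) := by
    rw [← Real.exp_add]; congr 1; ring
  rw [h1, h5, ← mul_assoc]
  refine mul_le_mul_of_nonneg_right (h3.trans ?_) (Real.exp_pos _).le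
  rw [div_mul_eq_mul_div]
  gcongr

theorem ieqa_gauss (b a : ℝ) (hb : 0 < b) :
    MeasureTheory.Integrable (fun y : ℝ => Real.exp (-b * (y - a) ^ 2)) ∧
      ∫ y : ℝ, Real.exp (-b * (y - a) ^ 2) = √(Real.pi / b) :=
  ⟨(integrable_exp_neg_mul_sq hb).comp_sub_right a, by
    rw [MeasureTheory.integral_sub_right_eq_self (fun y : ℝ => Real.exp (-b * y ^ 2)) a,
      integral_gaussian]⟩

/-- `∫_ℝ e(ω y) exp (-(t-y)²) dy = √π exp (-π² ω²) e(ω t)` (`fourierIntegral_gaussian` or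
`integral_cexp_quadratic`).  For `t ∈ (α, β]` compare `1/y` with `1/t`
(`|1/y - 1/t| ≤ 2 |t-y|/t²` for `y ≥ t/2`, Gaussian decay otherwise) and complete the integral;
`∫_x^∞ exp (-s²) ds ≤ C exp (-x²)` for `x ≥ 0`. -/
theorem gsm_approx : ∃ C : ℝ, 0 < C ∧ ∀ α β ω t : ℝ, 1 ≤ α → α ≤ β → |ω| ≤ 1 / 7 →
    ‖gsm α β ω t - (if α < t ∧ t ≤ β then ee (ω * t) / t else 0)‖ ≤
      C * ((Real.exp (-(t - α) ^ 2) + Real.exp (-(t - β) ^ 2)) / α +
        if α < t ∧ t ≤ β then 1 / t ^ 2 else 0) := by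
  refine ⟨30, by norm_num, fun α β ω t hα hαβ hω => ?_⟩
  have hα0 : 0 < α := by linarith
  set K : ℝ := Real.exp (Real.pi ^ 2 * ω ^ 2) / √Real.pi with hK
  have hπ1 : 1 ≤ √Real.pi := Real.one_le_sqrt.2 (by linarith [Real.pi_gt_three])
  have hK0 : 0 ≤ K := by positivity
  have hK3 : K ≤ 3 := by
    have h1 : ω ^ 2 ≤ (1 / 7) ^ 2 := by
      rw [← sq_abs]; exact pow_le_pow_left₀ (abs_nonneg _) hω 2
    have h2 : Real.pi ^ 2 ≤ 4 ^ 2 := pow_le_pow_left₀ Real.pi_pos.le Real.pi_le_four 2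
    have h3 : Real.pi ^ 2 * ω ^ 2 ≤ 1 :=
      (mul_le_mul h2 h1 (sq_nonneg _) (by norm_num)).trans (by norm_num)
    refine (div_le_self (Real.exp_pos _).le hπ1).trans ((Real.exp_le_exp.2 h3).trans ?_)
    linarith [Real.exp_one_lt_d9]
  let f : ℝ → ℂ := (Set.Ioc α β).indicator fun y => ee (ω * y) / y * (Real.exp (-(t - y) ^ 2) : ℝ)
  let c : ℂ := if α < t ∧ t ≤ β then 1 / (t : ℂ) else 0
  let c' : ℝ := if α < t ∧ t ≤ β then 1 / t ^ 2 else 0
  have hc' : 0 ≤ c' := by simp only [c']; split_ifs <;> positivity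
  have hf : MeasureTheory.Integrable f := by
    refine (MeasureTheory.integrable_indicator_iff measurableSet_Ioc).2 ?_
    refine (ContinuousOn.integrableOn_Icc ?_).mono_set Set.Ioc_subset_Icc_self
    refine ((ieqa_cont_ee ω).continuousOn.div (by fun_prop) fun y hy => ?_).mul (by fun_prop)
    exact_mod_cast (hα0.trans_le hy.1).ne'
  have h1 : gsm α β ω t - (if α < t ∧ t ≤ β then ee (ω * t) / t else 0) =
      (K : ℂ) * ∫ y, (f y - c * (ee (ω * y) * (Real.exp (-(t - y) ^ 2) : ℝ))) := by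
    rw [MeasureTheory.integral_sub hf ((ieqa_integrable ω t).const_mul c),
      MeasureTheory.integral_const_mul, mul_sub, mul_left_comm, hK, ieqa_fourier,
      MeasureTheory.integral_indicator measurableSet_Ioc, gsm,
      intervalIntegral.integral_of_le hαβ]
    congr 1
    simp only [c]
    split_ifs
    · ring
    · simp
  obtain ⟨ia, ea⟩ := ieqa_gauss 1 α one_pos
  obtain ⟨ib, eb⟩ := ieqa_gauss 1 β one_pos
  obtain ⟨it, et⟩ := ieqa_gauss (1 / 2) t (by norm_num)
  set A := Real.exp (-(t - α) ^ 2) with hA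
  set B := Real.exp (-(t - β) ^ 2) with hB
  have hA0 : 0 < A := Real.exp_pos _
  have hB0 : 0 < B := Real.exp_pos _
  have h2 : ∀ y, ‖f y - c * (ee (ω * y) * (Real.exp (-(t - y) ^ 2) : ℝ))‖ ≤
      A / α * Real.exp (-1 * (y - α) ^ 2) + B / α * Real.exp (-1 * (y - β) ^ 2) +
        3 * c' * Real.exp (-(1 / 2) * (y - t) ^ 2) := fun y => by
    have p1 : 0 ≤ A / α * Real.exp (-1 * (y - α) ^ 2) := by positivity
    have p2 : 0 ≤ B / α * Real.exp (-1 * (y - β) ^ 2) := by positivity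
    have p3 : 0 ≤ 3 * c' * Real.exp (-(1 / 2) * (y - t) ^ 2) := by positivity
    have hE := Real.exp_pos (-(t - y) ^ 2)
    have key : ∀ z : ℝ, α ≤ z → ((y - α) * (t - α) ≤ 0 ∨ (y - β) * (t - β) ≤ 0) →
        1 / z * Real.exp (-(t - y) ^ 2) ≤
          A / α * Real.exp (-1 * (y - α) ^ 2) + B / α * Real.exp (-1 * (y - β) ^ 2) +
            3 * c' * Real.exp (-(1 / 2) * (y - t) ^ 2) := fun z hz h => by
      have h3 : 1 / z ≤ 1 / α := one_div_le_one_div_of_le hα0 hz
      have h4 := mul_le_mul_of_nonneg_right h3 hE.le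
      rcases h with h | h
      · have h5 := mul_le_mul_of_nonneg_left (ieqa_between h) (one_div_pos.2 hα0).le
        have h6 : 1 / α * (A * Real.exp (-1 * (y - α) ^ 2)) =
          A / α * Real.exp (-1 * (y - α) ^ 2) := by ring
        linarith
      · have h5 := mul_le_mul_of_nonneg_left (ieqa_between h) (one_div_pos.2 hα0).le
        have h6 : 1 / α * (B * Real.exp (-1 * (y - β) ^ 2)) =
          B / α * Real.exp (-1 * (y - β) ^ 2) := by ring
        linarith
    have hn : ∀ r : ℝ, ‖((r : ℝ) : ℂ) * (ee (ω * y) * (Real.exp (-(t - y) ^ 2) : ℝ))‖ =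
        |r| * Real.exp (-(t - y) ^ 2) := fun r => by
      rw [norm_mul, norm_mul, ieqa_norm_ee, one_mul, Complex.norm_real, Complex.norm_real,
        Real.norm_eq_abs, Real.norm_eq_abs, abs_of_pos hE]
    by_cases hy : y ∈ Set.Ioc α β <;> by_cases ht : α < t ∧ t ≤ β
    · have e : f y - c * (ee (ω * y) * (Real.exp (-(t - y) ^ 2) : ℝ)) =
          ((1 / y - 1 / t : ℝ) : ℂ) * (ee (ω * y) * (Real.exp (-(t - y) ^ 2) : ℝ)) := by
        simp only [f, c, Set.indicator_of_mem hy, if_pos ht]; push_cast; ring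
      have h3 := ieqa_near (t := t) (y := y) (by linarith [ht.1]) (by linarith [hy.1])
      have e2 : 3 * c' = 3 / t ^ 2 := by simp only [c', if_pos ht]; ring
      rw [e, hn, e2]
      rw [e2] at p3
      linarith
    · have e : f y - c * (ee (ω * y) * (Real.exp (-(t - y) ^ 2) : ℝ)) =
          ((1 / y : ℝ) : ℂ) * (ee (ω * y) * (Real.exp (-(t - y) ^ 2) : ℝ)) := by
        simp only [f, c, Set.indicator_of_mem hy, if_neg ht]; push_cast; ring
      rw [e, hn, abs_of_pos (one_div_pos.2 (hα0.trans hy.1))]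
      refine key y hy.1.le ?_
      rcases not_and_or.1 ht with h | h
      · exact Or.inl (mul_nonpos_of_nonneg_of_nonpos (by linarith [hy.1]) (by linarith))
      · exact Or.inr (mul_nonpos_of_nonpos_of_nonneg (by linarith [hy.2]) (by linarith))
    · have e : f y - c * (ee (ω * y) * (Real.exp (-(t - y) ^ 2) : ℝ)) =
          ((-(1 / t) : ℝ) : ℂ) * (ee (ω * y) * (Real.exp (-(t - y) ^ 2) : ℝ)) := by
        simp only [f, c, Set.indicator_of_notMem hy, if_pos ht]; push_cast; ring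
      rw [e, hn, abs_neg, abs_of_pos (one_div_pos.2 (hα0.trans ht.1))]
      refine key t ht.1.le ?_
      rcases not_and_or.1 hy with h | h
      · exact Or.inl (mul_nonpos_of_nonpos_of_nonneg (by linarith) (by linarith [ht.1]))
      · exact Or.inr (mul_nonpos_of_nonneg_of_nonpos (by linarith) (by linarith [ht.2]))
    · simp only [f, c, Set.indicator_of_notMem hy, if_neg ht, zero_mul, sub_zero, norm_zero]
      linarith
  have h3 := MeasureTheory.norm_integral_le_of_norm_le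
    (((ia.const_mul (A / α)).add (ib.const_mul (B / α))).add (it.const_mul (3 * c')))
    (Eventually.of_forall h2)
  simp only [Pi.add_apply] at h3
  rw [MeasureTheory.integral_add
      (f := fun y => A / α * Real.exp (-1 * (y - α) ^ 2) + B / α * Real.exp (-1 * (y - β) ^ 2))
      ((ia.const_mul (A / α)).add (ib.const_mul (B / α))) (it.const_mul (3 * c')),
    MeasureTheory.integral_add (ia.const_mul (A / α)) (ib.const_mul (B / α)),
    MeasureTheory.integral_const_mul, MeasureTheory.integral_const_mul,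
    MeasureTheory.integral_const_mul, ea, eb, et] at h3
  have s1 : √(Real.pi / 1) ≤ 3 := Real.sqrt_le_iff.2 ⟨by norm_num, by linarith [Real.pi_le_four]⟩
  have s2 : √(Real.pi / (1 / 2)) ≤ 3 :=
    Real.sqrt_le_iff.2 ⟨by norm_num, by linarith [Real.pi_le_four]⟩
  have h4 : A / α * √(Real.pi / 1) + B / α * √(Real.pi / 1) + 3 * c' * √(Real.pi / (1 / 2)) ≤
      A / α * 3 + B / α * 3 + 3 * c' * 3 := by gcongr
  rw [h1, norm_mul, Complex.norm_real, Real.norm_eq_abs, abs_of_nonneg hK0]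
  refine (mul_le_mul hK3 (h3.trans h4) (norm_nonneg _) (by norm_num)).trans ?_
  have p1 : 0 ≤ A / α := by positivity
  have p2 : 0 ≤ B / α := by positivity
  rw [add_div]
  change _ ≤ 30 * (A / α + B / α + c')
  linarith

theorem ieqa_fib : ∃ C : ℝ, 0 < C ∧ ∀ {ι : Type} (fl : ℕ → ι) (y g : ι → ℝ) (G : ℝ) (S : Finset ℕ)
    (w : ℕ → ℝ), (∀ j, 0 ≤ g j) → (∀ T : Finset ι, ∑ j ∈ T, g j ≤ G) →
    (∀ p ∈ S, p.Prime ∧ y (fl p) ≤ Real.log p ∧ Real.log p ≤ y (fl p) + 1 ∧ w p ≤ g (fl p)) →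
    ∑ p ∈ S, Real.log p / p * w p ≤ C * G := by
  obtain ⟨C, hC, h⟩ := R008.vonMangoldt_window
  refine ⟨C, hC, fun fl y g G S w hg hG hS => ?_⟩
  rw [← Finset.sum_fiberwise_of_maps_to (t := S.image fl) (g := fl)
    fun p hp => Finset.mem_image_of_mem _ hp]
  refine le_trans (Finset.sum_le_sum fun j _ => ?_)
    ((Finset.mul_sum _ _ _).symm.trans_le (mul_le_mul_of_nonneg_left (hG (S.image fl)) hC.le))
  have h1 := h (Real.exp (y j)) (Real.exp_pos _) (S.filter fun p => fl p = j) fun p hp => by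
    obtain ⟨hp1, hp2⟩ := Finset.mem_filter.1 hp
    obtain ⟨h2, h3, h4, -⟩ := hS p hp1
    have h0 : (0 : ℝ) < p := by exact_mod_cast h2.pos
    rw [hp2] at h3 h4
    refine ⟨(Real.le_log_iff_exp_le h0).1 h3, ((Real.log_le_iff_le_exp h0).1 h4).trans ?_⟩
    rw [Real.exp_add, mul_comm]
    exact mul_le_mul_of_nonneg_right (by linarith [Real.exp_one_lt_d9]) (Real.exp_pos _).le
  refine le_trans (Finset.sum_le_sum fun p hp => ?_)
    ((Finset.sum_mul _ _ _).symm.trans_le (mul_le_mul_of_nonneg_right h1 (hg j)))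
  obtain ⟨hp1, hp2⟩ := Finset.mem_filter.1 hp
  obtain ⟨h2, -, -, h4⟩ := hS p hp1
  rw [ArithmeticFunction.vonMangoldt_apply_prime h2, ← hp2]
  exact mul_le_mul_of_nonneg_left h4 (div_nonneg (Real.log_natCast_nonneg _) (Nat.cast_nonneg _))

/-- Chebyshev on the windows `j ≤ log p < j + 1`. -/
theorem gauss_primes : ∃ C : ℝ, 0 < C ∧ ∀ x : ℝ,
    Summable (fun p : ℕ => if p.Prime then Real.log p / p * Real.exp (-(Real.log p - x) ^ 2) else 0) ∧
    ∑' p : ℕ, (if p.Prime then Real.log p / p * Real.exp (-(Real.log p - x) ^ 2) else 0) ≤ C := by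
  obtain ⟨C, hC, h⟩ := ieqa_fib
  have hs : Summable fun j : ℤ => Real.exp (2 - |(j : ℝ)|) := by
    have h1 : Summable fun n : ℕ => Real.exp (2 - (n : ℝ)) := by
      simpa only [sub_eq_add_neg, Real.exp_add] using Real.summable_exp_neg_nat.mul_left (Real.exp 2)
    refine Summable.of_nat_of_neg ?_ ?_ <;> simpa using h1
  have hpos : 0 < ∑' j : ℤ, Real.exp (2 - |(j : ℝ)|) :=
    hs.tsum_pos (fun _ => (Real.exp_pos _).le) 0 (Real.exp_pos _)
  refine ⟨C * ∑' j : ℤ, Real.exp (2 - |(j : ℝ)|), by positivity, fun x => ?_⟩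
  have h0 : 0 ≤ fun p : ℕ =>
      if p.Prime then Real.log p / p * Real.exp (-(Real.log p - x) ^ 2) else 0 := fun p => by
    have := Real.log_natCast_nonneg p
    simp only [Pi.zero_apply]
    split_ifs <;> positivity
  have h1 : ∀ S : Finset ℕ, ∑ p ∈ S,
      (if p.Prime then Real.log p / p * Real.exp (-(Real.log p - x) ^ 2) else 0) ≤
        C * ∑' j : ℤ, Real.exp (2 - |(j : ℝ)|) := fun S => by
    rw [← Finset.sum_filter]
    refine h (fun p => ⌊Real.log p - x⌋) (fun j => x + j) (fun j => Real.exp (2 - |(j : ℝ)|)) _ _ _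
      (fun _ => (Real.exp_pos _).le)
      (fun T => hs.sum_le_tsum T fun _ _ => (Real.exp_pos _).le) fun p hp => ?_
    have h2 := Int.floor_le (Real.log p - x)
    have h3 := Int.lt_floor_add_one (Real.log p - x)
    refine ⟨(Finset.mem_filter.1 hp).2, by linarith, by linarith, Real.exp_le_exp.2 ?_⟩
    have h4 : |((⌊Real.log p - x⌋ : ℤ) : ℝ)| ≤ |Real.log p - x| + 1 := by
      rw [abs_le]
      constructor <;> linarith [le_abs_self (Real.log p - x), neg_abs_le (Real.log p - x)]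
    nlinarith [sq_abs (Real.log p - x), sq_nonneg (|Real.log p - x| - 1)]
  exact ⟨summable_of_sum_le h0 h1, Real.tsum_le_of_sum_le h0 h1⟩

/-- Chebyshev on the windows `α + j < log p ≤ α + j + 1`. -/
theorem primes_log_tail : ∃ C : ℝ, 0 < C ∧ ∀ α β : ℝ, 1 ≤ α →
    ∑ p ∈ lp α β, 1 / (p * Real.log p) ≤ C / α := by
  obtain ⟨C, hC, h⟩ := ieqa_fib
  refine ⟨C * 2, by positivity, fun α β hα => ?_⟩
  have hα0 : 0 < α := by linarith
  have h1 : ∀ N : ℕ, ∑ j ∈ range N, 1 / (α + j) ^ 2 ≤ 2 / α - 2 / (α + N) := fun N => by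
    induction N with
    | zero => simp
    | succ N ih =>
      have hN : (0 : ℝ) ≤ N := Nat.cast_nonneg N
      have h2 : 1 / (α + N) ^ 2 ≤ 2 / (α + N) - 2 / (α + (N + 1 : ℕ)) := by
        push_cast
        rw [div_sub_div _ _ (by positivity) (by positivity),
          div_le_div_iff₀ (by positivity) (by positivity)]
        nlinarith
      rw [Finset.sum_range_succ]; linarith
  have h2 := h (fun p => ⌊Real.log p - α⌋₊) (fun j => α + j) (fun j => 1 / (α + j) ^ 2) (2 / α)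
    (lp α β) (fun p => 1 / Real.log p ^ 2) (fun j => by positivity)
    (fun T => by
      refine le_trans (Finset.sum_le_sum_of_subset_of_nonneg (t := range (T.sup id + 1))
        (fun j hj => Finset.mem_range.2 (Nat.lt_succ_of_le (Finset.le_sup (f := id) hj)))
        fun j _ _ => by positivity) ((h1 _).trans ?_)
      exact sub_le_self _ (by positivity))
    (fun p hp => by
      obtain ⟨h2, h3, -⟩ := mem_lp.1 hp
      have h4 := Nat.floor_le (show 0 ≤ Real.log p - α by linarith)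
      have h5 := Nat.lt_floor_add_one (Real.log p - α)
      refine ⟨h2, by linarith, by linarith, ?_⟩
      exact one_div_le_one_div_of_le (by positivity) (pow_le_pow_left₀ (by positivity) (by linarith) 2))
  rw [mul_div_assoc]
  refine le_trans (le_of_eq (Finset.sum_congr rfl fun p hp => ?_)) h2
  obtain ⟨h2, h3, -⟩ := mem_lp.1 hp
  have h4 : Real.log p ≠ 0 := by linarith
  have h5 : (p : ℝ) ≠ 0 := by exact_mod_cast h2.ne_zero
  field_simp

/-- Integration by parts. -/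
theorem osc_integral (α β ω : ℝ) (hα : 0 < α) (h : α ≤ β) (hω : ω ≠ 0) :
    ‖∫ y in α..β, ee (ω * y) / y‖ ≤ 1 / (|ω| * α) := by
  set c : ℂ := 2 * Real.pi * Complex.I * ω with hc
  have hcn : ‖c‖ = 2 * Real.pi * |ω| := by
    simp [hc, abs_of_pos Real.pi_pos]
  have hω' : 0 < |ω| := abs_pos.2 hω
  have hc0 : c ≠ 0 := by
    rw [← norm_pos_iff, hcn]; positivity
  have hpos : ∀ y ∈ Set.uIcc α β, 0 < y := fun y hy => by
    rw [Set.uIcc_of_le h] at hy; exact hα.trans_le hy.1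
  have hne : ∀ y ∈ Set.uIcc α β, (y : ℂ) ≠ 0 := fun y hy => by exact_mod_cast (hpos y hy).ne'
  have hd : ∀ y ∈ Set.uIcc α β, HasDerivAt (fun y : ℝ => ee (ω * y) / (c * y))
      (ee (ω * y) / y - ee (ω * y) / (c * y ^ 2)) y := fun y hy => by
    have h0 : HasDerivAt (fun y : ℝ => c * (y : ℂ)) c y := by
      simpa using (Complex.ofRealCLM.hasDerivAt (x := y)).const_mul c
    have h1 : HasDerivAt (fun y : ℝ => ee (ω * y)) (ee (ω * y) * c) y := by
      have e : ∀ y : ℝ, ee (ω * y) = Complex.exp (c * y) := fun y => by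
        rw [ee, hc]; congr 1; push_cast; ring
      simp only [e]
      exact h0.cexp
    have h2 := hne y hy
    refine (h1.fun_div h0 (mul_ne_zero hc0 h2)).congr_deriv ?_
    field_simp
  have i1 : IntervalIntegrable (fun y : ℝ => ee (ω * y) / y) MeasureTheory.volume α β :=
    ((ieqa_cont_ee ω).continuousOn.div (by fun_prop) hne).intervalIntegrable
  have i2 : IntervalIntegrable (fun y : ℝ => ee (ω * y) / (c * y ^ 2)) MeasureTheory.volume α β :=
    ((ieqa_cont_ee ω).continuousOn.div (by fun_prop)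
      fun y hy => mul_ne_zero hc0 (pow_ne_zero _ (hne y hy))).intervalIntegrable
  have i3 : IntervalIntegrable (fun y : ℝ => 1 / (‖c‖ * y ^ 2)) MeasureTheory.volume α β :=
    (continuousOn_const.div (by fun_prop)
      fun y hy => mul_ne_zero (norm_ne_zero_iff.2 hc0) (pow_ne_zero _ (hpos y hy).ne')).intervalIntegrable
  have h1 := intervalIntegral.integral_eq_sub_of_hasDerivAt hd (i1.sub i2)
  rw [intervalIntegral.integral_sub i1 i2, sub_eq_iff_eq_add] at h1
  have hcp : 0 < ‖c‖ := norm_pos_iff.2 hc0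
  have h2 : ∫ y in α..β, 1 / (‖c‖ * y ^ 2) = -(1 / (‖c‖ * β)) - -(1 / (‖c‖ * α)) := by
    refine intervalIntegral.integral_eq_sub_of_hasDerivAt (f := fun y => -(1 / (‖c‖ * y)))
      (fun y hy => ?_) i3
    have h3 := (hpos y hy).ne'
    have h4 : HasDerivAt (fun y : ℝ => ‖c‖ * y) ‖c‖ y := by
      simpa using (hasDerivAt_id y).const_mul ‖c‖
    refine ((hasDerivAt_const y (1 : ℝ)).fun_div h4 (mul_ne_zero hcp.ne' h3)).fun_neg.congr_deriv ?_
    field_simp
    ring
  have h3 : ‖∫ y in α..β, ee (ω * y) / (c * y ^ 2)‖ ≤ ∫ y in α..β, 1 / (‖c‖ * y ^ 2) :=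
    intervalIntegral.norm_integral_le_of_norm_le h (Eventually.of_forall fun y _ => by
      rw [norm_div, ieqa_norm_ee, norm_mul, norm_pow, Complex.norm_real, Real.norm_eq_abs,
        sq_abs]) i3
  have h4 : ∀ y : ℝ, 0 < y → ‖ee (ω * y) / (c * y)‖ = 1 / (‖c‖ * y) := fun y hy => by
    rw [norm_div, ieqa_norm_ee, norm_mul, Complex.norm_real, Real.norm_eq_abs, abs_of_pos hy]
  have h5 : 2 * (1 / (‖c‖ * α)) ≤ 1 / (|ω| * α) := by
    rw [hcn, mul_one_div, div_le_div_iff₀ (by positivity) (by positivity)]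
    have := mul_pos hω' hα
    nlinarith [Real.pi_gt_three]
  rw [h1]
  refine (norm_add_le _ _).trans ((add_le_add (norm_sub_le _ _) h3).trans ?_)
  rw [h4 α hα, h4 β (hα.trans_le h), h2]
  linarith

end Crest.Agent.R014

end
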